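/-
Result 041.  Hyperkähler SYZ and projective-space bases.

* "The strong hyperkähler SYZ conjecture", Theorem 1.1  (`StrongSYZ` below);
* "Projective-space bases of Lagrangian fibrations", Theorem 1.1  (`ProjectiveSpaceBase` below).

`Statement` is the conjunction of the two.  Everything is stated in the complex-analytic
category, as in the papers: `X` is a compact complex manifold (Mathlib: a charted space over `ℂ^d`
with holomorphic transition maps), possibly non-projective.  Mathlib has no differential forms on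
manifolds, de Rham cohomology, Kähler metrics, holomorphic line bundles, analytic sets or
projective varieties in the classical sense, so all of these are defined here.  `CLAIM.md` says
where each definition comes from.
-/
import Mathlib

open scoped Manifold ContDiff Topology
open MeasureTheory

namespace Claimed.Open.R041

/-! ## 0. The model space -/

/-- The model space `ℂ^d`. -/
abbrev Cn (d : ℕ) : Type := EuclideanSpace ℂ (Fin d)

/-! ## 1. Differential forms on a manifold modelled on `ℂ^d`

In Mathlib the tangent space `TangentSpace I x` of a manifold modelled on `E` *is*, by definition,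
the vector space `E`; the identification is the one given by the preferred chart `chartAt E x`.
A `k`-form is therefore a function `x ↦ η x`, with `η x` an alternating `k`-linear form on `E`.
Regularity and the exterior derivative are read off in charts: `η.inChart e` is the pull-back
`(e⁻¹)^* η`, a form on the open subset `e.target` of `E`.

`𝕜 = ℝ`: ordinary (real- or complex-valued) differential forms on the underlying real manifold.
`𝕜 = ℂ`, `F = ℂ`: sections of `Ω^k_X = ⋀^k T^*X`, i.e. forms of type `(k,0)`. -/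

section Forms

variable (𝕜 : Type) [NontriviallyNormedField 𝕜] (d : ℕ) [NormedSpace 𝕜 (Cn d)]
  (X : Type) [TopologicalSpace X] [ChartedSpace (Cn d) X]
  (F : Type) [NormedAddCommGroup F] [NormedSpace 𝕜 F] (k : ℕ)

/-- `F`-valued, `𝕜`-multilinear differential `k`-forms on `X` (no regularity assumed). -/
abbrev Form : Type := X → (Cn d) [⋀^Fin k]→L[𝕜] F

variable {𝕜 d X F k}

/-- The expression `(e⁻¹)^* η` of the form `η` in the chart `e`; meaningful on `e.target`. -/
noncomputable def Form.inChart (η : Form 𝕜 d X F k) (e : OpenPartialHomeomorph X (Cn d)) :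
    Cn d → (Cn d) [⋀^Fin k]→L[𝕜] F :=
  fun y => (η (e.symm y)).compContinuousLinearMap (mfderiv 𝓘(𝕜, Cn d) 𝓘(𝕜, Cn d) e.symm y)

/-- The differential at `x` of a map `g` from `X` to a normed space `V`, as a continuous linear map
`T_x X = ℂ^d → V` (Mathlib's `mfderiv`). -/
noncomputable def diffAt (𝕜 : Type) [NontriviallyNormedField 𝕜] {d : ℕ} [NormedSpace 𝕜 (Cn d)]
    {X : Type} [TopologicalSpace X] [ChartedSpace (Cn d) X]
    {V : Type} [NormedAddCommGroup V] [NormedSpace 𝕜 V] (g : X → V) (x : X) : Cn d →L[𝕜] V :=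
  mfderiv 𝓘(𝕜, Cn d) 𝓘(𝕜, V) g x

/-- `g` is holomorphic on the open set `U ⊆ X`, with values in the complex normed space `V`:
complex-analytic in the charts (`ContMDiffOn` of class `ω` over `ℂ`, the regularity class of the
transition maps of `X`).  By the theorems of Goursat and Osgood this is the same as being complex
differentiable on `U`. -/
def HolomorphicOn (d : ℕ) {X : Type} [TopologicalSpace X] [ChartedSpace (Cn d) X]
    {V : Type} [NormedAddCommGroup V] [NormedSpace ℂ V] (g : X → V) (U : Set X) : Prop :=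
  ContMDiffOn 𝓘(ℂ, Cn d) 𝓘(ℂ, V) ω g U

/-- `η` is `C^∞` over `𝕜`: it is so in every chart of the atlas.
For `𝕜 = ℝ` this is smoothness, for `𝕜 = ℂ` it is holomorphy. -/
def Form.IsSmooth (η : Form 𝕜 d X F k) : Prop :=
  ∀ e ∈ atlas (Cn d) X, ContDiffOn 𝕜 ∞ (η.inChart e) e.target

/-- The exterior derivative `dη`, computed at `x` in the preferred chart at `x`
(with Mathlib's `extDeriv` on the model space). -/
noncomputable def Form.extd (η : Form 𝕜 d X F k) : Form 𝕜 d X F (k + 1) :=
  fun x => extDeriv (η.inChart (chartAt (Cn d) x)) (chartAt (Cn d) x x)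

end Forms

/-! ## 2. Exterior algebra: wedge products of complex-valued real-multilinear forms -/

section Wedge

variable {E : Type} [NormedAddCommGroup E] [NormedSpace ℝ E] {k l : ℕ}

/-- `(a ⊗ b)(v₁,…,v_{k+l}) = a(v₁,…,v_k) · b(v_{k+1},…,v_{k+l})`. -/
noncomputable def tensorMul (a : E [⋀^Fin k]→L[ℝ] ℂ) (b : E [⋀^Fin l]→L[ℝ] ℂ) :
    ContinuousMultilinearMap ℝ (fun _ : Fin (k + l) => E) ℂ :=
  (ContinuousMultilinearMap.uncurrySum
    (((ContinuousLinearMap.id ℝ ℂ).smulRight
      b.toContinuousMultilinearMap).compContinuousMultilinearMap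
        a.toContinuousMultilinearMap)).domDomCongr finSumFinEquiv

/-- The wedge product
`(a ∧ b)(v) = 1/(k! l!) ∑_π sign(π) a(v_{π 1},…,v_{π k}) b(v_{π (k+1)},…,v_{π (k+l)})`. -/
noncomputable def wedge (a : E [⋀^Fin k]→L[ℝ] ℂ) (b : E [⋀^Fin l]→L[ℝ] ℂ) :
    E [⋀^Fin (k + l)]→L[ℝ] ℂ :=
  ((k.factorial * l.factorial : ℝ)⁻¹) • ContinuousMultilinearMap.alternatization (tensorMul a b)

/-- The wedge product `a₀ ∧ a₁ ∧ ⋯ ∧ a_{m-1}` of a family of `2`-forms. -/
noncomputable def wedgeFam : (m : ℕ) → (Fin m → E [⋀^Fin 2]→L[ℝ] ℂ) → E [⋀^Fin (2 * m)]→L[ℝ] ℂ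
  | 0, _ => ContinuousAlternatingMap.constOfIsEmpty ℝ E (Fin 0) (1 : ℂ)
  | m + 1, a => wedge (wedgeFam m fun j => a j.castSucc) (a (Fin.last m))

end Wedge

/-! ## 3. Integration of top-degree forms over a complex manifold -/

section Integration

variable {d : ℕ} {X : Type} [TopologicalSpace X] [ChartedSpace (Cn d) X]

/-- The standard positively oriented real basis `(e₀, i e₀, e₁, i e₁, …)` of `ℂ^d`.  It is
orthonormal, so the Lebesgue measure `volume` of `ℂ^d` gives its unit cube measure one. -/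
noncomputable def realFrame (d : ℕ) (j : Fin (2 * d)) : Cn d :=
  (if j.val % 2 = 0 then (1 : ℂ) else Complex.I) •
    EuclideanSpace.single (⟨j.val / 2, by omega⟩ : Fin d) (1 : ℂ)

/-- The Borel measure `η⁺` on `X` attached to a real form `η` of top degree `2d`: on the domain of
a (holomorphic, hence orientation preserving) chart `e`, where `(e⁻¹)^* η = g · dx₀∧dy₀∧⋯`, it is
the image under `e⁻¹` of `max(g,0) · Lebesgue`.  These measures agree on overlaps (change of
variables), and their least upper bound in the lattice of measures is the measure they glue to. -/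
noncomputable def Form.posMeasure (η : Form ℝ d X ℝ (2 * d)) : @Measure X (borel X) :=
  letI : MeasurableSpace X := borel X
  ⨆ e ∈ atlas (Cn d) X, Measure.map e.symm
    ((volume.restrict e.target).withDensity fun y => ENNReal.ofReal (η.inChart e y (realFrame d)))

/-- `∫_X η = ∫_X η⁺ - ∫_X η⁻` for a real form of top degree. -/
noncomputable def integralReal (η : Form ℝ d X ℝ (2 * d)) : ℝ :=
  (η.posMeasure Set.univ).toReal - ((-η).posMeasure Set.univ).toReal

/-- `∫_X η` for a complex-valued form of top degree. -/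
noncomputable def integral (η : Form ℝ d X ℂ (2 * d)) : ℂ :=
  (integralReal fun x => Complex.reCLM.compContinuousAlternatingMap (η x) : ℝ) +
    Complex.I * (integralReal fun x => Complex.imCLM.compContinuousAlternatingMap (η x) : ℝ)

end Integration

/-! ## 4. De Rham cohomology `H²(X,ℝ)` -/

section DeRham

variable (d : ℕ) (X : Type) [TopologicalSpace X] [ChartedSpace (Cn d) X] (k : ℕ)

theorem Form.inChart_add {d : ℕ} {X : Type} [TopologicalSpace X] [ChartedSpace (Cn d) X] {k : ℕ}
    (η ζ : Form ℝ d X ℝ k) (e : OpenPartialHomeomorph X (Cn d)) :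
    (η + ζ).inChart e = η.inChart e + ζ.inChart e := by
  rfl

theorem Form.inChart_smul {d : ℕ} {X : Type} [TopologicalSpace X] [ChartedSpace (Cn d) X] {k : ℕ}
    (c : ℝ) (η : Form ℝ d X ℝ k) (e : OpenPartialHomeomorph X (Cn d)) :
    (c • η).inChart e = c • η.inChart e := by
  rfl

/-- The real vector space of smooth real `k`-forms. -/
def smoothForms : Submodule ℝ (Form ℝ d X ℝ k) where
  carrier := {η | η.IsSmooth}
  zero_mem' := by
    intro e _
    have : (0 : Form ℝ d X ℝ k).inChart e = 0 := rfl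
    rw [this]; exact contDiffOn_const
  add_mem' := by
    intro η ζ hη hζ e he
    rw [Form.inChart_add]; exact (hη e he).add (hζ e he)
  smul_mem' := by
    intro c η hη e he
    rw [Form.inChart_smul]; exact (hη e he).const_smul c

/-- The real vector space `Z^k(X)` of smooth closed real `k`-forms. -/
def closedForms : Submodule ℝ (Form ℝ d X ℝ k) where
  carrier := {η | η.IsSmooth ∧ η.extd = 0}
  zero_mem' := by
    refine ⟨(smoothForms d X k).zero_mem, ?_⟩
    funext x
    have : (0 : Form ℝ d X ℝ k).inChart (chartAt (Cn d) x) = 0 := rfl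
    simp only [Form.extd, this]
    ext v
    simp [extDeriv, ContinuousAlternatingMap.alternatizeUncurryFin_apply]
  add_mem' := by
    rintro η ζ ⟨hη, hη'⟩ ⟨hζ, hζ'⟩
    refine ⟨(smoothForms d X k).add_mem hη hζ, ?_⟩
    funext x
    have h1 : DifferentiableAt ℝ (η.inChart (chartAt (Cn d) x)) (chartAt (Cn d) x x) :=
      ((hη _ (chart_mem_atlas _ x)).contDiffAt ((chartAt (Cn d) x).open_target.mem_nhds
        (mem_chart_target _ x))).differentiableAt (by simp)
    have h2 : DifferentiableAt ℝ (ζ.inChart (chartAt (Cn d) x)) (chartAt (Cn d) x x) :=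
      ((hζ _ (chart_mem_atlas _ x)).contDiffAt ((chartAt (Cn d) x).open_target.mem_nhds
        (mem_chart_target _ x))).differentiableAt (by simp)
    have e1 := congrFun hη' x
    have e2 := congrFun hζ' x
    simp only [Form.extd] at e1 e2 ⊢
    rw [Form.inChart_add, extDeriv_add h1 h2, e1, e2]
    simp
  smul_mem' := by
    rintro c η ⟨hη, hη'⟩
    refine ⟨(smoothForms d X k).smul_mem c hη, ?_⟩
    funext x
    have e1 := congrFun hη' x
    simp only [Form.extd] at e1 ⊢
    rw [Form.inChart_smul, extDeriv_smul, e1]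
    simp

/-- The real vector space `B^{k+1}(X) = d(smooth k-forms)` of exact forms. -/
def exactForms : Submodule ℝ (Form ℝ d X ℝ (k + 1)) where
  carrier := {η | ∃ ζ : Form ℝ d X ℝ k, ζ.IsSmooth ∧ ζ.extd = η}
  zero_mem' := ⟨0, (closedForms d X k).zero_mem.1, (closedForms d X k).zero_mem.2⟩
  add_mem' := by
    rintro _ _ ⟨η, hη, rfl⟩ ⟨ζ, hζ, rfl⟩
    refine ⟨η + ζ, (smoothForms d X k).add_mem hη hζ, ?_⟩
    funext x
    have h1 : DifferentiableAt ℝ (η.inChart (chartAt (Cn d) x)) (chartAt (Cn d) x x) :=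
      ((hη _ (chart_mem_atlas _ x)).contDiffAt ((chartAt (Cn d) x).open_target.mem_nhds
        (mem_chart_target _ x))).differentiableAt (by simp)
    have h2 : DifferentiableAt ℝ (ζ.inChart (chartAt (Cn d) x)) (chartAt (Cn d) x x) :=
      ((hζ _ (chart_mem_atlas _ x)).contDiffAt ((chartAt (Cn d) x).open_target.mem_nhds
        (mem_chart_target _ x))).differentiableAt (by simp)
    simp only [Form.extd, Pi.add_apply]
    rw [Form.inChart_add, extDeriv_add h1 h2]
  smul_mem' := by
    rintro c _ ⟨η, hη, rfl⟩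
    refine ⟨c • η, (smoothForms d X k).smul_mem c hη, ?_⟩
    funext x
    simp only [Form.extd, Pi.smul_apply]
    rw [Form.inChart_smul, extDeriv_smul]

/-- De Rham cohomology `H²(X,ℝ) = Z²(X) / (B²(X) ∩ Z²(X))`. -/
abbrev H2 : Type := closedForms d X 2 ⧸ (exactForms d X 1).submoduleOf (closedForms d X 2)

/-- The de Rham class `[η] ∈ H²(X,ℝ)` of a closed `2`-form. -/
noncomputable def H2.mk {d : ℕ} {X : Type} [TopologicalSpace X] [ChartedSpace (Cn d) X]
    (η : closedForms d X 2) : H2 d X :=
  Submodule.Quotient.mk η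

end DeRham

/-! ## 5. Kähler forms, the Kähler cone and its closure -/

section Kahler

variable (d : ℕ) (X : Type) [TopologicalSpace X] [ChartedSpace (Cn d) X]

variable {d X} in
/-- `κ` is a Kähler form: a smooth closed real `2`-form, invariant under the complex structure
`J = i·` (i.e. of type `(1,1)`) and positive: `κ(v, Jv) > 0` for `v ≠ 0`.
(`g(u,v) = κ(u,Jv)` is then the Kähler metric.) -/
structure IsKahlerForm (κ : Form ℝ d X ℝ 2) : Prop where
  smooth : κ.IsSmooth
  closed : κ.extd = 0
  invariant : ∀ (x : X) (u v : Cn d), κ x ![Complex.I • u, Complex.I • v] = κ x ![u, v]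
  positive : ∀ (x : X) (v : Cn d), v ≠ 0 → 0 < κ x ![v, Complex.I • v]

/-- The Kähler cone `𝒦_X ⊆ H^{1,1}(X,ℝ) ⊆ H²(X,ℝ)`: the set of classes of Kähler forms. -/
def kahlerCone : Set (H2 d X) :=
  {c | ∃ κ : closedForms d X 2, IsKahlerForm κ.1 ∧ c = H2.mk κ}

/-- The closure `\overline{𝒦_X}` of the Kähler cone in `H²(X,ℝ)`.  For compact `X` the space
`H²(X,ℝ)` is finite dimensional and `moduleTopology ℝ _` is its canonical (Euclidean) topology. -/
def nefCone : Set (H2 d X) :=
  @closure (H2 d X) (moduleTopology ℝ (H2 d X)) (kahlerCone d X)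

end Kahler

/-! ## 6. Irreducible holomorphic symplectic manifolds -/

section IHS

variable {d : ℕ} {X : Type} [TopologicalSpace X] [ChartedSpace (Cn d) X]

/-- `X` (a compact complex manifold; compactness, Hausdorffness and the holomorphic atlas are type
class arguments in the final statements) is an *irreducible holomorphic symplectic Kähler manifold*
with symplectic form `σ`: `X` is simply connected and Kähler, `σ` is a holomorphic `2`-form which is
nondegenerate everywhere, and `H⁰(X, Ω²_X) = ℂ σ`. -/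
structure IsIHS (σ : Form ℂ d X ℂ 2) : Prop where
  simplyConnected : SimplyConnectedSpace X
  kahler : ∃ κ : Form ℝ d X ℝ 2, IsKahlerForm κ
  holomorphic : σ.IsSmooth
  nondegenerate : ∀ (x : X) (v : Cn d), v ≠ 0 → ∃ w : Cn d, σ x ![v, w] ≠ 0
  spans : ∀ τ : Form ℂ d X ℂ 2, τ.IsSmooth → ∃ c : ℂ, τ = c • σ

end IHS

/-! ## 7. The Beauville–Bogomolov–Fujiki form -/

section BBF

variable {n : ℕ} {X : Type} [TopologicalSpace X] [ChartedSpace (Cn (2 * n)) X]

/-- The form `σ^a ∧ σ̄^b ∧ α^{2n-a-b}` of top degree `4n` on a manifold of complex dimension `2n`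
(for `a + b ≤ 2n`). -/
noncomputable def sigmaMonomial (σ : Form ℂ (2 * n) X ℂ 2) (α : Form ℝ (2 * n) X ℝ 2) (a b : ℕ) :
    Form ℝ (2 * n) X ℂ (2 * (2 * n)) :=
  fun x => wedgeFam (2 * n) fun j =>
    if j.val < a then (σ x).restrictScalars ℝ
    else if j.val < a + b then
      (Complex.conjCLE : ℂ →L[ℝ] ℂ).compContinuousAlternatingMap ((σ x).restrictScalars ℝ)
    else Complex.ofRealCLM.compContinuousAlternatingMap (α x)

/-- Beauville's formula for the Beauville–Bogomolov–Fujiki form, on a closed real `2`-form `α`: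
`q(α) = (n/2) ∫(σσ̄)^{n-1} α² + (1-n) (∫ σ^{n-1} σ̄^n α)(∫ σ^n σ̄^{n-1} α)` if `∫ (σσ̄)^n = 1`.
The first summand is multiplied by `∫ (σσ̄)^n` to make the formula homogeneous in `σ`; for an
arbitrary generator `σ` of `H⁰(Ω²)` one gets a positive multiple of the normalised form. -/
noncomputable def bbfForm (σ : Form ℂ (2 * n) X ℂ 2) (α : Form ℝ (2 * n) X ℝ 2) : ℂ :=
  (n / 2 : ℂ) * integral (sigmaMonomial σ α n n) * integral (sigmaMonomial σ α (n - 1) (n - 1)) +
    (1 - n : ℂ) * integral (sigmaMonomial σ α (n - 1) n) * integral (sigmaMonomial σ α n (n - 1))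

/-- The Beauville–Bogomolov–Fujiki quadratic form `q_X` on `H²(X,ℝ)` (up to a positive factor),
evaluated on a representative; by Stokes' theorem the value does not depend on it. -/
noncomputable def bbf (σ : Form ℂ (2 * n) X ℂ 2) (c : H2 (2 * n) X) : ℂ :=
  bbfForm σ (Quotient.out c : closedForms (2 * n) X 2).1

end BBF

/-! ## 8. Holomorphic line bundles, Hermitian metrics, the first Chern class, sections -/

section LineBundles

variable (d : ℕ) (X : Type) [TopologicalSpace X] [ChartedSpace (Cn d) X]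

/-- A holomorphic line bundle on `X`, given by a trivialising open cover `(U i)` and a cocycle of
nowhere vanishing holomorphic transition functions `g i j ∈ 𝒪^*(U i ∩ U j)`.
Convention: a vector with coordinate `s_j` in the `j`-th trivialisation has coordinate
`s_i = g i j · s_j` in the `i`-th one. -/
structure HolLineBundle where
  ι : Type
  U : ι → Set X
  isOpen_U : ∀ i, IsOpen (U i)
  cover : ∀ x, ∃ i, x ∈ U i
  g : ι → ι → X → ℂ
  holomorphic : ∀ i j, HolomorphicOn d (g i j) (U i ∩ U j)
  ne_zero : ∀ i j, ∀ x ∈ U i ∩ U j, g i j x ≠ 0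
  cocycle : ∀ i j k, ∀ x ∈ U i ∩ U j ∩ U k, g i j x * g j k x = g i k x

variable {d X}

/-- `s = (s i)` is a holomorphic section of `L^{⊗ m}` over the open set `W`. -/
structure HolLineBundle.IsSection (L : HolLineBundle d X) (m : ℕ) (W : Set X)
    (s : L.ι → X → ℂ) : Prop where
  holomorphic : ∀ i, HolomorphicOn d (s i) (L.U i ∩ W)
  compatible : ∀ i j, ∀ x ∈ L.U i ∩ L.U j ∩ W, s i x = L.g i j x ^ m * s j x

/-- `L` is semiample: some positive tensor power is generated by its global holomorphic
sections. -/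
def HolLineBundle.IsSemiample (L : HolLineBundle d X) : Prop :=
  ∃ m : ℕ, 0 < m ∧ ∀ x : X, ∃ s : L.ι → X → ℂ, L.IsSection m Set.univ s ∧ ∀ i, x ∈ L.U i → s i x ≠ 0

/-- A smooth Hermitian metric on `L`: `h i` is the squared norm of the `i`-th local frame. -/
structure HolLineBundle.HermitianMetric (L : HolLineBundle d X) where
  h : L.ι → X → ℝ
  pos : ∀ i, ∀ x ∈ L.U i, 0 < h i x
  smooth : ∀ i, ContMDiffOn 𝓘(ℝ, Cn d) 𝓘(ℝ, ℝ) ∞ (h i) (L.U i)
  compatible : ∀ i j, ∀ x ∈ L.U i ∩ L.U j, h j x = ‖L.g i j x‖ ^ 2 * h i x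

/-- Multiplication by `i` on `ℂ^d`, as a real linear map: the complex structure `J`. -/
noncomputable def mulI (d : ℕ) : Cn d →L[ℝ] Cn d :=
  (Complex.I • ContinuousLinearMap.id ℂ (Cn d)).restrictScalars ℝ

/-- `d^c φ = i(∂̄ - ∂)φ = - dφ ∘ J`. -/
noncomputable def dc (φ : X → ℝ) : Form ℝ d X ℝ 1 := fun x =>
  ContinuousAlternatingMap.ofSubsingleton ℝ (Cn d) ℝ (0 : Fin 1)
    (-((diffAt ℝ φ x).comp (mulI d)))

/-- `i∂∂̄ φ = ½ d d^c φ`. -/
noncomputable def ddbar (φ : X → ℝ) : Form ℝ d X ℝ 2 := (1 / 2 : ℝ) • (dc φ).extd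

/-- `Θ` is the Chern form `(i/2π) · curvature = -(i/2π) ∂∂̄ log h_i` of the Hermitian metric `h`. -/
def HolLineBundle.HermitianMetric.IsChernForm {L : HolLineBundle d X} (h : L.HermitianMetric)
    (Θ : Form ℝ d X ℝ 2) : Prop :=
  ∀ i, ∀ x ∈ L.U i, Θ x = (-(1 / (2 * Real.pi)) : ℝ) • ddbar (fun y => Real.log (h.h i y)) x

/-- `c = c₁(L) ∈ H²(X,ℝ)`: the de Rham class of the Chern form of a Hermitian metric on `L`
(Chern–Weil; such metrics exist and the class does not depend on the metric). -/
def HolLineBundle.IsFirstChernClass (L : HolLineBundle d X) (c : H2 d X) : Prop :=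
  ∃ (h : L.HermitianMetric) (Θ : closedForms d X 2), h.IsChernForm Θ.1 ∧ c = H2.mk Θ

end LineBundles

/-! ## 9. Analytic subsets: irreducible components, dimension, smooth locus -/

section Analytic

variable (d : ℕ) {X : Type} [TopologicalSpace X] [ChartedSpace (Cn d) X]

/-- `Z` is a (closed) analytic subset of `X`: every point of `X` has an open neighbourhood in which
`Z` is the common zero set of finitely many holomorphic functions. -/
def IsAnalyticSubset (Z : Set X) : Prop :=
  ∀ x : X, ∃ U : Set X, IsOpen U ∧ x ∈ U ∧ ∃ (r : ℕ) (g : Fin r → X → ℂ),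
    (∀ i, HolomorphicOn d (g i) U) ∧ Z ∩ U = {y ∈ U | ∀ i, g i y = 0}

/-- `Z` is an irreducible analytic subset. -/
def IsIrreducibleAnalytic (Z : Set X) : Prop :=
  IsAnalyticSubset d Z ∧ Z.Nonempty ∧
    ∀ Z₁ Z₂ : Set X, IsAnalyticSubset d Z₁ → IsAnalyticSubset d Z₂ → Z = Z₁ ∪ Z₂ → Z = Z₁ ∨ Z = Z₂

/-- `Z` is an irreducible component of `W`: a maximal irreducible analytic subset of `W`. -/
def IsIrreducibleComponent (Z W : Set X) : Prop :=
  IsIrreducibleAnalytic d Z ∧ Z ⊆ W ∧
    ∀ Z' : Set X, IsIrreducibleAnalytic d Z' → Z' ⊆ W → Z ⊆ Z' → Z' = Z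

/-- `e` is a holomorphic chart of `X` in which `Z` is the coordinate `k`-plane `ℂ^k × 0` (`k ≤ d`).
The points of `Z ∩ e.source` are then smooth points of `Z`, of dimension `k`; the smooth locus of
`Z` is the union of the sets `Z ∩ e.source` over all such slice charts. -/
def IsSliceChart (Z : Set X) (k : ℕ) (e : OpenPartialHomeomorph X (Cn d)) : Prop :=
  k ≤ d ∧ e ∈ IsManifold.maximalAtlas 𝓘(ℂ, Cn d) ω X ∧
    e '' (Z ∩ e.source) = {y ∈ e.target | ∀ j : Fin d, k ≤ j.val → y j = 0}

/-- The analytic set `Z` has complex dimension `k`: the largest dimension of `Z` at a smooth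
point is `k`. -/
def HasDimension (Z : Set X) (k : ℕ) : Prop :=
  (∃ e, IsSliceChart d Z k e ∧ (Z ∩ e.source).Nonempty) ∧
    ∀ k' e, IsSliceChart d Z k' e → (Z ∩ e.source).Nonempty → k' ≤ k

variable {d} in
/-- The holomorphic `2`-form `σ` vanishes on the smooth locus of `Z`: at a smooth point `x`, with
slice chart `e`, the tangent space `T_x Z` is `(d_x e)⁻¹(ℂ^k × 0)`, and `σ_x(u,v) = 0` for
`u, v ∈ T_x Z`. -/
def VanishesOnSmoothLocus (σ : Form ℂ d X ℂ 2) (Z : Set X) : Prop :=
  ∀ k e, IsSliceChart d Z k e → ∀ x ∈ Z ∩ e.source, ∀ u v : Cn d,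
    (∀ j : Fin d, k ≤ j.val → diffAt ℂ e x u j = 0) →
    (∀ j : Fin d, k ≤ j.val → diffAt ℂ e x v j = 0) →
    σ x ![u, v] = 0

end Analytic

/-! ## 10. Projective space and projective varieties -/

section Projective

/-- Complex projective space `ℙ^N(ℂ)`. -/
abbrev PN (N : ℕ) : Type := Projectivization ℂ (Fin (N + 1) → ℂ)

/-- A projective variety in `ℙ^N`, given by its homogeneous prime ideal. -/
structure ProjVariety (N : ℕ) where
  ideal : Ideal (MvPolynomial (Fin (N + 1)) ℂ)
  isHomogeneous : ∀ P ∈ ideal, ∀ k : ℕ, MvPolynomial.homogeneousComponent k P ∈ ideal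
  isPrime : ideal.IsPrime

variable {N : ℕ}

/-- The set of (closed) points of the variety. -/
def ProjVariety.points (B : ProjVariety N) : Set (PN N) :=
  {p | ∀ P ∈ B.ideal, MvPolynomial.eval p.rep P = 0}

/-- `B` is normal: the coordinate ring `ℂ[x₀,…,x_N]/(I, x_i - 1)` of each nonempty standard affine
chart `B ∩ {x_i ≠ 0}` is integrally closed. -/
def ProjVariety.IsNormal (B : ProjVariety N) : Prop :=
  ∀ i : Fin (N + 1), MvPolynomial.X i ∉ B.ideal →
    IsIntegrallyClosed (MvPolynomial (Fin (N + 1)) ℂ ⧸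
      (B.ideal ⊔ Ideal.span {MvPolynomial.X i - 1}))

/-- `dim B = n`: the homogeneous coordinate ring has Krull dimension `n + 1`. -/
def ProjVariety.HasDim (B : ProjVariety N) (n : ℕ) : Prop :=
  ringKrullDim (MvPolynomial (Fin (N + 1)) ℂ ⧸ B.ideal) = n + 1

/-- `φ` is a regular map on the subset `A ⊆ ℙ^M`, with values in `ℙ^N`: near every point of `A`
it is given by homogeneous polynomials of the same degree without common zero at that point. -/
def IsRegularOn {M N : ℕ} (A : Set (PN M)) (φ : PN M → PN N) : Prop :=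
  ∀ a ∈ A, ∃ (D : ℕ) (P : Fin (N + 1) → MvPolynomial (Fin (M + 1)) ℂ),
    (∀ k, (P k).IsHomogeneous D) ∧ (fun k => MvPolynomial.eval a.rep (P k)) ≠ 0 ∧
    ∀ a' ∈ A, ∀ h : (fun k => MvPolynomial.eval a'.rep (P k)) ≠ 0,
      φ a' = Projectivization.mk ℂ _ h

/-- The (quasi-)projective sets `A ⊆ ℙ^M` and `A' ⊆ ℙ^N` are isomorphic: there are mutually
inverse regular maps between them. -/
def AreIsomorphic {M N : ℕ} (A : Set (PN M)) (A' : Set (PN N)) : Prop :=
  ∃ (φ : PN M → PN N) (ψ : PN N → PN M), IsRegularOn A φ ∧ IsRegularOn A' ψ ∧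
    Set.MapsTo φ A A' ∧ Set.MapsTo ψ A' A ∧ (∀ a ∈ A, ψ (φ a) = a) ∧ (∀ a' ∈ A', φ (ψ a') = a')

end Projective

/-! ## 11. Holomorphic maps to projective space, pull-backs of `𝒪(1)`, projective morphisms -/

section Maps

variable (d : ℕ) {X : Type} [TopologicalSpace X] [ChartedSpace (Cn d) X] {N : ℕ}

/-- `F : U → ℂ^{N+1} ∖ 0` is a holomorphic lift of `f` over the open set `U`: `f = [F₀ : ⋯ : F_N]`. -/
def IsLocalLift (f : X → PN N) (U : Set X) (F : X → Fin (N + 1) → ℂ) : Prop :=
  IsOpen U ∧ HolomorphicOn d F U ∧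
    ∀ y ∈ U, ∃ h : F y ≠ 0, f y = Projectivization.mk ℂ (F y) h

/-- `f : X → ℙ^N` is holomorphic on the open set `W`. -/
def IsHolomorphicOnToPN (f : X → PN N) (W : Set X) : Prop :=
  ∀ x ∈ W, ∃ U F, x ∈ U ∧ IsLocalLift d f U F

/-- `v ∈ T_x X` is in the kernel of the differential of `f : X → ℙ^N` at `x`.  In terms of a lift
`F`, the differential is `v ↦ dF_x(v) mod ℂ·F(x)`, with values in
`T_{f(x)} ℙ^N = ℂ^{N+1} / ℂ·F(x)`. -/
def InKerDifferential (f : X → PN N) (x : X) (v : Cn d) : Prop :=
  ∀ U F, x ∈ U → IsLocalLift d f U F →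
    ∃ c : ℂ, diffAt ℂ F x v = c • F x

variable {d}

/-- `L^{⊗ m}|_W ≃ f^* 𝒪_{ℙ^N}(1)` over the open set `W`.  Such an isomorphism is the same thing as
sections `s_k = f^* x_k` (`0 ≤ k ≤ N`) of `L^{⊗ m}` over `W`, without common zero, such that
`f = [s₀ : ⋯ : s_N]` on `W`. -/
def HolLineBundle.IsPullbackOfO1 (L : HolLineBundle d X) (m : ℕ) (W : Set X) (f : X → PN N) :
    Prop :=
  ∃ s : Fin (N + 1) → L.ι → X → ℂ, (∀ k, L.IsSection m W (s k)) ∧
    ∀ i, ∀ x ∈ L.U i ∩ W, ∃ h : (fun k => s k i x) ≠ 0, f x = Projectivization.mk ℂ _ h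

/-- `M` is relatively ample for `f : X → B ⊆ ℙ^N`: every point of the base has an open
neighbourhood `V` over which some positive power of `M` is relatively very ample, i.e. there is a
closed embedding `(f, g) : f⁻¹(V) → V × ℙ^{N'}` over `V` with `M^{⊗ m} ≃ g^* 𝒪(1)`.
(`f` is a closed surjection onto `B`, so `V ∩ B` is open in `B` iff `f⁻¹(V)` is open in `X`; `f` is
proper, so `(f,g)` is a closed embedding iff it is injective and immersive.) -/
def HolLineBundle.IsRelativelyAmple (M : HolLineBundle d X) (f : X → PN N) : Prop :=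
  ∀ b : PN N, ∃ V : Set (PN N), b ∈ V ∧ IsOpen (f ⁻¹' V) ∧
    ∃ (m N' : ℕ) (g : X → PN N'), 0 < m ∧ M.IsPullbackOfO1 m (f ⁻¹' V) g ∧
      Set.InjOn (fun x => (f x, g x)) (f ⁻¹' V) ∧
      ∀ x ∈ f ⁻¹' V, ∀ v : Cn d, InKerDifferential d f x v → InKerDifferential d g x v → v = 0

/-- All irreducible components of all fibres of `f` have dimension `n`, and `σ` vanishes on their
smooth loci ("every fibre component is Lagrangian"). -/
def HasLagrangianFibres (σ : Form ℂ d X ℂ 2) (f : X → PN N) (n : ℕ) : Prop :=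
  ∀ (b : PN N) (Z : Set X), IsIrreducibleComponent d Z (f ⁻¹' {b}) →
    HasDimension d Z n ∧ VanishesOnSmoothLocus σ Z

end Maps

/-! ## 12. The theorems -/

/-- **The strong hyperkähler SYZ conjecture** ("The strong hyperkähler SYZ conjecture",
Theorem 1.1).  Let `X` be a compact irreducible holomorphic symplectic Kähler manifold of complex
dimension `2n`, `n ≥ 1`.  If a holomorphic line bundle `L` satisfies `c₁(L) ≠ 0`,
`c₁(L) ∈ \overline{𝒦_X}` and `q_X(c₁(L)) = 0`, then `L` is semiample.  More precisely there are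
`m > 0`, a normal projective variety `B ⊆ ℙ^N` of dimension `n` and a surjective holomorphic map
`f : X → B` with connected fibres such that `L^{⊗ m} ≃ f^* 𝒪_B(1)`; every irreducible component of
every fibre has dimension `n`, and `σ` vanishes on its smooth locus. -/
def StrongSYZ : Prop :=
  ∀ (n : ℕ), 1 ≤ n →
  ∀ (X : Type) [TopologicalSpace X] [T2Space X] [CompactSpace X] [ChartedSpace (Cn (2 * n)) X]
    [IsManifold 𝓘(ℂ, Cn (2 * n)) ω X] (σ : Form ℂ (2 * n) X ℂ 2), IsIHS σ →
  ∀ (L : HolLineBundle (2 * n) X) (c : H2 (2 * n) X), L.IsFirstChernClass c →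
    c ≠ 0 → c ∈ nefCone (2 * n) X → bbf σ c = 0 →
    L.IsSemiample ∧
    ∃ (m N : ℕ) (B : ProjVariety N) (f : X → PN N),
      0 < m ∧ B.IsNormal ∧ B.HasDim n ∧
      IsHolomorphicOnToPN (2 * n) f Set.univ ∧ Set.range f = B.points ∧
      (∀ b ∈ B.points, IsConnected (f ⁻¹' {b})) ∧
      L.IsPullbackOfO1 m Set.univ f ∧
      HasLagrangianFibres σ f n

/-- **Projective-space bases** ("Projective-space bases of Lagrangian fibrations", Theorem 1.1).
Let `X` be a compact irreducible holomorphic symplectic Kähler manifold of dimension `2n`, `n ≥ 1`,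
with symplectic form `σ`, and `f : X → B` a projective surjective holomorphic morphism with
connected fibres onto a normal projective variety of dimension `n`, such that every irreducible
component of every fibre has dimension `n` and `σ` vanishes on its smooth locus.
Then `B ≃ ℙ^n_ℂ`. -/
def ProjectiveSpaceBase : Prop :=
  ∀ (n : ℕ), 1 ≤ n →
  ∀ (X : Type) [TopologicalSpace X] [T2Space X] [CompactSpace X] [ChartedSpace (Cn (2 * n)) X]
    [IsManifold 𝓘(ℂ, Cn (2 * n)) ω X] (σ : Form ℂ (2 * n) X ℂ 2), IsIHS σ →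
  ∀ (N : ℕ) (B : ProjVariety N) (f : X → PN N),
    B.IsNormal → B.HasDim n →
    IsHolomorphicOnToPN (2 * n) f Set.univ → Set.range f = B.points →
    (∀ b ∈ B.points, IsConnected (f ⁻¹' {b})) →
    (∃ M : HolLineBundle (2 * n) X, M.IsRelativelyAmple f) →
    HasLagrangianFibres σ f n →
    AreIsomorphic B.points (Set.univ : Set (PN n))

/-- Result 041: the strong hyperkähler SYZ conjecture and the projective-space base theorem. -/
def Statement : Prop := StrongSYZ ∧ ProjectiveSpaceBase

end Claimed.Open.R041
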