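/-
Sanity checks for sections 10-12 of `Statement.lean` (result 041): projective varieties, regular
maps, maps to projective space given by sections of a line bundle.

Checked here:
* `ProjVariety.mk_mem_points`: membership in `B.points` does not depend on the representative
  `Projectivization.rep` used in the definition;
* `HolLineBundle.IsPullbackOfO1.isHolomorphicOnToPN`, `HolLineBundle.IsPullbackOfO1.isSemiample`:
  a map `f = [s₀ : ⋯ : s_N]` given by sections of `L^{⊗ m}` without common zeros is holomorphic, and `L`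
  is then semiample.  So in `StrongSYZ` the "more precisely" part implies the first assertion;
* `polyMap`, `polyMap_mk`, `isRegularOn_polyMap`: forms of the same degree define a regular map where they
  have no common zero;
* `hypersurface`, `hypersurface_hasDim`: a prime form `G` in `N + 2` variables defines a projective variety of
  dimension `N` in the sense of `ProjVariety.HasDim` (uses: all maximal ideals of `ℂ[x₁..x_n]` have height `n`);
* `conic`, `conic_hasDim`, `conic_areIsomorphic`: the conic `x₀ x₂ = x₁²` in `ℙ²` is a projective curve which is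
  isomorphic to `ℙ¹` in the sense of `AreIsomorphic`.  The inverse of the Veronese map is not given by a single
  triple of forms: this tests the local nature of `IsRegularOn`.
-/
import Claimed.Open.R041.Statement

open scoped Manifold ContDiff Topology
open MvPolynomial

namespace Claimed.Open.R041

/-! ## 1. Points of a projective variety do not depend on the representative -/

section Points

variable {N : ℕ}

/-- A form of degree `k` satisfies `P(c v) = c^k P(v)`. -/
theorem eval_smul_of_isHomogeneous {σ : Type} [Fintype σ] {P : MvPolynomial σ ℂ} {k : ℕ}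
    (hP : P.IsHomogeneous k) (c : ℂ) (v : σ → ℂ) : eval (c • v) P = c ^ k * eval v P := by
  rw [eval_eq', eval_eq', Finset.mul_sum]
  refine Finset.sum_congr rfl fun m hm => ?_
  have hk : ∑ i, m i = k := by
    have := hP (mem_support_iff.1 hm)
    rw [← this, Finsupp.weight_apply, Finsupp.sum_fintype _ _ (by simp)]
    simp
  simp only [Pi.smul_apply, smul_eq_mul, mul_pow, Finset.prod_mul_distrib, Finset.prod_pow_eq_pow_sum,
    hk]
  ring

theorem ProjVariety.eval_smul_eq_zero (B : ProjVariety N) {v : Fin (N + 1) → ℂ}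
    (h : ∀ P ∈ B.ideal, eval v P = 0) (c : ℂ) : ∀ P ∈ B.ideal, eval (c • v) P = 0 := by
  intro P hP
  rw [← sum_homogeneousComponent P, map_sum]
  refine Finset.sum_eq_zero fun k _ => ?_
  rw [eval_smul_of_isHomogeneous (homogeneousComponent_isHomogeneous k P),
    h _ (B.isHomogeneous P hP k), mul_zero]

/-- Membership in `B.points` can be tested on any representative. -/
theorem ProjVariety.mk_mem_points (B : ProjVariety N) (v : Fin (N + 1) → ℂ) (hv : v ≠ 0) :
    Projectivization.mk ℂ v hv ∈ B.points ↔ ∀ P ∈ B.ideal, eval v P = 0 := by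
  obtain ⟨a, ha⟩ := Projectivization.exists_smul_eq_mk_rep ℂ v hv
  constructor
  · intro h
    have h2 := B.eval_smul_eq_zero h ((a⁻¹ : ℂˣ) : ℂ)
    rw [← ha] at h2
    have : ((a⁻¹ : ℂˣ) : ℂ) • a • v = v := by
      rw [Units.smul_def, smul_smul]; simp
    rwa [this] at h2
  · intro h
    have h2 := B.eval_smul_eq_zero h (a : ℂ)
    show ∀ P ∈ B.ideal, eval (Projectivization.mk ℂ v hv).rep P = 0
    rw [← ha]
    exact h2

end Points

/-! ## 2. Maps given by sections of a line bundle -/

section Maps
variable {d : ℕ} {X : Type} [TopologicalSpace X] [ChartedSpace (Cn d) X] {N : ℕ}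

/-- A map to `ℂ^{N+1}` is holomorphic iff its components are. -/
theorem holomorphicOn_pi_iff {ι : Type} [Fintype ι] (F : X → ι → ℂ) (U : Set X) :
    HolomorphicOn d F U ↔ ∀ k, HolomorphicOn d (fun y => F y k) U :=
  contMDiffOn_pi_space

theorem HolLineBundle.IsPullbackOfO1.isHolomorphicOnToPN {L : HolLineBundle d X} {m : ℕ}
    {W : Set X} (hW : IsOpen W) {f : X → PN N} (h : L.IsPullbackOfO1 m W f) :
    IsHolomorphicOnToPN d f W := by
  obtain ⟨s, hs, hf⟩ := h
  intro x hx
  obtain ⟨i, hi⟩ := L.cover x
  refine ⟨L.U i ∩ W, fun y k => s k i y, ⟨hi, hx⟩, (L.isOpen_U i).inter hW, ?_, hf i⟩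
  exact (holomorphicOn_pi_iff _ _).2 fun k => (hs k).holomorphic i

theorem HolLineBundle.IsPullbackOfO1.isSemiample {L : HolLineBundle d X} {m : ℕ} (hm : 0 < m)
    {f : X → PN N} (h : L.IsPullbackOfO1 m Set.univ f) : L.IsSemiample := by
  obtain ⟨s, hs, hf⟩ := h
  refine ⟨m, hm, fun x => ?_⟩
  obtain ⟨i, hi⟩ := L.cover x
  obtain ⟨h0, -⟩ := hf i x ⟨hi, trivial⟩
  obtain ⟨k, hk⟩ := Function.ne_iff.1 h0
  refine ⟨s k, hs k, fun j hj => ?_⟩
  have := (hs k).compatible i j x ⟨⟨hi, hj⟩, trivial⟩
  intro h0
  rw [h0, mul_zero] at this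
  exact hk this

end Maps
/-! ## 3. Maps given by forms of the same degree -/

section PolyMap

variable {M N : ℕ}

/-- The rational map `ℙ^M ⇢ ℙ^N` given by polynomials `P₀,…,P_N`
(with a junk value where they all vanish). -/
noncomputable def polyMap (P : Fin (N + 1) → MvPolynomial (Fin (M + 1)) ℂ) (a : PN M) : PN N :=
  if h : (fun k => eval a.rep (P k)) ≠ 0 then Projectivization.mk ℂ _ h
  else Projectivization.mk ℂ (Pi.single 0 1) (by simp)

theorem mk_smul_eq {n : ℕ} (c : ℂ) (hc : c ≠ 0) (v : Fin (n + 1) → ℂ) (hv : v ≠ 0)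
    (h : c • v ≠ 0 := smul_ne_zero hc hv) :
    Projectivization.mk ℂ (c • v) h = Projectivization.mk ℂ v hv :=
  (Projectivization.mk_eq_mk_iff' ℂ _ _ _ _).2 ⟨c, rfl⟩

theorem polyMap_mk {D : ℕ} {P : Fin (N + 1) → MvPolynomial (Fin (M + 1)) ℂ}
    (hP : ∀ k, (P k).IsHomogeneous D) (v : Fin (M + 1) → ℂ) (hv : v ≠ 0)
    (h : (fun k => eval v (P k)) ≠ 0) :
    polyMap P (Projectivization.mk ℂ v hv) = Projectivization.mk ℂ _ h := by
  obtain ⟨a, ha⟩ := Projectivization.exists_smul_eq_mk_rep ℂ v hv
  have key : (fun k => eval (Projectivization.mk ℂ v hv).rep (P k)) =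
      ((a : ℂ) ^ D) • fun k => eval v (P k) := by
    funext k
    rw [← ha, Units.smul_def, eval_smul_of_isHomogeneous (hP k)]
    rfl
  have h' : (fun k => eval (Projectivization.mk ℂ v hv).rep (P k)) ≠ 0 := by
    rw [key]; exact smul_ne_zero (pow_ne_zero _ a.ne_zero) h
  rw [polyMap, dif_pos h']
  exact (Projectivization.mk_eq_mk_iff' ℂ _ _ _ _).2 ⟨(a : ℂ) ^ D, key.symm⟩

/-- A map given by forms of the same degree is regular where they have no common zero. -/
theorem isRegularOn_polyMap {D : ℕ} {P : Fin (N + 1) → MvPolynomial (Fin (M + 1)) ℂ}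
    (hP : ∀ k, (P k).IsHomogeneous D) (A : Set (PN M))
    (hA : ∀ a ∈ A, (fun k => eval a.rep (P k)) ≠ 0) : IsRegularOn A (polyMap P) := by
  intro a ha
  refine ⟨D, P, hP, hA a ha, fun a' _ h => ?_⟩
  rw [polyMap, dif_pos h]

end PolyMap

/-! ## 4. Hypersurfaces -/

section Hypersurface

variable {N : ℕ}

/-- The hypersurface `G = 0` in `ℙ^N`, for a prime form `G`. -/
noncomputable def hypersurface {D : ℕ} (G : MvPolynomial (Fin (N + 1)) ℂ) (hG : G.IsHomogeneous D)
    (hprime : Prime G) : ProjVariety N where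
  ideal := Ideal.span {G}
  isHomogeneous := by
    intro P hP k
    let _ := MvPolynomial.gradedAlgebra (σ := Fin (N + 1)) (R := ℂ)
    have h : (Ideal.span {G}).IsHomogeneous (homogeneousSubmodule (Fin (N + 1)) ℂ) :=
      Ideal.homogeneous_span _ _ (by
        rintro x hx
        rw [Set.mem_singleton_iff] at hx
        exact ⟨D, by rw [hx]; exact hG⟩)
    exact homogeneousComponent_mem_of_mem h hP k
  isPrime := (Ideal.span_singleton_prime hprime.ne_zero).2 hprime

theorem mem_hypersurface_points {D : ℕ} (G : MvPolynomial (Fin (N + 1)) ℂ) (hG : G.IsHomogeneous D)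
    (hprime : Prime G) (p : PN N) :
    p ∈ (hypersurface G hG hprime).points ↔ eval p.rep G = 0 := by
  constructor
  · intro h; exact h G (Ideal.mem_span_singleton_self G)
  · intro h P hP
    obtain ⟨Q, rfl⟩ := Ideal.mem_span_singleton'.1 hP
    rw [map_mul, h, mul_zero]

end Hypersurface

section LinearInX0

/-- `a X + b` is irreducible if `a ≠ 0` and `a`, `b` have no common factor. -/
theorem irreducible_linear {R : Type} [CommRing R] [IsDomain R] {a b : R} (ha : a ≠ 0)
    (hab : IsRelPrime a b) : Irreducible (Polynomial.C a * Polynomial.X + Polynomial.C b) := by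
  have hdeg : (Polynomial.C a * Polynomial.X + Polynomial.C b).natDegree = 1 :=
    Polynomial.natDegree_linear ha
  have aux : ∀ f g : Polynomial R, Polynomial.C a * Polynomial.X + Polynomial.C b = f * g →
      f.natDegree = 0 → IsUnit f := by
    intro f g hfg hf
    obtain ⟨c, rfl⟩ := Polynomial.natDegree_eq_zero.1 hf
    have h1 : c ∣ a := by
      have := congrArg (fun p => Polynomial.coeff p 1) hfg
      simp at this
      exact ⟨_, this⟩
    have h0 : c ∣ b := by
      have := congrArg (fun p => Polynomial.coeff p 0) hfg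
      simp at this
      exact ⟨_, this⟩
    exact Polynomial.isUnit_C.2 (hab h1 h0)
  refine ⟨fun hu => ?_, fun f g hfg => ?_⟩
  · have := Polynomial.natDegree_eq_zero_of_isUnit hu
    omega
  · have hne : f * g ≠ 0 := by
      rw [← hfg]; intro h0; rw [h0] at hdeg; simp at hdeg
    have hf0 : f ≠ 0 := left_ne_zero_of_mul hne
    have hg0 : g ≠ 0 := right_ne_zero_of_mul hne
    have hd : f.natDegree + g.natDegree = 1 := by
      rw [← Polynomial.natDegree_mul hf0 hg0, ← hfg, hdeg]
    rcases Nat.eq_zero_or_pos f.natDegree with h | h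
    · exact Or.inl (aux f g hfg h)
    · exact Or.inr (aux g f (by rw [hfg, mul_comm]) (by omega))

/-- A polynomial `X₀ · a(X₁,…) + b(X₁,…)` is prime if `a ≠ 0` and `a`, `b` have no common factor. -/
theorem prime_linear_in_X0 {n : ℕ} {a b : MvPolynomial (Fin n) ℂ} (ha : a ≠ 0)
    (hab : IsRelPrime a b) :
    Prime (X 0 * rename Fin.succ a + rename Fin.succ b : MvPolynomial (Fin (n + 1)) ℂ) := by
  have h := (irreducible_linear ha hab).prime
  have e0 : ∀ c : MvPolynomial (Fin n) ℂ, finSuccEquiv ℂ n (rename Fin.succ c) = Polynomial.C c := by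
    intro c
    induction c using MvPolynomial.induction_on with
    | C r => simp [finSuccEquiv_apply]
    | add p q hp hq => rw [map_add, map_add, hp, hq, map_add]
    | mul_X p i hp => rw [map_mul, map_mul, hp, rename_X, finSuccEquiv_X_succ, map_mul]
  have e : (finSuccEquiv ℂ n) (X 0 * rename Fin.succ a + rename Fin.succ b) =
      Polynomial.C a * Polynomial.X + Polynomial.C b := by
    rw [map_add, map_mul, finSuccEquiv_X_zero, e0, e0, mul_comm]
  rw [← e] at h
  exact (MulEquiv.prime_iff (finSuccEquiv ℂ n).toMulEquiv).1 h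

end LinearInX0

section Dimension

/-- Every maximal ideal of `ℂ[x₁,…,x_n]` has height `n`. -/
theorem height_of_isMaximal (n : ℕ) (M : Ideal (MvPolynomial (Fin n) ℂ)) [hM : M.IsMaximal] :
    M.height = n := by
  induction n with
  | zero =>
    have e : MvPolynomial (Fin 0) ℂ ≃+* ℂ := (isEmptyAlgEquiv ℂ (Fin 0)).toRingEquiv
    have hfield : IsField (MvPolynomial (Fin 0) ℂ) := e.toMulEquiv.isField (Field.toIsField ℂ)
    have : M = ⊥ := by
      let _ := hfield.toField
      exact (Ideal.eq_bot_or_top M).resolve_right hM.ne_top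
    subst this
    simp
  | succ n ih =>
    let e : MvPolynomial (Fin (n + 1)) ℂ ≃+* Polynomial (MvPolynomial (Fin n) ℂ) :=
      (finSuccEquiv ℂ n).toRingEquiv
    let P : Ideal (Polynomial (MvPolynomial (Fin n) ℂ)) := M.map e
    have hP : P.IsMaximal := Ideal.map_isMaximal_of_equiv e
    let p : Ideal (MvPolynomial (Fin n) ℂ) := P.comap Polynomial.C
    have hp : p.IsMaximal := Polynomial.isMaximal_comap_C_of_isJacobsonRing P
    have : P.LiesOver p := ⟨rfl⟩
    have h1 := Polynomial.height_eq_height_add_one p P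
    rw [ih p] at h1
    have h2 : P.height = M.height := e.height_map M
    rw [← h2, h1]
    simp


theorem ringKrullDim_quotient_span_prime {N : ℕ} {G : MvPolynomial (Fin (N + 1)) ℂ} (hG : Prime G) :
    ringKrullDim (MvPolynomial (Fin (N + 1)) ℂ ⧸ Ideal.span {G}) = N := by
  obtain ⟨M, hM, hGM⟩ := Ideal.exists_le_maximal (Ideal.span {G})
    (by rw [Ne, Ideal.span_singleton_eq_top]; exact hG.not_isUnit)
  have hdim : ringKrullDim (MvPolynomial (Fin (N + 1)) ℂ) = (N : WithBot ℕ∞) + 1 := by
    rw [MvPolynomial.ringKrullDim_of_isNoetherianRing]; simp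
  have h := Module.ringKrullDim_quotient_add_one_of_mem_nonZeroDivisors
    (mem_nonZeroDivisors_of_ne_zero hG.ne_zero) (p := M)
    (by rw [height_of_isMaximal, hdim]; simp) (hGM (Ideal.mem_span_singleton_self G))
  rw [hdim] at h
  generalize ringKrullDim (MvPolynomial (Fin (N + 1)) ℂ ⧸ Ideal.span {G}) = δ at h
  induction δ with
  | bot =>
    exfalso
    have : ((N : WithBot ℕ∞) + 1) = (((N + 1 : ℕ) : ℕ∞) : WithBot ℕ∞) := by norm_cast
    rw [WithBot.bot_add, this] at h
    exact WithBot.bot_ne_coe h
  | coe δ =>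
    norm_cast at h ⊢
    exact ENat.add_left_injective_of_ne_top (ENat.one_ne_top) h

end Dimension

/-! ## 5. The conic `x₀ x₂ = x₁²` is a curve isomorphic to `ℙ¹` -/

section Conic

theorem isRelPrime_X_X : IsRelPrime (X 0 : MvPolynomial (Fin 2) ℂ) (X 1) := by
  rw [(X_prime (R := ℂ) (i := (0 : Fin 2))).irreducible.isRelPrime_iff_not_dvd, X_dvd_X]
  decide

/-- The form `x₀ x₂ - x₁²`. -/
noncomputable def conicForm : MvPolynomial (Fin 3) ℂ := X 0 * X 2 - X 1 ^ 2

theorem conicForm_isHomogeneous : conicForm.IsHomogeneous 2 :=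
  ((isHomogeneous_X ℂ 0).mul (isHomogeneous_X ℂ 2)).sub ((isHomogeneous_X ℂ 1).pow 2)

theorem conicForm_prime : Prime conicForm := by
  have h := prime_linear_in_X0 (n := 2) (a := X 1) (b := -(X 0) ^ 2) (X_ne_zero _)
    (isRelPrime_X_X.symm.pow_right.neg_right)
  have e : (X 0 * rename Fin.succ (X 1) + rename Fin.succ (-(X 0) ^ 2) :
      MvPolynomial (Fin 3) ℂ) = conicForm := by
    simp only [rename_X, map_neg, map_pow, conicForm]
    rw [sub_eq_add_neg]
    rfl
  rwa [e] at h

theorem mk_mem_hypersurface_points {N D : ℕ} (G : MvPolynomial (Fin (N + 1)) ℂ)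
    (hG : G.IsHomogeneous D) (hprime : Prime G) (v : Fin (N + 1) → ℂ) (hv : v ≠ 0) :
    Projectivization.mk ℂ v hv ∈ (hypersurface G hG hprime).points ↔ eval v G = 0 := by
  rw [ProjVariety.mk_mem_points]
  constructor
  · intro h; exact h G (Ideal.mem_span_singleton_self G)
  · intro h P hP
    obtain ⟨Q, rfl⟩ := Ideal.mem_span_singleton'.1 hP
    rw [map_mul, h, mul_zero]

theorem mk_congr {n : ℕ} {v w : Fin (n + 1) → ℂ} (h : v = w) (hv : v ≠ 0) (hw : w ≠ 0) :
    Projectivization.mk ℂ v hv = Projectivization.mk ℂ w hw := by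
  subst h; rfl

/-- The smooth conic `x₀ x₂ = x₁²` in `ℙ²`. -/
noncomputable def conic : ProjVariety 2 :=
  hypersurface conicForm conicForm_isHomogeneous conicForm_prime

theorem mk_mem_conic (v : Fin 3 → ℂ) (hv : v ≠ 0) :
    Projectivization.mk ℂ v hv ∈ conic.points ↔ v 0 * v 2 = v 1 ^ 2 := by
  rw [conic, mk_mem_hypersurface_points]
  simp [conicForm, sub_eq_zero]

/-- The Veronese forms `s², st, t²`. -/
noncomputable def veroneseForms : Fin 3 → MvPolynomial (Fin 2) ℂ := ![X 0 ^ 2, X 0 * X 1, X 1 ^ 2]

theorem veroneseForms_isHomogeneous (k : Fin 3) : (veroneseForms k).IsHomogeneous 2 := by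
  fin_cases k
  · exact (isHomogeneous_X ℂ 0).pow 2
  · exact (isHomogeneous_X ℂ 0).mul (isHomogeneous_X ℂ 1)
  · exact (isHomogeneous_X ℂ 1).pow 2

theorem eval_veroneseForms (v : Fin 2 → ℂ) :
    (fun k => eval v (veroneseForms k)) = ![v 0 ^ 2, v 0 * v 1, v 1 ^ 2] := by
  funext k; fin_cases k <;> simp [veroneseForms]

theorem veronese_ne_zero {v : Fin 2 → ℂ} (hv : v ≠ 0) :
    (fun k => eval v (veroneseForms k)) ≠ 0 := by
  rw [eval_veroneseForms]
  intro h
  apply hv
  have h0 := congrFun h 0
  have h2 := congrFun h 2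
  simp at h0 h2
  funext k; fin_cases k
  · exact h0
  · exact h2

/-- The two linear projections `[x₀ : x₁]` and `[x₁ : x₂]`. -/
noncomputable def projA : Fin 2 → MvPolynomial (Fin 3) ℂ := ![X 0, X 1]
noncomputable def projB : Fin 2 → MvPolynomial (Fin 3) ℂ := ![X 1, X 2]

theorem projA_isHomogeneous (k : Fin 2) : (projA k).IsHomogeneous 1 := by
  fin_cases k <;> exact isHomogeneous_X ℂ _

theorem projB_isHomogeneous (k : Fin 2) : (projB k).IsHomogeneous 1 := by
  fin_cases k <;> exact isHomogeneous_X ℂ _

theorem eval_projA (w : Fin 3 → ℂ) : (fun k => eval w (projA k)) = ![w 0, w 1] := by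
  funext k; fin_cases k <;> simp [projA]

theorem eval_projB (w : Fin 3 → ℂ) : (fun k => eval w (projB k)) = ![w 1, w 2] := by
  funext k; fin_cases k <;> simp [projB]

/-- The inverse of the Veronese map: `[x₀ : x₁]` where `x₀ ≠ 0`, and `[x₁ : x₂]` elsewhere. -/
noncomputable def conicInv (a : PN 2) : PN 1 :=
  if a.rep 0 ≠ 0 then polyMap projA a else polyMap projB a

theorem rep_apply_eq_zero_iff {n : ℕ} (v : Fin (n + 1) → ℂ) (hv : v ≠ 0) (j : Fin (n + 1)) :
    (Projectivization.mk ℂ v hv).rep j = 0 ↔ v j = 0 := by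
  obtain ⟨a, ha⟩ := Projectivization.exists_smul_eq_mk_rep ℂ v hv
  rw [← ha]
  simp [Units.smul_def]

theorem conicInv_mk_of_ne (w : Fin 3 → ℂ) (hw : w ≠ 0) (h0 : w 0 ≠ 0) :
    conicInv (Projectivization.mk ℂ w hw) =
      Projectivization.mk ℂ ![w 0, w 1] (fun h => h0 (by simpa using congrFun h 0)) := by
  have h1 : (Projectivization.mk ℂ w hw).rep 0 ≠ 0 := by rwa [Ne, rep_apply_eq_zero_iff]
  have h2 : (fun k => eval w (projA k)) ≠ 0 := by
    rw [eval_projA]; exact fun h => h0 (by simpa using congrFun h 0)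
  rw [conicInv, if_pos h1, polyMap_mk projA_isHomogeneous w hw h2]
  exact mk_congr (eval_projA w) _ _

theorem conicInv_mk_of_eq (w : Fin 3 → ℂ) (hw : w ≠ 0) (h0 : w 0 = 0) (h : ![w 1, w 2] ≠ 0) :
    conicInv (Projectivization.mk ℂ w hw) = Projectivization.mk ℂ ![w 1, w 2] h := by
  have h1 : ¬ (Projectivization.mk ℂ w hw).rep 0 ≠ 0 := by rwa [Ne, rep_apply_eq_zero_iff, not_not]
  have h2 : (fun k => eval w (projB k)) ≠ 0 := by rwa [eval_projB]
  rw [conicInv, if_neg h1, polyMap_mk projB_isHomogeneous w hw h2]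
  exact mk_congr (eval_projB w) _ _

theorem mem_conic (a : PN 2) : a ∈ conic.points ↔ a.rep 0 * a.rep 2 = a.rep 1 ^ 2 := by
  conv_lhs => rw [← a.mk_rep]
  exact mk_mem_conic _ _

theorem isRegularOn_conicInv : IsRegularOn conic.points conicInv := by
  intro a ha
  rw [mem_conic] at ha
  by_cases h0 : a.rep 0 = 0
  · have h1 : a.rep 1 = 0 := by
      rw [h0, zero_mul] at ha
      exact pow_eq_zero_iff (two_ne_zero) |>.1 ha.symm
    have h2 : a.rep 2 ≠ 0 := by
      intro h2
      apply a.rep_nonzero
      funext k; fin_cases k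
      · exact h0
      · exact h1
      · exact h2
    refine ⟨1, projB, projB_isHomogeneous, ?_, ?_⟩
    · rw [eval_projB]
      exact fun h => h2 (by simpa using congrFun h 1)
    · intro a' ha' h
      rw [mem_conic] at ha'
      by_cases h0' : a'.rep 0 = 0
      · rw [conicInv, if_neg (not_not.2 h0'), polyMap, dif_pos h]
      · have hA : (fun k => eval a'.rep (projA k)) ≠ 0 := by
          rw [eval_projA]; exact fun h => h0' (by simpa using congrFun h 0)
        rw [conicInv, if_pos h0', polyMap, dif_pos hA]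
        have h1' : a'.rep 1 ≠ 0 := by
          intro h1'
          rw [h1'] at ha'
          have h2' : a'.rep 2 = 0 := by
            rcases mul_eq_zero.1 (ha'.trans (by simp)) with h | h
            · exact absurd h h0'
            · exact h
          apply h
          rw [eval_projB, h1', h2']
          funext k; fin_cases k <;> rfl
        refine (Projectivization.mk_eq_mk_iff' ℂ _ _ _ _).2 ⟨a'.rep 0 / a'.rep 1, ?_⟩
        rw [eval_projA, eval_projB]
        funext k; fin_cases k
        · simp; field_simp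
        · simp; field_simp; linear_combination ha'
  · refine ⟨1, projA, projA_isHomogeneous, ?_, ?_⟩
    · rw [eval_projA]
      exact fun h => h0 (by simpa using congrFun h 0)
    · intro a' ha' h
      rw [mem_conic] at ha'
      have h0' : a'.rep 0 ≠ 0 := by
        intro h0'
        rw [h0', zero_mul] at ha'
        have h1' : a'.rep 1 = 0 := pow_eq_zero_iff (two_ne_zero) |>.1 ha'.symm
        apply h
        rw [eval_projA, h0', h1']
        funext k; fin_cases k <;> rfl
      rw [conicInv, if_pos h0', polyMap, dif_pos h]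

/-- The conic `x₀ x₂ = x₁²` is isomorphic to `ℙ¹` (by the Veronese map `[s : t] ↦ [s² : st : t²]`).
The inverse needs two different local expressions, `[x₀ : x₁]` and `[x₁ : x₂]`. -/
theorem conic_areIsomorphic : AreIsomorphic conic.points (Set.univ : Set (PN 1)) := by
  refine ⟨conicInv, polyMap veroneseForms, isRegularOn_conicInv,
    isRegularOn_polyMap veroneseForms_isHomogeneous _ (fun a _ => veronese_ne_zero a.rep_nonzero),
    fun _ _ => trivial, ?_, ?_, ?_⟩
  · intro p _
    induction p using Projectivization.ind with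
    | h v hv =>
    rw [polyMap_mk veroneseForms_isHomogeneous v hv (veronese_ne_zero hv), mk_mem_conic]
    simp [veroneseForms]; ring
  · intro a ha
    induction a using Projectivization.ind with
    | h w hw =>
    rw [mk_mem_conic] at ha
    by_cases h0 : w 0 = 0
    · have h1 : w 1 = 0 := by
        rw [h0, zero_mul] at ha
        exact pow_eq_zero_iff (two_ne_zero) |>.1 ha.symm
      have h2 : w 2 ≠ 0 := by
        intro h2
        apply hw
        funext k; fin_cases k
        · exact h0
        · exact h1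
        · exact h2
      have h3 : ![w 1, w 2] ≠ 0 := fun h => h2 (by simpa using congrFun h 1)
      rw [conicInv_mk_of_eq w hw h0 h3, polyMap_mk veroneseForms_isHomogeneous _ h3
        (veronese_ne_zero h3)]
      refine (Projectivization.mk_eq_mk_iff' ℂ _ _ _ _).2 ⟨w 2, ?_⟩
      rw [eval_veroneseForms]
      funext k; fin_cases k
      · simp [h0, h1]
      · simp [h1]
      · simp; ring
    · have h3 : ![w 0, w 1] ≠ 0 := fun h => h0 (by simpa using congrFun h 0)
      rw [conicInv_mk_of_ne w hw h0, polyMap_mk veroneseForms_isHomogeneous _ h3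
        (veronese_ne_zero h3)]
      refine (Projectivization.mk_eq_mk_iff' ℂ _ _ _ _).2 ⟨w 0, ?_⟩
      rw [eval_veroneseForms]
      funext k; fin_cases k
      · simp; ring
      · simp
      · simp; linear_combination ha
  · intro p _
    induction p using Projectivization.ind with
    | h v hv =>
    rw [polyMap_mk veroneseForms_isHomogeneous v hv (veronese_ne_zero hv)]
    by_cases h0 : v 0 = 0
    · have h1 : v 1 ≠ 0 := by
        intro h1
        apply hv
        funext k; fin_cases k
        · exact h0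
        · exact h1
      have e0 : (fun k => eval v (veroneseForms k)) 0 = 0 := by
        rw [eval_veroneseForms]; simp [h0]
      have h3 : ![(fun k => eval v (veroneseForms k)) 1, (fun k => eval v (veroneseForms k)) 2] ≠ 0 := by
        rw [eval_veroneseForms]
        exact fun h => h1 (by simpa using congrFun h 1)
      rw [conicInv_mk_of_eq _ _ e0 h3]
      refine (Projectivization.mk_eq_mk_iff' ℂ _ _ _ _).2 ⟨v 1, ?_⟩
      funext k; fin_cases k
      · simp [veroneseForms, h0]
      · simp [veroneseForms]; ring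
    · have e0 : (fun k => eval v (veroneseForms k)) 0 ≠ 0 := by
        rw [eval_veroneseForms]; simpa using h0
      rw [conicInv_mk_of_ne _ _ e0]
      refine (Projectivization.mk_eq_mk_iff' ℂ _ _ _ _).2 ⟨v 0, ?_⟩
      funext k; fin_cases k
      · simp [veroneseForms]; ring
      · simp [veroneseForms]

theorem hypersurface_hasDim {N D : ℕ} (G : MvPolynomial (Fin (N + 2)) ℂ) (hG : G.IsHomogeneous D)
    (hprime : Prime G) : (hypersurface G hG hprime).HasDim N := by
  unfold ProjVariety.HasDim hypersurface
  rw [ringKrullDim_quotient_span_prime hprime]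
  norm_cast

theorem conic_hasDim : conic.HasDim 1 := hypersurface_hasDim _ _ _

end Conic

end Claimed.Open.R041
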