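/-
Result 041.  A formal consequence of `Statement`: the first assertion of Corollary 1.3
("Projective case") of "The strong hyperkähler SYZ conjecture".

* `pullbackO1`, `pullbackO1_isPullbackOfO1`: for every holomorphic map `f : X → ℙ^N` there is a holomorphic line bundle
  `f^* 𝒪(1)` (in the cocycle sense of `HolLineBundle`) for which `IsPullbackOfO1 1 univ f` holds.  So `IsPullbackOfO1` loses
  nothing: every holomorphic map to `ℙ^N` is `[s₀ : ⋯ : s_N]` for sections of a line bundle;
* `IsProjectiveManifold.exists_isRelativelyAmple`: if `X` embeds in some `ℙ^K`, then every `f : X → ℙ^N` has a relatively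
  ample line bundle in the sense of `HolLineBundle.IsRelativelyAmple` (so that hypothesis of `ProjectiveSpaceBase` can be met, and
  is met by every fibration of a projective `X`, as the paper says after its Theorem 1.1);
* `projectiveCase_of_statement : Statement → ProjectiveCase`.

This file proves NOTHING about `Statement` itself.
-/
import Claimed.Open.R041.SanityProj

open scoped Manifold ContDiff Topology

namespace Claimed.Open.R041

/-! ## 1. Every holomorphic map to `ℙ^N` is given by sections of a line bundle -/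

section Pullback

variable {d : ℕ} {X : Type} [TopologicalSpace X] [ChartedSpace (Cn d) X] {N : ℕ}

/-- The scalar `c` such that `a = c • b`, for proportional vectors `a`, `b ≠ 0`. -/
noncomputable def vecRatio (a b : Fin (N + 1) → ℂ) : ℂ :=
  if h : ∃ k, b k ≠ 0 then a h.choose / b h.choose else 0

theorem vecRatio_smul (c : ℂ) {b : Fin (N + 1) → ℂ} (hb : b ≠ 0) : vecRatio (c • b) b = c := by
  have h : ∃ k, b k ≠ 0 := Function.ne_iff.1 hb
  rw [vecRatio, dif_pos h]
  simp [h.choose_spec]

/-- Two lifts of the same map are proportional. -/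
theorem IsLocalLift.exists_smul {f : X → PN N} {U U' : Set X} {F F' : X → Fin (N + 1) → ℂ}
    (h : IsLocalLift d f U F) (h' : IsLocalLift d f U' F') {x : X} (hx : x ∈ U) (hx' : x ∈ U') :
    ∃ c : ℂ, c ≠ 0 ∧ F x = c • F' x := by
  obtain ⟨h0, e⟩ := h.2.2 x hx
  obtain ⟨h0', e'⟩ := h'.2.2 x hx'
  obtain ⟨c, hc⟩ := (Projectivization.mk_eq_mk_iff' ℂ _ _ h0 h0').1 (e.symm.trans e')
  refine ⟨c, ?_, hc.symm⟩
  rintro rfl
  exact h0 (by rw [← hc, zero_smul])

theorem IsLocalLift.holomorphicOn_vecRatio {f : X → PN N} {U U' : Set X}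
    {F F' : X → Fin (N + 1) → ℂ} (h : IsLocalLift d f U F) (h' : IsLocalLift d f U' F') :
    HolomorphicOn d (fun x => vecRatio (F x) (F' x)) (U ∩ U') := by
  intro x hx
  obtain ⟨h0', -⟩ := h'.2.2 x hx.2
  obtain ⟨k, hk⟩ := Function.ne_iff.1 h0'
  replace hk : F' x k ≠ 0 := hk
  have hF : ∀ k, HolomorphicOn d (fun y => F y k) U := (holomorphicOn_pi_iff _ _).1 h.2.1
  have hF' : ∀ k, HolomorphicOn d (fun y => F' y k) U' := (holomorphicOn_pi_iff _ _).1 h'.2.1
  have h1 : ContMDiffWithinAt 𝓘(ℂ, Cn d) 𝓘(ℂ, ℂ) ω (fun y => F y k / F' y k) (U ∩ U') x :=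
    ((hF k x hx.1).mono Set.inter_subset_left).div₀ ((hF' k x hx.2).mono Set.inter_subset_right) hk
  refine h1.congr_of_eventuallyEq ?_ ?_
  · have hcont : ContinuousWithinAt (fun y => F' y k) (U ∩ U') x :=
      ((hF' k x hx.2).mono Set.inter_subset_right).continuousWithinAt
    have hne : ∀ᶠ y in 𝓝[U ∩ U'] x, F' y k ≠ 0 := hcont.eventually_ne hk
    filter_upwards [hne, self_mem_nhdsWithin] with y hy hyU
    obtain ⟨c, -, hc⟩ := h.exists_smul h' hyU.1 hyU.2
    obtain ⟨h0y, -⟩ := h'.2.2 y hyU.2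
    rw [hc, vecRatio_smul c h0y]
    simp [hy]
  · obtain ⟨c, -, hc⟩ := h.exists_smul h' hx.1 hx.2
    rw [hc, vecRatio_smul c h0']
    simp [hk]

/-- The pull-back `f^* 𝒪(1)` of the hyperplane bundle by a holomorphic map `f : X → ℙ^N`: it is
trivialised on the domains of the local lifts `F` of `f`, with transition functions `F / F'`. -/
noncomputable def pullbackO1 (f : X → PN N) (hf : IsHolomorphicOnToPN d f Set.univ) :
    HolLineBundle d X where
  ι := {p : Set X × (X → Fin (N + 1) → ℂ) // IsLocalLift d f p.1 p.2}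
  U := fun p => p.1.1
  isOpen_U := fun p => p.2.1
  cover := fun x => by
    obtain ⟨U, F, hx, h⟩ := hf x trivial
    exact ⟨⟨(U, F), h⟩, hx⟩
  g := fun p q x => vecRatio (p.1.2 x) (q.1.2 x)
  holomorphic := fun p q => p.2.holomorphicOn_vecRatio q.2
  ne_zero := fun p q x hx => by
    obtain ⟨c, hc0, hc⟩ := p.2.exists_smul q.2 hx.1 hx.2
    obtain ⟨h0, -⟩ := q.2.2.2 x hx.2
    rw [hc, vecRatio_smul c h0]
    exact hc0
  cocycle := fun p q r x hx => by
    obtain ⟨c, -, hc⟩ := p.2.exists_smul q.2 hx.1.1 hx.1.2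
    obtain ⟨c', -, hc'⟩ := q.2.exists_smul r.2 hx.1.2 hx.2
    obtain ⟨h0q, -⟩ := q.2.2.2 x hx.1.2
    obtain ⟨h0r, -⟩ := r.2.2.2 x hx.2
    have hc'' : p.1.2 x = (c * c') • r.1.2 x := by rw [hc, hc', smul_smul]
    rw [hc'', vecRatio_smul _ h0r, ← hc'', hc, vecRatio_smul _ h0q, hc', vecRatio_smul _ h0r]

/-- Every holomorphic map `f : X → ℙ^N` satisfies `IsPullbackOfO1` for the line bundle `f^* 𝒪(1)`. -/
theorem pullbackO1_isPullbackOfO1 (f : X → PN N) (hf : IsHolomorphicOnToPN d f Set.univ) :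
    (pullbackO1 f hf).IsPullbackOfO1 1 Set.univ f := by
  refine ⟨fun k p x => p.1.2 x k, fun k => ⟨fun p => ?_, fun p q x hx => ?_⟩, fun p x hx => ?_⟩
  · exact ((holomorphicOn_pi_iff _ _).1 p.2.2.1 k).mono Set.inter_subset_left
  · obtain ⟨c, -, hc⟩ := p.2.exists_smul q.2 hx.1.1 hx.1.2
    obtain ⟨h0, -⟩ := q.2.2.2 x hx.1.2
    show p.1.2 x k = vecRatio (p.1.2 x) (q.1.2 x) ^ 1 * q.1.2 x k
    rw [hc, vecRatio_smul c h0, pow_one]
    rfl
  · exact p.2.2.2 x hx.1

end Pullback

/-! ## 2. Projective manifolds: every map to a projective variety is a projective morphism -/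

section Projective

variable (d : ℕ) (X : Type) [TopologicalSpace X] [ChartedSpace (Cn d) X]

/-- `X` is projective: it has a holomorphic embedding (for compact `X`: an injective holomorphic
immersion) into some `ℙ^K`. -/
def IsProjectiveManifold : Prop :=
  ∃ (K : ℕ) (ι : X → PN K), IsHolomorphicOnToPN d ι Set.univ ∧ Function.Injective ι ∧
    ∀ (x : X) (v : Cn d), InKerDifferential d ι x v → v = 0

variable {d X}

/-- On a projective manifold the very ample line bundle `ι^* 𝒪(1)` is relatively ample for every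
map `f : X → ℙ^N`, in the sense of `HolLineBundle.IsRelativelyAmple`. -/
theorem IsProjectiveManifold.exists_isRelativelyAmple (h : IsProjectiveManifold d X) {N : ℕ}
    (f : X → PN N) : ∃ M : HolLineBundle d X, M.IsRelativelyAmple f := by
  obtain ⟨K, ι, hι, hinj, himm⟩ := h
  refine ⟨pullbackO1 ι hι, fun b => ⟨Set.univ, trivial, by simp, 1, K, ι, one_pos, ?_, ?_, ?_⟩⟩
  · simpa using pullbackO1_isPullbackOfO1 ι hι
  · intro x _ y _ hxy
    exact hinj (Prod.ext_iff.1 hxy).2
  · intro x _ v _ hv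
    exact himm x v hv

end Projective

/-! ## 3. Corollary 1.3, first assertion -/

/-- `(m, B ⊆ ℙ^N, f)` is a "connected-fibre map furnished by Theorem 1.1" for the line bundle `L`:
this is, word for word, the body of the existential statement in `StrongSYZ`. -/
def IsSYZFibration {n : ℕ} {X : Type} [TopologicalSpace X] [ChartedSpace (Cn (2 * n)) X]
    (σ : Form ℂ (2 * n) X ℂ 2) (L : HolLineBundle (2 * n) X) (m N : ℕ) (B : ProjVariety N)
    (f : X → PN N) : Prop :=
  0 < m ∧ B.IsNormal ∧ B.HasDim n ∧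
    IsHolomorphicOnToPN (2 * n) f Set.univ ∧ Set.range f = B.points ∧
    (∀ b ∈ B.points, IsConnected (f ⁻¹' {b})) ∧
    L.IsPullbackOfO1 m Set.univ f ∧
    HasLagrangianFibres σ f n

/-- "The strong hyperkähler SYZ conjecture", Corollary 1.3 (Projective case), first assertion:
*in Theorem 1.1, assume additionally that `X` is projective, and let `f : X → B` be the associated
connected-fibre map furnished there.  Then `B ≃ ℙ^n`.* -/
def ProjectiveCase : Prop :=
  ∀ (n : ℕ), 1 ≤ n →
  ∀ (X : Type) [TopologicalSpace X] [T2Space X] [CompactSpace X] [ChartedSpace (Cn (2 * n)) X]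
    [IsManifold 𝓘(ℂ, Cn (2 * n)) ω X] (σ : Form ℂ (2 * n) X ℂ 2), IsIHS σ →
  IsProjectiveManifold (2 * n) X →
  ∀ (L : HolLineBundle (2 * n) X) (c : H2 (2 * n) X), L.IsFirstChernClass c →
    c ≠ 0 → c ∈ nefCone (2 * n) X → bbf σ c = 0 →
    (∃ (m N : ℕ) (B : ProjVariety N) (f : X → PN N), IsSYZFibration σ L m N B f) ∧
    ∀ (m N : ℕ) (B : ProjVariety N) (f : X → PN N), IsSYZFibration σ L m N B f →
      AreIsomorphic B.points (Set.univ : Set (PN n))

/-- The first assertion of Corollary 1.3 is a formal consequence of the two main theorems. -/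
theorem projectiveCase_of_statement (h : Statement) : ProjectiveCase := by
  intro n hn X _ _ _ _ _ σ hσ hproj L c hc hc0 hnef hq
  refine ⟨(h.1 n hn X σ hσ L c hc hc0 hnef hq).2, ?_⟩
  rintro m N B f ⟨-, hnormal, hdim, hhol, hrange, hconn, -, hlag⟩
  exact h.2 n hn X σ hσ N B f hnormal hdim hhol hrange hconn
    (hproj.exists_isRelativelyAmple f) hlag

end Claimed.Open.R041
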