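/-
Result 041, sanity: a complex manifold from a family of injective parametrisations.

Part of the checked example (a Kummer K3 surface) for the hypotheses of `StrongSYZ`.
Given a set `X'`, open sets `D i ⊆ ℂ^d` and maps `φ i : ℂ^d → X'`, injective on `D i`, whose changes of
parameter are locally given by analytic maps, the union of the `φ i (D i)` is a complex manifold.
-/
import Claimed.Open.R041.Statement

open scoped Manifold ContDiff Topology
open Set

namespace Claimed.Open.R041

/-- A family of injective parametrisations `φ i : D i → X'` with analytic changes of parameter. -/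
structure ParamAtlas (d : ℕ) (X' : Type) where
  I : Type
  D : I → Set (Cn d)
  φ : I → Cn d → X'
  isOpen_D : ∀ i, IsOpen (D i)
  injOn : ∀ i, InjOn (φ i) (D i)
  trans : ∀ i j y y', y ∈ D i → y' ∈ D j → φ i y = φ j y' →
    ∃ τ : Cn d → Cn d, AnalyticAt ℂ τ y ∧ τ y = y' ∧ ∀ᶠ w in 𝓝 y, φ j (τ w) = φ i w
  i₀ : I
  y₀ : Cn d
  hy₀ : y₀ ∈ D i₀

namespace ParamAtlas

variable {d : ℕ} {X' : Type} (A : ParamAtlas d X')

/-- The manifold: the union of the images of the parametrisations. -/
def Carrier : Type := {x : X' // ∃ i, ∃ y ∈ A.D i, A.φ i y = x}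

/-- The point with parameter `y` in the `i`-th parametrisation. -/
def pt (i : A.I) (y : Cn d) (hy : y ∈ A.D i) : A.Carrier := ⟨A.φ i y, i, y, hy, rfl⟩

theorem pt_eq_pt {i j : A.I} {y y' : Cn d} {hy : y ∈ A.D i} {hy' : y' ∈ A.D j} :
    A.pt i y hy = A.pt j y' hy' ↔ A.φ i y = A.φ j y' := Subtype.ext_iff

theorem exists_pt (x : A.Carrier) : ∃ i y, ∃ hy : y ∈ A.D i, x = A.pt i y hy := by
  obtain ⟨x, i, y, hy, rfl⟩ := x
  exact ⟨i, y, hy, rfl⟩

open Classical in
/-- The `i`-th chart, as a partial equivalence. -/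
noncomputable def pe (i : A.I) : PartialEquiv A.Carrier (Cn d) where
  toFun x := if h : ∃ y ∈ A.D i, A.φ i y = x.1 then h.choose else 0
  invFun y := if hy : y ∈ A.D i then A.pt i y hy else A.pt A.i₀ A.y₀ A.hy₀
  source := {x | ∃ y ∈ A.D i, A.φ i y = x.1}
  target := A.D i
  map_source' := by
    intro x hx
    have hx' : ∃ y ∈ A.D i, A.φ i y = x.1 := hx
    simp only [dif_pos hx']
    exact hx'.choose_spec.1
  map_target' := by
    intro y hy
    simp only [dif_pos hy]
    exact ⟨y, hy, rfl⟩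
  left_inv' := by
    intro x hx
    have hx' : ∃ y ∈ A.D i, A.φ i y = x.1 := hx
    simp only [dif_pos hx', dif_pos hx'.choose_spec.1]
    exact Subtype.ext hx'.choose_spec.2
  right_inv' := by
    intro y hy
    have h : ∃ y' ∈ A.D i, A.φ i y' = (A.pt i y hy).1 := ⟨y, hy, rfl⟩
    simp only [dif_pos hy, dif_pos h]
    exact A.injOn i h.choose_spec.1 hy h.choose_spec.2

theorem pe_source (i : A.I) : (A.pe i).source = {x | ∃ y ∈ A.D i, A.φ i y = x.1} := rfl

theorem pe_target (i : A.I) : (A.pe i).target = A.D i := rfl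

open Classical in
theorem pe_symm_apply {i : A.I} {y : Cn d} (hy : y ∈ A.D i) : (A.pe i).symm y = A.pt i y hy := by
  change (if hy : y ∈ A.D i then A.pt i y hy else A.pt A.i₀ A.y₀ A.hy₀) = _
  rw [dif_pos hy]

theorem pe_pt {i : A.I} {y : Cn d} (hy : y ∈ A.D i) : A.pe i (A.pt i y hy) = y := by
  rw [← A.pe_symm_apply hy]
  exact (A.pe i).right_inv hy

theorem pt_mem_pe_source {i : A.I} {y : Cn d} (hy : y ∈ A.D i) : A.pt i y hy ∈ (A.pe i).source :=
  ⟨y, hy, rfl⟩

/-- Local description of the change of charts. -/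
theorem exists_transition {i j : A.I} {y : Cn d}
    (hy : y ∈ ((A.pe i).symm.trans (A.pe j)).source) :
    ∃ τ : Cn d → Cn d, AnalyticAt ℂ τ y ∧
      ∀ᶠ w in 𝓝 y, w ∈ ((A.pe i).symm.trans (A.pe j)).source ∧
        ((A.pe i).symm.trans (A.pe j)) w = τ w := by
  rw [PartialEquiv.trans_source] at hy
  obtain ⟨hyi, hyj⟩ := hy
  have hyi' : y ∈ A.D i := hyi
  have hyj' : (A.pe i).symm y ∈ (A.pe j).source := hyj
  rw [A.pe_symm_apply hyi'] at hyj'
  obtain ⟨y', hy', he⟩ := hyj'
  obtain ⟨τ, hτ, hτy, hev⟩ := A.trans i j y y' hyi' hy' he.symm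
  refine ⟨τ, hτ, ?_⟩
  have h1 : ∀ᶠ w in 𝓝 y, τ w ∈ A.D j :=
    hτ.continuousAt.eventually_mem ((A.isOpen_D j).mem_nhds (hτy ▸ hy'))
  filter_upwards [hev, h1, (A.isOpen_D i).mem_nhds hyi'] with w hw1 hw2 hw3
  have hmk : A.pt i w hw3 = A.pt j (τ w) hw2 := A.pt_eq_pt.2 hw1.symm
  constructor
  · rw [PartialEquiv.trans_source]
    refine ⟨hw3, ?_⟩
    change (A.pe i).symm w ∈ (A.pe j).source
    rw [A.pe_symm_apply hw3, hmk]
    exact A.pt_mem_pe_source hw2
  · change A.pe j ((A.pe i).symm w) = τ w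
    rw [A.pe_symm_apply hw3, hmk, A.pe_pt]

/-- The index of a parametrisation covering `x`. -/
noncomputable def idx (x : A.Carrier) : A.I := x.2.choose

theorem mem_pe_idx_source (x : A.Carrier) : x ∈ (A.pe (A.idx x)).source := x.2.choose_spec

/-- The charted space core. -/
noncomputable def core : ChartedSpaceCore (Cn d) A.Carrier where
  atlas := range A.pe
  chartAt x := A.pe (A.idx x)
  mem_chart_source := A.mem_pe_idx_source
  chart_mem_atlas x := ⟨_, rfl⟩
  open_source := by
    rintro _ _ ⟨i, rfl⟩ ⟨j, rfl⟩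
    rw [isOpen_iff_mem_nhds]
    intro y hy
    obtain ⟨τ, -, hev⟩ := A.exists_transition hy
    exact hev.mono fun w hw => hw.1
  continuousOn_toFun := by
    rintro _ _ ⟨i, rfl⟩ ⟨j, rfl⟩
    intro y hy
    obtain ⟨τ, hτ, hev⟩ := A.exists_transition hy
    exact (hτ.continuousAt.congr (hev.mono fun w hw => hw.2.symm)).continuousWithinAt

noncomputable instance instTopologicalSpaceCarrier : TopologicalSpace A.Carrier :=
  A.core.toTopologicalSpace

noncomputable instance instChartedSpaceCarrier : ChartedSpace (Cn d) A.Carrier :=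
  A.core.toChartedSpace

/-- The `i`-th chart. -/
noncomputable def chart (i : A.I) : OpenPartialHomeomorph A.Carrier (Cn d) :=
  A.core.openPartialHomeomorph (A.pe i) ⟨i, rfl⟩

theorem chart_toPartialEquiv (i : A.I) : (A.chart i).toPartialEquiv = A.pe i := rfl

theorem chart_source (i : A.I) : (A.chart i).source = {x | ∃ y ∈ A.D i, A.φ i y = x.1} := rfl

theorem chart_target (i : A.I) : (A.chart i).target = A.D i := rfl

theorem chart_symm_apply {i : A.I} {y : Cn d} (hy : y ∈ A.D i) :
    (A.chart i).symm y = A.pt i y hy := A.pe_symm_apply hy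

theorem chart_pt {i : A.I} {y : Cn d} (hy : y ∈ A.D i) : A.chart i (A.pt i y hy) = y := A.pe_pt hy

theorem pt_mem_chart_source {i : A.I} {y : Cn d} (hy : y ∈ A.D i) :
    A.pt i y hy ∈ (A.chart i).source := A.pt_mem_pe_source hy

theorem chart_mem_atlas (i : A.I) : A.chart i ∈ atlas (Cn d) A.Carrier := by
  change A.chart i ∈ ⋃ (e : PartialEquiv A.Carrier (Cn d)) (he : e ∈ A.core.atlas),
    {A.core.openPartialHomeomorph e he}
  simp only [mem_iUnion, mem_singleton_iff]
  exact ⟨A.pe i, ⟨i, rfl⟩, rfl⟩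

theorem mem_atlas_iff {e : OpenPartialHomeomorph A.Carrier (Cn d)} :
    e ∈ atlas (Cn d) A.Carrier ↔ ∃ i, e = A.chart i := by
  constructor
  · intro he
    change e ∈ ⋃ (e : PartialEquiv A.Carrier (Cn d)) (he : e ∈ A.core.atlas),
      {A.core.openPartialHomeomorph e he} at he
    simp only [mem_iUnion, mem_singleton_iff] at he
    obtain ⟨_, ⟨i, rfl⟩, rfl⟩ := he
    exact ⟨i, rfl⟩
  · rintro ⟨i, rfl⟩
    exact A.chart_mem_atlas i

theorem chartAt_eq (x : A.Carrier) : chartAt (Cn d) x = A.chart (A.idx x) := rfl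

/-- Local description of the change of charts. -/
theorem exists_transition' {i j : A.I} {y : Cn d}
    (hy : y ∈ ((A.chart i).symm ≫ₕ (A.chart j)).source) :
    ∃ τ : Cn d → Cn d, AnalyticAt ℂ τ y ∧
      ∀ᶠ w in 𝓝 y, ((A.chart i).symm ≫ₕ (A.chart j)) w = τ w := by
  obtain ⟨τ, hτ, hev⟩ := A.exists_transition (i := i) (j := j) hy
  exact ⟨τ, hτ, hev.mono fun w hw => hw.2⟩

instance instIsManifoldCarrier : IsManifold 𝓘(ℂ, Cn d) ω A.Carrier := by
  apply isManifold_of_contDiffOn
  intro e e' he he'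
  obtain ⟨i, rfl⟩ := A.mem_atlas_iff.1 he
  obtain ⟨j, rfl⟩ := A.mem_atlas_iff.1 he'
  simp only [modelWithCornersSelf_coe, modelWithCornersSelf_coe_symm, Function.comp_id,
    Function.id_comp, preimage_id, range_id, inter_univ]
  intro y hy
  obtain ⟨τ, hτ, hev⟩ := A.exists_transition' hy
  exact (hτ.contDiffAt.congr_of_eventuallyEq hev).contDiffWithinAt

theorem chart_mem_maximalAtlas (i : A.I) :
    A.chart i ∈ IsManifold.maximalAtlas 𝓘(ℂ, Cn d) ω A.Carrier :=
  IsManifold.subset_maximalAtlas (A.chart_mem_atlas i)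

theorem isOpen_chart_source (i : A.I) : IsOpen (A.chart i).source := (A.chart i).open_source

/-- The parametrisations are continuous. -/
theorem continuousOn_chart_symm (i : A.I) : ContinuousOn (A.chart i).symm (A.D i) :=
  (A.chart i).continuousOn_symm

end ParamAtlas

end Claimed.Open.R041
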