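/-
Result 041, sanity: the Kummer surface of `ℂ²/ℤ[i]²` as a complex manifold.

Part of the checked example (a Kummer K3 surface) for the hypotheses of `StrongSYZ`.

Let `Λ = ℤ[i]² ⊆ ℂ²` and let `G = Λ ⋊ {±1}` act on `ℂ²`.  The Kummer surface is the minimal resolution
of `ℂ²/G`: each of the `16` singular points (the images of the points of `½Λ`) is replaced by a
projective line.  Near the image of `μ ∈ ½Λ` it has the two charts `(a, t)`, standing for
`μ ± √a (1, t)` resp. `μ ± √a (t, 1)`; away from the exceptional curves `z ∈ ℂ²` is a local coordinate.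
-/
import Claimed.Open.R041.K3Atlas

open scoped Manifold ContDiff Topology
open Set

namespace Claimed.Open.R041

namespace Kummer

/-! ### Vectors in `ℂ²` -/

/-- The vector `(a, b) ∈ ℂ²`. -/
noncomputable def mk2 (a b : ℂ) : Cn 2 := !₂[a, b]

@[simp] theorem mk2_zero (a b : ℂ) : mk2 a b 0 = a := rfl
@[simp] theorem mk2_one (a b : ℂ) : mk2 a b 1 = b := rfl

theorem mk2_eta (y : Cn 2) : mk2 (y 0) (y 1) = y := by
  ext j; fin_cases j <;> rfl

theorem ext2 {y y' : Cn 2} (h0 : y 0 = y' 0) (h1 : y 1 = y' 1) : y = y' := by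
  ext j; fin_cases j
  · exact h0
  · exact h1

theorem mk2_eq (a b : ℂ) :
    mk2 a b = a • EuclideanSpace.single (0 : Fin 2) (1 : ℂ) + b • EuclideanSpace.single 1 (1 : ℂ) := by
  apply ext2 <;> simp

theorem analyticAt_coord (j : Fin 2) (y : Cn 2) : AnalyticAt ℂ (fun w : Cn 2 => w j) y :=
  (EuclideanSpace.proj (𝕜 := ℂ) j).analyticAt y

theorem analyticAt_mk2 {E : Type} [NormedAddCommGroup E] [NormedSpace ℂ E] {f g : E → ℂ} {x : E}
    (hf : AnalyticAt ℂ f x) (hg : AnalyticAt ℂ g x) : AnalyticAt ℂ (fun w => mk2 (f w) (g w)) x := by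
  simp only [mk2_eq]
  exact (hf.smul analyticAt_const).add (hg.smul analyticAt_const)

/-- The other index. -/
def oth (κ : Fin 2) : Fin 2 := κ + 1

theorem oth_ne (κ : Fin 2) : oth κ ≠ κ := by fin_cases κ <;> decide
theorem oth_oth (κ : Fin 2) : oth (oth κ) = κ := by fin_cases κ <;> rfl
theorem eq_oth_of_ne {κ κ' : Fin 2} (h : κ ≠ κ') : κ' = oth κ := by
  fin_cases κ <;> fin_cases κ' <;> first | rfl | exact absurd rfl h

theorem ext_oth (κ : Fin 2) {y y' : Cn 2} (h0 : y κ = y' κ) (h1 : y (oth κ) = y' (oth κ)) :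
    y = y' := by
  fin_cases κ
  · exact ext2 h0 h1
  · exact ext2 h1 h0

/-- The vector with `κ`-th coordinate `1` and the other coordinate `t`. -/
noncomputable def vec (κ : Fin 2) (t : ℂ) : Cn 2 :=
  EuclideanSpace.single κ (1 : ℂ) + t • EuclideanSpace.single (oth κ) (1 : ℂ)

@[simp] theorem vec_self (κ : Fin 2) (t : ℂ) : vec κ t κ = 1 := by
  simp [vec, (oth_ne κ).symm]

@[simp] theorem vec_oth (κ : Fin 2) (t : ℂ) : vec κ t (oth κ) = t := by
  simp [vec, oth_ne κ]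

theorem analyticAt_vec {E : Type} [NormedAddCommGroup E] [NormedSpace ℂ E] (κ : Fin 2) {f : E → ℂ}
    {x : E} (hf : AnalyticAt ℂ f x) : AnalyticAt ℂ (fun w => vec κ (f w)) x :=
  analyticAt_const.add (hf.smul analyticAt_const)

theorem smul_vec_div (κ : Fin 2) {c : Cn 2} (h : c κ ≠ 0) : c κ • vec κ (c (oth κ) / c κ) = c := by
  apply ext_oth κ
  · simp
  · simp [mul_div_cancel₀ _ h]

theorem smul_vec_oth_inv (κ : Fin 2) {t : ℂ} (h : t ≠ 0) : t • vec (oth κ) t⁻¹ = vec κ t := by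
  apply ext_oth κ
  · have := vec_oth (oth κ) t⁻¹
    rw [oth_oth] at this
    simp [this, h]
  · simp

/-- `sq (ρ²) = 2 max((Re ρ)², (Im ρ)²)`. -/
noncomputable def sq (w : ℂ) : ℝ := ‖w‖ + |w.re|

theorem sq_sq (ρ : ℂ) : sq (ρ ^ 2) = 2 * max (ρ.re ^ 2) (ρ.im ^ 2) := by
  have h1 : ‖ρ ^ 2‖ = ρ.re ^ 2 + ρ.im ^ 2 := by
    rw [norm_pow, Complex.sq_norm, Complex.normSq_apply]; ring
  have h2 : (ρ ^ 2).re = ρ.re ^ 2 - ρ.im ^ 2 := by
    rw [pow_two, Complex.mul_re]; ring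
  rw [sq, h1, h2]
  rcases le_total (ρ.re ^ 2) (ρ.im ^ 2) with h | h
  · rw [max_eq_right h, abs_of_nonpos (by linarith)]; ring
  · rw [max_eq_left h, abs_of_nonneg (by linarith)]; ring

theorem sq_sq_lt_iff (ρ : ℂ) {r : ℝ} (hr : 0 < r) :
    sq (ρ ^ 2) < 2 * r ^ 2 ↔ |ρ.re| < r ∧ |ρ.im| < r := by
  rw [sq_sq, mul_lt_mul_iff_right₀ (by norm_num : (0 : ℝ) < 2), max_lt_iff,
    sq_lt_sq, sq_lt_sq, abs_of_pos hr]

theorem continuous_sq : Continuous sq := by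
  unfold sq
  fun_prop

/-! ### The lattice -/

/-- The lattice `Λ = ℤ[i]² ⊆ ℂ²`. -/
def Lat : AddSubgroup (Cn 2) where
  carrier := {z | ∀ j, (∃ m : ℤ, (z j).re = m) ∧ ∃ n : ℤ, (z j).im = n}
  zero_mem' := fun j => ⟨⟨0, by simp⟩, ⟨0, by simp⟩⟩
  add_mem' := by
    intro a b ha hb j
    obtain ⟨⟨m, hm⟩, ⟨n, hn⟩⟩ := ha j
    obtain ⟨⟨m', hm'⟩, ⟨n', hn'⟩⟩ := hb j
    exact ⟨⟨m + m', by simp [hm, hm']⟩, ⟨n + n', by simp [hn, hn']⟩⟩
  neg_mem' := by
    intro a ha j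
    obtain ⟨⟨m, hm⟩, ⟨n, hn⟩⟩ := ha j
    exact ⟨⟨-m, by simp [hm]⟩, ⟨-n, by simp [hn]⟩⟩

theorem mem_Lat {z : Cn 2} :
    z ∈ Lat ↔ ∀ j, (∃ m : ℤ, (z j).re = m) ∧ ∃ n : ℤ, (z j).im = n := Iff.rfl

/-- The half-lattice `½Λ`: the points of `ℂ²` lying over the `16` two-torsion points. -/
def HalfLat : AddSubgroup (Cn 2) where
  carrier := {z | z + z ∈ Lat}
  zero_mem' := by simp
  add_mem' := by
    intro a b ha hb
    have : a + b + (a + b) = (a + a) + (b + b) := by abel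
    simp only [mem_ofPred_eq] at ha hb ⊢
    rw [this]; exact Lat.add_mem ha hb
  neg_mem' := by
    intro a ha
    have : -a + -a = -(a + a) := by abel
    simp only [mem_ofPred_eq] at ha ⊢
    rw [this]; exact Lat.neg_mem ha

theorem mem_HalfLat {z : Cn 2} : z ∈ HalfLat ↔ z + z ∈ Lat := Iff.rfl

theorem Lat_le_HalfLat : Lat ≤ HalfLat := fun _ hz => Lat.add_mem hz hz

/-- The open unit cube centred at the origin. -/
def Cube : Set (Cn 2) := {c | ∀ j, |(c j).re| < 1 / 2 ∧ |(c j).im| < 1 / 2}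

theorem int_eq_zero_of_abs_lt_one {x : ℝ} (h : ∃ m : ℤ, x = m) (hx : |x| < 1) : x = 0 := by
  obtain ⟨m, rfl⟩ := h
  have : |m| < 1 := by exact_mod_cast hx
  have : m = 0 := Int.abs_lt_one_iff.1 this
  simp [this]

theorem eq_zero_of_mem_Lat_of_abs_lt {z : Cn 2} (hz : z ∈ Lat)
    (h : ∀ j, |(z j).re| < 1 ∧ |(z j).im| < 1) : z = 0 := by
  ext j
  apply Complex.ext
  · simpa using int_eq_zero_of_abs_lt_one (hz j).1 (h j).1
  · simpa using int_eq_zero_of_abs_lt_one (hz j).2 (h j).2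

theorem neg_mem_Cube {c : Cn 2} (hc : c ∈ Cube) : -c ∈ Cube := by
  intro j
  simpa using hc j

theorem eq_of_sub_mem_Lat {c c' : Cn 2} (hc : c ∈ Cube) (hc' : c' ∈ Cube) (h : c - c' ∈ Lat) :
    c = c' := by
  rw [← sub_eq_zero]
  refine eq_zero_of_mem_Lat_of_abs_lt h fun j => ?_
  have h1 := hc j
  have h2 := hc' j
  simp only [PiLp.sub_apply, Complex.sub_re, Complex.sub_im]
  constructor
  · have := abs_sub (c j).re (c' j).re; linarith [h1.1, h2.1]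
  · have := abs_sub (c j).im (c' j).im; linarith [h1.2, h2.2]

theorem eq_zero_of_mem_HalfLat_of_mem_Cube {c : Cn 2} (hc : c ∈ Cube) (h : c ∈ HalfLat) : c = 0 := by
  have h1 : c - (-c) ∈ Lat := by rw [sub_neg_eq_add]; exact h
  have h2 := eq_of_sub_mem_Lat hc (neg_mem_Cube hc) h1
  have h3 : (2 : ℂ) • c = 0 := by rw [two_smul]; nth_rewrite 1 [h2]; simp
  simpa using h3

/-! ### The set -/

/-- Data for a point of (a space containing) the Kummer surface: a half-lattice point `μ`, a vector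
`v` and a number `ξ`.  For `ξ ≠ 0` it stands for the image of `μ ± √ξ v ∈ ℂ²`; for `ξ = 0` it stands
for the point `[v]` of the exceptional curve over `μ`. -/
structure Trip where
  μ : HalfLat
  v : Cn 2
  ξ : ℂ

/-- The equivalence relation. -/
def Rel (t t' : Trip) : Prop :=
  (t.ξ = 0 ∧ t'.ξ = 0 ∧ (t.μ : Cn 2) - t'.μ ∈ Lat ∧ ∃ c : ℂ, c ≠ 0 ∧ t'.v = c • t.v) ∨
  ∃ ρ ρ' : ℂ, ρ ≠ 0 ∧ ρ' ≠ 0 ∧ ρ ^ 2 = t.ξ ∧ ρ' ^ 2 = t'.ξ ∧
    ((t.μ : Cn 2) + ρ • t.v) - (t'.μ + ρ' • t'.v) ∈ Lat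

theorem exists_root (ξ : ℂ) : ∃ ρ : ℂ, ρ ^ 2 = ξ := by
  obtain ⟨ρ, hρ⟩ := IsAlgClosed.exists_pow_nat_eq ξ (n := 2) (by norm_num)
  exact ⟨ρ, hρ⟩

theorem Rel.refl (t : Trip) : Rel t t := by
  by_cases h : t.ξ = 0
  · exact Or.inl ⟨h, h, by simp, 1, one_ne_zero, by simp⟩
  · obtain ⟨ρ, hρ⟩ := exists_root t.ξ
    have hρ0 : ρ ≠ 0 := by rintro rfl; apply h; rw [← hρ]; simp
    exact Or.inr ⟨ρ, ρ, hρ0, hρ0, hρ, hρ, by simp⟩

theorem Rel.symm {t t' : Trip} (h : Rel t t') : Rel t' t := by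
  rcases h with ⟨h1, h2, h3, c, hc, hv⟩ | ⟨ρ, ρ', h1, h2, h3, h4, h5⟩
  · refine Or.inl ⟨h2, h1, ?_, c⁻¹, inv_ne_zero hc, ?_⟩
    · have := Lat.neg_mem h3; simpa using this
    · rw [hv, smul_smul, inv_mul_cancel₀ hc, one_smul]
  · refine Or.inr ⟨ρ', ρ, h2, h1, h4, h3, ?_⟩
    have := Lat.neg_mem h5; simpa using this

theorem Rel.trans {t t' t'' : Trip} (h : Rel t t') (h' : Rel t' t'') : Rel t t'' := by
  rcases h with ⟨h1, h2, h3, c, hc, hv⟩ | ⟨ρ, ρ', h1, h2, h3, h4, h5⟩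
  · rcases h' with ⟨k1, k2, k3, c', hc', hv'⟩ | ⟨σ, σ', k1, k2, k3, k4, k5⟩
    · refine Or.inl ⟨h1, k2, ?_, c' * c, mul_ne_zero hc' hc, ?_⟩
      · have := Lat.add_mem h3 k3; simpa using this
      · rw [hv', hv, smul_smul]
    · exfalso; apply k1; rw [h2] at k3; simpa using k3
  · rcases h' with ⟨k1, k2, k3, c', hc', hv'⟩ | ⟨σ, σ', k1, k2, k3, k4, k5⟩
    · exfalso; apply h2; rw [k1] at h4; simpa using h4
    · have hsq : σ ^ 2 = ρ' ^ 2 := by rw [k3, h4]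
      rcases sq_eq_sq_iff_eq_or_eq_neg.1 hsq with rfl | rfl
      · refine Or.inr ⟨ρ, σ', h1, k2, h3, k4, ?_⟩
        have := Lat.add_mem h5 k5
        simpa using this
      · refine Or.inr ⟨ρ, -σ', h1, neg_ne_zero.2 k2, h3, by rw [neg_sq, k4], ?_⟩
        have e1 := Lat.neg_mem k5
        have e2 : (t'.μ : Cn 2) + t'.μ ∈ Lat := t'.μ.2
        have e3 : (t''.μ : Cn 2) + t''.μ ∈ Lat := t''.μ.2
        have := Lat.sub_mem (Lat.add_mem (Lat.add_mem h5 e1) e2) e3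
        convert this using 1
        simp only [neg_smul]
        abel

/-- The setoid. -/
def setoid : Setoid Trip := ⟨Rel, Rel.refl, Rel.symm, Rel.trans⟩

/-- The ambient set. -/
def Amb : Type := Quotient setoid

/-- The class of a triple. -/
def cls (μ : HalfLat) (v : Cn 2) (ξ : ℂ) : Amb := Quotient.mk setoid ⟨μ, v, ξ⟩

theorem cls_eq_cls {μ μ' : HalfLat} {v v' : Cn 2} {ξ ξ' : ℂ} :
    cls μ v ξ = cls μ' v' ξ' ↔ Rel ⟨μ, v, ξ⟩ ⟨μ', v', ξ'⟩ :=
  ⟨fun h => Quotient.exact h, fun h => Quotient.sound h⟩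

/-- Homogeneity: `[μ, c v, ξ] = [μ, v, c² ξ]`. -/
theorem cls_smul (μ : HalfLat) (v : Cn 2) (ξ : ℂ) {c : ℂ} (hc : c ≠ 0) :
    cls μ (c • v) ξ = cls μ v (c ^ 2 * ξ) := by
  rw [cls_eq_cls]
  by_cases h : ξ = 0
  · exact Or.inl ⟨h, by simp [h], by simp, c⁻¹, inv_ne_zero hc, by
      simp [smul_smul, inv_mul_cancel₀ hc]⟩
  · obtain ⟨ρ, hρ⟩ := exists_root ξ
    have hρ0 : ρ ≠ 0 := by rintro rfl; apply h; rw [← hρ]; simp
    refine Or.inr ⟨ρ, c * ρ, hρ0, mul_ne_zero hc hρ0, hρ, by simp [mul_pow, hρ], ?_⟩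
    simp [smul_smul, mul_comm]

/-- The class only depends on `μ` modulo the lattice. -/
theorem cls_congr_Lat {μ μ' : HalfLat} (h : (μ : Cn 2) - μ' ∈ Lat) (v : Cn 2) (ξ : ℂ) :
    cls μ v ξ = cls μ' v ξ := by
  rw [cls_eq_cls]
  by_cases h0 : ξ = 0
  · exact Or.inl ⟨h0, h0, h, 1, one_ne_zero, by simp⟩
  · obtain ⟨ρ, hρ⟩ := exists_root ξ
    have hρ0 : ρ ≠ 0 := by rintro rfl; apply h0; rw [← hρ]; simp
    refine Or.inr ⟨ρ, ρ, hρ0, hρ0, hρ, hρ, ?_⟩
    simpa using h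

/-- The image of `z ∈ ℂ²`. -/
def img (z : Cn 2) : Amb := cls 0 z 1

theorem cls_eq_img (μ : HalfLat) (v : Cn 2) {ρ : ℂ} (hρ : ρ ≠ 0) :
    cls μ v (ρ ^ 2) = img ((μ : Cn 2) + ρ • v) := by
  rw [img, cls_eq_cls]
  exact Or.inr ⟨ρ, 1, hρ, one_ne_zero, rfl, by simp, by simp⟩

theorem eq_one_or_neg_one_of_sq {ρ : ℂ} (h : ρ ^ 2 = 1) : ρ = 1 ∨ ρ = -1 :=
  sq_eq_one_iff.1 h

theorem img_eq_img {z z' : Cn 2} : img z = img z' ↔ z - z' ∈ Lat ∨ z + z' ∈ Lat := by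
  rw [img, img, cls_eq_cls]
  constructor
  · rintro (⟨h, -⟩ | ⟨ρ, ρ', -, -, h3, h4, h5⟩)
    · simp at h
    · simp only [ZeroMemClass.coe_zero, zero_add] at h5
      have h3' : ρ = 1 ∨ ρ = -1 := eq_one_or_neg_one_of_sq h3
      have h4' : ρ' = 1 ∨ ρ' = -1 := eq_one_or_neg_one_of_sq h4
      rcases h3' with rfl | rfl <;> rcases h4' with rfl | rfl
      · left; simpa using h5
      · right; simpa using h5
      · right; have := Lat.neg_mem h5; simpa [add_comm] using this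
      · left; have := Lat.neg_mem h5; simpa [sub_eq_add_neg, add_comm] using this
  · rintro (h | h)
    · exact Or.inr ⟨1, 1, one_ne_zero, one_ne_zero, by simp, by simp, by simpa using h⟩
    · exact Or.inr ⟨1, -1, one_ne_zero, by simp, by simp, by simp, by simpa using h⟩


/-! ### Topology of the lattice -/

theorem isClosed_Lat : IsClosed (Lat : Set (Cn 2)) := by
  have hZ : IsClosed (range ((↑) : ℤ → ℝ)) := Int.isClosedEmbedding_coe_real.isClosed_range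
  have : (Lat : Set (Cn 2)) = ⋂ j : Fin 2, ((fun z : Cn 2 => (z j).re) ⁻¹' range ((↑) : ℤ → ℝ)) ∩
      ((fun z : Cn 2 => (z j).im) ⁻¹' range ((↑) : ℤ → ℝ)) := by
    ext z
    simp only [SetLike.mem_coe, mem_Lat, mem_iInter, mem_inter_iff, mem_preimage, mem_range]
    refine forall_congr' fun j => and_congr ?_ ?_ <;>
      exact ⟨fun ⟨m, hm⟩ => ⟨m, hm.symm⟩, fun ⟨m, hm⟩ => ⟨m, hm.symm⟩⟩
  rw [this]
  refine isClosed_iInter fun j => IsClosed.inter ?_ ?_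
  · exact hZ.preimage (Complex.continuous_re.comp (EuclideanSpace.proj (𝕜 := ℂ) j).continuous)
  · exact hZ.preimage (Complex.continuous_im.comp (EuclideanSpace.proj (𝕜 := ℂ) j).continuous)

theorem isClosed_HalfLat : IsClosed (HalfLat : Set (Cn 2)) :=
  isClosed_Lat.preimage (f := fun z : Cn 2 => z + z) (by fun_prop)

theorem abs_re_le_norm (z : Cn 2) (j : Fin 2) : |(z j).re| ≤ ‖z‖ :=
  (Complex.abs_re_le_norm _).trans (PiLp.norm_apply_le z j)

theorem abs_im_le_norm (z : Cn 2) (j : Fin 2) : |(z j).im| ≤ ‖z‖ :=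
  (Complex.abs_im_le_norm _).trans (PiLp.norm_apply_le z j)

theorem eq_zero_of_mem_Lat_of_norm_lt {z : Cn 2} (hz : z ∈ Lat) (h : ‖z‖ < 1) : z = 0 :=
  eq_zero_of_mem_Lat_of_abs_lt hz fun j =>
    ⟨(abs_re_le_norm z j).trans_lt h, (abs_im_le_norm z j).trans_lt h⟩

/-- The radius of the coordinate ball around a point `z ∉ ½Λ`. -/
noncomputable def rad (z : Cn 2) : ℝ := min (1 / 2) (Metric.infDist z (HalfLat : Set (Cn 2)))

theorem rad_pos {z : Cn 2} (hz : z ∉ HalfLat) : 0 < rad z := by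
  refine lt_min (by norm_num) ?_
  exact (isClosed_HalfLat.notMem_iff_infDist_pos ⟨0, HalfLat.zero_mem⟩).1 hz

theorem rad_le_half (z : Cn 2) : rad z ≤ 1 / 2 := min_le_left _ _

theorem rad_le_dist (z : Cn 2) {μ : Cn 2} (hμ : μ ∈ HalfLat) : rad z ≤ dist z μ :=
  (min_le_right _ _).trans (Metric.infDist_le_dist_of_mem hμ)

theorem notMem_HalfLat_of_mem_ball {z y : Cn 2} (hy : y ∈ Metric.ball z (rad z)) : y ∉ HalfLat := by
  intro h
  have := rad_le_dist z h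
  rw [Metric.mem_ball, dist_comm] at hy
  linarith

/-! ### The parametrisations -/

/-- The domain of the charts `(a, t)` near an exceptional curve: `±√a (1, t)` lies in the cube. -/
def DA : Set (Cn 2) := {y | sq (y 0) < 1 / 2 ∧ sq (y 0 * y 1 ^ 2) < 1 / 2}

theorem isOpen_DA : IsOpen DA := by
  have h0 : Continuous fun y : Cn 2 => y 0 := (EuclideanSpace.proj (𝕜 := ℂ) (0 : Fin 2)).continuous
  have h1 : Continuous fun y : Cn 2 => y 1 := (EuclideanSpace.proj (𝕜 := ℂ) (1 : Fin 2)).continuous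
  exact (isOpen_lt (continuous_sq.comp h0) continuous_const).inter
    (isOpen_lt (continuous_sq.comp (h0.mul (h1.pow 2))) continuous_const)

theorem smul_vec_mem_Cube {y : Cn 2} (hy : y ∈ DA) (κ : Fin 2) {ρ : ℂ} (hρ : ρ ^ 2 = y 0) :
    ρ • vec κ (y 1) ∈ Cube := by
  have key : ∀ w : ℂ, sq (w ^ 2) < 1 / 2 → |w.re| < 1 / 2 ∧ |w.im| < 1 / 2 := by
    intro w hw
    exact (sq_sq_lt_iff w (by norm_num : (0 : ℝ) < 1 / 2)).1 (by norm_num; linarith)
  have h1 := key ρ (by rw [hρ]; exact hy.1)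
  have h2 := key (ρ * y 1) (by rw [mul_pow, hρ]; exact hy.2)
  intro j
  by_cases hj : j = κ
  · subst hj; simpa using h1
  · have : j = oth κ := eq_oth_of_ne (Ne.symm hj)
    subst this; simpa using h2

/-- The index set of the atlas. -/
abbrev Idx : Type := (HalfLat × Fin 2) ⊕ {z : Cn 2 // z ∉ HalfLat}

/-- The domains of the parametrisations. -/
def dom : Idx → Set (Cn 2)
  | .inl _ => DA
  | .inr z => Metric.ball z.1 (rad z.1)

/-- The parametrisations. -/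
noncomputable def par : Idx → Cn 2 → Amb
  | .inl p => fun y => cls p.1 (vec p.2 (y 1)) (y 0)
  | .inr _ => img

theorem isOpen_dom (i : Idx) : IsOpen (dom i) := by
  rcases i with p | z
  · exact isOpen_DA
  · exact Metric.isOpen_ball

theorem injOn_par (i : Idx) : InjOn (par i) (dom i) := by
  rcases i with ⟨μ, κ⟩ | z
  · intro y hy y' hy' h
    rcases cls_eq_cls.1 h with ⟨h1, h2, -, c, -, hv⟩ | ⟨ρ, ρ', hρ, -, h3, h4, h5⟩
    · have e1 := congrArg (fun w : Cn 2 => w κ) hv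
      have e2 := congrArg (fun w : Cn 2 => w (oth κ)) hv
      simp only [vec_self, PiLp.smul_apply, smul_eq_mul, mul_one, vec_oth] at e1 e2
      rw [← e1, one_mul] at e2
      exact ext2 (h1.trans h2.symm) e2.symm
    · have hc := smul_vec_mem_Cube hy κ h3
      have hc' := smul_vec_mem_Cube hy' κ h4
      have : ρ • vec κ (y 1) = ρ' • vec κ (y' 1) := by
        apply eq_of_sub_mem_Lat hc hc'
        simpa using h5
      have e1 := congrArg (fun w : Cn 2 => w κ) this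
      have e2 := congrArg (fun w : Cn 2 => w (oth κ)) this
      simp only [vec_self, PiLp.smul_apply, smul_eq_mul, mul_one, vec_oth] at e1 e2
      subst e1
      exact ext2 (h3.symm.trans h4) (mul_left_cancel₀ hρ e2)
  · intro y hy y' hy' h
    have hy1 : dist y z.1 < rad z.1 := hy
    have hy2 : dist y' z.1 < rad z.1 := hy'
    have hr := rad_le_half z.1
    rcases img_eq_img.1 h with h | h
    · rw [← sub_eq_zero]
      apply eq_zero_of_mem_Lat_of_norm_lt h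
      rw [← dist_eq_norm]
      have := dist_triangle_right y y' z.1
      linarith
    · exfalso
      have hm : (1 / 2 : ℂ) • (y + y') ∈ HalfLat := by
        rw [mem_HalfLat, ← two_smul ℂ, smul_smul]
        norm_num
        exact h
      have h1 := rad_le_dist z.1 hm
      have h2 : dist z.1 ((1 / 2 : ℂ) • (y + y')) ≤ (dist y z.1 + dist y' z.1) / 2 := by
        rw [dist_eq_norm, dist_eq_norm, dist_eq_norm]
        have e : z.1 - (1 / 2 : ℂ) • (y + y') = (1 / 2 : ℂ) • (-(y - z.1) + -(y' - z.1)) := by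
          simp only [smul_add, smul_neg, smul_sub]
          have : z.1 = (1 / 2 : ℂ) • z.1 + (1 / 2 : ℂ) • z.1 := by
            rw [← add_smul]; norm_num
          nth_rewrite 1 [this]
          abel
        rw [e, norm_smul]
        have := norm_add_le (-(y - z.1)) (-(y' - z.1))
        rw [norm_neg, norm_neg] at this
        have h12 : ‖(1 / 2 : ℂ)‖ = 1 / 2 := by norm_num
        rw [h12]
        linarith
      linarith

/-! ### Local square roots -/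

/-- The branch of `√a` near `a₀` with value `ρ₀` at `a₀`. -/
noncomputable def root (a₀ ρ₀ a : ℂ) : ℂ := ρ₀ * Complex.exp (Complex.log (a / a₀) / 2)

theorem root_ne_zero {a₀ ρ₀ : ℂ} (hρ₀ : ρ₀ ≠ 0) (a : ℂ) : root a₀ ρ₀ a ≠ 0 :=
  mul_ne_zero hρ₀ (Complex.exp_ne_zero _)

theorem root_sq {a₀ ρ₀ a : ℂ} (hρ₀ : ρ₀ ≠ 0) (h : ρ₀ ^ 2 = a₀) (ha : a ≠ 0) :
    root a₀ ρ₀ a ^ 2 = a := by
  have ha₀ : a₀ ≠ 0 := by rw [← h]; exact pow_ne_zero 2 hρ₀
  rw [root, mul_pow, ← Complex.exp_nat_mul, h]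
  have : ((2 : ℕ) : ℂ) * (Complex.log (a / a₀) / 2) = Complex.log (a / a₀) := by
    push_cast; ring
  rw [this, Complex.exp_log (div_ne_zero ha ha₀), mul_div_cancel₀ _ ha₀]

theorem root_self {a₀ ρ₀ : ℂ} (ha₀ : a₀ ≠ 0) : root a₀ ρ₀ a₀ = ρ₀ := by
  simp [root, div_self ha₀]

theorem analyticAt_root {a₀ : ℂ} (ρ₀ : ℂ) (ha₀ : a₀ ≠ 0) : AnalyticAt ℂ (root a₀ ρ₀) a₀ := by
  unfold root
  have h1 : AnalyticAt ℂ (fun a : ℂ => a / a₀) a₀ := analyticAt_id.div analyticAt_const ha₀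
  have h2 : AnalyticAt ℂ (fun a : ℂ => Complex.log (a / a₀)) a₀ :=
    h1.clog (by simp [div_self ha₀])
  exact analyticAt_const.mul ((h2.div analyticAt_const two_ne_zero).cexp)

/-! ### Passing between the charts and `ℂ²` -/

/-- From the chart `(a, t)` at `μ` to `ℂ²`. -/
noncomputable def liftA (μ : Cn 2) (κ : Fin 2) (a₀ ρ₀ : ℂ) (w : Cn 2) : Cn 2 :=
  μ + root a₀ ρ₀ (w 0) • vec κ (w 1)

/-- From `ℂ²` to the chart `(a, t)` at `μ`. -/
noncomputable def coordA (μ : Cn 2) (κ : Fin 2) (z : Cn 2) : Cn 2 :=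
  mk2 ((z - μ) κ ^ 2) ((z - μ) (oth κ) / (z - μ) κ)

theorem analyticAt_liftA (μ : Cn 2) (κ : Fin 2) {ρ₀ : ℂ} {y₀ : Cn 2} (h0 : y₀ 0 ≠ 0) :
    AnalyticAt ℂ (liftA μ κ (y₀ 0) ρ₀) y₀ := by
  unfold liftA
  have h1 : AnalyticAt ℂ (fun w : Cn 2 => root (y₀ 0) ρ₀ (w 0)) y₀ :=
    AnalyticAt.comp (g := root (y₀ 0) ρ₀) (f := fun w : Cn 2 => w 0) (analyticAt_root ρ₀ h0)
      (analyticAt_coord 0 y₀)
  exact analyticAt_const.add (h1.smul (analyticAt_vec κ (analyticAt_coord 1 y₀)))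

theorem liftA_self (μ : Cn 2) (κ : Fin 2) {ρ₀ : ℂ} {y₀ : Cn 2} (h0 : y₀ 0 ≠ 0) :
    liftA μ κ (y₀ 0) ρ₀ y₀ = μ + ρ₀ • vec κ (y₀ 1) := by
  rw [liftA, root_self h0]

theorem par_eq_img_liftA (μ : HalfLat) (κ : Fin 2) {a₀ ρ₀ : ℂ} (hρ₀ : ρ₀ ≠ 0) (h : ρ₀ ^ 2 = a₀)
    {w : Cn 2} (hw : w 0 ≠ 0) : par (.inl (μ, κ)) w = img (liftA μ κ a₀ ρ₀ w) := by
  rw [liftA, ← cls_eq_img μ _ (root_ne_zero hρ₀ _), root_sq hρ₀ h hw]
  rfl

theorem analyticAt_coordA (μ : Cn 2) (κ : Fin 2) {z₀ : Cn 2} (h0 : (z₀ - μ) κ ≠ 0) :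
    AnalyticAt ℂ (coordA μ κ) z₀ := by
  unfold coordA
  have h1 : ∀ j : Fin 2, AnalyticAt ℂ (fun z : Cn 2 => (z - μ) j) z₀ := fun j => by
    have : (fun z : Cn 2 => (z - μ) j) = fun z : Cn 2 => z j - μ j := by
      funext z; simp
    rw [this]
    exact (analyticAt_coord j z₀).sub analyticAt_const
  exact analyticAt_mk2 ((h1 κ).pow 2) ((h1 (oth κ)).div (h1 κ) h0)

theorem par_coordA (μ : HalfLat) (κ : Fin 2) {l : Cn 2} (hl : l ∈ Lat) {z : Cn 2}
    (h0 : (z - (μ + l)) κ ≠ 0) : par (.inl (μ, κ)) (coordA (μ + l) κ z) = img z := by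
  change cls μ (vec κ _) _ = _
  simp only [coordA, mk2_zero, mk2_one]
  rw [cls_eq_img μ _ h0, smul_vec_div κ h0, img_eq_img]
  left
  have : (μ : Cn 2) + (z - (μ + l)) - z = -l := by abel
  rw [this]
  exact Lat.neg_mem hl

theorem coordA_add_smul_vec (μ : Cn 2) (κ : Fin 2) {ρ : ℂ} (hρ : ρ ≠ 0) (t : ℂ) :
    coordA μ κ (μ + ρ • vec κ t) = mk2 (ρ ^ 2) t := by
  simp [coordA, hρ]

/-! ### The changes of parameter -/

/-- The triple attached to a parameter value. -/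
noncomputable def trip : Idx → Cn 2 → Trip
  | .inl p => fun y => ⟨p.1, vec p.2 (y 1), y 0⟩
  | .inr _ => fun y => ⟨0, y, 1⟩

theorem par_eq_trip (i : Idx) (y : Cn 2) :
    par i y = cls (trip i y).μ (trip i y).v (trip i y).ξ := by
  rcases i with p | z <;> rfl

theorem exists_lift (i : Idx) (y₀ : Cn 2) {ρ₀ : ℂ} (hρ₀ : ρ₀ ≠ 0) (h : ρ₀ ^ 2 = (trip i y₀).ξ) :
    ∃ S : Cn 2 → Cn 2, AnalyticAt ℂ S y₀ ∧ S y₀ = (trip i y₀).μ + ρ₀ • (trip i y₀).v ∧
      ∀ᶠ w in 𝓝 y₀, par i w = img (S w) := by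
  rcases i with ⟨μ, κ⟩ | z
  · have h' : ρ₀ ^ 2 = y₀ 0 := h
    have h0 : y₀ 0 ≠ 0 := by rw [← h']; exact pow_ne_zero 2 hρ₀
    refine ⟨liftA μ κ (y₀ 0) ρ₀, analyticAt_liftA _ κ h0, liftA_self _ κ h0, ?_⟩
    have : ∀ᶠ w : Cn 2 in 𝓝 y₀, w 0 ≠ 0 :=
      (analyticAt_coord 0 y₀).continuousAt.eventually_ne h0
    filter_upwards [this] with w hw
    exact par_eq_img_liftA μ κ hρ₀ h' hw
  · have h' : ρ₀ ^ 2 = 1 := h
    refine ⟨fun w => ρ₀ • w, (analyticAt_const (v := ρ₀)).fun_smul analyticAt_id, by simp [trip], ?_⟩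
    refine Filter.Eventually.of_forall fun w => ?_
    change img w = img (ρ₀ • w)
    rcases eq_one_or_neg_one_of_sq h' with rfl | rfl
    · simp
    · rw [img_eq_img]; right; simp

theorem exists_coord (j : Idx) (y₀ : Cn 2) {ρ₀ : ℂ} (hρ₀ : ρ₀ ≠ 0) (h : ρ₀ ^ 2 = (trip j y₀).ξ)
    {l : Cn 2} (hl : l ∈ Lat) :
    ∃ E : Cn 2 → Cn 2, AnalyticAt ℂ E ((trip j y₀).μ + ρ₀ • (trip j y₀).v + l) ∧
      E ((trip j y₀).μ + ρ₀ • (trip j y₀).v + l) = y₀ ∧
      ∀ᶠ z in 𝓝 ((trip j y₀).μ + ρ₀ • (trip j y₀).v + l), par j (E z) = img z := by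
  rcases j with ⟨μ, κ⟩ | z
  · have h' : ρ₀ ^ 2 = y₀ 0 := h
    change ∃ E : Cn 2 → Cn 2, AnalyticAt ℂ E ((μ : Cn 2) + ρ₀ • vec κ (y₀ 1) + l) ∧
      E ((μ : Cn 2) + ρ₀ • vec κ (y₀ 1) + l) = y₀ ∧
      ∀ᶠ z in 𝓝 ((μ : Cn 2) + ρ₀ • vec κ (y₀ 1) + l), par (.inl (μ, κ)) (E z) = img z
    have e : (μ : Cn 2) + ρ₀ • vec κ (y₀ 1) + l = ((μ : Cn 2) + l) + ρ₀ • vec κ (y₀ 1) := by abel
    rw [e]
    have h0 : (((μ : Cn 2) + l) + ρ₀ • vec κ (y₀ 1) - ((μ : Cn 2) + l)) κ ≠ 0 := by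
      simpa using hρ₀
    refine ⟨coordA (μ + l) κ, analyticAt_coordA _ κ h0, ?_, ?_⟩
    · rw [coordA_add_smul_vec _ κ hρ₀, h', mk2_eta]
    · have hc : ContinuousAt (fun z : Cn 2 => (z - ((μ : Cn 2) + l)) κ)
          (((μ : Cn 2) + l) + ρ₀ • vec κ (y₀ 1)) := by
        have : Continuous fun z : Cn 2 => (z - ((μ : Cn 2) + l)) κ :=
          (EuclideanSpace.proj (𝕜 := ℂ) κ).continuous.comp (continuous_id.sub continuous_const)
        exact this.continuousAt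
      filter_upwards [hc.eventually_ne h0] with z hz
      exact par_coordA μ κ hl hz
  · have h' : ρ₀ ^ 2 = 1 := h
    refine ⟨fun w => ρ₀ • (w - l),
      (analyticAt_const (v := ρ₀)).fun_smul (analyticAt_id.fun_sub analyticAt_const), ?_, ?_⟩
    · simp only [trip, ZeroMemClass.coe_zero, zero_add, add_sub_cancel_right, smul_smul]
      rw [← pow_two, h', one_smul]
    · refine Filter.Eventually.of_forall fun w => ?_
      change img (ρ₀ • (w - l)) = img w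
      rcases eq_one_or_neg_one_of_sq h' with rfl | rfl
      · rw [img_eq_img]; left; simpa using Lat.neg_mem hl
      · rw [img_eq_img]; right; simpa using hl

theorem trans_par (i j : Idx) (y y' : Cn 2) (_hy : y ∈ dom i) (_hy' : y' ∈ dom j)
    (h : par i y = par j y') :
    ∃ τ : Cn 2 → Cn 2, AnalyticAt ℂ τ y ∧ τ y = y' ∧ ∀ᶠ w in 𝓝 y, par j (τ w) = par i w := by
  rw [par_eq_trip, par_eq_trip, cls_eq_cls] at h
  rcases h with ⟨h1, h2, h3, c, hc, hv⟩ | ⟨ρ, ρ', hρ, hρ', h3, h4, h5⟩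
  · -- a point of an exceptional curve
    rcases i with ⟨μ, κ⟩ | z
    swap
    · simp [trip] at h1
    rcases j with ⟨μ', κ'⟩ | z'
    swap
    · simp [trip] at h2
    have h1' : y 0 = 0 := h1
    have h2' : y' 0 = 0 := h2
    have h3' : (μ : Cn 2) - μ' ∈ Lat := h3
    have hv' : vec κ' (y' 1) = c • vec κ (y 1) := hv
    by_cases hκ : κ = κ'
    · subst hκ
      have e1 := congrArg (fun w : Cn 2 => w κ) hv'
      have e2 := congrArg (fun w : Cn 2 => w (oth κ)) hv'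
      simp only [vec_self, PiLp.smul_apply, smul_eq_mul, mul_one, vec_oth] at e1 e2
      rw [← e1, one_mul] at e2
      refine ⟨id, analyticAt_id, ext2 (h1'.trans h2'.symm) e2.symm, ?_⟩
      exact Filter.Eventually.of_forall fun w => (cls_congr_Lat h3' _ _).symm
    · have hκ' : κ' = oth κ := eq_oth_of_ne hκ
      subst hκ'
      have e1 := congrArg (fun w : Cn 2 => w κ) hv'
      have e2 := congrArg (fun w : Cn 2 => w (oth κ)) hv'
      have e3 := vec_oth (oth κ) (y' 1)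
      rw [oth_oth] at e3
      simp only [vec_self, PiLp.smul_apply, smul_eq_mul, mul_one, vec_oth, e3] at e1 e2
      have ht : y 1 ≠ 0 := by
        intro h0; rw [h0, mul_zero] at e2; exact one_ne_zero e2
      refine ⟨fun w => mk2 (w 0 * w 1 ^ 2) (w 1)⁻¹,
        analyticAt_mk2 ((analyticAt_coord 0 y).mul ((analyticAt_coord 1 y).pow 2))
          ((analyticAt_coord 1 y).inv ht), ?_, ?_⟩
      · apply ext2
        · simp [h1', h2']
        · simp only [mk2_one]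
          rw [e1]; field_simp; rw [e2, mul_comm]
      · have : ∀ᶠ w : Cn 2 in 𝓝 y, w 1 ≠ 0 :=
          (analyticAt_coord 1 y).continuousAt.eventually_ne ht
        filter_upwards [this] with w hw
        change cls μ' (vec (oth κ) _) _ = cls μ (vec κ (w 1)) (w 0)
        simp only [mk2_zero, mk2_one]
        rw [← cls_congr_Lat h3', ← smul_vec_oth_inv κ hw, cls_smul _ _ _ hw, mul_comm]
  · -- a point outside the exceptional curves
    obtain ⟨S, hS, hSy, hSev⟩ := exists_lift i y hρ h3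
    obtain ⟨E, hE, hEy, hEev⟩ := exists_coord j y' hρ' h4 h5
    have e : ((trip j y').μ : Cn 2) + ρ' • (trip j y').v +
        ((trip i y).μ + ρ • (trip i y).v - ((trip j y').μ + ρ' • (trip j y').v)) = S y := by
      rw [hSy]; abel
    rw [e] at hE hEy hEev
    refine ⟨E ∘ S, hE.comp hS, hEy, ?_⟩
    filter_upwards [hSev, hS.continuousAt.eventually hEev] with w hw1 hw2
    rw [hw1]
    exact hw2

/-- The atlas of the Kummer surface. -/
noncomputable def atlas : ParamAtlas 2 Amb where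
  I := Idx
  D := dom
  φ := par
  isOpen_D := isOpen_dom
  injOn := injOn_par
  trans := trans_par
  i₀ := .inl (0, 0)
  y₀ := 0
  hy₀ := by
    change sq _ < _ ∧ sq _ < _
    simp [sq]

end Kummer

/-- The Kummer surface of `ℂ²/ℤ[i]²`. -/
abbrev Kum : Type := Kummer.atlas.Carrier

end Claimed.Open.R041
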