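/-
Result 041, sanity: points of the Kummer surface, the blow-down map, basic facts on the charts.
Part of the checked example (a Kummer K3 surface) for the hypotheses of `StrongSYZ`.
-/
import Claimed.Open.R041.K3Kummer

open scoped Manifold ContDiff Topology
open Set

namespace Claimed.Open.R041

namespace Kummer

/-! ### Points of the Kummer surface -/

/-- The chart `(a, t)` at `μ`. -/
noncomputable abbrev chA (μ : HalfLat) (κ : Fin 2) : OpenPartialHomeomorph Kum (Cn 2) :=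
  atlas.chart (.inl (μ, κ))

/-- The chart `z` near `z₀ ∉ ½Λ`. -/
noncomputable abbrev chZ (z₀ : Cn 2) (h : z₀ ∉ HalfLat) : OpenPartialHomeomorph Kum (Cn 2) :=
  atlas.chart (.inr ⟨z₀, h⟩)

/-- The underlying point of the ambient set. -/
def toAmb (x : Kum) : Amb := x.1

theorem toAmb_injective : Function.Injective toAmb := Subtype.val_injective

/-- `z` and `z'` are in the same orbit of `G = Λ ⋊ {±1}`. -/
def GEquiv (z z' : Cn 2) : Prop := z - z' ∈ Lat ∨ z + z' ∈ Lat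

theorem GEquiv.refl (z : Cn 2) : GEquiv z z := Or.inl (by simp)

theorem GEquiv.symm {z z' : Cn 2} (h : GEquiv z z') : GEquiv z' z := by
  rcases h with h | h
  · left; have := Lat.neg_mem h; simpa using this
  · right; rwa [add_comm]

theorem GEquiv.trans {z z' z'' : Cn 2} (h : GEquiv z z') (h' : GEquiv z' z'') : GEquiv z z'' := by
  rw [GEquiv, ← img_eq_img] at *
  exact h.trans h'

theorem GEquiv.mem_HalfLat {z z' : Cn 2} (h : GEquiv z z') (hz : z ∈ HalfLat) : z' ∈ HalfLat := by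
  rcases h with h | h
  · have := HalfLat.sub_mem hz (Lat_le_HalfLat h); simpa using this
  · have := HalfLat.sub_mem (Lat_le_HalfLat h) hz; simpa using this

theorem GEquiv.notMem_HalfLat {z z' : Cn 2} (h : GEquiv z z') (hz : z ∉ HalfLat) : z' ∉ HalfLat :=
  fun h' => hz (h.symm.mem_HalfLat h')

/-- The image in the Kummer surface of a point `z ∉ ½Λ`. -/
noncomputable def reg (z : Cn 2) (hz : z ∉ HalfLat) : Kum :=
  atlas.pt (.inr ⟨z, hz⟩) z (Metric.mem_ball_self (rad_pos hz))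

theorem reg_val (z : Cn 2) (hz : z ∉ HalfLat) : toAmb (reg z hz) = img z := rfl

theorem reg_eq_reg {z z' : Cn 2} {hz : z ∉ HalfLat} {hz' : z' ∉ HalfLat} :
    reg z hz = reg z' hz' ↔ GEquiv z z' := by
  rw [GEquiv, ← img_eq_img]
  exact toAmb_injective.eq_iff.symm

/-- The point with coordinates `y` in the chart `(a, t)` at `μ`. -/
noncomputable def ptA (μ : HalfLat) (κ : Fin 2) (y : Cn 2) (hy : y ∈ DA) : Kum :=
  atlas.pt (.inl (μ, κ)) y hy

theorem ptA_val (μ : HalfLat) (κ : Fin 2) (y : Cn 2) (hy : y ∈ DA) :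
    toAmb (ptA μ κ y hy) = cls μ (vec κ (y 1)) (y 0) := rfl

theorem vec_ne_zero (κ : Fin 2) (t : ℂ) : vec κ t ≠ 0 := by
  intro h
  have := congrArg (fun w : Cn 2 => w κ) h
  simp at this

theorem add_notMem_HalfLat (μ : HalfLat) {c : Cn 2} (hc : c ∈ Cube) (h0 : c ≠ 0) :
    (μ : Cn 2) + c ∉ HalfLat := by
  intro h
  apply h0
  apply eq_zero_of_mem_HalfLat_of_mem_Cube hc
  have := HalfLat.sub_mem h μ.2
  simpa using this

theorem ptA_eq_reg (μ : HalfLat) (κ : Fin 2) {y : Cn 2} (hy : y ∈ DA) {ρ : ℂ} (hρ : ρ ≠ 0)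
    (h : ρ ^ 2 = y 0) :
    ptA μ κ y hy = reg (μ + ρ • vec κ (y 1))
      (add_notMem_HalfLat μ (smul_vec_mem_Cube hy κ h) (smul_ne_zero hρ (vec_ne_zero κ _))) := by
  apply toAmb_injective
  rw [ptA_val, reg_val, ← h, cls_eq_img μ _ hρ]

theorem chZ_symm_apply {z₀ : Cn 2} (h : z₀ ∉ HalfLat) {y : Cn 2}
    (hy : y ∈ Metric.ball z₀ (rad z₀)) :
    (chZ z₀ h).symm y = reg y (notMem_HalfLat_of_mem_ball hy) := by
  rw [atlas.chart_symm_apply (i := .inr ⟨z₀, h⟩) hy]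
  apply toAmb_injective
  change img y = img y
  rfl

theorem chZ_target {z₀ : Cn 2} (h : z₀ ∉ HalfLat) : (chZ z₀ h).target = Metric.ball z₀ (rad z₀) :=
  rfl

theorem reg_mem_chZ_source {z₀ : Cn 2} (h : z₀ ∉ HalfLat) {y : Cn 2}
    (hy : y ∈ Metric.ball z₀ (rad z₀)) :
    reg y (notMem_HalfLat_of_mem_ball hy) ∈ (chZ z₀ h).source := by
  rw [← chZ_symm_apply h hy]
  exact (chZ z₀ h).map_target hy

theorem chZ_reg {z₀ : Cn 2} (h : z₀ ∉ HalfLat) {y : Cn 2} (hy : y ∈ Metric.ball z₀ (rad z₀)) :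
    chZ z₀ h (reg y (notMem_HalfLat_of_mem_ball hy)) = y := by
  rw [← chZ_symm_apply h hy]
  exact (chZ z₀ h).right_inv hy

theorem chA_symm_apply (μ : HalfLat) (κ : Fin 2) {y : Cn 2} (hy : y ∈ DA) :
    (chA μ κ).symm y = ptA μ κ y hy :=
  atlas.chart_symm_apply (i := .inl (μ, κ)) hy

theorem chA_target (μ : HalfLat) (κ : Fin 2) : (chA μ κ).target = DA := rfl

theorem ptA_mem_chA_source (μ : HalfLat) (κ : Fin 2) {y : Cn 2} (hy : y ∈ DA) :
    ptA μ κ y hy ∈ (chA μ κ).source := atlas.pt_mem_chart_source (i := .inl (μ, κ)) hy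

theorem chA_ptA (μ : HalfLat) (κ : Fin 2) {y : Cn 2} (hy : y ∈ DA) :
    chA μ κ (ptA μ κ y hy) = y := atlas.chart_pt (i := .inl (μ, κ)) hy

theorem mk2_zero_mem_DA (t : ℂ) : mk2 0 t ∈ DA := by
  change sq _ < _ ∧ sq _ < _
  simp [sq]

/-- The point `[v]`, `v = vec κ t`, of the exceptional curve over `μ`. -/
noncomputable def exc (μ : HalfLat) (κ : Fin 2) (t : ℂ) : Kum := ptA μ κ (mk2 0 t) (mk2_zero_mem_DA t)

/-- Every point is either the image of a point of `ℂ² ∖ ½Λ` or lies on an exceptional curve. -/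
theorem reg_or_exc (x : Kum) :
    (∃ z, ∃ hz : z ∉ HalfLat, x = reg z hz) ∨ ∃ μ κ t, x = exc μ κ t := by
  obtain ⟨i, y, hy, rfl⟩ := atlas.exists_pt x
  rcases i with ⟨μ, κ⟩ | z
  · by_cases h0 : y 0 = 0
    · right
      refine ⟨μ, κ, y 1, ?_⟩
      apply toAmb_injective
      change cls μ (vec κ (y 1)) (y 0) = cls μ (vec κ (mk2 0 (y 1) 1)) (mk2 0 (y 1) 0)
      simp [h0]
    · left
      obtain ⟨ρ, hρ⟩ := exists_root (y 0)
      have hρ0 : ρ ≠ 0 := by rintro rfl; apply h0; rw [← hρ]; simp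
      exact ⟨_, _, ptA_eq_reg μ κ hy hρ0 hρ⟩
  · left
    refine ⟨y, notMem_HalfLat_of_mem_ball hy, ?_⟩
    apply toAmb_injective
    change img y = img y
    rfl

theorem reg_ne_exc (z : Cn 2) (hz : z ∉ HalfLat) (μ : HalfLat) (κ : Fin 2) (t : ℂ) :
    reg z hz ≠ exc μ κ t := by
  intro h
  have h' : img z = cls μ (vec κ (mk2 0 t 1)) (mk2 0 t 0) := congrArg toAmb h
  rw [img, cls_eq_cls] at h'
  rcases h' with ⟨h1, -⟩ | ⟨ρ, ρ', -, h2, -, h4, -⟩
  · simp at h1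
  · apply h2; simpa using h4

theorem exc_eq_exc {μ μ' : HalfLat} {κ κ' : Fin 2} {t t' : ℂ} :
    exc μ κ t = exc μ' κ' t' ↔ (μ : Cn 2) - μ' ∈ Lat ∧ ∃ c : ℂ, c ≠ 0 ∧ vec κ' t' = c • vec κ t := by
  constructor
  · intro h
    have h' : cls μ (vec κ (mk2 0 t 1)) (mk2 0 t 0) = cls μ' (vec κ' (mk2 0 t' 1)) (mk2 0 t' 0) :=
      congrArg toAmb h
    rw [cls_eq_cls] at h'
    rcases h' with ⟨-, -, h3, h4⟩ | ⟨ρ, ρ', h1, -, h3, -, -⟩
    · exact ⟨h3, h4⟩
    · exfalso; apply h1; simpa using h3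
  · rintro ⟨h1, h2⟩
    apply toAmb_injective
    change cls μ (vec κ (mk2 0 t 1)) (mk2 0 t 0) = cls μ' (vec κ' (mk2 0 t' 1)) (mk2 0 t' 0)
    rw [cls_eq_cls]
    exact Or.inl ⟨rfl, rfl, h1, h2⟩

/-! ### The blow-down map, on the level of representatives -/

theorem GEquiv_of_Rel {t t' : Trip} (h : Rel t t') {ρ ρ' : ℂ} (hρ : ρ ^ 2 = t.ξ)
    (hρ' : ρ' ^ 2 = t'.ξ) : GEquiv (t.μ + ρ • t.v) (t'.μ + ρ' • t'.v) := by
  rcases h with ⟨h1, h2, h3, -⟩ | ⟨σ, σ', -, -, h3, h4, h5⟩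
  · have e1 : ρ = 0 := by rw [h1] at hρ; simpa using hρ
    have e2 : ρ' = 0 := by rw [h2] at hρ'; simpa using hρ'
    left; simpa [e1, e2] using h3
  · have key : ∀ (s : Trip) (a b : ℂ), a ^ 2 = b ^ 2 → GEquiv (s.μ + a • s.v) (s.μ + b • s.v) := by
      intro s a b hab
      rcases sq_eq_sq_iff_eq_or_eq_neg.1 hab with rfl | rfl
      · exact GEquiv.refl _
      · right
        have : (s.μ : Cn 2) + -b • s.v + (s.μ + b • s.v) = s.μ + s.μ := by
          rw [neg_smul]; abel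
        rw [this]; exact s.μ.2
    exact ((key t ρ σ (by rw [hρ, h3])).trans (Or.inl h5)).trans (key t' σ' ρ' (by rw [hρ', h4]))

/-- A representative in `ℂ²` of the image of `x` in `ℂ²/G`. -/
noncomputable def lift (x : Kum) : Cn 2 :=
  (Quotient.out (toAmb x) : Trip).μ + (exists_root (Quotient.out (toAmb x) : Trip).ξ).choose •
    (Quotient.out (toAmb x) : Trip).v

theorem lift_spec {x : Kum} {μ : HalfLat} {v : Cn 2} {ξ : ℂ} (h : toAmb x = cls μ v ξ) {ρ : ℂ}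
    (hρ : ρ ^ 2 = ξ) : GEquiv (lift x) (μ + ρ • v) := by
  have h1 : Rel (Quotient.out (toAmb x) : Trip) ⟨μ, v, ξ⟩ :=
    Quotient.exact (s := setoid) ((Quotient.out_eq (toAmb x)).trans h)
  exact GEquiv_of_Rel h1 (exists_root _).choose_spec hρ

theorem lift_reg (z : Cn 2) (hz : z ∉ HalfLat) : GEquiv (lift (reg z hz)) z := by
  have := lift_spec (x := reg z hz) (μ := 0) (v := z) (ξ := 1) rfl (ρ := 1) (by simp)
  simpa using this

theorem lift_ptA (μ : HalfLat) (κ : Fin 2) {y : Cn 2} (hy : y ∈ DA) {ρ : ℂ} (hρ : ρ ^ 2 = y 0) :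
    GEquiv (lift (ptA μ κ y hy)) (μ + ρ • vec κ (y 1)) :=
  lift_spec (ptA_val μ κ y hy) hρ

theorem lift_exc (μ : HalfLat) (κ : Fin 2) (t : ℂ) : GEquiv (lift (exc μ κ t)) μ := by
  have := lift_ptA μ κ (mk2_zero_mem_DA t) (ρ := 0) (by simp)
  rw [zero_smul, add_zero] at this
  exact this

theorem norm_sq_eq_oth (κ : Fin 2) (w : Cn 2) : ‖w‖ ^ 2 = ‖w κ‖ ^ 2 + ‖w (oth κ)‖ ^ 2 := by
  rw [EuclideanSpace.norm_sq_eq, Fin.sum_univ_two]
  fin_cases κ
  · rfl
  · exact add_comm _ _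

theorem norm_vec_sq (κ : Fin 2) (t : ℂ) : ‖vec κ t‖ ^ 2 = 1 + ‖t‖ ^ 2 := by
  rw [norm_sq_eq_oth κ, vec_self, vec_oth]; simp

/-- A continuous `G`-invariant function on `ℂ²` induces a continuous function on the Kummer
surface. -/
theorem continuous_comp_lift {Y : Type} [TopologicalSpace Y] {Φ : Cn 2 → Y} (hΦ : Continuous Φ)
    (hinv : ∀ z z', GEquiv z z' → Φ z = Φ z') : Continuous fun x : Kum => Φ (lift x) := by
  rw [continuous_iff_continuousAt]
  intro x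
  rcases reg_or_exc x with ⟨z, hz, rfl⟩ | ⟨μ, κ, t, rfl⟩
  · have hmem : reg z hz ∈ (chZ z hz).source :=
      reg_mem_chZ_source hz (Metric.mem_ball_self (rad_pos hz))
    have h1 : (fun x : Kum => Φ (lift x)) =ᶠ[𝓝 (reg z hz)] fun x => Φ (chZ z hz x) := by
      filter_upwards [(chZ z hz).open_source.mem_nhds hmem] with x hx
      have hy := (chZ z hz).map_source hx
      have e : x = reg (chZ z hz x) (notMem_HalfLat_of_mem_ball hy) := by
        rw [← chZ_symm_apply hz hy, (chZ z hz).left_inv hx]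
      conv_lhs => rw [e]
      exact hinv _ _ (lift_reg _ _)
    exact (hΦ.continuousAt.comp ((chZ z hz).continuousAt hmem)).congr h1.symm
  · have hmem : exc μ κ t ∈ (chA μ κ).source := ptA_mem_chA_source μ κ _
    rw [(chA μ κ).symm.continuousAt_iff_continuousAt_comp_right (x := exc μ κ t) hmem]
    simp only [OpenPartialHomeomorph.symm_symm]
    have hy0 : chA μ κ (exc μ κ t) = mk2 0 t := chA_ptA μ κ _
    rw [hy0]
    have hval : ((fun x : Kum => Φ (lift x)) ∘ (chA μ κ).symm) (mk2 0 t) = Φ μ := by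
      simp only [Function.comp]
      rw [chA_symm_apply μ κ (mk2_zero_mem_DA t)]
      exact hinv _ _ (lift_exc μ κ t)
    rw [ContinuousAt, hval]
    intro N hN
    have hN' : Φ ⁻¹' N ∈ 𝓝 (μ : Cn 2) := hΦ.continuousAt hN
    obtain ⟨δ, hδ, hball⟩ := Metric.mem_nhds_iff.1 hN'
    have hc : Continuous fun y : Cn 2 => ‖y 0‖ * (1 + ‖y 1‖ ^ 2) := by
      have h0 : Continuous fun y : Cn 2 => y 0 :=
        (EuclideanSpace.proj (𝕜 := ℂ) (0 : Fin 2)).continuous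
      have h1 : Continuous fun y : Cn 2 => y 1 :=
        (EuclideanSpace.proj (𝕜 := ℂ) (1 : Fin 2)).continuous
      fun_prop
    have hsmall : ∀ᶠ y : Cn 2 in 𝓝 (mk2 0 t), ‖y 0‖ * (1 + ‖y 1‖ ^ 2) < δ ^ 2 := by
      apply hc.continuousAt.eventually_lt continuousAt_const
      simp only [mk2_zero, norm_zero, zero_mul]
      positivity
    rw [Filter.mem_map]
    filter_upwards [hsmall, isOpen_DA.mem_nhds (mk2_zero_mem_DA t)] with y hy1 hy2
    simp only [mem_preimage, Function.comp]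
    rw [chA_symm_apply μ κ hy2]
    obtain ⟨ρ, hρ⟩ := exists_root (y 0)
    rw [hinv _ _ (lift_ptA μ κ hy2 hρ)]
    apply hball
    rw [Metric.mem_ball, dist_eq_norm, add_sub_cancel_left, norm_smul]
    apply lt_of_pow_lt_pow_left₀ 2 hδ.le
    rw [mul_pow, norm_vec_sq, ← norm_pow, hρ]
    exact hy1

/-! ### More on the charts -/

theorem mk2_mem_DA_iff (κ : Fin 2) (ρ t : ℂ) : mk2 (ρ ^ 2) t ∈ DA ↔ ρ • vec κ t ∈ Cube := by
  have key : ∀ w : ℂ, sq (w ^ 2) < 1 / 2 ↔ |w.re| < 1 / 2 ∧ |w.im| < 1 / 2 := by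
    intro w
    rw [← sq_sq_lt_iff w (by norm_num : (0 : ℝ) < 1 / 2)]
    norm_num
  constructor
  · intro h
    exact smul_vec_mem_Cube h κ rfl
  · intro h
    have h1 := h κ
    have h2 := h (oth κ)
    simp only [PiLp.smul_apply, vec_self, vec_oth, smul_eq_mul, mul_one] at h1 h2
    refine ⟨(key ρ).2 h1, ?_⟩
    simp only [mk2_zero, mk2_one]
    rw [← mul_pow]
    exact (key _).2 h2

theorem coord_mem_DA (κ : Fin 2) {c : Cn 2} (hc : c ∈ Cube) (h0 : c κ ≠ 0) :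
    mk2 (c κ ^ 2) (c (oth κ) / c κ) ∈ DA := by
  rw [mk2_mem_DA_iff κ, smul_vec_div κ h0]
  exact hc

theorem ne_zero_of_coord_ne_zero {κ : Fin 2} {c : Cn 2} (h0 : c κ ≠ 0) : c ≠ 0 := by
  rintro rfl; exact h0 rfl

theorem ptA_coord (μ : HalfLat) (κ : Fin 2) {c : Cn 2} (hc : c ∈ Cube) (h0 : c κ ≠ 0) :
    ptA μ κ (mk2 (c κ ^ 2) (c (oth κ) / c κ)) (coord_mem_DA κ hc h0) =
      reg (μ + c) (add_notMem_HalfLat μ hc (ne_zero_of_coord_ne_zero h0)) := by
  rw [ptA_eq_reg μ κ (coord_mem_DA κ hc h0) h0 rfl, reg_eq_reg]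
  simp only [mk2_one]
  rw [smul_vec_div κ h0]
  exact GEquiv.refl _

theorem reg_mem_chA_source (μ : HalfLat) (κ : Fin 2) {c : Cn 2} (hc : c ∈ Cube) (h0 : c κ ≠ 0) :
    reg (μ + c) (add_notMem_HalfLat μ hc (ne_zero_of_coord_ne_zero h0)) ∈ (chA μ κ).source := by
  rw [← ptA_coord μ κ hc h0]
  exact ptA_mem_chA_source μ κ _

theorem chA_reg (μ : HalfLat) (κ : Fin 2) {c : Cn 2} (hc : c ∈ Cube) (h0 : c κ ≠ 0) :
    chA μ κ (reg (μ + c) (add_notMem_HalfLat μ hc (ne_zero_of_coord_ne_zero h0))) =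
      mk2 (c κ ^ 2) (c (oth κ) / c κ) := by
  rw [← ptA_coord μ κ hc h0]
  exact chA_ptA μ κ _

theorem mem_chA_source_iff (μ : HalfLat) (κ : Fin 2) (x : Kum) :
    x ∈ (chA μ κ).source ↔ ∃ y, ∃ hy : y ∈ DA, x = ptA μ κ y hy := by
  constructor
  · intro hx
    refine ⟨chA μ κ x, (chA μ κ).map_source hx, ?_⟩
    rw [← chA_symm_apply μ κ ((chA μ κ).map_source hx), (chA μ κ).left_inv hx]
  · rintro ⟨y, hy, rfl⟩
    exact ptA_mem_chA_source μ κ hy

theorem ptA_congr_Lat {μ μ' : HalfLat} (h : (μ : Cn 2) - μ' ∈ Lat) (κ : Fin 2) {y : Cn 2}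
    (hy : y ∈ DA) : ptA μ κ y hy = ptA μ' κ y hy :=
  toAmb_injective (cls_congr_Lat h _ _)

/-- Change of chart `(a, t) ↦ (a t², 1/t)` at the same `μ`. -/
theorem ptA_oth (μ : HalfLat) (κ : Fin 2) {y : Cn 2} (hy : y ∈ DA) (h1 : y 1 ≠ 0) :
    ∃ hy' : mk2 (y 0 * y 1 ^ 2) (y 1)⁻¹ ∈ DA,
      ptA μ κ y hy = ptA μ (oth κ) (mk2 (y 0 * y 1 ^ 2) (y 1)⁻¹) hy' := by
  have hy' : mk2 (y 0 * y 1 ^ 2) (y 1)⁻¹ ∈ DA := by
    refine ⟨hy.2, ?_⟩
    simp only [mk2_zero, mk2_one]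
    have : y 0 * y 1 ^ 2 * (y 1)⁻¹ ^ 2 = y 0 := by field_simp
    rw [this]; exact hy.1
  refine ⟨hy', toAmb_injective ?_⟩
  rw [ptA_val, ptA_val]
  simp only [mk2_zero, mk2_one]
  rw [← smul_vec_oth_inv κ h1, cls_smul _ _ _ h1, mul_comm]

/-- The total version of `reg`. -/
noncomputable def regT (z : Cn 2) : Kum := by
  classical exact if hz : z ∉ HalfLat then reg z hz else exc 0 0 0

theorem regT_eq {z : Cn 2} (hz : z ∉ HalfLat) : regT z = reg z hz := by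
  simp [regT, hz]

theorem continuousOn_regT : ContinuousOn regT (HalfLat : Set (Cn 2))ᶜ := by
  intro z hz
  have hz' : z ∉ HalfLat := hz
  apply ContinuousAt.continuousWithinAt
  have h1 : regT =ᶠ[𝓝 z] (chZ z hz').symm := by
    filter_upwards [Metric.ball_mem_nhds z (rad_pos hz')] with y hy
    rw [chZ_symm_apply hz' hy, regT_eq]
  exact ((chZ z hz').continuousAt_symm (Metric.mem_ball_self (rad_pos hz'))).congr h1.symm

/-! ### Representatives of `½Λ/Λ` -/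

/-- The `16` standard representatives of `½Λ/Λ`; the four booleans are the doubled real
coordinates `(2 Re μ₀, 2 Im μ₀, 2 Re μ₁, 2 Im μ₁)`. -/
noncomputable def repV (p : Fin 4 → Bool) : Cn 2 :=
  mk2 ⟨if p 0 then 1 / 2 else 0, if p 1 then 1 / 2 else 0⟩
    ⟨if p 2 then 1 / 2 else 0, if p 3 then 1 / 2 else 0⟩

theorem repV_mem (p : Fin 4 → Bool) : repV p ∈ HalfLat := by
  rw [mem_HalfLat, mem_Lat]
  intro j
  fin_cases j
  · constructor
    · by_cases h : p 0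
      · exact ⟨1, by simp [repV, h]; norm_num⟩
      · exact ⟨0, by simp [repV, h]⟩
    · by_cases h : p 1
      · exact ⟨1, by simp [repV, h]; norm_num⟩
      · exact ⟨0, by simp [repV, h]⟩
  · constructor
    · by_cases h : p 2
      · exact ⟨1, by simp [repV, h]; norm_num⟩
      · exact ⟨0, by simp [repV, h]⟩
    · by_cases h : p 3
      · exact ⟨1, by simp [repV, h]; norm_num⟩
      · exact ⟨0, by simp [repV, h]⟩

/-- The `16` standard representatives of `½Λ/Λ`. -/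
noncomputable def rep (p : Fin 4 → Bool) : HalfLat := ⟨repV p, repV_mem p⟩

theorem exists_half (x : ℝ) (h : ∃ m : ℤ, x + x = m) :
    ∃ b : Bool, ∃ k : ℤ, x - (if b then 1 / 2 else 0) = k := by
  obtain ⟨m, hm⟩ := h
  rcases Int.even_or_odd' m with ⟨k, rfl | rfl⟩
  · refine ⟨false, k, ?_⟩
    push_cast at hm
    simp only [Bool.false_eq_true, if_false]
    linarith
  · refine ⟨true, k, ?_⟩
    push_cast at hm
    simp only [if_true]
    linarith

theorem exists_rep (μ : HalfLat) : ∃ p, (μ : Cn 2) - rep p ∈ Lat := by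
  have hμ : ∀ j, (∃ m : ℤ, ((μ : Cn 2) j).re + ((μ : Cn 2) j).re = m) ∧
      ∃ n : ℤ, ((μ : Cn 2) j).im + ((μ : Cn 2) j).im = n := by
    intro j
    have := (mem_Lat.1 (mem_HalfLat.1 μ.2)) j
    simpa using this
  obtain ⟨b0, k0, h0⟩ := exists_half _ (hμ 0).1
  obtain ⟨b1, k1, h1⟩ := exists_half _ (hμ 0).2
  obtain ⟨b2, k2, h2⟩ := exists_half _ (hμ 1).1
  obtain ⟨b3, k3, h3⟩ := exists_half _ (hμ 1).2
  refine ⟨![b0, b1, b2, b3], ?_⟩
  rw [mem_Lat]
  intro j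
  fin_cases j
  · exact ⟨⟨k0, by simpa [rep, repV] using h0⟩, ⟨k1, by simpa [rep, repV] using h1⟩⟩
  · exact ⟨⟨k2, by simpa [rep, repV] using h2⟩, ⟨k3, by simpa [rep, repV] using h3⟩⟩

end Kummer

end Claimed.Open.R041
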