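/-
Result 041, sanity: explicit changes of charts of the Kummer surface.
Part of the checked example (a Kummer K3 surface) for the hypotheses of `StrongSYZ`.
-/
import Claimed.Open.R041.K3KummerPoints

open scoped Manifold ContDiff Topology
open Set

namespace Claimed.Open.R041

namespace ParamAtlas

variable {d : ℕ} {X' : Type} (A : ParamAtlas d X')

/-- Any local solution `τ` of `φ j ∘ τ = φ i` computes the change of charts. -/
theorem chart_comp_symm_eventuallyEq {i j : A.I} {y : Cn d} (hy : y ∈ A.D i) {τ : Cn d → Cn d}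
    (hτc : ContinuousAt τ y) (hτy : τ y ∈ A.D j) (hev : ∀ᶠ w in 𝓝 y, A.φ j (τ w) = A.φ i w) :
    (fun w => A.chart j ((A.chart i).symm w)) =ᶠ[𝓝 y] τ := by
  filter_upwards [hev, hτc.eventually_mem ((A.isOpen_D j).mem_nhds hτy),
    (A.isOpen_D i).mem_nhds hy] with w hw1 hw2 hw3
  have : A.pt i w hw3 = A.pt j (τ w) hw2 := A.pt_eq_pt.2 hw1.symm
  rw [A.chart_symm_apply hw3, this, A.chart_pt]

theorem symm_mem_chart_source_of {i j : A.I} {y : Cn d} (hy : y ∈ A.D i) {y' : Cn d}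
    (hy' : y' ∈ A.D j) (h : A.φ j y' = A.φ i y) : (A.chart i).symm y ∈ (A.chart j).source := by
  have : A.pt i y hy = A.pt j y' hy' := A.pt_eq_pt.2 h.symm
  rw [A.chart_symm_apply hy, this]
  exact A.pt_mem_chart_source hy'

end ParamAtlas

namespace Kummer

/-- The change of charts `(a,t) ↦ (a t², 1/t)`. -/
theorem chA_oth_comp_symm (μ : HalfLat) (κ : Fin 2) {y : Cn 2} (hy : y ∈ DA) (h1 : y 1 ≠ 0) :
    (fun w => chA μ (oth κ) ((chA μ κ).symm w)) =ᶠ[𝓝 y] fun w => mk2 (w 0 * w 1 ^ 2) (w 1)⁻¹ := by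
  obtain ⟨hy', -⟩ := ptA_oth μ κ hy h1
  refine atlas.chart_comp_symm_eventuallyEq (i := .inl (μ, κ)) (j := .inl (μ, oth κ)) hy
    (analyticAt_mk2 ((analyticAt_coord 0 y).mul ((analyticAt_coord 1 y).pow 2))
          ((analyticAt_coord 1 y).inv h1)).continuousAt hy' ?_
  have : ∀ᶠ w : Cn 2 in 𝓝 y, w 1 ≠ 0 := (analyticAt_coord 1 y).continuousAt.eventually_ne h1
  filter_upwards [this, isOpen_DA.mem_nhds hy] with w hw hwD
  obtain ⟨hw', e⟩ := ptA_oth μ κ hwD hw
  exact (congrArg toAmb e).symm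

/-- From the coordinate `z` to the chart `(a,t)` at `μ`. -/
theorem chA_comp_chZ_symm (μ : HalfLat) (κ : Fin 2) {z₀ : Cn 2} (hz₀ : z₀ ∉ HalfLat) {z : Cn 2}
    (hz : z ∈ Metric.ball z₀ (rad z₀)) {s : ℂ} (hs : s = 1 ∨ s = -1) {l : Cn 2} (hl : l ∈ Lat)
    (hc : s • z - (μ + l) ∈ Cube) (h0 : (s • z - (μ + l)) κ ≠ 0) :
    (fun w => chA μ κ ((chZ z₀ hz₀).symm w)) =ᶠ[𝓝 z] fun w => coordA (μ + l) κ (s • w) := by
  have hcont : Continuous fun w : Cn 2 => s • w := continuous_const_smul s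
  have himg : ∀ w : Cn 2, img (s • w) = img w := by
    intro w
    rcases hs with rfl | rfl
    · simp
    · rw [img_eq_img]; right; simp
  refine atlas.chart_comp_symm_eventuallyEq (i := .inr ⟨z₀, hz₀⟩) (j := .inl (μ, κ)) hz
    ((analyticAt_coordA _ κ h0).continuousAt.comp (f := fun w : Cn 2 => s • w) hcont.continuousAt)
    (coord_mem_DA κ hc h0) ?_
  have hc1 : Continuous fun w : Cn 2 => (s • w - ((μ : Cn 2) + l)) κ :=
    (EuclideanSpace.proj (𝕜 := ℂ) κ).continuous.comp (hcont.sub continuous_const)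
  filter_upwards [hc1.continuousAt.eventually_ne h0] with w hw
  change par (.inl (μ, κ)) (coordA (μ + l) κ (s • w)) = img w
  rw [par_coordA μ κ hl hw, himg]

/-- Between two coordinates `z`. -/
theorem chZ_comp_chZ_symm {z₀ z₁ : Cn 2} (hz₀ : z₀ ∉ HalfLat) (hz₁ : z₁ ∉ HalfLat) {z : Cn 2}
    (hz : z ∈ Metric.ball z₀ (rad z₀)) {s : ℂ} (hs : s = 1 ∨ s = -1) {l : Cn 2} (hl : l ∈ Lat)
    (hz' : s • z + l ∈ Metric.ball z₁ (rad z₁)) :
    (fun w => chZ z₁ hz₁ ((chZ z₀ hz₀).symm w)) =ᶠ[𝓝 z] fun w => s • w + l := by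
  refine atlas.chart_comp_symm_eventuallyEq (i := .inr ⟨z₀, hz₀⟩) (j := .inr ⟨z₁, hz₁⟩) hz
    ((continuous_const_smul s).add continuous_const).continuousAt hz' ?_
  refine Filter.Eventually.of_forall fun w => ?_
  change img (s • w + l) = img w
  rw [img_eq_img]
  rcases hs with rfl | rfl
  · left; simpa using hl
  · right; simpa using hl

end Kummer

end Claimed.Open.R041
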