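/-
Sanity checks for the definitions of `Statement.lean` (result 041).

Checked here:
* `wedge_apply`, `wedge_one_one`: the wedge product is the usual one (determinant convention);
* `inChart_refl`, `extd_flat`, `isSmooth_flat`: on the model space `ℂ^d` (a manifold over itself)
  forms, smoothness and `d` are the usual notions on a normed space;
* `ddbar_normSq_apply`: `i∂∂̄‖z‖² (u,v) = 2 Im⟪u,v⟫`, and `isKahlerForm_ddbar_normSq`: this is a Kähler form
  on `ℂ^d` in the sense of `IsKahlerForm` (so the sign conventions of `ddbar` and of `IsKahlerForm.positive` match: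
  strictly plurisubharmonic potentials give positive forms);
* `kahlerCone_subset_nefCone`, `mem_nefCone_of_forall_pos`: `c` is nef as soon as `c + εκ` is Kähler for all `ε > 0`;
* `trivialBundle`, `trivialBundle_isSemiample`;
* `projSpaceVariety`: `ℙ^n` is a normal projective variety of dimension `n` in the sense of `ProjVariety`, and
  `AreIsomorphic` is reflexive, so the conclusion of `ProjectiveSpaceBase` is met by `B = ℙ^n`.
-/
import Claimed.Open.R041.Statement

open scoped Manifold ContDiff Topology InnerProductSpace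
open MeasureTheory

namespace Claimed.Open.R041

section Wedge
variable {E : Type} [NormedAddCommGroup E] [NormedSpace ℝ E] {k l : ℕ}

theorem tensorMul_apply (a : E [⋀^Fin k]→L[ℝ] ℂ) (b : E [⋀^Fin l]→L[ℝ] ℂ) (v : Fin (k + l) → E) :
    tensorMul a b v = a (fun i => v (Fin.castAdd l i)) * b (fun j => v (Fin.natAdd k j)) := by
  simp [tensorMul]
  rfl

theorem wedge_apply (a : E [⋀^Fin k]→L[ℝ] ℂ) (b : E [⋀^Fin l]→L[ℝ] ℂ) (v : Fin (k + l) → E) :
    wedge a b v = ((k.factorial * l.factorial : ℝ)⁻¹) • ∑ π : Equiv.Perm (Fin (k + l)),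
      Equiv.Perm.sign π •
        (a (fun i => v (π (Fin.castAdd l i))) * b (fun j => v (π (Fin.natAdd k j)))) := by
  simp [wedge, ContinuousMultilinearMap.alternatization_apply_apply, tensorMul_apply]

theorem wedge_one_one (a b : E [⋀^Fin 1]→L[ℝ] ℂ) (u v : E) :
    wedge a b ![u, v] = a ![u] * b ![v] - a ![v] * b ![u] := by
  rw [wedge_apply]
  have h : (Finset.univ : Finset (Equiv.Perm (Fin (1 + 1)))) = {1, Equiv.swap 0 1} := by decide
  rw [h, Finset.sum_pair (by decide)]
  have e1 : (fun i : Fin 1 => (![u, v] : Fin (1+1) → E) ((1 : Equiv.Perm (Fin (1+1))) (Fin.castAdd 1 i))) = ![u] := by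
    funext i; fin_cases i; rfl
  have e2 : (fun i : Fin 1 => (![u, v] : Fin (1+1) → E) ((1 : Equiv.Perm (Fin (1+1))) (Fin.natAdd 1 i))) = ![v] := by
    funext i; fin_cases i; rfl
  have e3 : (fun i : Fin 1 => (![u, v] : Fin (1+1) → E) ((Equiv.swap (0 : Fin (1+1)) 1) (Fin.castAdd 1 i))) = ![v] := by
    funext i; fin_cases i; rfl
  have e4 : (fun i : Fin 1 => (![u, v] : Fin (1+1) → E) ((Equiv.swap (0 : Fin (1+1)) 1) (Fin.natAdd 1 i))) = ![u] := by
    funext i; fin_cases i; rfl
  rw [e1, e2, e3, e4]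
  simp [sub_eq_add_neg]
end Wedge

section Flat
variable {𝕜 : Type} [NontriviallyNormedField 𝕜] {d : ℕ} [NormedSpace 𝕜 (Cn d)]
  {F : Type} [NormedAddCommGroup F] [NormedSpace 𝕜 F] {k : ℕ}

theorem inChart_refl (η : Form 𝕜 d (Cn d) F k) :
    η.inChart (OpenPartialHomeomorph.refl (Cn d)) = η := by
  funext y
  ext v
  simp [Form.inChart]

theorem extd_flat (η : Form 𝕜 d (Cn d) F k) : η.extd = extDeriv η := by
  funext x
  simp only [Form.extd, chartAt_self_eq, inChart_refl]
  rfl

theorem isSmooth_flat (η : Form 𝕜 d (Cn d) F k) : η.IsSmooth ↔ ContDiff 𝕜 ∞ η := by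
  simp [Form.IsSmooth, inChart_refl, contDiffOn_univ]

end Flat

section FlatKahler
variable {d : ℕ}

theorem mulI_apply (v : Cn d) : mulI d v = Complex.I • v := by
  simp [mulI]

theorem diffAt_flat {V : Type} [NormedAddCommGroup V] [NormedSpace ℝ V] (g : Cn d → V) (x : Cn d) :
    diffAt ℝ g x = fderiv ℝ g x := by
  simp [diffAt, mfderiv_eq_fderiv]

/-- `d^c ‖z‖²`, as a continuous linear function of the point. -/
noncomputable def dcNormSqCLM (d : ℕ) : Cn d →L[ℝ] (Cn d) [⋀^Fin 1]→L[ℝ] ℝ :=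
  ((ContinuousAlternatingMap.ofSubsingletonLIE (𝕜 := ℝ) (E := Cn d) (F := ℝ)
    (0 : Fin 1)).toContinuousLinearEquiv : (Cn d →L[ℝ] ℝ) →L[ℝ] _) ∘L
  ((-2 : ℝ) • ((ContinuousLinearMap.compL ℝ (Cn d) (Cn d) ℝ).flip (mulI d) ∘L innerSL ℝ))

theorem dc_normSq : dc (fun z : Cn d => ‖z‖ ^ 2) = dcNormSqCLM d := by
  funext x
  simp only [dc, diffAt_flat]
  have : fderiv ℝ (fun z : Cn d => ‖z‖ ^ 2) x = 2 • innerSL ℝ x := by
    exact (hasStrictFDerivAt_norm_sq x).hasFDerivAt.fderiv
  rw [this]
  ext v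
  simp [dcNormSqCLM, mulI_apply]
  rfl

theorem dcNormSqCLM_apply (x : Cn d) (w : Fin 1 → Cn d) :
    dcNormSqCLM d x w = -2 * ⟪x, Complex.I • w 0⟫_ℝ := by
  simp [dcNormSqCLM, mulI_apply]
  rfl

theorem real_inner_I_smul (u v : Cn d) : ⟪u, Complex.I • v⟫_ℝ = - (⟪u, v⟫_ℂ).im := by
  simp only [PiLp.inner_apply, Complex.inner, Complex.mul_re, Complex.im_sum,
    ← Finset.sum_neg_distrib]
  refine Finset.sum_congr rfl fun i _ => ?_
  simp

theorem ddbar_normSq_apply (x u v : Cn d) :
    ddbar (fun z : Cn d => ‖z‖ ^ 2) x ![u, v] = 2 * (⟪u, v⟫_ℂ).im := by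
  simp only [ddbar, extd_flat, dc_normSq, Pi.smul_apply, ContinuousAlternatingMap.smul_apply]
  rw [extDeriv_apply (dcNormSqCLM d).differentiableAt]
  simp only [dcNormSqCLM_apply]
  have key : ∀ c y : Cn d, fderiv ℝ (fun z : Cn d => -2 * ⟪z, c⟫_ℝ) x y = -2 * ⟪y, c⟫_ℝ := by
    intro c y
    have : (fun z : Cn d => -2 * ⟪z, c⟫_ℝ) = ((-2 : ℝ) • (innerSL ℝ).flip c : Cn d →L[ℝ] ℝ) := by
      funext z; simp [real_inner_comm]; rfl
    rw [this, ContinuousLinearMap.fderiv]
    simp [real_inner_comm]; rfl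
  simp only [Fin.sum_univ_succ, key]
  simp [Fin.removeNth, real_inner_I_smul]
  have h : (⟪v, u⟫_ℂ).im = -(⟪u, v⟫_ℂ).im := by
    rw [← inner_conj_symm v u, Complex.conj_im]
  rw [h]; ring

end FlatKahler

section FlatKahler2
variable {d : ℕ}

theorem ddbar_normSq_const (x : Cn d) :
    ddbar (d := d) (fun z : Cn d => ‖z‖ ^ 2) x = ddbar (d := d) (fun z : Cn d => ‖z‖ ^ 2) 0 := by
  ext v
  have hv : v = ![v 0, v 1] := by
    funext i; fin_cases i <;> rfl
  rw [hv, ddbar_normSq_apply, ddbar_normSq_apply]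

/-- The flat Kähler form `i∂∂̄‖z‖²` on `ℂ^d` is a Kähler form. -/
theorem isKahlerForm_ddbar_normSq : IsKahlerForm (ddbar (d := d) (fun z : Cn d => ‖z‖ ^ 2)) where
  smooth := by
    rw [isSmooth_flat]
    have : ddbar (d := d) (fun z : Cn d => ‖z‖ ^ 2) = fun _ => ddbar (d := d) (fun z : Cn d => ‖z‖ ^ 2) 0 :=
      funext ddbar_normSq_const
    rw [this]
    exact contDiff_const
  closed := by
    rw [extd_flat]
    have : ddbar (d := d) (fun z : Cn d => ‖z‖ ^ 2) = fun _ => ddbar (d := d) (fun z : Cn d => ‖z‖ ^ 2) 0 :=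
      funext ddbar_normSq_const
    rw [this]
    funext x
    ext v
    simp [extDeriv, ContinuousAlternatingMap.alternatizeUncurryFin_apply]
  invariant := by
    intro x u v
    rw [ddbar_normSq_apply, ddbar_normSq_apply, inner_smul_left, inner_smul_right]
    simp [← mul_assoc]
  positive := by
    intro x v hv
    rw [ddbar_normSq_apply, inner_smul_right, inner_self_eq_norm_sq_to_K]
    have : 0 < ‖v‖ := norm_pos_iff.mpr hv
    simp [← Complex.ofReal_pow]
    positivity

end FlatKahler2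

section Nef
variable {d : ℕ} {X : Type} [TopologicalSpace X] [ChartedSpace (Cn d) X]

theorem kahlerCone_subset_nefCone : kahlerCone d X ⊆ nefCone d X :=
  @subset_closure _ (moduleTopology ℝ (H2 d X)) _

/-- If `c + ε κ` is a Kähler class for all `ε > 0`, then `c` is nef. -/
theorem mem_nefCone_of_forall_pos (c κ : H2 d X)
    (h : ∀ ε : ℝ, 0 < ε → c + ε • κ ∈ kahlerCone d X) : c ∈ nefCone d X := by
  let _ : TopologicalSpace (H2 d X) := moduleTopology ℝ (H2 d X)
  have : IsModuleTopology ℝ (H2 d X) := ⟨rfl⟩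
  have : ContinuousSMul ℝ (H2 d X) := IsModuleTopology.toContinuousSMul ℝ _
  have : ContinuousAdd (H2 d X) := IsModuleTopology.toContinuousAdd ℝ _
  have hcont : Continuous fun ε : ℝ => c + ε • κ := by fun_prop
  have ht : Filter.Tendsto (fun ε : ℝ => c + ε • κ) (𝓝[>] 0) (𝓝 c) := by
    have h0 := (hcont.tendsto 0).mono_left (nhdsWithin_le_nhds (s := Set.Ioi 0))
    rwa [zero_smul, add_zero] at h0
  refine mem_closure_of_tendsto ht ?_
  filter_upwards [self_mem_nhdsWithin] with ε hε using h ε hε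

end Nef

section Trivial
variable (d : ℕ) (X : Type) [TopologicalSpace X] [ChartedSpace (Cn d) X]

/-- The trivial line bundle. -/
def trivialBundle : HolLineBundle d X where
  ι := Unit
  U := fun _ => Set.univ
  isOpen_U := fun _ => isOpen_univ
  cover := fun _ => ⟨(), trivial⟩
  g := fun _ _ _ => 1
  holomorphic := fun _ _ => contMDiffOn_const
  ne_zero := fun _ _ _ _ => one_ne_zero
  cocycle := fun _ _ _ _ _ => by simp

theorem trivialBundle_isSemiample : (trivialBundle d X).IsSemiample :=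
  ⟨1, one_pos, fun _ => ⟨fun _ _ => 1, ⟨fun _ => contMDiffOn_const, fun _ _ _ _ => by simp [trivialBundle]⟩,
    fun _ _ => one_ne_zero⟩⟩

end Trivial

section Proj

/-- `ℙ^n` itself, as a projective variety (zero ideal). -/
noncomputable def projSpaceVariety (n : ℕ) : ProjVariety n where
  ideal := ⊥
  isHomogeneous := by
    intro P hP k
    rw [Ideal.mem_bot] at hP
    simp [hP]
  isPrime := Ideal.isPrime_bot

theorem projSpaceVariety_points (n : ℕ) : (projSpaceVariety n).points = Set.univ := by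
  ext p
  simp [ProjVariety.points, projSpaceVariety]

theorem projSpaceVariety_hasDim (n : ℕ) : (projSpaceVariety n).HasDim n := by
  unfold ProjVariety.HasDim projSpaceVariety
  rw [ringKrullDim_eq_of_ringEquiv (RingEquiv.quotientBot _),
    MvPolynomial.ringKrullDim_of_isNoetherianRing]
  simp

theorem isRegularOn_id (n : ℕ) (A : Set (PN n)) : IsRegularOn A (id : PN n → PN n) := by
  intro a _
  refine ⟨1, fun k => MvPolynomial.X k, fun k => MvPolynomial.isHomogeneous_X _ _, ?_, ?_⟩
  · simpa using a.rep_nonzero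
  · intro a' _ h
    have : (fun k => MvPolynomial.eval a'.rep (MvPolynomial.X k : MvPolynomial (Fin (n+1)) ℂ)) = a'.rep := by
      funext k; simp
    simp only [id]
    conv_lhs => rw [← a'.mk_rep]
    congr 1
    exact this.symm

theorem areIsomorphic_refl (n : ℕ) (A : Set (PN n)) : AreIsomorphic A A :=
  ⟨id, id, isRegularOn_id n A, isRegularOn_id n A, fun _ h => h, fun _ h => h, fun _ _ => rfl,
    fun _ _ => rfl⟩

/-- The quotient `ℂ[x₀..x_n]/(x_i - 1)` is a polynomial ring in `n` variables. -/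
noncomputable def dehomogEquiv (n : ℕ) (i : Fin (n + 1)) :
    (MvPolynomial (Fin (n + 1)) ℂ ⧸
      (Ideal.span {MvPolynomial.X i - 1} : Ideal (MvPolynomial (Fin (n + 1)) ℂ))) ≃+*
      MvPolynomial (Fin n) ℂ :=
  let e : MvPolynomial (Fin (n + 1)) ℂ ≃+* Polynomial (MvPolynomial (Fin n) ℂ) :=
    ((MvPolynomial.renameEquiv ℂ (Equiv.swap 0 i)).trans (MvPolynomial.finSuccEquiv ℂ n)).toRingEquiv
  (Ideal.quotientEquiv _ (Ideal.span {Polynomial.X - Polynomial.C 1}) e (by
    rw [Ideal.map_span, Set.image_singleton]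
    congr 2
    simp [e, map_sub, MvPolynomial.rename_X, MvPolynomial.finSuccEquiv_X_zero])).trans
  (Polynomial.quotientSpanXSubCAlgEquiv (1 : MvPolynomial (Fin n) ℂ)).toRingEquiv

theorem projSpaceVariety_isNormal (n : ℕ) : (projSpaceVariety n).IsNormal := by
  intro i _
  have h : ((projSpaceVariety n).ideal ⊔ Ideal.span {MvPolynomial.X i - 1}) =
      Ideal.span {MvPolynomial.X i - 1} := by simp [projSpaceVariety]
  rw [h]
  exact IsIntegrallyClosed.of_equiv (dehomogEquiv n i).symm

end Proj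

end Claimed.Open.R041
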