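/-
Sanity checks for the calculus of differential forms of `Statement.lean` (result 041).

* `isManifold_real`: a complex manifold is a real-analytic manifold with the same charts;
* `symmDeriv_chartAt`, `inChart_chartAt`: in the preferred chart at `x` the local expression of `η` at `x` is
  `η x` (this is the identification `T_x X = ℂ^d` used by `Form`);
* `inChart_eq_pullback`: the local expressions in two charts are related by pull-back along the transition map,
  i.e. a `Form` is a genuine tensor field;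
* `inChart_extd`: in every chart the local expression of `dη` is `extDeriv` of the local expression of `η`,
  i.e. `Form.extd` does not depend on the preferred charts used in its definition;
* `Form.IsSmooth.extd`, `Form.IsSmooth.extd_extd`, `exactForms_le_closedForms`: `dη` is smooth, `d² = 0`.
-/
import Claimed.Open.R041.Statement

open scoped Manifold ContDiff Topology
open Set

namespace Claimed.Open.R041

section RealStructure

variable (d : ℕ) (X : Type) [TopologicalSpace X] [ChartedSpace (Cn d) X]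

/-- A complex manifold is a real-analytic manifold (same charts). -/
theorem isManifold_real [IsManifold 𝓘(ℂ, Cn d) ω X] : IsManifold 𝓘(ℝ, Cn d) ω X := by
  apply isManifold_of_contDiffOn
  intro e e' he he'
  have h := (contDiffGroupoid ω 𝓘(ℂ, Cn d)).compatible he he'
  rw [contDiffGroupoid, mem_groupoid_of_pregroupoid] at h
  exact h.1.restrict_scalars ℝ

end RealStructure

section Transformation

variable {𝕜 : Type} [NontriviallyNormedField 𝕜] {d : ℕ} [NormedSpace 𝕜 (Cn d)]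
  {X : Type} [TopologicalSpace X] [ChartedSpace (Cn d) X]
  {F : Type} [NormedAddCommGroup F] [NormedSpace 𝕜 F] {k : ℕ}

/-- The differential of the inverse of a chart, as a map `ℂ^d → T_x X = ℂ^d`. -/
noncomputable def symmDeriv (𝕜 : Type) [NontriviallyNormedField 𝕜] {d : ℕ} [NormedSpace 𝕜 (Cn d)]
    {X : Type} [TopologicalSpace X] [ChartedSpace (Cn d) X]
    (e : OpenPartialHomeomorph X (Cn d)) (y : Cn d) : Cn d →L[𝕜] Cn d :=
  mfderiv 𝓘(𝕜, Cn d) 𝓘(𝕜, Cn d) e.symm y

theorem inChart_eq (η : Form 𝕜 d X F k) (e : OpenPartialHomeomorph X (Cn d)) (y : Cn d) :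
    η.inChart e y = (η (e.symm y)).compContinuousLinearMap (symmDeriv 𝕜 e y) := rfl

/-- In the preferred chart at `x`, the tangent space at `x` is identified with `ℂ^d` by the
identity. -/
theorem symmDeriv_chartAt [IsManifold 𝓘(𝕜, Cn d) 1 X] (x : X) :
    symmDeriv 𝕜 (chartAt (Cn d) x) (chartAt (Cn d) x x) = ContinuousLinearMap.id 𝕜 (Cn d) := by
  have h := mfderivWithin_range_extChartAt_symm (I := 𝓘(𝕜, Cn d)) (x := x)
  simp only [mfld_simps, mfderivWithin_univ] at h
  exact h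

theorem inChart_chartAt [IsManifold 𝓘(𝕜, Cn d) 1 X] (η : Form 𝕜 d X F k) (x : X) :
    η.inChart (chartAt (Cn d) x) (chartAt (Cn d) x x) = η x := by
  rw [inChart_eq, symmDeriv_chartAt, (chartAt (Cn d) x).left_inv (mem_chart_source _ x)]
  ext v
  simp

omit [ChartedSpace (Cn d) X] in
/-- The transition map `e' ∘ e⁻¹` is defined near `y`. -/
theorem eventuallyEq_symm {e e' : OpenPartialHomeomorph X (Cn d)} {y : Cn d} (hy : y ∈ e.target)
    (hy' : e.symm y ∈ e'.source) : ∀ᶠ z in 𝓝 y, z ∈ e.target ∧ e.symm z ∈ e'.source :=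
  (e.symm.isOpen_inter_preimage e'.open_source).mem_nhds ⟨hy, hy'⟩

/-- Chain rule for the inverse charts. -/
theorem symmDeriv_eq_comp {e e' : OpenPartialHomeomorph X (Cn d)}
    (he : e ∈ IsManifold.maximalAtlas 𝓘(𝕜, Cn d) 1 X)
    (he' : e' ∈ IsManifold.maximalAtlas 𝓘(𝕜, Cn d) 1 X)
    {y : Cn d} (hy : y ∈ e.target) (hy' : e.symm y ∈ e'.source) :
    symmDeriv 𝕜 e y = (symmDeriv 𝕜 e' (e' (e.symm y))).comp (fderiv 𝕜 (e' ∘ e.symm) y) := by
  have h1 : MDifferentiableAt 𝓘(𝕜, Cn d) 𝓘(𝕜, Cn d) e.symm y :=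
    mdifferentiableAt_symm_of_mem_maximalAtlas he hy
  have h2 : MDifferentiableAt 𝓘(𝕜, Cn d) 𝓘(𝕜, Cn d) e' (e.symm y) :=
    mdifferentiableAt_of_mem_maximalAtlas he' hy'
  have h3 : MDifferentiableAt 𝓘(𝕜, Cn d) 𝓘(𝕜, Cn d) e'.symm ((e' ∘ e.symm) y) :=
    mdifferentiableAt_symm_of_mem_maximalAtlas he' (e'.map_source hy')
  have hφ : MDifferentiableAt 𝓘(𝕜, Cn d) 𝓘(𝕜, Cn d) (e' ∘ e.symm) y := h2.comp y h1
  have heq : e.symm =ᶠ[𝓝 y] e'.symm ∘ (e' ∘ e.symm) := by
    filter_upwards [eventuallyEq_symm hy hy'] with z hz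
    exact (e'.left_inv hz.2).symm
  have h4 := mfderiv_comp y h3 hφ
  rw [← heq.mfderiv_eq, mfderiv_eq_fderiv] at h4
  exact h4

/-- **Transformation law**: the local expressions of a form in two charts are related by
pull-back along the transition map. -/
theorem inChart_eq_pullback (η : Form 𝕜 d X F k) {e e' : OpenPartialHomeomorph X (Cn d)}
    (he : e ∈ IsManifold.maximalAtlas 𝓘(𝕜, Cn d) 1 X)
    (he' : e' ∈ IsManifold.maximalAtlas 𝓘(𝕜, Cn d) 1 X)
    {y : Cn d} (hy : y ∈ e.target) (hy' : e.symm y ∈ e'.source) :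
    η.inChart e y =
      (η.inChart e' ((e' ∘ e.symm) y)).compContinuousLinearMap (fderiv 𝕜 (e' ∘ e.symm) y) := by
  rw [inChart_eq, inChart_eq, symmDeriv_eq_comp he he' hy hy']
  simp only [Function.comp_apply, e'.left_inv hy']
  rfl

/-- Transition maps are as smooth as the manifold. -/
theorem contDiffAt_transition {r : WithTop ℕ∞} {e e' : OpenPartialHomeomorph X (Cn d)}
    (he : e ∈ IsManifold.maximalAtlas 𝓘(𝕜, Cn d) r X)
    (he' : e' ∈ IsManifold.maximalAtlas 𝓘(𝕜, Cn d) r X)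
    {y : Cn d} (hy : y ∈ e.target) (hy' : e.symm y ∈ e'.source) :
    ContDiffAt 𝕜 r (e' ∘ e.symm) y := by
  have h1 : ContMDiffAt 𝓘(𝕜, Cn d) 𝓘(𝕜, Cn d) r e.symm y :=
    contMDiffAt_symm_of_mem_maximalAtlas he hy
  have h2 : ContMDiffAt 𝓘(𝕜, Cn d) 𝓘(𝕜, Cn d) r e' (e.symm y) :=
    contMDiffAt_of_mem_maximalAtlas he' hy'
  exact contMDiffAt_iff_contDiffAt.1 (h2.comp y h1)

/-- **`d` is well defined**: in *every* chart, the local expression of `dη` is the exterior
derivative of the local expression of `η`. -/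
theorem inChart_extd {r : WithTop ℕ∞} (hr : minSmoothness 𝕜 2 ≤ r) [IsManifold 𝓘(𝕜, Cn d) r X]
    (η : Form 𝕜 d X F k) {e : OpenPartialHomeomorph X (Cn d)}
    (he : e ∈ IsManifold.maximalAtlas 𝓘(𝕜, Cn d) r X) {y : Cn d} (hy : y ∈ e.target)
    (hη : DifferentiableAt 𝕜 (η.inChart (chartAt (Cn d) (e.symm y)))
      (chartAt (Cn d) (e.symm y) (e.symm y))) :
    η.extd.inChart e y = extDeriv (η.inChart e) y := by
  have h1r : (1 : WithTop ℕ∞) ≤ r :=
    le_trans (by norm_num) (le_trans (le_minSmoothness (𝕜 := 𝕜) (n := 2)) hr)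
  have : IsManifold 𝓘(𝕜, Cn d) 1 X := IsManifold.of_le h1r
  set x := e.symm y with hx
  set e₀ := chartAt (Cn d) x with he₀def
  have he₀ : e₀ ∈ IsManifold.maximalAtlas 𝓘(𝕜, Cn d) r X := IsManifold.chart_mem_maximalAtlas x
  have hxs : e.symm y ∈ e₀.source := mem_chart_source _ x
  have he1 := IsManifold.maximalAtlas_subset_of_le h1r he
  have he₀1 := IsManifold.maximalAtlas_subset_of_le h1r he₀
  have hφ : ContDiffAt 𝕜 r (e₀ ∘ e.symm) y := contDiffAt_transition he he₀ hy hxs
  have hloc : η.inChart e =ᶠ[𝓝 y] fun z =>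
      (η.inChart e₀ ((e₀ ∘ e.symm) z)).compContinuousLinearMap (fderiv 𝕜 (e₀ ∘ e.symm) z) := by
    filter_upwards [eventuallyEq_symm hy hxs] with z hz
    exact inChart_eq_pullback η he1 he₀1 hz.1 hz.2
  have hη' : DifferentiableAt 𝕜 (η.inChart e₀) ((e₀ ∘ e.symm) y) := hη
  rw [hloc.extDeriv_eq, extDeriv_pullback (f := e₀ ∘ e.symm) (r := r) hη' hφ hr, inChart_eq,
    symmDeriv_eq_comp he1 he₀1 hy hxs, ← hx, symmDeriv_chartAt]
  rfl

theorem Form.IsSmooth.differentiableAt_chartAt {η : Form 𝕜 d X F k} (hη : η.IsSmooth) (x : X) :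
    DifferentiableAt 𝕜 (η.inChart (chartAt (Cn d) x)) (chartAt (Cn d) x x) :=
  ((hη _ (chart_mem_atlas _ x)).contDiffAt ((chartAt (Cn d) x).open_target.mem_nhds
    (mem_chart_target _ x))).differentiableAt (by simp)

theorem contDiffOn_extDeriv {ζ : Cn d → (Cn d) [⋀^Fin k]→L[𝕜] F} {s : Set (Cn d)}
    (hs : IsOpen s) (hζ : ContDiffOn 𝕜 ∞ ζ s) : ContDiffOn 𝕜 ∞ (extDeriv ζ) s :=
  (ContinuousAlternatingMap.alternatizeUncurryFinCLM 𝕜 (Cn d) F).contDiff.comp_contDiffOn
    (hζ.fderiv_of_isOpen hs (by simp))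

variable [IsRCLikeNormedField 𝕜] [IsManifold 𝓘(𝕜, Cn d) ω X]

omit [IsRCLikeNormedField 𝕜] in
/-- `dη` is smooth if `η` is. -/
theorem Form.IsSmooth.extd {η : Form 𝕜 d X F k} (hη : η.IsSmooth) : η.extd.IsSmooth := by
  intro e he
  refine (contDiffOn_extDeriv e.open_target (hη e he)).congr fun y hy => ?_
  exact inChart_extd (r := ω) le_top η (IsManifold.subset_maximalAtlas he) hy
    (hη.differentiableAt_chartAt _)

/-- `d ∘ d = 0`. -/
theorem Form.IsSmooth.extd_extd {η : Form 𝕜 d X F k} (hη : η.IsSmooth) : η.extd.extd = 0 := by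
  funext x
  set e₀ := chartAt (Cn d) x
  have hloc : η.extd.inChart e₀ =ᶠ[𝓝 (e₀ x)] extDeriv (η.inChart e₀) := by
    filter_upwards [e₀.open_target.mem_nhds (mem_chart_target _ x)] with y hy
    exact inChart_extd (r := ω) le_top η (IsManifold.chart_mem_maximalAtlas x) hy
      (hη.differentiableAt_chartAt _)
  have h2 : ContDiffAt 𝕜 ∞ (η.inChart e₀) (e₀ x) :=
    (hη _ (chart_mem_atlas _ x)).contDiffAt (e₀.open_target.mem_nhds (mem_chart_target _ x))
  show extDeriv (η.extd.inChart e₀) (e₀ x) = 0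
  rw [hloc.extDeriv_eq]
  refine extDeriv_extDeriv_apply h2 ?_
  rw [minSmoothness_of_isRCLikeNormedField]
  exact WithTop.coe_le_coe.2 le_top

end Transformation

section DeRham

variable {d : ℕ} {X : Type} [TopologicalSpace X] [ChartedSpace (Cn d) X]
  [IsManifold 𝓘(ℂ, Cn d) ω X]

/-- Exact forms are closed: `B^{k+1}(X) ⊆ Z^{k+1}(X)`. -/
theorem exactForms_le_closedForms (k : ℕ) : exactForms d X k ≤ closedForms d X (k + 1) := by
  have := isManifold_real d X
  rintro _ ⟨ζ, hζ, rfl⟩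
  exact ⟨hζ.extd, hζ.extd_extd⟩

end DeRham

end Claimed.Open.R041
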