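/-
Sanity checks for Hermitian metrics, Chern forms and the first Chern class (result 041).

Main results, for a holomorphic line bundle `L` (in the sense of `HolLineBundle`) on a complex manifold `X`:
* `HolLineBundle.exists_hermitianMetric`: `L` has a smooth Hermitian metric (`X` Hausdorff, σ-compact);
* `HolLineBundle.HermitianMetric.ddbar_log_eq`: the local forms `i∂∂̄ log h_i` glue (`log|g|²` is pluriharmonic,
  `ddbar_log_normSq`), so that every metric has a Chern form (`isChernForm_chernForm`);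
* `HolLineBundle.HermitianMetric.IsChernForm.mem_closedForms`: a Chern form is a smooth closed real `2`-form;
* `HolLineBundle.isFirstChernClass_unique`: the de Rham class of the Chern form does not depend on the metric;
* `HolLineBundle.existsUnique_isFirstChernClass`: hence there is exactly one `c` with `L.IsFirstChernClass c`:
  the predicate used in `Statement.lean` is the graph of the function `L ↦ c₁(L)`.
Tools: `inChart_dc`, `inChart_ddbar` (`d^c` and `i∂∂̄` are natural with respect to holomorphic charts).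
-/
import Claimed.Open.R041.SanityBasic
import Claimed.Open.R041.SanityForms

open scoped Manifold ContDiff Topology
open Set

namespace Claimed.Open.R041

section RestrictScalars

variable {d : ℕ} {X : Type} [TopologicalSpace X] [ChartedSpace (Cn d) X]
  {V : Type} [NormedAddCommGroup V] [NormedSpace ℂ V]

theorem hasMFDerivAt_real_of_complex {g : X → V} {x : X} {g' : Cn d →L[ℂ] V}
    (h : HasMFDerivAt 𝓘(ℂ, Cn d) 𝓘(ℂ, V) g x g') :
    HasMFDerivAt 𝓘(ℝ, Cn d) 𝓘(ℝ, V) g x (g'.restrictScalars ℝ) :=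
  ⟨h.1, h.2.restrictScalars ℝ⟩

theorem hasMFDerivAt_real_of_complex_symm {g : Cn d → X} {y : Cn d} {g' : Cn d →L[ℂ] Cn d}
    (h : HasMFDerivAt 𝓘(ℂ, Cn d) 𝓘(ℂ, Cn d) g y g') :
    HasMFDerivAt 𝓘(ℝ, Cn d) 𝓘(ℝ, Cn d) g y (g'.restrictScalars ℝ) :=
  ⟨h.1, h.2.restrictScalars ℝ⟩

theorem contMDiffOn_real_of_complex {g : X → V} {U : Set X} {n : WithTop ℕ∞}
    (h : ContMDiffOn 𝓘(ℂ, Cn d) 𝓘(ℂ, V) n g U) : ContMDiffOn 𝓘(ℝ, Cn d) 𝓘(ℝ, V) n g U := by
  intro x hx
  have := h x hx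
  exact ⟨this.1, this.2.restrict_scalars ℝ⟩

theorem maximalAtlas_complex_subset_real {n : WithTop ℕ∞} {e : OpenPartialHomeomorph X (Cn d)}
    (he : e ∈ IsManifold.maximalAtlas 𝓘(ℂ, Cn d) n X) :
    e ∈ IsManifold.maximalAtlas 𝓘(ℝ, Cn d) n X := by
  rw [IsManifold.mem_maximalAtlas_iff, _root_.mem_maximalAtlas_iff] at he ⊢
  intro e' he'
  obtain ⟨h1, h2⟩ := he e' he'
  rw [contDiffGroupoid, mem_groupoid_of_pregroupoid] at h1 h2
  rw [contDiffGroupoid, mem_groupoid_of_pregroupoid, mem_groupoid_of_pregroupoid]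
  exact ⟨⟨h1.1.restrict_scalars ℝ, h1.2.restrict_scalars ℝ⟩,
    ⟨h2.1.restrict_scalars ℝ, h2.2.restrict_scalars ℝ⟩⟩

theorem symmDeriv_real {e : OpenPartialHomeomorph X (Cn d)}
    (he : e ∈ IsManifold.maximalAtlas 𝓘(ℂ, Cn d) 1 X) {y : Cn d} (hy : y ∈ e.target) :
    symmDeriv ℝ e y = (symmDeriv ℂ e y).restrictScalars ℝ :=
  (hasMFDerivAt_real_of_complex_symm
    (mdifferentiableAt_symm_of_mem_maximalAtlas he hy).hasMFDerivAt).mfderiv

theorem symmDeriv_mulI {e : OpenPartialHomeomorph X (Cn d)}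
    (he : e ∈ IsManifold.maximalAtlas 𝓘(ℂ, Cn d) 1 X) {y : Cn d} (hy : y ∈ e.target) (v : Cn d) :
    symmDeriv ℝ e y (mulI d v) = mulI d (symmDeriv ℝ e y v) := by
  rw [symmDeriv_real he hy]
  simp [mulI_apply]

end RestrictScalars

section CompSymm

variable {𝕜 : Type} [NontriviallyNormedField 𝕜] {d : ℕ} [NormedSpace 𝕜 (Cn d)]
  {X : Type} [TopologicalSpace X] [ChartedSpace (Cn d) X]
  {W : Type} [NormedAddCommGroup W] [NormedSpace 𝕜 W]

theorem contDiffOn_comp_symm {φ : X → W} {U : Set X} {n : WithTop ℕ∞}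
    (hφ : ContMDiffOn 𝓘(𝕜, Cn d) 𝓘(𝕜, W) n φ U) {e : OpenPartialHomeomorph X (Cn d)}
    (he : e ∈ IsManifold.maximalAtlas 𝓘(𝕜, Cn d) n X) :
    ContDiffOn 𝕜 n (φ ∘ e.symm) (e.target ∩ e.symm ⁻¹' U) :=
  contMDiffOn_iff_contDiffOn.1 (hφ.comp' (contMDiffOn_symm_of_mem_maximalAtlas he))

end CompSymm

section FlatCalculus

variable {d : ℕ}

/-- the continuous linear map `ℓ ↦ -(ℓ ∘ J)`, viewed as a `1`-form -/
noncomputable def dcCLM (d : ℕ) : (Cn d →L[ℝ] ℝ) →L[ℝ] (Cn d) [⋀^Fin 1]→L[ℝ] ℝ :=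
  ((ContinuousAlternatingMap.ofSubsingletonLIE (𝕜 := ℝ) (E := Cn d) (F := ℝ)
    (0 : Fin 1)).toContinuousLinearEquiv : (Cn d →L[ℝ] ℝ) →L[ℝ] _) ∘L
  (-((ContinuousLinearMap.compL ℝ (Cn d) (Cn d) ℝ).flip (mulI d)))

theorem dc_flat (ψ : Cn d → ℝ) (y : Cn d) : dc (d := d) ψ y = dcCLM d (fderiv ℝ ψ y) := by
  simp only [dc, diffAt_flat]
  ext v
  simp [dcCLM]

theorem dc_flat' (ψ : Cn d → ℝ) : dc (d := d) ψ = fun y => dcCLM d (fderiv ℝ ψ y) :=
  funext (dc_flat ψ)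

theorem ddbar_flat (ψ : Cn d → ℝ) (y : Cn d) :
    ddbar (d := d) ψ y = (1 / 2 : ℝ) • extDeriv (dc (d := d) ψ) y := by
  simp [ddbar, extd_flat]

theorem contDiffOn_dc {ψ : Cn d → ℝ} {V : Set (Cn d)} (hV : IsOpen V) (hψ : ContDiffOn ℝ ∞ ψ V) :
    ContDiffOn ℝ ∞ (dc (d := d) ψ) V := by
  rw [dc_flat']
  exact (dcCLM d).contDiff.comp_contDiffOn (hψ.fderiv_of_isOpen hV (by simp))

theorem contDiffOn_ddbar {ψ : Cn d → ℝ} {V : Set (Cn d)} (hV : IsOpen V)
    (hψ : ContDiffOn ℝ ∞ ψ V) : ContDiffOn ℝ ∞ (ddbar (d := d) ψ) V := by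
  have : ddbar (d := d) ψ = fun y => (1 / 2 : ℝ) • extDeriv (dc (d := d) ψ) y :=
    funext (ddbar_flat ψ)
  rw [this]
  exact (contDiffOn_extDeriv hV (contDiffOn_dc hV hψ)).const_smul _

theorem extDeriv_ddbar {ψ : Cn d → ℝ} {V : Set (Cn d)} (hV : IsOpen V)
    (hψ : ContDiffOn ℝ ∞ ψ V) {y : Cn d} (hy : y ∈ V) : extDeriv (ddbar (d := d) ψ) y = 0 := by
  have : ddbar (d := d) ψ = (1 / 2 : ℝ) • extDeriv (dc (d := d) ψ) :=
    funext (ddbar_flat ψ)
  rw [this, extDeriv_smul]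
  have h2 : ContDiffAt ℝ ∞ (dc (d := d) ψ) y := (contDiffOn_dc hV hψ).contDiffAt (hV.mem_nhds hy)
  rw [extDeriv_extDeriv_apply h2 (by
    rw [minSmoothness_of_isRCLikeNormedField]; exact WithTop.coe_le_coe.2 le_top)]
  simp

theorem ddbar_congr {ψ₁ ψ₂ : Cn d → ℝ} {y : Cn d} (h : ψ₁ =ᶠ[𝓝 y] ψ₂) :
    ddbar (d := d) ψ₁ y = ddbar (d := d) ψ₂ y := by
  rw [ddbar_flat, ddbar_flat]
  congr 1
  apply Filter.EventuallyEq.extDeriv_eq
  rw [dc_flat', dc_flat']
  filter_upwards [h.fderiv (𝕜 := ℝ)] with z hz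
  rw [hz]

theorem ddbar_add {ψ₁ ψ₂ : Cn d → ℝ} {V : Set (Cn d)} (hV : IsOpen V)
    (h₁ : ContDiffOn ℝ ∞ ψ₁ V) (h₂ : ContDiffOn ℝ ∞ ψ₂ V) {y : Cn d} (hy : y ∈ V) :
    ddbar (d := d) (fun z => ψ₁ z + ψ₂ z) y = ddbar (d := d) ψ₁ y + ddbar (d := d) ψ₂ y := by
  rw [ddbar_flat, ddbar_flat, ddbar_flat, ← smul_add]
  congr 1
  have hloc : dc (d := d) (fun z => ψ₁ z + ψ₂ z) =ᶠ[𝓝 y] dc (d := d) ψ₁ + dc (d := d) ψ₂ := by
    filter_upwards [hV.mem_nhds hy] with z hz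
    have d₁ : DifferentiableAt ℝ ψ₁ z := (h₁.contDiffAt (hV.mem_nhds hz)).differentiableAt (by simp)
    have d₂ : DifferentiableAt ℝ ψ₂ z := (h₂.contDiffAt (hV.mem_nhds hz)).differentiableAt (by simp)
    simp only [Pi.add_apply, dc_flat]
    rw [fderiv_fun_add d₁ d₂, map_add]
  rw [hloc.extDeriv_eq]
  exact extDeriv_add
    (((contDiffOn_dc hV h₁).contDiffAt (hV.mem_nhds hy)).differentiableAt (by simp))
    (((contDiffOn_dc hV h₂).contDiffAt (hV.mem_nhds hy)).differentiableAt (by simp))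

theorem ddbar_const_smul (c : ℝ) (ψ : Cn d → ℝ) (y : Cn d) :
    ddbar (d := d) (fun z => c * ψ z) y = c • ddbar (d := d) ψ y := by
  rw [ddbar_flat, ddbar_flat, smul_comm]
  congr 1
  have : dc (d := d) (fun z => c * ψ z) = c • dc (d := d) ψ := by
    funext z
    simp only [Pi.smul_apply, dc_flat]
    have : (fun z => c * ψ z) = c • ψ := rfl
    rw [this, fderiv_const_smul_field, Pi.smul_apply, map_smul]
  rw [this, extDeriv_smul]

/-- The real part of a holomorphic function is pluriharmonic. -/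
theorem ddbar_re_eq_zero {H : Cn d → ℂ} {V : Set (Cn d)} (hV : IsOpen V)
    (hH : ContDiffOn ℂ ∞ H V) {y : Cn d} (hy : y ∈ V) :
    ddbar (d := d) (fun z => (H z).re) y = 0 := by
  rw [ddbar_flat]
  set ω₀ : Cn d → (Cn d) [⋀^Fin 0]→L[ℝ] ℝ :=
    fun x => ContinuousAlternatingMap.constOfIsEmpty ℝ (Cn d) (Fin 0) (H x).im with hω₀
  have hloc : dc (d := d) (fun z => (H z).re) =ᶠ[𝓝 y] extDeriv ω₀ := by
    filter_upwards [hV.mem_nhds hy] with z hz
    have dH : DifferentiableAt ℂ H z := (hH.contDiffAt (hV.mem_nhds hz)).differentiableAt (by simp)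
    have dHr : HasFDerivAt H ((fderiv ℂ H z).restrictScalars ℝ) z :=
      dH.hasFDerivAt.restrictScalars ℝ
    have h1 : fderiv ℝ (fun z => (H z).re) z =
        Complex.reCLM ∘L ((fderiv ℂ H z).restrictScalars ℝ) :=
      (Complex.reCLM.hasFDerivAt.comp z dHr).fderiv
    have h2 : fderiv ℝ (fun z => (H z).im) z =
        Complex.imCLM ∘L ((fderiv ℂ H z).restrictScalars ℝ) :=
      (Complex.imCLM.hasFDerivAt.comp z dHr).fderiv
    rw [hω₀, extDeriv_constOfIsEmpty, dc_flat, h1, h2]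
    ext v
    simp [dcCLM, mulI_apply]
  have hsm : ContDiffAt ℝ ∞ ω₀ y := by
    have h3 : ContDiffAt ℝ ∞ (fun x => (H x).im) y :=
      Complex.imCLM.contDiff.contDiffAt.comp y
        ((hH.contDiffAt (hV.mem_nhds hy)).restrict_scalars ℝ)
    exact (ContinuousAlternatingMap.constOfIsEmptyLIE ℝ (Cn d) ℝ (Fin 0)).contDiff.contDiffAt.comp y h3
  rw [hloc.extDeriv_eq, extDeriv_extDeriv_apply hsm (by
    rw [minSmoothness_of_isRCLikeNormedField]; exact WithTop.coe_le_coe.2 le_top)]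
  simp

theorem ddbar_two_mul_re_clog {g : Cn d → ℂ} {V : Set (Cn d)} (hV : IsOpen V)
    (hg : ContDiffOn ℂ ∞ g V) {y : Cn d} (hy : y ∈ V) (hs : g y ∈ Complex.slitPlane) :
    ddbar (d := d) (fun z => 2 * (Complex.log (g z)).re) y = 0 := by
  rw [ddbar_const_smul]
  have hV' : IsOpen (V ∩ g ⁻¹' Complex.slitPlane) :=
    hg.continuousOn.isOpen_inter_preimage hV Complex.isOpen_slitPlane
  have hH : ContDiffOn ℂ ∞ (fun z => Complex.log (g z)) (V ∩ g ⁻¹' Complex.slitPlane) := by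
    intro z hz
    exact ((Complex.contDiffAt_log hz.2).comp z
      (hg.contDiffAt (hV.mem_nhds hz.1))).contDiffWithinAt
  rw [ddbar_re_eq_zero hV' hH ⟨hy, hs⟩, smul_zero]

/-- `log |g|²` is pluriharmonic for a nowhere vanishing holomorphic function `g`. -/
theorem ddbar_log_normSq {g : Cn d → ℂ} {V : Set (Cn d)} (hV : IsOpen V)
    (hg : ContDiffOn ℂ ∞ g V) {y : Cn d} (hy : y ∈ V) (hne : g y ≠ 0) :
    ddbar (d := d) (fun z => Real.log (‖g z‖ ^ 2)) y = 0 := by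
  rcases Complex.mem_slitPlane_or_neg_mem_slitPlane hne with hs | hs
  · have : (fun z => Real.log (‖g z‖ ^ 2)) = fun z => 2 * (Complex.log (g z)).re := by
      funext z; rw [Complex.log_re, Real.log_pow]; norm_num
    rw [this]
    exact ddbar_two_mul_re_clog hV hg hy hs
  · have : (fun z => Real.log (‖g z‖ ^ 2)) = fun z => 2 * (Complex.log (-g z)).re := by
      funext z; rw [Complex.log_re, norm_neg, Real.log_pow]; norm_num
    rw [this]
    exact ddbar_two_mul_re_clog (g := fun z => -g z) hV hg.neg hy hs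

end FlatCalculus

section Naturality

variable {d : ℕ} {X : Type} [TopologicalSpace X] [ChartedSpace (Cn d) X]

/-- `d^c` is natural with respect to holomorphic charts. -/
theorem inChart_dc {φ : X → ℝ} {e : OpenPartialHomeomorph X (Cn d)}
    (he : e ∈ IsManifold.maximalAtlas 𝓘(ℂ, Cn d) 1 X) {y : Cn d} (hy : y ∈ e.target)
    (hφ : MDifferentiableAt 𝓘(ℝ, Cn d) 𝓘(ℝ, ℝ) φ (e.symm y)) :
    (dc φ).inChart e y = dc (d := d) (φ ∘ e.symm) y := by
  have h1 : MDifferentiableAt 𝓘(ℝ, Cn d) 𝓘(ℝ, Cn d) e.symm y :=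
    mdifferentiableAt_symm_of_mem_maximalAtlas (maximalAtlas_complex_subset_real he) hy
  have h2 := mfderiv_comp y hφ h1
  rw [mfderiv_eq_fderiv] at h2
  have h3 : fderiv ℝ (φ ∘ e.symm) y = (diffAt ℝ φ (e.symm y)).comp (symmDeriv ℝ e y) := h2
  rw [inChart_eq, dc_flat, h3]
  ext v
  simp [dc, dcCLM, symmDeriv_mulI he hy]

variable [IsManifold 𝓘(ℂ, Cn d) ω X]

omit [ChartedSpace (Cn d) X] [IsManifold 𝓘(ℂ, Cn d) ω X] in
theorem isOpen_chartDomain {U : Set X} (hU : IsOpen U) (e : OpenPartialHomeomorph X (Cn d)) :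
    IsOpen (e.target ∩ e.symm ⁻¹' U) := e.symm.isOpen_inter_preimage hU

omit [IsManifold 𝓘(ℂ, Cn d) ω X] in
/-- In a holomorphic chart, `d^c φ` is `d^c` of the local expression of `φ`, near every point where
`φ` is smooth. -/
theorem inChart_dc_eventuallyEq {φ : X → ℝ} {U : Set X} (hU : IsOpen U)
    (hφ : ContMDiffOn 𝓘(ℝ, Cn d) 𝓘(ℝ, ℝ) ∞ φ U) {e : OpenPartialHomeomorph X (Cn d)}
    (he : e ∈ IsManifold.maximalAtlas 𝓘(ℂ, Cn d) ω X) {y : Cn d} (hy : y ∈ e.target)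
    (hyU : e.symm y ∈ U) : (dc φ).inChart e =ᶠ[𝓝 y] dc (d := d) (φ ∘ e.symm) := by
  filter_upwards [(isOpen_chartDomain hU e).mem_nhds ⟨hy, hyU⟩] with z hz
  exact inChart_dc (IsManifold.maximalAtlas_subset_of_le le_top he) hz.1
    ((hφ.contMDiffAt (hU.mem_nhds hz.2)).mdifferentiableAt (by simp))

omit [IsManifold 𝓘(ℂ, Cn d) ω X] in
theorem contDiffOn_comp_symm_real {φ : X → ℝ} {U : Set X}
    (hφ : ContMDiffOn 𝓘(ℝ, Cn d) 𝓘(ℝ, ℝ) ∞ φ U) {e : OpenPartialHomeomorph X (Cn d)}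
    (he : e ∈ IsManifold.maximalAtlas 𝓘(ℂ, Cn d) ω X) :
    ContDiffOn ℝ ∞ (φ ∘ e.symm) (e.target ∩ e.symm ⁻¹' U) :=
  contDiffOn_comp_symm hφ
    (IsManifold.maximalAtlas_subset_of_le le_top (maximalAtlas_complex_subset_real he))

/-- `i∂∂̄` is natural with respect to holomorphic charts. -/
theorem inChart_ddbar {φ : X → ℝ} {U : Set X} (hU : IsOpen U)
    (hφ : ContMDiffOn 𝓘(ℝ, Cn d) 𝓘(ℝ, ℝ) ∞ φ U) {e : OpenPartialHomeomorph X (Cn d)}
    (he : e ∈ IsManifold.maximalAtlas 𝓘(ℂ, Cn d) ω X) {y : Cn d} (hy : y ∈ e.target)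
    (hyU : e.symm y ∈ U) : (ddbar φ).inChart e y = ddbar (d := d) (φ ∘ e.symm) y := by
  have := isManifold_real d X
  set x := e.symm y with hx
  set e₀ := chartAt (Cn d) x with he₀
  have he₀m : e₀ ∈ IsManifold.maximalAtlas 𝓘(ℂ, Cn d) ω X := IsManifold.chart_mem_maximalAtlas x
  have hx₀ : e₀.symm (e₀ x) ∈ U := by rwa [e₀.left_inv (mem_chart_source _ x)]
  have hdiff : DifferentiableAt ℝ ((dc φ).inChart e₀) (e₀ x) := by
    refine DifferentiableAt.congr_of_eventuallyEq ?_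
      (inChart_dc_eventuallyEq hU hφ he₀m (mem_chart_target _ x) hx₀)
    exact ((contDiffOn_dc (isOpen_chartDomain hU e₀) (contDiffOn_comp_symm_real hφ he₀m)).contDiffAt
      ((isOpen_chartDomain hU e₀).mem_nhds ⟨mem_chart_target _ x, hx₀⟩)).differentiableAt (by simp)
  have h1 : (ddbar φ).inChart e y = (1 / 2 : ℝ) • (dc φ).extd.inChart e y := rfl
  rw [h1, inChart_extd (r := ω) le_top (dc φ) (maximalAtlas_complex_subset_real he) hy hdiff,
    (inChart_dc_eventuallyEq hU hφ he hy hyU).extDeriv_eq, ddbar_flat]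

/-- The value of `i∂∂̄ φ` at `x`, computed in the preferred chart. -/
theorem ddbar_eq_flat {φ : X → ℝ} {U : Set X} (hU : IsOpen U)
    (hφ : ContMDiffOn 𝓘(ℝ, Cn d) 𝓘(ℝ, ℝ) ∞ φ U) {x : X} (hx : x ∈ U) :
    ddbar φ x = ddbar (d := d) (φ ∘ (chartAt (Cn d) x).symm) (chartAt (Cn d) x x) := by
  have := isManifold_real d X
  have : IsManifold 𝓘(ℝ, Cn d) 1 X := IsManifold.of_le (n := ω) le_top
  rw [← inChart_ddbar hU hφ (IsManifold.chart_mem_maximalAtlas x) (mem_chart_target _ x)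
    (by rwa [(chartAt (Cn d) x).left_inv (mem_chart_source _ x)]), inChart_chartAt]

end Naturality

section Chern

variable {d : ℕ} {X : Type} [TopologicalSpace X] [ChartedSpace (Cn d) X]
  {L : HolLineBundle d X}

theorem HolLineBundle.HermitianMetric.contMDiffOn_log (h : L.HermitianMetric) (i : L.ι) :
    ContMDiffOn 𝓘(ℝ, Cn d) 𝓘(ℝ, ℝ) ∞ (fun y => Real.log (h.h i y)) (L.U i) := by
  intro x hx
  have h1 : ContMDiffAt 𝓘(ℝ, ℝ) 𝓘(ℝ, ℝ) ∞ Real.log (h.h i x) :=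
    (Real.contDiffAt_log.2 (h.pos i x hx).ne').contMDiffAt
  exact h1.comp_contMDiffWithinAt x (h.smooth i x hx)

variable [IsManifold 𝓘(ℂ, Cn d) ω X]

/-- The local curvature forms `i∂∂̄ log h_i` agree on overlaps. -/
theorem HolLineBundle.HermitianMetric.ddbar_log_eq (h : L.HermitianMetric) {i j : L.ι} {x : X}
    (hi : x ∈ L.U i) (hj : x ∈ L.U j) :
    ddbar (d := d) (fun y => Real.log (h.h j y)) x =
      ddbar (d := d) (fun y => Real.log (h.h i y)) x := by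
  set U := L.U i ∩ L.U j with hUdef
  have hU : IsOpen U := (L.isOpen_U i).inter (L.isOpen_U j)
  have hxU : x ∈ U := ⟨hi, hj⟩
  set e₀ := chartAt (Cn d) x with he₀
  have he₀m : e₀ ∈ IsManifold.maximalAtlas 𝓘(ℂ, Cn d) ω X := IsManifold.chart_mem_maximalAtlas x
  set S := e₀.target ∩ e₀.symm ⁻¹' U with hS
  have hSo : IsOpen S := isOpen_chartDomain hU e₀
  have hyS : e₀ x ∈ S :=
    ⟨mem_chart_target _ x, by simpa [e₀.left_inv (mem_chart_source _ x)] using hxU⟩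
  have hsi : ContMDiffOn 𝓘(ℝ, Cn d) 𝓘(ℝ, ℝ) ∞ (fun y => Real.log (h.h i y)) U :=
    (h.contMDiffOn_log i).mono inter_subset_left
  have hsj : ContMDiffOn 𝓘(ℝ, Cn d) 𝓘(ℝ, ℝ) ∞ (fun y => Real.log (h.h j y)) U :=
    (h.contMDiffOn_log j).mono inter_subset_right
  rw [ddbar_eq_flat hU hsi hxU, ddbar_eq_flat hU hsj hxU]
  set G : Cn d → ℂ := L.g i j ∘ e₀.symm with hG
  have hGs : ContDiffOn ℂ ∞ G S :=
    (contDiffOn_comp_symm (L.holomorphic i j) he₀m).of_le le_top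
  have hGne : ∀ z ∈ S, G z ≠ 0 := fun z hz => L.ne_zero i j _ hz.2
  have hloc : ((fun y => Real.log (h.h j y)) ∘ e₀.symm) =ᶠ[𝓝 (e₀ x)]
      fun z => Real.log (‖G z‖ ^ 2) + ((fun y => Real.log (h.h i y)) ∘ e₀.symm) z := by
    filter_upwards [hSo.mem_nhds hyS] with z hz
    simp only [Function.comp_apply]
    have hne : L.g i j (e₀.symm z) ≠ 0 := hGne z hz
    rw [h.compatible i j _ hz.2, Real.log_mul (by simpa using hne) (h.pos i _ hz.2.1).ne']
    rfl
  have hlog : ContDiffOn ℝ ∞ (fun z => Real.log (‖G z‖ ^ 2)) S :=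
    ((hGs.restrict_scalars ℝ).norm_sq ℝ).log (fun z hz => by simpa using hGne z hz)
  rw [ddbar_congr hloc, ddbar_add hSo hlog (contDiffOn_comp_symm_real hsi he₀m) hyS,
    ddbar_log_normSq hSo hGs hyS (hGne _ hyS), zero_add]

/-- A chosen trivialisation index around `x`. -/
noncomputable def HolLineBundle.idx (L : HolLineBundle d X) (x : X) : L.ι := (L.cover x).choose

omit [IsManifold 𝓘(ℂ, Cn d) ω X] in
theorem HolLineBundle.mem_idx (L : HolLineBundle d X) (x : X) : x ∈ L.U (L.idx x) :=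
  (L.cover x).choose_spec

/-- The Chern form of a Hermitian metric. -/
noncomputable def HolLineBundle.HermitianMetric.chernForm (h : L.HermitianMetric) :
    Form ℝ d X ℝ 2 :=
  fun x => (-(1 / (2 * Real.pi)) : ℝ) • ddbar (fun y => Real.log (h.h (L.idx x) y)) x

theorem HolLineBundle.HermitianMetric.isChernForm_chernForm (h : L.HermitianMetric) :
    h.IsChernForm h.chernForm := by
  intro i x hx
  rw [chernForm, h.ddbar_log_eq hx (L.mem_idx x)]

/-- Local expression of a Chern form in a holomorphic chart. -/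
theorem HolLineBundle.HermitianMetric.IsChernForm.inChart_eventuallyEq {h : L.HermitianMetric}
    {Θ : Form ℝ d X ℝ 2} (hΘ : h.IsChernForm Θ) {e : OpenPartialHomeomorph X (Cn d)}
    (he : e ∈ IsManifold.maximalAtlas 𝓘(ℂ, Cn d) ω X) {y : Cn d} (hy : y ∈ e.target) {i : L.ι}
    (hi : e.symm y ∈ L.U i) :
    Θ.inChart e =ᶠ[𝓝 y] (-(1 / (2 * Real.pi)) : ℝ) •
      ddbar (d := d) ((fun y => Real.log (h.h i y)) ∘ e.symm) := by
  filter_upwards [(isOpen_chartDomain (L.isOpen_U i) e).mem_nhds ⟨hy, hi⟩] with z hz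
  rw [Pi.smul_apply, ← inChart_ddbar (L.isOpen_U i) (h.contMDiffOn_log i) he hz.1 hz.2,
    inChart_eq, inChart_eq, hΘ i _ hz.2]
  rfl

/-- A Chern form is a smooth closed real `2`-form. -/
theorem HolLineBundle.HermitianMetric.IsChernForm.mem_closedForms {h : L.HermitianMetric}
    {Θ : Form ℝ d X ℝ 2} (hΘ : h.IsChernForm Θ) : Θ ∈ closedForms d X 2 := by
  constructor
  · intro e he y hy
    have hem : e ∈ IsManifold.maximalAtlas 𝓘(ℂ, Cn d) ω X := IsManifold.subset_maximalAtlas he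
    set i := L.idx (e.symm y)
    have hi : e.symm y ∈ L.U i := L.mem_idx _
    have hS := isOpen_chartDomain (L.isOpen_U i) e
    have h1 : ContDiffAt ℝ ∞ ((-(1 / (2 * Real.pi)) : ℝ) •
        ddbar (d := d) ((fun y => Real.log (h.h i y)) ∘ e.symm)) y :=
      ContDiffAt.const_smul (-(1 / (2 * Real.pi)) : ℝ)
        ((contDiffOn_ddbar hS (contDiffOn_comp_symm_real (h.contMDiffOn_log i) hem)).contDiffAt
          (hS.mem_nhds ⟨hy, hi⟩))
    exact (h1.congr_of_eventuallyEq (hΘ.inChart_eventuallyEq hem hy hi)).contDiffWithinAt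
  · funext x
    set e := chartAt (Cn d) x
    have hem : e ∈ IsManifold.maximalAtlas 𝓘(ℂ, Cn d) ω X := IsManifold.chart_mem_maximalAtlas x
    set i := L.idx x
    have hi : e.symm (e x) ∈ L.U i := by
      rw [e.left_inv (mem_chart_source _ x)]; exact L.mem_idx _
    have hS := isOpen_chartDomain (L.isOpen_U i) e
    show extDeriv (Θ.inChart e) (e x) = 0
    rw [(hΘ.inChart_eventuallyEq hem (mem_chart_target _ x) hi).extDeriv_eq, extDeriv_smul,
      extDeriv_ddbar hS (contDiffOn_comp_symm_real (h.contMDiffOn_log i) hem)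
        ⟨mem_chart_target _ x, hi⟩, smul_zero]

/-- Every Hermitian metric gives a first Chern class. -/
theorem HolLineBundle.HermitianMetric.exists_isFirstChernClass (h : L.HermitianMetric) :
    ∃ c, L.IsFirstChernClass c :=
  ⟨_, h, ⟨h.chernForm, h.isChernForm_chernForm.mem_closedForms⟩, h.isChernForm_chernForm, rfl⟩

end Chern

section Metric

variable {d : ℕ} {X : Type} [TopologicalSpace X] [ChartedSpace (Cn d) X]
  [IsManifold 𝓘(ℂ, Cn d) ω X] [T2Space X] [SigmaCompactSpace X]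

/-- Every holomorphic line bundle carries a smooth Hermitian metric (partition of unity). -/
theorem HolLineBundle.exists_hermitianMetric (L : HolLineBundle d X) :
    Nonempty L.HermitianMetric := by
  have := isManifold_real d X
  have : IsManifold 𝓘(ℝ, Cn d) ∞ X := IsManifold.of_le (n := ω) le_top
  obtain ⟨ρ, hρ⟩ := SmoothPartitionOfUnity.exists_isSubordinate 𝓘(ℝ, Cn d) isClosed_univ L.U
    L.isOpen_U (fun x _ => mem_iUnion.2 (L.cover x))
  have hfin : ∀ (i : L.ι) (x : X), (Function.support fun k => ρ k x • ‖L.g k i x‖ ^ 2).Finite := by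
    intro i x
    refine (ρ.locallyFinite.point_finite x).subset fun k hk => ?_
    simp only [Function.mem_support, smul_eq_mul, ne_eq, mul_eq_zero, not_or] at hk
    exact hk.1
  have hmem : ∀ (k : L.ι) (x : X), ρ k x ≠ 0 → x ∈ L.U k := fun k x hk =>
    hρ k (subset_tsupport _ hk)
  refine ⟨⟨fun i x => ∑ᶠ k, ρ k x • ‖L.g k i x‖ ^ 2, ?_, ?_, ?_⟩⟩
  · intro i x hx
    obtain ⟨k, hk⟩ := ρ.exists_pos_of_mem (mem_univ x)
    refine finsum_pos (fun k => mul_nonneg (ρ.nonneg k x) (by positivity)) ⟨k, ?_⟩ (hfin i x)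
    have : L.g k i x ≠ 0 := L.ne_zero k i x ⟨hmem k x hk.ne', hx⟩
    exact mul_pos hk (by positivity)
  · intro i x hx
    refine (ρ.contMDiffAt_finsum fun k hk => ?_).contMDiffWithinAt
    have hxU : x ∈ L.U k ∩ L.U i := ⟨hρ k hk, hx⟩
    have h1 : ContMDiffAt 𝓘(ℝ, Cn d) 𝓘(ℝ, ℂ) ∞ (L.g k i) x :=
      ((contMDiffOn_real_of_complex (L.holomorphic k i)).contMDiffAt
        (((L.isOpen_U k).inter (L.isOpen_U i)).mem_nhds hxU)).of_le le_top
    exact (contDiff_norm_sq ℝ (E := ℂ) (n := ∞)).contMDiff.contMDiffAt.comp x h1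
  · intro i j x hx
    rw [mul_finsum]
    refine finsum_congr fun k => ?_
    by_cases hk : ρ k x = 0
    · simp [hk]
    · have := L.cocycle k i j x ⟨⟨hmem k x hk, hx.1⟩, hx.2⟩
      rw [← this, norm_mul]
      simp only [smul_eq_mul]
      ring

end Metric

section Uniqueness

variable {d : ℕ} {X : Type} [TopologicalSpace X] [ChartedSpace (Cn d) X]
  [IsManifold 𝓘(ℂ, Cn d) ω X]

/-- `d^c ψ` is a smooth `1`-form if `ψ` is a smooth function. -/
theorem isSmooth_dc {ψ : X → ℝ} (hψ : ContMDiffOn 𝓘(ℝ, Cn d) 𝓘(ℝ, ℝ) ∞ ψ univ) :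
    (dc (d := d) ψ).IsSmooth := by
  intro e he
  have hem : e ∈ IsManifold.maximalAtlas 𝓘(ℂ, Cn d) ω X := IsManifold.subset_maximalAtlas he
  have h1 := contDiffOn_dc (isOpen_chartDomain isOpen_univ e) (contDiffOn_comp_symm_real hψ hem)
  simp only [preimage_univ, inter_univ] at h1
  refine h1.congr fun y hy => ?_
  exact inChart_dc (IsManifold.maximalAtlas_subset_of_le le_top hem) hy
    ((hψ.contMDiffAt Filter.univ_mem).mdifferentiableAt (by simp))

omit [IsManifold 𝓘(ℂ, Cn d) ω X] in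
theorem extd_smul {k : ℕ} (c : ℝ) (η : Form ℝ d X ℝ k) : (c • η).extd = c • η.extd := by
  funext x
  simp only [Form.extd, Pi.smul_apply]
  rw [Form.inChart_smul, extDeriv_smul]

/-- `i∂∂̄(φ₁ - φ₂) = i∂∂̄φ₁ - i∂∂̄φ₂` for functions which are smooth near `x`; also, `i∂∂̄ψ` only
depends on the germ of `ψ`. -/
theorem ddbar_eq_sub {ψ φ₁ φ₂ : X → ℝ} {U : Set X} (hU : IsOpen U)
    (h₁ : ContMDiffOn 𝓘(ℝ, Cn d) 𝓘(ℝ, ℝ) ∞ φ₁ U) (h₂ : ContMDiffOn 𝓘(ℝ, Cn d) 𝓘(ℝ, ℝ) ∞ φ₂ U)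
    (hψ : ∀ x ∈ U, ψ x = φ₁ x - φ₂ x) {x : X} (hx : x ∈ U) :
    ddbar (d := d) ψ x = ddbar (d := d) φ₁ x - ddbar (d := d) φ₂ x := by
  have hψs : ContMDiffOn 𝓘(ℝ, Cn d) 𝓘(ℝ, ℝ) ∞ ψ U := (h₁.sub h₂).congr hψ
  set e₀ := chartAt (Cn d) x with he₀
  have he₀m : e₀ ∈ IsManifold.maximalAtlas 𝓘(ℂ, Cn d) ω X := IsManifold.chart_mem_maximalAtlas x
  have hSo := isOpen_chartDomain hU e₀
  have hyS : e₀ x ∈ e₀.target ∩ e₀.symm ⁻¹' U :=
    ⟨mem_chart_target _ x, by simpa [e₀.left_inv (mem_chart_source _ x)] using hx⟩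
  rw [ddbar_eq_flat hU hψs hx, ddbar_eq_flat hU h₁ hx, ddbar_eq_flat hU h₂ hx]
  have hloc : (ψ ∘ e₀.symm) =ᶠ[𝓝 (e₀ x)] fun z => (φ₁ ∘ e₀.symm) z + (-1) * (φ₂ ∘ e₀.symm) z := by
    filter_upwards [hSo.mem_nhds hyS] with z hz
    simp only [Function.comp_apply, hψ _ hz.2]
    ring
  rw [ddbar_congr hloc, ddbar_add hSo (contDiffOn_comp_symm_real h₁ he₀m)
    (contDiffOn_const.mul (contDiffOn_comp_symm_real h₂ he₀m)) hyS, ddbar_const_smul]
  simp only [neg_smul, one_smul, sub_eq_add_neg]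
  rfl

variable {L : HolLineBundle d X}

/-- **`c₁(L)` does not depend on the Hermitian metric.** -/
theorem HolLineBundle.isFirstChernClass_unique {c c' : H2 d X} (hc : L.IsFirstChernClass c)
    (hc' : L.IsFirstChernClass c') : c = c' := by
  obtain ⟨h, Θ, hΘ, rfl⟩ := hc
  obtain ⟨h', Θ', hΘ', rfl⟩ := hc'
  -- the global function `ψ = log (h / h')`
  set ψ : X → ℝ := fun x => Real.log (h.h (L.idx x) x) - Real.log (h'.h (L.idx x) x) with hψdef
  have hψ : ∀ i, ∀ x ∈ L.U i, ψ x = Real.log (h.h i x) - Real.log (h'.h i x) := by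
    intro i x hx
    have hj := L.mem_idx x
    have hg : (‖L.g i (L.idx x) x‖ ^ 2 : ℝ) ≠ 0 := by
      have := L.ne_zero i (L.idx x) x ⟨hx, hj⟩
      positivity
    simp only [hψdef]
    rw [h.compatible i _ x ⟨hx, hj⟩, h'.compatible i _ x ⟨hx, hj⟩,
      Real.log_mul hg (h.pos i x hx).ne', Real.log_mul hg (h'.pos i x hx).ne']
    ring
  have hψs : ContMDiffOn 𝓘(ℝ, Cn d) 𝓘(ℝ, ℝ) ∞ ψ univ := by
    intro x _
    have hi := L.mem_idx x
    exact ((((h.contMDiffOn_log _).sub (h'.contMDiffOn_log _)).congr (hψ _)).contMDiffAt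
      ((L.isOpen_U _).mem_nhds hi)).contMDiffWithinAt
  refine (Submodule.Quotient.eq _).2 ?_
  refine ⟨(-(1 / (4 * Real.pi)) : ℝ) • dc ψ, (smoothForms d X 1).smul_mem _ (isSmooth_dc hψs), ?_⟩
  funext x
  have hi := L.mem_idx x
  have h1 := ddbar_eq_sub (L.isOpen_U _) (h.contMDiffOn_log _) (h'.contMDiffOn_log _) (hψ _) hi
  have h2 : (dc (d := d) ψ).extd x = (2 : ℝ) • ddbar (d := d) ψ x := by
    simp [ddbar]
  rw [extd_smul, Pi.smul_apply, h2, h1]
  show _ = Θ.1 x - Θ'.1 x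
  rw [hΘ _ x hi, hΘ' _ x hi, smul_smul, ← smul_sub]
  congr 1
  field_simp
  ring

/-- **`c₁(L)` is well defined**: there is exactly one class `c` with `L.IsFirstChernClass c`. -/
theorem HolLineBundle.existsUnique_isFirstChernClass [T2Space X] [SigmaCompactSpace X]
    (L : HolLineBundle d X) : ∃! c, L.IsFirstChernClass c := by
  obtain ⟨h⟩ := L.exists_hermitianMetric
  obtain ⟨c, hc⟩ := h.exists_isFirstChernClass
  exact ⟨c, hc, fun c' hc' => L.isFirstChernClass_unique hc' hc⟩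

end Uniqueness

end Claimed.Open.R041
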