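/-
Result 041, sanity: the Levi form `i∂∂̄ψ` on `ℂ^d` in terms of the real Hessian of `ψ`.
Part of the checked example (a Kummer K3 surface) for the hypotheses of `StrongSYZ`.
-/
import Claimed.Open.R041.SanityChern

open scoped Manifold ContDiff Topology
open Set

namespace Claimed.Open.R041

section FlatHessian

variable {d : ℕ}

theorem dcCLM_apply (ℓ : Cn d →L[ℝ] ℝ) (w : Fin 1 → Cn d) :
    dcCLM d ℓ w = - ℓ (Complex.I • w 0) := by
  simp [dcCLM, mulI_apply]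

theorem differentiableAt_fderiv {ψ : Cn d → ℝ} {V : Set (Cn d)} (hV : IsOpen V)
    (hψ : ContDiffOn ℝ ∞ ψ V) {y : Cn d} (hy : y ∈ V) : DifferentiableAt ℝ (fderiv ℝ ψ) y :=
  ((hψ.fderiv_of_isOpen hV (m := ∞) (by simp)).contDiffAt (hV.mem_nhds hy)).differentiableAt
    (by simp)

/-- `i∂∂̄ψ (a,b) = ½ (D²ψ(b, Ja) - D²ψ(a, Jb))`. -/
theorem ddbar_apply_hess {ψ : Cn d → ℝ} {V : Set (Cn d)} (hV : IsOpen V)
    (hψ : ContDiffOn ℝ ∞ ψ V) {y : Cn d} (hy : y ∈ V) (a b : Cn d) :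
    ddbar (d := d) ψ y ![a, b] =
      (1 / 2 : ℝ) * (fderiv ℝ (fderiv ℝ ψ) y b (Complex.I • a) -
        fderiv ℝ (fderiv ℝ ψ) y a (Complex.I • b)) := by
  have h1 : fderiv ℝ (dc (d := d) ψ) y = (dcCLM d) ∘L fderiv ℝ (fderiv ℝ ψ) y := by
    rw [dc_flat']
    exact ((dcCLM d).hasFDerivAt.comp y (differentiableAt_fderiv hV hψ hy).hasFDerivAt).fderiv
  rw [ddbar_flat, extDeriv, h1]
  simp [ContinuousAlternatingMap.alternatizeUncurryFin_apply, Fin.sum_univ_succ, dcCLM_apply,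
    Fin.removeNth]
  ring

theorem hess_symm {ψ : Cn d → ℝ} {V : Set (Cn d)} (hV : IsOpen V)
    (hψ : ContDiffOn ℝ ∞ ψ V) {y : Cn d} (hy : y ∈ V) (a b : Cn d) :
    fderiv ℝ (fderiv ℝ ψ) y a b = fderiv ℝ (fderiv ℝ ψ) y b a :=
  (hψ.contDiffAt (hV.mem_nhds hy)).isSymmSndFDerivAt (by
    rw [minSmoothness_of_isRCLikeNormedField]; exact WithTop.coe_le_coe.2 le_top) a b

/-- `i∂∂̄ψ` is of type `(1,1)`. -/
theorem ddbar_invariant {ψ : Cn d → ℝ} {V : Set (Cn d)} (hV : IsOpen V)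
    (hψ : ContDiffOn ℝ ∞ ψ V) {y : Cn d} (hy : y ∈ V) (a b : Cn d) :
    ddbar (d := d) ψ y ![Complex.I • a, Complex.I • b] = ddbar (d := d) ψ y ![a, b] := by
  rw [ddbar_apply_hess hV hψ hy, ddbar_apply_hess hV hψ hy, smul_smul, smul_smul,
    Complex.I_mul_I, neg_one_smul, neg_one_smul, map_neg, map_neg,
    hess_symm hV hψ hy (Complex.I • b) a, hess_symm hV hψ hy (Complex.I • a) b]
  ring

/-- `i∂∂̄ψ (v,Jv) = ½ (D²ψ(v,v) + D²ψ(Jv,Jv))`. -/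
theorem ddbar_apply_self {ψ : Cn d → ℝ} {V : Set (Cn d)} (hV : IsOpen V)
    (hψ : ContDiffOn ℝ ∞ ψ V) {y : Cn d} (hy : y ∈ V) (v : Cn d) :
    ddbar (d := d) ψ y ![v, Complex.I • v] =
      (1 / 2 : ℝ) * (fderiv ℝ (fderiv ℝ ψ) y v v +
        fderiv ℝ (fderiv ℝ ψ) y (Complex.I • v) (Complex.I • v)) := by
  rw [ddbar_apply_hess hV hψ hy, smul_smul, Complex.I_mul_I, neg_one_smul, map_neg]
  ring

end FlatHessian

end Claimed.Open.R041
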