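/-
Result 041, sanity (package H of the Kummer K3 example): global closed `(1,1)`-forms from local
potentials, evaluation of `i∂∂̄ψ` through holomorphic charts, and the line bundle of a "tube".
-/
import Claimed.Open.R041.SanityChern
import Claimed.Open.R041.K3Hessian

open scoped Manifold ContDiff Topology
open Set

namespace Claimed.Open.R041

/-! ### Package H: global forms from local potentials; the line bundle of a tube -/
section H

variable {d : ℕ} {X : Type} [TopologicalSpace X] [ChartedSpace (Cn d) X]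
  [IsManifold 𝓘(ℂ, Cn d) ω X]

/-- Local expression, in a holomorphic chart, of a form with local potentials. -/
theorem inChart_eventuallyEq_of_potential {κ : Form ℝ d X ℝ 2} {W : Set X} (hW : IsOpen W)
    {ψ : X → ℝ} (hψ : ContMDiffOn 𝓘(ℝ, Cn d) 𝓘(ℝ, ℝ) ∞ ψ W)
    (hκ : ∀ x ∈ W, κ x = ddbar (d := d) ψ x) {e : OpenPartialHomeomorph X (Cn d)}
    (he : e ∈ IsManifold.maximalAtlas 𝓘(ℂ, Cn d) ω X) {y : Cn d} (hy : y ∈ e.target)
    (hi : e.symm y ∈ W) :
    κ.inChart e =ᶠ[𝓝 y] ddbar (d := d) (ψ ∘ e.symm) := by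
  filter_upwards [(isOpen_chartDomain hW e).mem_nhds ⟨hy, hi⟩] with z hz
  rw [← inChart_ddbar hW hψ he hz.1 hz.2, inChart_eq, inChart_eq, hκ _ hz.2]

/-- A form which locally has smooth potentials is smooth and closed. -/
theorem mem_closedForms_of_local_potentials {ι : Type} (W : ι → Set X) (hW : ∀ i, IsOpen (W i))
    (hcov : ∀ x, ∃ i, x ∈ W i) (ψ : ι → X → ℝ)
    (hψ : ∀ i, ContMDiffOn 𝓘(ℝ, Cn d) 𝓘(ℝ, ℝ) ∞ (ψ i) (W i))
    {κ : Form ℝ d X ℝ 2} (hκ : ∀ i, ∀ x ∈ W i, κ x = ddbar (d := d) (ψ i) x) :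
    κ ∈ closedForms d X 2 := by
  constructor
  · intro e he y hy
    have hem : e ∈ IsManifold.maximalAtlas 𝓘(ℂ, Cn d) ω X := IsManifold.subset_maximalAtlas he
    obtain ⟨i, hi⟩ := hcov (e.symm y)
    have hS := isOpen_chartDomain (hW i) e
    have h1 : ContDiffAt ℝ ∞ (ddbar (d := d) (ψ i ∘ e.symm)) y :=
      (contDiffOn_ddbar hS (contDiffOn_comp_symm_real (hψ i) hem)).contDiffAt
        (hS.mem_nhds ⟨hy, hi⟩)
    exact (h1.congr_of_eventuallyEq
      (inChart_eventuallyEq_of_potential (hW i) (hψ i) (hκ i) hem hy hi)).contDiffWithinAt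
  · funext x
    set e := chartAt (Cn d) x
    have hem : e ∈ IsManifold.maximalAtlas 𝓘(ℂ, Cn d) ω X := IsManifold.chart_mem_maximalAtlas x
    obtain ⟨i, hi0⟩ := hcov x
    have hi : e.symm (e x) ∈ W i := by
      rw [e.left_inv (mem_chart_source _ x)]; exact hi0
    have hS := isOpen_chartDomain (hW i) e
    show extDeriv (κ.inChart e) (e x) = 0
    rw [(inChart_eventuallyEq_of_potential (hW i) (hψ i) (hκ i) hem
      (mem_chart_target _ x) hi).extDeriv_eq,
      extDeriv_ddbar hS (contDiffOn_comp_symm_real (hψ i) hem) ⟨mem_chart_target _ x, hi⟩]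

theorem exists_form_of_local_potentials {ι : Type} (W : ι → Set X) (hW : ∀ i, IsOpen (W i))
    (hcov : ∀ x, ∃ i, x ∈ W i) (ψ : ι → X → ℝ)
    (hψ : ∀ i, ContMDiffOn 𝓘(ℝ, Cn d) 𝓘(ℝ, ℝ) ∞ (ψ i) (W i))
    (hcomp : ∀ i j, ∀ x ∈ W i ∩ W j, ddbar (d := d) (ψ i) x = ddbar (d := d) (ψ j) x) :
    ∃ κ : Form ℝ d X ℝ 2, κ ∈ closedForms d X 2 ∧ ∀ i, ∀ x ∈ W i, κ x = ddbar (d := d) (ψ i) x := by
  choose idx hidx using hcov
  have hκ : ∀ i, ∀ x ∈ W i, (fun x => ddbar (d := d) (ψ (idx x)) x : Form ℝ d X ℝ 2) x =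
      ddbar (d := d) (ψ i) x := fun i x hx => hcomp _ _ x ⟨hidx x, hx⟩
  exact ⟨_, mem_closedForms_of_local_potentials W hW (fun x => ⟨idx x, hidx x⟩) ψ hψ hκ, hκ⟩

/-- `i∂∂̄ψ` is of type `(1,1)`. -/
theorem ddbar_invariant_mfd {ψ : X → ℝ} {U : Set X} (hU : IsOpen U)
    (hψ : ContMDiffOn 𝓘(ℝ, Cn d) 𝓘(ℝ, ℝ) ∞ ψ U) {x : X} (hx : x ∈ U) (u v : Cn d) :
    ddbar (d := d) ψ x ![Complex.I • u, Complex.I • v] = ddbar (d := d) ψ x ![u, v] := by
  set e := chartAt (Cn d) x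
  have hem : e ∈ IsManifold.maximalAtlas 𝓘(ℂ, Cn d) ω X := IsManifold.chart_mem_maximalAtlas x
  have hi : e.symm (e x) ∈ U := by
    rw [e.left_inv (mem_chart_source _ x)]; exact hx
  rw [ddbar_eq_flat hU hψ hx]
  exact ddbar_invariant (isOpen_chartDomain hU e) (contDiffOn_comp_symm_real hψ hem)
    ⟨mem_chart_target _ x, hi⟩ u v

omit [IsManifold 𝓘(ℂ, Cn d) ω X] in
/-- `d(e⁻¹) ∘ de = id` for a holomorphic chart. -/
theorem symmDeriv_diffAt {x : X}
    {e : OpenPartialHomeomorph X (Cn d)} (he : e ∈ IsManifold.maximalAtlas 𝓘(ℂ, Cn d) ω X)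
    (hxe : x ∈ e.source) (u : Cn d) : symmDeriv ℂ e (e x) (diffAt ℂ (d := d) e x u) = u := by
  have he1 : e ∈ IsManifold.maximalAtlas 𝓘(ℂ, Cn d) 1 X :=
    IsManifold.maximalAtlas_subset_of_le le_top he
  have hmd : e.MDifferentiable 𝓘(ℂ, Cn d) 𝓘(ℂ, Cn d) :=
    ⟨fun z hz => (mdifferentiableAt_of_mem_maximalAtlas he1 hz).mdifferentiableWithinAt,
      fun z hz => (mdifferentiableAt_symm_of_mem_maximalAtlas he1 hz).mdifferentiableWithinAt⟩
  exact congrArg (fun f : Cn d →L[ℂ] Cn d => f u) (hmd.symm_comp_deriv hxe)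

/-- Evaluation of `i∂∂̄ψ` at `x` through an arbitrary holomorphic chart. -/
theorem ddbar_apply_chart {ψ : X → ℝ} {U : Set X} (hU : IsOpen U)
    (hψ : ContMDiffOn 𝓘(ℝ, Cn d) 𝓘(ℝ, ℝ) ∞ ψ U) {x : X} (hx : x ∈ U)
    {e : OpenPartialHomeomorph X (Cn d)} (he : e ∈ IsManifold.maximalAtlas 𝓘(ℂ, Cn d) ω X)
    (hxe : x ∈ e.source) (u v : Cn d) :
    ddbar (d := d) ψ x ![u, v] =
      ddbar (d := d) (ψ ∘ e.symm) (e x) ![diffAt ℂ (d := d) e x u, diffAt ℂ (d := d) e x v] := by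
  have he1 : e ∈ IsManifold.maximalAtlas 𝓘(ℂ, Cn d) 1 X :=
    IsManifold.maximalAtlas_subset_of_le le_top he
  have hi : e.symm (e x) ∈ U := by rw [e.left_inv hxe]; exact hx
  rw [← inChart_ddbar hU hψ he (e.map_source hxe) hi, inChart_eq, e.left_inv hxe,
    symmDeriv_real he1 (e.map_source hxe)]
  rw [ContinuousAlternatingMap.compContinuousLinearMap_apply]
  congr 1
  funext k
  fin_cases k
  · exact (symmDeriv_diffAt he hxe u).symm
  · exact (symmDeriv_diffAt he hxe v).symm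

omit [IsManifold 𝓘(ℂ, Cn d) ω X] in
/-- `d_x e` is injective for a holomorphic chart. -/
theorem diffAt_chart_injective {x : X}
    {e : OpenPartialHomeomorph X (Cn d)} (he : e ∈ IsManifold.maximalAtlas 𝓘(ℂ, Cn d) ω X)
    (hxe : x ∈ e.source) : Function.Injective (diffAt ℂ (d := d) e x) :=
  Function.LeftInverse.injective (g := symmDeriv ℂ e (e x)) (symmDeriv_diffAt he hxe)

/-- `i∂∂̄(cψ) = c i∂∂̄ψ` on a manifold. -/
theorem ddbar_const_mul_mfd (c : ℝ) {ψ : X → ℝ} {U : Set X} (hU : IsOpen U)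
    (hψ : ContMDiffOn 𝓘(ℝ, Cn d) 𝓘(ℝ, ℝ) ∞ ψ U) {x : X} (hx : x ∈ U) :
    ddbar (d := d) (fun y => c * ψ y) x = c • ddbar (d := d) ψ x := by
  have hc : ContMDiffOn 𝓘(ℝ, Cn d) 𝓘(ℝ, ℝ) ∞ (fun y => c * ψ y) U :=
    contMDiffOn_const.mul hψ
  rw [ddbar_eq_flat hU hc hx, ddbar_eq_flat hU hψ hx]
  exact ddbar_const_smul c _ _

/-- `i∂∂̄` of a constant vanishes. -/
theorem ddbar_const_mfd (c : ℝ) (x : X) : ddbar (d := d) (fun _ : X => c) x = 0 := by
  have h0 : ContMDiffOn 𝓘(ℝ, Cn d) 𝓘(ℝ, ℝ) ∞ (fun _ : X => c) univ := contMDiffOn_const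
  rw [ddbar_eq_flat isOpen_univ h0 (mem_univ x)]
  have h := ddbar_re_eq_zero (d := d) (H := fun _ => (c : ℂ)) isOpen_univ contDiffOn_const
    (mem_univ (chartAt (Cn d) x x))
  simp only [Complex.ofReal_re] at h
  exact h

/-- The line bundle `𝒪(div ζ)` of a "tube" `(U₁, ζ)`, with the Hermitian metric
`h₁ = exp(-K(|ζ|²))` on `U₁`, `h₀ = exp(-C)` outside. -/
theorem exists_lineBundle_of_tube {U₁ : Set X} (hU₁ : IsOpen U₁) {ζ : X → ℂ}
    (hζ : HolomorphicOn d ζ U₁) {u₁ : ℝ} (hu₁ : 0 < u₁)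
    (hcl : IsClosed {x | x ∈ U₁ ∧ ‖ζ x‖ ^ 2 ≤ u₁}) {K : ℝ → ℝ} {C : ℝ} (hK : ContDiff ℝ ∞ K)
    (hK1 : ∀ u, u₁ ≤ u → K u = Real.log u + C) :
    ∃ (L : HolLineBundle d X) (h : L.HermitianMetric) (Θ : closedForms d X 2),
      h.IsChernForm Θ.1 ∧
      (∀ x ∈ U₁, Θ.1 x = (1 / (2 * Real.pi) : ℝ) • ddbar (d := d) (fun y => K (‖ζ y‖ ^ 2)) x) ∧
      (∀ x, x ∉ U₁ → Θ.1 x = 0) := by
  set U₀ : Set X := {x | x ∈ U₁ ∧ ‖ζ x‖ ^ 2 ≤ u₁}ᶜ with hU₀
  have hlt : ∀ x, x ∈ U₁ → x ∈ U₀ → u₁ < ‖ζ x‖ ^ 2 := by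
    intro x h1 h0
    by_contra hcon
    exact h0 ⟨h1, not_lt.1 hcon⟩
  have hne : ∀ x, x ∈ U₁ → x ∈ U₀ → ζ x ≠ 0 := by
    intro x h1 h0 hz
    have := hlt x h1 h0
    rw [hz] at this
    simp at this
    linarith
  let L : HolLineBundle d X :=
    { ι := Bool
      U := fun b => if b then U₁ else U₀
      isOpen_U := by
        intro b
        cases b
        · exact hcl.isOpen_compl
        · exact hU₁
      cover := by
        intro x
        by_cases hx : x ∈ U₁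
        · exact ⟨true, hx⟩
        · exact ⟨false, fun h => hx h.1⟩
      g := fun a b => if a = b then fun _ => 1 else if a then ζ else fun x => (ζ x)⁻¹
      holomorphic := by
        intro a b
        cases a <;> cases b
        · exact contMDiffOn_const
        · exact ContMDiffOn.inv₀ (hζ.mono inter_subset_right) (fun x hx => hne x hx.2 hx.1)
        · exact hζ.mono inter_subset_left
        · exact contMDiffOn_const
      ne_zero := by
        intro a b x hx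
        cases a <;> cases b
        · simp
        · exact inv_ne_zero (hne x hx.2 hx.1)
        · exact hne x hx.1 hx.2
        · simp
      cocycle := by
        intro a b c x hx
        cases a <;> cases b <;> cases c <;> simp
        · exact inv_mul_cancel₀ (hne x hx.1.2 hx.1.1)
        · exact mul_inv_cancel₀ (hne x hx.1.1 hx.1.2) }
  have hζr : ContMDiffOn 𝓘(ℝ, Cn d) 𝓘(ℝ, ℝ) ∞ (fun y => ‖ζ y‖ ^ 2) U₁ := by
    have h1 : ContMDiffOn 𝓘(ℝ, Cn d) 𝓘(ℝ, ℂ) ∞ ζ U₁ :=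
      (contMDiffOn_real_of_complex hζ).of_le le_top
    exact (contDiff_norm_sq ℝ (E := ℂ) (n := ∞)).contMDiff.comp_contMDiffOn h1
  have hKζ : ContMDiffOn 𝓘(ℝ, Cn d) 𝓘(ℝ, ℝ) ∞ (fun y => K (‖ζ y‖ ^ 2)) U₁ :=
    hK.contMDiff.comp_contMDiffOn hζr
  let h : L.HermitianMetric :=
    { h := fun b => if b then fun x => Real.exp (-K (‖ζ x‖ ^ 2)) else fun _ => Real.exp (-C)
      pos := by
        intro b x _
        cases b
        · exact Real.exp_pos _
        · exact Real.exp_pos _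
      smooth := by
        intro b
        cases b
        · exact contMDiffOn_const
        · exact Real.contDiff_exp.contMDiff.comp_contMDiffOn hKζ.neg
      compatible := by
        intro a b x hx
        have key : ∀ x, x ∈ U₁ → x ∈ U₀ →
            Real.exp (-C) = ‖ζ x‖ ^ 2 * Real.exp (-K (‖ζ x‖ ^ 2)) := by
          intro x h1 h0
          have hpos : 0 < ‖ζ x‖ ^ 2 := hu₁.trans (hlt x h1 h0)
          rw [hK1 _ (hlt x h1 h0).le, neg_add, Real.exp_add, Real.exp_neg (Real.log _),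
            Real.exp_log hpos, ← mul_assoc, mul_inv_cancel₀ hpos.ne', one_mul]
        cases a <;> cases b
        · simp [L]
        · have := key x hx.2 hx.1
          have hpos : 0 < ‖ζ x‖ ^ 2 := hu₁.trans (hlt x hx.2 hx.1)
          show Real.exp (-K (‖ζ x‖ ^ 2)) = ‖(ζ x)⁻¹‖ ^ 2 * Real.exp (-C)
          rw [this, norm_inv, inv_pow, ← mul_assoc, inv_mul_cancel₀ hpos.ne', one_mul]
        · exact key x hx.1 hx.2
        · simp [L] }
  refine ⟨L, h, ⟨h.chernForm, h.isChernForm_chernForm.mem_closedForms⟩,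
    h.isChernForm_chernForm, ?_, ?_⟩
  · intro x hx
    have h1 := h.isChernForm_chernForm true x hx
    have h2 : (fun y => Real.log (h.h true y)) = fun y => (-1) * K (‖ζ y‖ ^ 2) := by
      funext y
      simp [h]
    show h.chernForm x = _
    rw [h1, h2, ddbar_const_mul_mfd (-1) hU₁ hKζ hx, smul_smul]
    congr 1
    ring
  · intro x hx
    have h1 := h.isChernForm_chernForm false x (fun hh => hx hh.1)
    have h2 : (fun y => Real.log (h.h false y)) = fun _ => -C := by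
      funext y
      simp [h]
    show h.chernForm x = _
    rw [h1, h2, ddbar_const_mfd, smul_zero]

end H

end Claimed.Open.R041
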