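import Mathlib

/-!
# Result 041, Kummer example, package G: radial profiles

One-variable calculus: the radial profile of a Kähler potential which is `√u - ε/2 log u + C`
far from the origin and smooth at the origin, and the profile of a bump potential.
-/

open scoped ContDiff
open Set

namespace Claimed.Open.R041

/-! ### Package G: radial profiles -/
section G

/-- A smooth nondecreasing step: `0` for `u ≤ u₀`, `1` for `u₁ ≤ u`. -/
noncomputable def k3Step (u₀ u₁ : ℝ) (u : ℝ) : ℝ :=
  Real.smoothTransition ((u - u₀) / (u₁ - u₀))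

lemma k3Step_contDiff (u₀ u₁ : ℝ) : ContDiff ℝ ∞ (k3Step u₀ u₁) :=
  Real.smoothTransition.contDiff.comp ((contDiff_id.sub contDiff_const).div_const _)

lemma k3Step_monotone {u₀ u₁ : ℝ} (h : u₀ < u₁) : Monotone (k3Step u₀ u₁) := fun a b hab =>
  Real.smoothTransition.monotone
    (div_le_div_of_nonneg_right (by linarith) (by linarith))

lemma k3Step_zero {u₀ u₁ u : ℝ} (h : u₀ < u₁) (hu : u ≤ u₀) : k3Step u₀ u₁ u = 0 :=
  Real.smoothTransition.zero_of_nonpos
    (div_nonpos_of_nonpos_of_nonneg (by linarith) (by linarith))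

lemma k3Step_one {u₀ u₁ u : ℝ} (h : u₀ < u₁) (hu : u₁ ≤ u) : k3Step u₀ u₁ u = 1 :=
  Real.smoothTransition.one_of_one_le ((one_le_div (by linarith)).2 (by linarith))

lemma k3Step_nonneg (u₀ u₁ u : ℝ) : 0 ≤ k3Step u₀ u₁ u := Real.smoothTransition.nonneg _

lemma k3Step_le_one (u₀ u₁ u : ℝ) : k3Step u₀ u₁ u ≤ 1 := Real.smoothTransition.le_one _

lemma k3Step_deriv_nonneg {u₀ u₁ : ℝ} (h : u₀ < u₁) (u : ℝ) : 0 ≤ deriv (k3Step u₀ u₁) u :=
  (k3Step_monotone h).deriv_nonneg

lemma k3Step_hasDerivAt (u₀ u₁ u : ℝ) :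
    HasDerivAt (k3Step u₀ u₁) (deriv (k3Step u₀ u₁) u) u :=
  ((k3Step_contDiff u₀ u₁).differentiable (by simp)).differentiableAt.hasDerivAt

lemma k3Step_deriv_eq_zero_of_gt {u₀ u₁ u : ℝ} (h : u₀ < u₁) (hu : u₁ < u) :
    deriv (k3Step u₀ u₁) u = 0 := by
  have : k3Step u₀ u₁ =ᶠ[nhds u] fun _ => (1 : ℝ) :=
    Filter.eventually_of_mem (Ioi_mem_nhds hu) fun v hv => k3Step_one h (le_of_lt hv)
  rw [this.deriv_eq, deriv_const]

/-- The primitive of a smooth function is smooth. -/
lemma k3_primitive {g : ℝ → ℝ} (hg : ContDiff ℝ ∞ g) (a : ℝ) :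
    ContDiff ℝ ∞ (fun u => ∫ t in a..u, g t) ∧ deriv (fun u => ∫ t in a..u, g t) = g := by
  have hd : ∀ u, HasDerivAt (fun u => ∫ t in a..u, g t) (g u) u := fun u =>
    intervalIntegral.integral_hasDerivAt_right (hg.continuous.intervalIntegrable _ _)
      (hg.continuous.stronglyMeasurableAtFilter _ _) hg.continuous.continuousAt
  have hderiv : deriv (fun u => ∫ t in a..u, g t) = g := funext fun u => (hd u).deriv
  exact ⟨contDiff_infty_iff_deriv.2 ⟨fun u => (hd u).differentiableAt, by rw [hderiv]; exact hg⟩,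
    hderiv⟩

lemma k3_convex_pos {χ a b : ℝ} (h0 : 0 ≤ χ) (h1 : χ ≤ 1) (ha : 0 < a) (hb : 0 < b) :
    0 < (1 - χ) * a + χ * b := by
  rcases lt_or_eq_of_le h1 with h | h
  · have : 0 < (1 - χ) * a := mul_pos (by linarith) ha
    have : 0 ≤ χ * b := mul_nonneg h0 hb.le
    linarith
  · subst h; simpa using hb

theorem exists_kahler_profile {u₁ : ℝ} (hu₁ : 0 < u₁) :
    ∃ (ε C : ℝ) (G : ℝ → ℝ), 0 < ε ∧ ContDiff ℝ ∞ G ∧ (∀ u, 0 ≤ u → 0 < deriv G u) ∧
      (∀ u, 0 ≤ u → 0 < deriv G u + u * deriv (deriv G) u) ∧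
      ∀ u, u₁ ≤ u → G u = Real.sqrt u - ε / 2 * Real.log u + C := by
  set u₀ : ℝ := u₁ / 4 with hu₀def
  have hu₀ : 0 < u₀ := by positivity
  have h01 : u₀ < u₁ := by rw [hu₀def]; linarith
  set s₀ : ℝ := Real.sqrt u₀ with hs₀def
  have hs₀ : 0 < s₀ := Real.sqrt_pos.2 hu₀
  set ε : ℝ := s₀ / 2 with hεdef
  have hε : 0 < ε := by positivity
  set c : ℝ := s₀ / (4 * u₁) with hcdef
  have hc : 0 < c := by positivity
  set χ : ℝ → ℝ := k3Step u₀ u₁ with hχdef
  set g : ℝ → ℝ := fun u => (1 - χ u) * c + χ u * ((Real.sqrt u - ε) / (2 * u)) with hgdef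
  -- `g` is locally constant on the left of `u₀`
  have hgleft : ∀ u, u < u₀ → g =ᶠ[nhds u] fun _ => c := fun u hu =>
    Filter.eventually_of_mem (Iio_mem_nhds hu) fun v hv => by
      have : χ v = 0 := k3Step_zero h01 (le_of_lt hv)
      simp [hgdef, this]
  have hχs : ContDiff ℝ ∞ χ := k3Step_contDiff u₀ u₁
  have hgs : ContDiff ℝ ∞ g := by
    rw [contDiff_iff_contDiffAt]
    intro u
    rcases lt_or_ge u u₀ with hu | hu
    · exact (contDiffAt_const (c := c)).congr_of_eventuallyEq (hgleft u hu)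
    · have hupos : 0 < u := lt_of_lt_of_le hu₀ hu
      exact ((contDiffAt_const.sub hχs.contDiffAt).mul contDiffAt_const).add
        (hχs.contDiffAt.mul (((Real.contDiffAt_sqrt hupos.ne').sub contDiffAt_const).div
          (contDiffAt_const.mul contDiffAt_id) (by positivity)))
  have hsqrt : ∀ u, u₀ ≤ u → s₀ ≤ Real.sqrt u := fun u hu => Real.sqrt_le_sqrt hu
  have hgpos : ∀ u, 0 < g u := by
    intro u
    rcases le_or_gt u u₀ with hu | hu
    · have : χ u = 0 := k3Step_zero h01 hu
      simp [hgdef, this, hc]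
    · have hupos : 0 < u := lt_trans hu₀ hu
      have h1 := hsqrt u hu.le
      exact k3_convex_pos (k3Step_nonneg _ _ _) (k3Step_le_one _ _ _) hc
        (div_pos (by rw [hεdef]; linarith) (by positivity))
  obtain ⟨hGs, hGd⟩ := k3_primitive hgs u₁
  refine ⟨ε, -(Real.sqrt u₁ - ε / 2 * Real.log u₁), fun u => ∫ t in u₁..u, g t, hε, hGs, ?_, ?_, ?_⟩
  · intro u _
    rw [hGd]
    exact hgpos u
  · intro u hu0
    rw [hGd]
    rcases lt_or_ge u u₀ with hu | hu
    · rw [(hgleft u hu).deriv_eq, deriv_const, mul_zero, add_zero]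
      exact hgpos u
    · have hupos : 0 < u := lt_of_lt_of_le hu₀ hu
      have hsu : 0 < Real.sqrt u := Real.sqrt_pos.2 hupos
      have hgd : HasDerivAt g (deriv g u) u :=
        (hgs.differentiable (by simp)).differentiableAt.hasDerivAt
      have h1 : HasDerivAt (fun v => v * g v) (1 * g u + u * deriv g u) u :=
        (hasDerivAt_id u).mul hgd
      have hχd : HasDerivAt χ (deriv χ u) u := k3Step_hasDerivAt u₀ u₁ u
      have h2 : HasDerivAt (fun v => (1 - χ v) * (c * v) + χ v * ((Real.sqrt v - ε) / 2))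
          ((-(deriv χ u)) * (c * u) + (1 - χ u) * (c * 1)
            + (deriv χ u * ((Real.sqrt u - ε) / 2) + χ u * ((1 / (2 * Real.sqrt u)) / 2))) u := by
        have a1 : HasDerivAt (fun v => 1 - χ v) (-(deriv χ u)) u := hχd.const_sub 1
        have a2 : HasDerivAt (fun v => c * v) (c * 1) u := (hasDerivAt_id u).const_mul c
        have a3 : HasDerivAt (fun v => (Real.sqrt v - ε) / 2) ((1 / (2 * Real.sqrt u)) / 2) u :=
          ((Real.hasDerivAt_sqrt hupos.ne').sub_const ε).div_const 2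
        exact (a1.mul a2).add (hχd.mul a3)
      have heq : (fun v => v * g v) =ᶠ[nhds u]
          fun v => (1 - χ v) * (c * v) + χ v * ((Real.sqrt v - ε) / 2) :=
        Filter.eventually_of_mem (Ioi_mem_nhds hupos) fun v hv => by
          have hv' : v ≠ 0 := ne_of_gt hv
          simp only [hgdef]
          field_simp
      have h3 := (h2.congr_of_eventuallyEq heq).unique h1
      have h4 : g u + u * deriv g u = (1 - χ u) * c + χ u * (1 / (4 * Real.sqrt u))
          + deriv χ u * ((Real.sqrt u - ε) / 2 - c * u) := by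
        have : g u + u * deriv g u = 1 * g u + u * deriv g u := by ring
        rw [this, ← h3]
        field_simp
        ring
      rw [h4]
      have hmain : 0 < (1 - χ u) * c + χ u * (1 / (4 * Real.sqrt u)) :=
        k3_convex_pos (k3Step_nonneg _ _ _) (k3Step_le_one _ _ _) hc (by positivity)
      have hrest : 0 ≤ deriv χ u * ((Real.sqrt u - ε) / 2 - c * u) := by
        rcases le_or_gt u u₁ with hle | hgt
        · refine mul_nonneg (k3Step_deriv_nonneg h01 u) ?_
          have h5 := hsqrt u hu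
          have h6 : c * u ≤ s₀ / 4 := by
            rw [hcdef, div_mul_eq_mul_div, div_le_div_iff₀ (by positivity) (by norm_num)]
            nlinarith
          rw [hεdef]
          linarith
        · rw [hχdef, k3Step_deriv_eq_zero_of_gt h01 hgt, zero_mul]
      linarith
  · intro u hu
    have hder : ∀ x ∈ uIcc u₁ u,
        HasDerivAt (fun t => Real.sqrt t - ε / 2 * Real.log t) (g x) x := by
      intro x hx
      rw [uIcc_of_le hu] at hx
      have hxpos : 0 < x := lt_of_lt_of_le hu₁ hx.1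
      have hsx : 0 < Real.sqrt x := Real.sqrt_pos.2 hxpos
      have hχ1 : χ x = 1 := k3Step_one h01 hx.1
      have hd : HasDerivAt (fun t => Real.sqrt t - ε / 2 * Real.log t)
          (1 / (2 * Real.sqrt x) - ε / 2 * x⁻¹) x :=
        (Real.hasDerivAt_sqrt hxpos.ne').sub ((Real.hasDerivAt_log hxpos.ne').const_mul _)
      have hval : g x = 1 / (2 * Real.sqrt x) - ε / 2 * x⁻¹ := by
        simp only [hgdef, hχ1]
        have hxx : x = Real.sqrt x * Real.sqrt x := (Real.mul_self_sqrt hxpos.le).symm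
        generalize Real.sqrt x = r at hsx hxx
        subst hxx
        field_simp
        ring
      rw [hval]
      exact hd
    have := intervalIntegral.integral_eq_sub_of_hasDerivAt hder
      (hgs.continuous.intervalIntegrable _ _)
    simp only [this]
    ring

theorem exists_bump_profile {u₀ u₁ : ℝ} (hu₀ : 0 < u₀) (hu : u₀ < u₁) :
    ∃ (C : ℝ) (K : ℝ → ℝ), ContDiff ℝ ∞ K ∧ (∀ u, u ≤ u₀ → K u = 0) ∧
      (∀ u, u₁ ≤ u → K u = Real.log u + C) ∧
      (∀ u, 0 ≤ u → 0 ≤ deriv K u + u * deriv (deriv K) u) ∧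
      ∃ u ∈ Ioo u₀ u₁, 0 < deriv K u + u * deriv (deriv K) u := by
  set χ : ℝ → ℝ := k3Step u₀ u₁ with hχdef
  have hχs : ContDiff ℝ ∞ χ := k3Step_contDiff u₀ u₁
  set k : ℝ → ℝ := fun u => χ u / u with hkdef
  have hks : ContDiff ℝ ∞ k := by
    rw [contDiff_iff_contDiffAt]
    intro u
    rcases lt_or_ge u u₀ with h | h
    · have : k =ᶠ[nhds u] fun _ => (0 : ℝ) :=
        Filter.eventually_of_mem (Iio_mem_nhds h) fun v hv => by
          have : χ v = 0 := k3Step_zero hu (le_of_lt hv)
          simp [hkdef, this]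
      exact (contDiffAt_const (c := (0 : ℝ))).congr_of_eventuallyEq this
    · exact hχs.contDiffAt.div contDiffAt_id (ne_of_gt (lt_of_lt_of_le hu₀ h))
  have hmul : (fun v => v * k v) = χ := by
    funext v
    by_cases hv : v = 0
    · subst hv
      have : χ 0 = 0 := k3Step_zero hu hu₀.le
      simp [this]
    · simp only [hkdef]
      field_simp
  have hkey : ∀ u, k u + u * deriv k u = deriv χ u := by
    intro u
    have hkd : HasDerivAt k (deriv k u) u :=
      (hks.differentiable (by simp)).differentiableAt.hasDerivAt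
    have h1 : HasDerivAt (fun v => v * k v) (1 * k u + u * deriv k u) u :=
      (hasDerivAt_id u).mul hkd
    rw [hmul] at h1
    rw [h1.deriv]
    ring
  obtain ⟨hKs, hKd⟩ := k3_primitive hks u₀
  refine ⟨(∫ t in u₀..u₁, k t) - Real.log u₁, fun u => ∫ t in u₀..u, k t, hKs, ?_, ?_, ?_, ?_⟩
  · intro u hle
    have : ∫ t in u₀..u, k t = ∫ t in u₀..u, (0 : ℝ) := by
      apply intervalIntegral.integral_congr
      intro t ht
      rw [uIcc_of_ge hle] at ht
      have : χ t = 0 := k3Step_zero hu ht.2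
      simp [hkdef, this]
    simp only [this, intervalIntegral.integral_zero]
  · intro u hle
    have hu₁ : 0 < u₁ := lt_trans hu₀ hu
    have hupos : 0 < u := lt_of_lt_of_le hu₁ hle
    have hsplit : ∫ t in u₀..u, k t = (∫ t in u₀..u₁, k t) + ∫ t in u₁..u, k t :=
      (intervalIntegral.integral_add_adjacent_intervals (hks.continuous.intervalIntegrable _ _)
        (hks.continuous.intervalIntegrable _ _)).symm
    have h2 : ∫ t in u₁..u, k t = ∫ t in u₁..u, t⁻¹ := by
      apply intervalIntegral.integral_congr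
      intro t ht
      rw [uIcc_of_le hle] at ht
      have : χ t = 1 := k3Step_one hu ht.1
      simp [hkdef, this]
    simp only [hsplit, h2, integral_inv_of_pos hu₁ hupos, Real.log_div hupos.ne' hu₁.ne']
    ring
  · intro u _
    rw [hKd, hkey]
    exact k3Step_deriv_nonneg hu u
  · obtain ⟨ξ, hξ, hξd⟩ := exists_deriv_eq_slope χ hu hχs.continuous.continuousOn
      ((hχs.differentiable (by simp)).differentiableOn)
    refine ⟨ξ, hξ, ?_⟩
    rw [hKd, hkey, hξd]
    have h1 : χ u₁ = 1 := k3Step_one hu le_rfl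
    have h0 : χ u₀ = 0 := k3Step_zero hu le_rfl
    rw [h1, h0]
    exact div_pos (by norm_num) (by linarith)

end G

end Claimed.Open.R041
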