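/-
Result 041, sanity: the Kummer surface is Kähler.
Part of the checked example (a Kummer K3 surface) for the hypotheses of `StrongSYZ`.

The Kähler form is the flat form `i∂∂̄‖z‖²` at distance `> 1/8` from `½Λ`, and
`i∂∂̄ (ε log(1+|t|²) + G(|a|²(1+|t|²)²))` near the exceptional curves, where `G` is the radial profile
of `K3Profile.lean` (`G(u) = √u - (ε/2) log u + C` for `u ≥ 1/64²`).
-/
import Claimed.Open.R041.K3Potential
import Claimed.Open.R041.K3KahlerFlat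
import Claimed.Open.R041.K3KummerTrans
import Claimed.Open.R041.K3Profile

open scoped Manifold ContDiff Topology
open Set

namespace Claimed.Open.R041

section General

variable {d : ℕ} {X : Type} [TopologicalSpace X] [ChartedSpace (Cn d) X]
  [IsManifold 𝓘(ℂ, Cn d) ω X]

omit [IsManifold 𝓘(ℂ, Cn d) ω X] in
/-- A smooth function of the coordinates of a holomorphic chart is smooth. -/
theorem contMDiffOn_comp_chart {Φ : Cn d → ℝ} (hΦ : ContDiff ℝ ∞ Φ)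
    {e : OpenPartialHomeomorph X (Cn d)} (he : e ∈ IsManifold.maximalAtlas 𝓘(ℂ, Cn d) ω X) :
    ContMDiffOn 𝓘(ℝ, Cn d) 𝓘(ℝ, ℝ) ∞ (fun x => Φ (e x)) e.source := by
  have he' : e ∈ IsManifold.maximalAtlas 𝓘(ℝ, Cn d) ∞ X :=
    IsManifold.maximalAtlas_subset_of_le le_top (maximalAtlas_complex_subset_real he)
  exact hΦ.contMDiff.comp_contMDiffOn (contMDiffOn_of_mem_maximalAtlas he')

/-- Two functions with the same `i∂∂̄` in one chart have the same `i∂∂̄`. -/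
theorem ddbar_eq_of_flat {ψ₁ ψ₂ : X → ℝ} {U₁ U₂ : Set X} (hU₁ : IsOpen U₁) (hU₂ : IsOpen U₂)
    (h₁ : ContMDiffOn 𝓘(ℝ, Cn d) 𝓘(ℝ, ℝ) ∞ ψ₁ U₁) (h₂ : ContMDiffOn 𝓘(ℝ, Cn d) 𝓘(ℝ, ℝ) ∞ ψ₂ U₂)
    {x : X} (hx₁ : x ∈ U₁) (hx₂ : x ∈ U₂) {e : OpenPartialHomeomorph X (Cn d)}
    (he : e ∈ IsManifold.maximalAtlas 𝓘(ℂ, Cn d) ω X) (hxe : x ∈ e.source)
    (h : ddbar (d := d) (ψ₁ ∘ e.symm) (e x) = ddbar (d := d) (ψ₂ ∘ e.symm) (e x)) :
    ddbar (d := d) ψ₁ x = ddbar (d := d) ψ₂ x := by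
  ext v
  have hv : v = ![v 0, v 1] := by
    funext j; fin_cases j <;> rfl
  rw [hv, ddbar_apply_chart hU₁ h₁ hx₁ he hxe, ddbar_apply_chart hU₂ h₂ hx₂ he hxe, h]

omit [ChartedSpace (Cn d) X] [IsManifold 𝓘(ℂ, Cn d) ω X] in
theorem comp_chart_symm_eventuallyEq (Φ : Cn d → ℝ) (e : OpenPartialHomeomorph X (Cn d)) {y : Cn d}
    (hy : y ∈ e.target) : ((fun x => Φ (e x)) ∘ e.symm) =ᶠ[𝓝 y] Φ := by
  filter_upwards [e.open_target.mem_nhds hy] with w hw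
  simp only [Function.comp, e.right_inv hw]

end General

namespace Kummer

/-! ### The domains and the local potentials -/

/-- The domains of the local potentials: `|z - μ|² < 1/16` in the charts near the exceptional curves,
`dist(z, ½Λ) > 1/8` in the charts `z`. -/
def WW : Idx → Set Kum
  | .inl p => (chA p.1 p.2).source ∩ chA p.1 p.2 ⁻¹' {y | uu y < (1 / 16) ^ 2}
  | .inr z => (chZ z.1 z.2).source ∩
      chZ z.1 z.2 ⁻¹' {w | 1 / 8 < Metric.infDist w (HalfLat : Set (Cn 2))}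

/-- The local potentials. -/
noncomputable def pot (ε : ℝ) (G : ℝ → ℝ) : Idx → Kum → ℝ
  | .inl p => fun x => Psi ε G (chA p.1 p.2 x)
  | .inr z => fun x => ‖chZ z.1 z.2 x‖ ^ 2

theorem continuous_uu : Continuous uu := by
  have h0 : Continuous fun y : Cn 2 => y 0 := (EuclideanSpace.proj (𝕜 := ℂ) (0 : Fin 2)).continuous
  have h1 : Continuous fun y : Cn 2 => y 1 := (EuclideanSpace.proj (𝕜 := ℂ) (1 : Fin 2)).continuous
  unfold uu
  fun_prop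

theorem isOpen_WW (i : Idx) : IsOpen (WW i) := by
  rcases i with p | z
  · exact (chA p.1 p.2).isOpen_inter_preimage (isOpen_lt continuous_uu continuous_const)
  · exact (chZ z.1 z.2).isOpen_inter_preimage
      (isOpen_lt continuous_const (Metric.continuous_infDist_pt _))

theorem WW_subset_source (i : Idx) : WW i ⊆ (atlas.chart i).source := by
  rcases i with p | z <;> exact inter_subset_left

theorem contMDiffOn_pot (ε : ℝ) {G : ℝ → ℝ} (hG : ContDiff ℝ ∞ G) (i : Idx) :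
    ContMDiffOn 𝓘(ℝ, Cn 2) 𝓘(ℝ, ℝ) ∞ (pot ε G i) (WW i) := by
  rcases i with p | z
  · exact (contMDiffOn_comp_chart (contDiff_Psi ε hG)
      (atlas.chart_mem_maximalAtlas (.inl p))).mono inter_subset_left
  · exact (contMDiffOn_comp_chart (contDiff_norm_sq ℝ)
      (atlas.chart_mem_maximalAtlas (.inr z))).mono inter_subset_left

/-- `‖ρ v‖⁴ = u(a,t)`. -/
theorem norm_smul_vec_pow (κ : Fin 2) {y : Cn 2} {ρ : ℂ} (hρ : ρ ^ 2 = y 0) :
    (‖ρ • vec κ (y 1)‖ ^ 2) ^ 2 = uu y := by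
  rw [norm_smul, mul_pow, norm_vec_sq, mul_pow, uu, ← hρ, norm_pow]

theorem mem_Cube_of_norm_lt {c : Cn 2} (h : ‖c‖ < 1 / 2) : c ∈ Cube := fun j =>
  ⟨(abs_re_le_norm c j).trans_lt h, (abs_im_le_norm c j).trans_lt h⟩

theorem norm_lt_of_uu_lt (κ : Fin 2) {y : Cn 2} {ρ : ℂ} (hρ : ρ ^ 2 = y 0)
    (h : uu y < (1 / 16) ^ 2) : ‖ρ • vec κ (y 1)‖ < 1 / 4 := by
  rw [← norm_smul_vec_pow κ hρ] at h
  have h1 : ‖ρ • vec κ (y 1)‖ ^ 2 < 1 / 16 := lt_of_pow_lt_pow_left₀ 2 (by norm_num) h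
  exact lt_of_pow_lt_pow_left₀ 2 (by norm_num) (by norm_num; linarith)

theorem cover_WW (x : Kum) : ∃ i, x ∈ WW i := by
  rcases reg_or_exc x with ⟨z, hz, rfl⟩ | ⟨μ, κ, t, rfl⟩
  · by_cases h : 1 / 8 < Metric.infDist z (HalfLat : Set (Cn 2))
    · refine ⟨.inr ⟨z, hz⟩, reg_mem_chZ_source hz (Metric.mem_ball_self (rad_pos hz)), ?_⟩
      change 1 / 8 < Metric.infDist (chZ z hz (reg z hz)) (HalfLat : Set (Cn 2))
      rw [chZ_reg hz (Metric.mem_ball_self (rad_pos hz))]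
      exact h
    · have h' : Metric.infDist z (HalfLat : Set (Cn 2)) < 1 / 4 := by
        push Not at h; linarith
      obtain ⟨μ, hμ, hd⟩ := (Metric.infDist_lt_iff ⟨0, HalfLat.zero_mem⟩).1 h'
      set c := z - μ with hc
      have hcn : ‖c‖ < 1 / 4 := by rwa [hc, ← dist_eq_norm]
      have hcC : c ∈ Cube := mem_Cube_of_norm_lt (by linarith)
      have hc0 : c ≠ 0 := by
        intro h0
        apply hz
        have : z = μ := sub_eq_zero.1 h0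
        rw [this]; exact hμ
      obtain ⟨κ, hκ⟩ : ∃ κ : Fin 2, c κ ≠ 0 := by
        by_contra hcon
        push Not at hcon
        exact hc0 (ext2 (hcon 0) (hcon 1))
      have hx : reg z hz = reg ((⟨μ, hμ⟩ : HalfLat) + c)
          (add_notMem_HalfLat ⟨μ, hμ⟩ hcC (ne_zero_of_coord_ne_zero hκ)) := by
        rw [reg_eq_reg]
        have : ((⟨μ, hμ⟩ : HalfLat) : Cn 2) + c = z := by simp [hc]
        rw [this]; exact GEquiv.refl _
      refine ⟨.inl (⟨μ, hμ⟩, κ), ?_, ?_⟩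
      · rw [hx]; exact reg_mem_chA_source _ κ hcC hκ
      · change uu (chA ⟨μ, hμ⟩ κ (reg z hz)) < (1 / 16) ^ 2
        rw [hx, chA_reg _ κ hcC hκ, uu_coord κ hκ]
        have : ‖c‖ ^ 2 < 1 / 16 := by nlinarith [norm_nonneg c]
        nlinarith [sq_nonneg ‖c‖]
  · refine ⟨.inl (μ, κ), ptA_mem_chA_source μ κ _, ?_⟩
    change uu (chA μ κ (exc μ κ t)) < (1 / 16) ^ 2
    rw [exc, chA_ptA]
    simp [uu]

/-! ### Compatibility of the local potentials -/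

theorem chA_congr_Lat {μ μ' : HalfLat} (h : (μ : Cn 2) - μ' ∈ Lat) (κ : Fin 2) {x : Kum}
    (hx : x ∈ (chA μ κ).source) : x ∈ (chA μ' κ).source ∧ chA μ' κ x = chA μ κ x := by
  obtain ⟨y, hy, rfl⟩ := (mem_chA_source_iff μ κ x).1 hx
  rw [chA_ptA, ptA_congr_Lat h κ hy, chA_ptA]
  exact ⟨ptA_mem_chA_source μ' κ hy, rfl⟩

/-- Two points of `½Λ` with a common point at distance `< 1/4` are congruent modulo `Λ`. -/
theorem sub_mem_Lat_of_ptA_eq {μ μ' : HalfLat} {κ κ' : Fin 2} {y y' : Cn 2} {hy : y ∈ DA}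
    {hy' : y' ∈ DA} (h : ptA μ κ y hy = ptA μ' κ' y' hy') (hu : uu y < (1 / 16) ^ 2)
    (hu' : uu y' < (1 / 16) ^ 2) : (μ : Cn 2) - μ' ∈ Lat := by
  have h' := congrArg toAmb h
  rw [ptA_val, ptA_val, cls_eq_cls] at h'
  rcases h' with ⟨-, -, h3, -⟩ | ⟨ρ, ρ', -, -, h3, h4, h5⟩
  · exact h3
  · have n1 := norm_lt_of_uu_lt κ h3 hu
    have n2 := norm_lt_of_uu_lt κ' h4 hu'
    set l := ((μ : Cn 2) + ρ • vec κ (y 1)) - (μ' + ρ' • vec κ' (y' 1)) with hl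
    have e : (μ : Cn 2) - μ' - l = ρ' • vec κ' (y' 1) - ρ • vec κ (y 1) := by
      rw [hl]; abel
    have hH : (μ : Cn 2) - μ' - l ∈ HalfLat :=
      HalfLat.sub_mem (HalfLat.sub_mem μ.2 μ'.2) (Lat_le_HalfLat h5)
    have hC : (μ : Cn 2) - μ' - l ∈ Cube := by
      apply mem_Cube_of_norm_lt
      rw [e]
      have := norm_sub_le (ρ' • vec κ' (y' 1)) (ρ • vec κ (y 1))
      linarith
    have h0 := eq_zero_of_mem_HalfLat_of_mem_Cube hC hH
    rw [sub_eq_zero] at h0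
    rw [h0]; exact h5

theorem coord_ne_zero_of_ptA_eq_oth {μ : HalfLat} {κ : Fin 2} {y y' : Cn 2} {hy : y ∈ DA}
    {hy' : y' ∈ DA} (h : ptA μ κ y hy = ptA μ (oth κ) y' hy') : y 1 ≠ 0 := by
  have h' := congrArg toAmb h
  rw [ptA_val, ptA_val, cls_eq_cls] at h'
  rcases h' with ⟨-, -, -, c, -, hv⟩ | ⟨ρ, ρ', -, hρ', h3, h4, h5⟩
  · have e2 := congrArg (fun w : Cn 2 => w (oth κ)) hv
    simp only [vec_self, PiLp.smul_apply, smul_eq_mul, vec_oth] at e2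
    intro h0; rw [h0, mul_zero] at e2; exact one_ne_zero e2
  · have hc := smul_vec_mem_Cube hy κ h3
    have hc' := smul_vec_mem_Cube hy' (oth κ) h4
    have : ρ • vec κ (y 1) = ρ' • vec (oth κ) (y' 1) := by
      apply eq_of_sub_mem_Lat hc hc'
      simpa using h5
    have e2 := congrArg (fun w : Cn 2 => w (oth κ)) this
    simp only [vec_self, PiLp.smul_apply, smul_eq_mul, vec_oth, mul_one] at e2
    intro h0; rw [h0, mul_zero] at e2; exact hρ' e2.symm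

theorem compat_AA (ε : ℝ) {G : ℝ → ℝ} (hG : ContDiff ℝ ∞ G) (p p' : HalfLat × Fin 2) {x : Kum}
    (hx : x ∈ WW (.inl p)) (hx' : x ∈ WW (.inl p')) :
    ddbar (d := 2) (pot ε G (.inl p)) x = ddbar (d := 2) (pot ε G (.inl p')) x := by
  obtain ⟨μ, κ⟩ := p
  obtain ⟨μ', κ'⟩ := p'
  have hxs : x ∈ (chA μ κ).source := hx.1
  have hxs' : x ∈ (chA μ' κ').source := hx'.1
  obtain ⟨y, hy, hxy⟩ := (mem_chA_source_iff μ κ x).1 hxs
  obtain ⟨y', hy', hxy'⟩ := (mem_chA_source_iff μ' κ' x).1 hxs'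
  have hey : chA μ κ x = y := by rw [hxy, chA_ptA]
  have hey' : chA μ' κ' x = y' := by rw [hxy', chA_ptA]
  have hu : uu y < (1 / 16) ^ 2 := by rw [← hey]; exact hx.2
  have hu' : uu y' < (1 / 16) ^ 2 := by rw [← hey']; exact hx'.2
  have hL : (μ : Cn 2) - μ' ∈ Lat := sub_mem_Lat_of_ptA_eq (hxy.symm.trans hxy') hu hu'
  have hL' : (μ' : Cn 2) - μ ∈ Lat := by have := Lat.neg_mem hL; simpa using this
  refine ddbar_eq_of_flat (isOpen_WW _) (isOpen_WW _) (contMDiffOn_pot ε hG _)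
    (contMDiffOn_pot ε hG _) hx hx' (atlas.chart_mem_maximalAtlas (.inl (μ, κ))) hxs ?_
  change ddbar (d := 2) ((fun x => Psi ε G (chA μ κ x)) ∘ (chA μ κ).symm) (chA μ κ x) =
    ddbar (d := 2) ((fun x => Psi ε G (chA μ' κ' x)) ∘ (chA μ κ).symm) (chA μ κ x)
  rw [hey, ddbar_congr (comp_chart_symm_eventuallyEq (Psi ε G) (chA μ κ) hy)]
  -- replace `μ'` by `μ`
  have hrep : ((fun x => Psi ε G (chA μ' κ' x)) ∘ (chA μ κ).symm) =ᶠ[𝓝 y]
      fun w => Psi ε G (chA μ κ' ((chA μ κ).symm w)) := by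
    have hopen : IsOpen ((chA μ κ).target ∩ (chA μ κ).symm ⁻¹' (chA μ' κ').source) :=
      (chA μ κ).isOpen_inter_preimage_symm (chA μ' κ').open_source
    have hmem : y ∈ (chA μ κ).target ∩ (chA μ κ).symm ⁻¹' (chA μ' κ').source := by
      refine ⟨hy, ?_⟩
      change (chA μ κ).symm y ∈ (chA μ' κ').source
      rw [← hey, (chA μ κ).left_inv hxs]; exact hxs'
    filter_upwards [hopen.mem_nhds hmem] with w hw
    simp only [Function.comp]
    rw [(chA_congr_Lat hL' κ' hw.2).2]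
  rw [ddbar_congr hrep]
  by_cases hκ : κ = κ'
  · subst hκ
    exact (ddbar_congr (comp_chart_symm_eventuallyEq (Psi ε G) (chA μ κ) hy)).symm
  · have hκ' : κ' = oth κ := eq_oth_of_ne hκ
    subst hκ'
    have hxy'' : x = ptA μ (oth κ) y' hy' := by rw [hxy', ptA_congr_Lat hL']
    have h1 : y 1 ≠ 0 := coord_ne_zero_of_ptA_eq_oth (hxy.symm.trans hxy'')
    have h2 : (fun w => Psi ε G (chA μ (oth κ) ((chA μ κ).symm w))) =ᶠ[𝓝 y]
        fun w => Psi ε G (mk2 (w 0 * w 1 ^ 2) (w 1)⁻¹) := by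
      filter_upwards [chA_oth_comp_symm μ κ hy h1] with w hw
      rw [hw]
    rw [ddbar_congr h2, ddbar_Psi_comp_inv ε hG h1]

theorem mem_chZ_source_iff {z₀ : Cn 2} (hz₀ : z₀ ∉ HalfLat) (x : Kum) :
    x ∈ (chZ z₀ hz₀).source ↔ ∃ z, ∃ hz : z ∈ Metric.ball z₀ (rad z₀),
      x = reg z (notMem_HalfLat_of_mem_ball hz) := by
  constructor
  · intro hx
    refine ⟨chZ z₀ hz₀ x, (chZ z₀ hz₀).map_source hx, ?_⟩
    rw [← chZ_symm_apply hz₀ ((chZ z₀ hz₀).map_source hx), (chZ z₀ hz₀).left_inv hx]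
  · rintro ⟨z, hz, rfl⟩
    exact reg_mem_chZ_source hz₀ hz

/-- `G`-equivalence in the form `z' = s z + l`. -/
theorem GEquiv.exists_affine {z z' : Cn 2} (h : GEquiv z z') :
    ∃ s : ℂ, (s = 1 ∨ s = -1) ∧ ∃ l ∈ Lat, z' = s • z + l := by
  rcases h with h | h
  · exact ⟨1, Or.inl rfl, -(z - z'), Lat.neg_mem h, by simp⟩
  · exact ⟨-1, Or.inr rfl, z + z', h, by simp⟩

theorem norm_eq_one_of_sign {s : ℂ} (hs : s = 1 ∨ s = -1) : ‖s‖ = 1 := by
  rcases hs with rfl | rfl <;> simp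

theorem compat_ZZ (ε : ℝ) {G : ℝ → ℝ} (hG : ContDiff ℝ ∞ G) (z₀ z₁ : {z : Cn 2 // z ∉ HalfLat})
    {x : Kum} (hx : x ∈ WW (.inr z₀)) (hx' : x ∈ WW (.inr z₁)) :
    ddbar (d := 2) (pot ε G (.inr z₀)) x = ddbar (d := 2) (pot ε G (.inr z₁)) x := by
  obtain ⟨z₀, hz₀⟩ := z₀
  obtain ⟨z₁, hz₁⟩ := z₁
  have hxs : x ∈ (chZ z₀ hz₀).source := hx.1
  have hxs' : x ∈ (chZ z₁ hz₁).source := hx'.1
  obtain ⟨z, hz, hxz⟩ := (mem_chZ_source_iff hz₀ x).1 hxs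
  obtain ⟨z', hz', hxz'⟩ := (mem_chZ_source_iff hz₁ x).1 hxs'
  have hez : chZ z₀ hz₀ x = z := by rw [hxz, chZ_reg hz₀ hz]
  obtain ⟨s, hs, l, hl, e⟩ := (reg_eq_reg.1 (hxz.symm.trans hxz')).exists_affine
  refine ddbar_eq_of_flat (isOpen_WW _) (isOpen_WW _) (contMDiffOn_pot ε hG _)
    (contMDiffOn_pot ε hG _) hx hx' (atlas.chart_mem_maximalAtlas (.inr ⟨z₀, hz₀⟩)) hxs ?_
  change ddbar (d := 2) ((fun x => ‖chZ z₀ hz₀ x‖ ^ 2) ∘ (chZ z₀ hz₀).symm) (chZ z₀ hz₀ x) =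
    ddbar (d := 2) ((fun x => ‖chZ z₁ hz₁ x‖ ^ 2) ∘ (chZ z₀ hz₀).symm) (chZ z₀ hz₀ x)
  rw [hez, ddbar_congr (comp_chart_symm_eventuallyEq (fun w => ‖w‖ ^ 2) (chZ z₀ hz₀) hz)]
  have h2 : ((fun x => ‖chZ z₁ hz₁ x‖ ^ 2) ∘ (chZ z₀ hz₀).symm) =ᶠ[𝓝 z]
      fun w => ‖s • w + l‖ ^ 2 := by
    filter_upwards [chZ_comp_chZ_symm hz₀ hz₁ hz hs hl (e ▸ hz')] with w hw
    simp only [Function.comp]
    rw [hw]
  rw [ddbar_congr h2, ddbar_normSq_affine (norm_eq_one_of_sign hs)]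

theorem compat_AZ {ε C : ℝ} {G : ℝ → ℝ} (hG : ContDiff ℝ ∞ G)
    (hGf : ∀ u, (1 / 64 : ℝ) ^ 2 ≤ u → G u = Real.sqrt u - ε / 2 * Real.log u + C)
    (p : HalfLat × Fin 2) (z₀ : {z : Cn 2 // z ∉ HalfLat})
    {x : Kum} (hx : x ∈ WW (.inl p)) (hx' : x ∈ WW (.inr z₀)) :
    ddbar (d := 2) (pot ε G (.inl p)) x = ddbar (d := 2) (pot ε G (.inr z₀)) x := by
  obtain ⟨μ, κ⟩ := p
  obtain ⟨z₀, hz₀⟩ := z₀
  have hxs : x ∈ (chA μ κ).source := hx.1
  have hxs' : x ∈ (chZ z₀ hz₀).source := hx'.1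
  obtain ⟨y, hy, hxy⟩ := (mem_chA_source_iff μ κ x).1 hxs
  obtain ⟨z, hz, hxz⟩ := (mem_chZ_source_iff hz₀ x).1 hxs'
  have hez : chZ z₀ hz₀ x = z := by rw [hxz, chZ_reg hz₀ hz]
  have hfar : 1 / 8 < Metric.infDist z (HalfLat : Set (Cn 2)) := by rw [← hez]; exact hx'.2
  -- the point is not on the exceptional curve
  obtain ⟨ρ, hρ⟩ := exists_root (y 0)
  have hρ0 : ρ ≠ 0 := by
    rintro rfl
    have h0 : y 0 = 0 := by rw [← hρ]; simp
    have : x = exc μ κ (y 1) := by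
      rw [hxy]
      apply toAmb_injective
      change cls μ (vec κ (y 1)) (y 0) = cls μ (vec κ (mk2 0 (y 1) 1)) (mk2 0 (y 1) 0)
      simp [h0]
    exact reg_ne_exc _ _ _ _ _ (hxz.symm.trans this)
  have hG1 : GEquiv z (μ + ρ • vec κ (y 1)) :=
    reg_eq_reg.1 (hxz.symm.trans (hxy.trans (ptA_eq_reg μ κ hy hρ0 hρ)))
  obtain ⟨s, hs, l, hl, e⟩ := hG1.exists_affine
  set c := ρ • vec κ (y 1) with hc
  have hcC : c ∈ Cube := smul_vec_mem_Cube hy κ hρ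
  have hcκ : c κ ≠ 0 := by simpa [hc] using hρ0
  have e' : s • z - ((μ : Cn 2) + -l) = c := by
    have : s • z = (μ : Cn 2) + c - l := by rw [e]; abel
    rw [this]; abel
  have hl' : -l ∈ Lat := Lat.neg_mem hl
  refine ddbar_eq_of_flat (isOpen_WW _) (isOpen_WW _) (contMDiffOn_pot ε hG _)
    (contMDiffOn_pot ε hG _) hx hx' (atlas.chart_mem_maximalAtlas (.inr ⟨z₀, hz₀⟩)) hxs' ?_
  change ddbar (d := 2) ((fun x => Psi ε G (chA μ κ x)) ∘ (chZ z₀ hz₀).symm) (chZ z₀ hz₀ x) =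
    ddbar (d := 2) ((fun x => ‖chZ z₀ hz₀ x‖ ^ 2) ∘ (chZ z₀ hz₀).symm) (chZ z₀ hz₀ x)
  rw [hez, ddbar_congr (comp_chart_symm_eventuallyEq (fun w => ‖w‖ ^ 2) (chZ z₀ hz₀) hz)]
  have h2 : ((fun x => Psi ε G (chA μ κ x)) ∘ (chZ z₀ hz₀).symm) =ᶠ[𝓝 z]
      fun w => Psi ε G (coordA (μ + -l) κ (s • w)) := by
    filter_upwards [chA_comp_chZ_symm μ κ hz₀ hz hs hl' (e'.symm ▸ hcC) (e'.symm ▸ hcκ)] with w hw
    simp only [Function.comp]
    rw [hw]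
  rw [ddbar_congr h2]
  apply ddbar_Psi_comp_coordA hGf κ (norm_eq_one_of_sign hs) _ (e'.symm ▸ hcκ)
  -- the distance estimate
  have hs2 : s * s = 1 := by rcases hs with rfl | rfl <;> norm_num
  have hmem : s • ((μ : Cn 2) + -l) ∈ HalfLat := by
    have h0 : (μ : Cn 2) + -l ∈ HalfLat := HalfLat.add_mem μ.2 (Lat_le_HalfLat hl')
    rcases hs with rfl | rfl
    · simpa using h0
    · have := HalfLat.neg_mem h0; simpa [add_comm] using this
  have hd : Metric.infDist z (HalfLat : Set (Cn 2)) ≤ ‖s • z - ((μ : Cn 2) + -l)‖ := by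
    refine (Metric.infDist_le_dist_of_mem hmem).trans (le_of_eq ?_)
    rw [dist_eq_norm]
    have : s • z - ((μ : Cn 2) + -l) = s • (z - s • ((μ : Cn 2) + -l)) := by
      rw [smul_sub, smul_smul, hs2, one_smul]
    rw [this, norm_smul, norm_eq_one_of_sign hs, one_mul]
  have h8 : 1 / 8 < ‖s • z - ((μ : Cn 2) + -l)‖ := lt_of_lt_of_le hfar hd
  have h64 : 1 / 64 < ‖s • z - ((μ : Cn 2) + -l)‖ ^ 2 := by nlinarith
  nlinarith

/-! ### The Kähler form -/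

theorem pot_pos {ε : ℝ} (hε : 0 < ε) {G : ℝ → ℝ} (hG : ContDiff ℝ ∞ G)
    (h1 : ∀ u, 0 ≤ u → 0 < deriv G u) (h2 : ∀ u, 0 ≤ u → 0 < deriv G u + u * deriv (deriv G) u)
    (i : Idx) {x : Kum} (hx : x ∈ WW i) {v : Cn 2} (hv : v ≠ 0) :
    0 < ddbar (d := 2) (pot ε G i) x ![v, Complex.I • v] := by
  have hem := atlas.chart_mem_maximalAtlas i
  have hxs : x ∈ (atlas.chart i).source := WW_subset_source i hx
  rw [ddbar_apply_chart (isOpen_WW i) (contMDiffOn_pot ε hG i) hx hem hxs, map_smul]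
  have hDv : diffAt ℂ (d := 2) (atlas.chart i) x v ≠ 0 := by
    intro h0
    apply hv
    apply diffAt_chart_injective hem hxs
    rw [h0, map_zero]
  have hy : atlas.chart i x ∈ (atlas.chart i).target := (atlas.chart i).map_source hxs
  rcases i with p | z
  · have := ddbar_congr (comp_chart_symm_eventuallyEq (Psi ε G) (chA p.1 p.2) hy)
    change 0 < ddbar (d := 2) ((fun x => Psi ε G (chA p.1 p.2 x)) ∘ (chA p.1 p.2).symm) _ _
    rw [this]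
    exact ddbar_Psi_pos hε hG h1 h2 _ hDv
  · have := ddbar_congr (comp_chart_symm_eventuallyEq (fun w => ‖w‖ ^ 2) (chZ z.1 z.2) hy)
    change 0 < ddbar (d := 2) ((fun x => ‖chZ z.1 z.2 x‖ ^ 2) ∘ (chZ z.1 z.2).symm) _ _
    rw [this]
    exact isKahlerForm_ddbar_normSq.positive _ _ hDv

/-- **The Kummer surface is Kähler.** -/
theorem exists_isKahlerForm : ∃ κ : Form ℝ 2 Kum ℝ 2, IsKahlerForm κ := by
  obtain ⟨ε, C, G, hε, hG, h1, h2, hGf⟩ :=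
    exists_kahler_profile (u₁ := (1 / 64 : ℝ) ^ 2) (by norm_num)
  have hcomp : ∀ i j, ∀ x ∈ WW i ∩ WW j,
      ddbar (d := 2) (pot ε G i) x = ddbar (d := 2) (pot ε G j) x := by
    rintro (p | z) (p' | z') x ⟨hx, hx'⟩
    · exact compat_AA ε hG p p' hx hx'
    · exact compat_AZ hG hGf p z' hx hx'
    · exact (compat_AZ hG hGf p' z hx' hx).symm
    · exact compat_ZZ ε hG z z' hx hx'
  obtain ⟨κ, hκc, hκ⟩ := exists_form_of_local_potentials WW isOpen_WW cover_WW (pot ε G)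
    (contMDiffOn_pot ε hG) hcomp
  refine ⟨κ, hκc.1, hκc.2, ?_, ?_⟩
  · intro x u v
    obtain ⟨i, hi⟩ := cover_WW x
    rw [hκ i x hi]
    exact ddbar_invariant_mfd (isOpen_WW i) (contMDiffOn_pot ε hG i) hi u v
  · intro x v hv
    obtain ⟨i, hi⟩ := cover_WW x
    rw [hκ i x hi]
    exact pot_pos hε hG h1 h2 i hi hv

end Kummer

end Claimed.Open.R041
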