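/-
Sanity checks for the integration theory of `Statement.lean` (result 041).

* `realFrame_orthonormal`, `realFrameBasis`, `volume_parallelepiped_realFrame`: the frame
  `(e₀, i e₀, e₁, i e₁, …)` is an orthonormal real basis of `ℂ^d`, so that `volume` is the measure
  `dx₀ dy₀ ⋯`;
* `restrict_iSup_of_compatible`: the supremum of a compatible family of measures is the measure
  obtained by gluing them;
* `compContinuousLinearMap_realFrame`, `det_restrictScalars_nonneg`: forms of top degree transform by
  the determinant, and the real determinant of a complex linear map is nonnegative;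
* `Form.chartMeasure_eq_of_subset` (change of variables): the measures `(e⁻¹)_*(max(g_e,0)·Lebesgue)` of two
  holomorphic charts agree on the overlap of the chart domains;
* `Form.posMeasure_restrict_source`: `η.posMeasure` restricts to that measure on every chart domain.
-/
import Claimed.Open.R041.SanityForms

open scoped Manifold ContDiff Topology InnerProductSpace ENNReal
open MeasureTheory Set

namespace Claimed.Open.R041

/-! ## (i) `realFrame d` is an orthonormal real basis of `ℂ^d` -/

section Frame

variable {d : ℕ}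

theorem realFrame_apply (j : Fin (2 * d)) (i : Fin d) :
    realFrame d j i = if i.val = j.val / 2 then (if j.val % 2 = 0 then (1 : ℂ) else Complex.I) else 0 := by
  unfold realFrame
  have hj : j.val / 2 < d := by omega
  by_cases h : i.val = j.val / 2
  · have : (⟨j.val / 2, hj⟩ : Fin d) = i := Fin.ext h.symm
    by_cases h2 : j.val % 2 = 0 <;> simp [h2, this, h]
  · have : i ≠ ⟨j.val / 2, hj⟩ := fun h' => h (congrArg Fin.val h')
    by_cases h2 : j.val % 2 = 0 <;> simp [h, h2, this]

theorem realFrame_orthonormal : Orthonormal ℝ (realFrame d) := by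
  rw [orthonormal_iff_ite]
  intro j j'
  rw [PiLp.inner_apply]
  simp only [realFrame_apply, Complex.inner]
  by_cases hjj : j = j'
  · subst hjj
    rw [if_pos rfl, Finset.sum_eq_single (⟨j.val / 2, by omega⟩ : Fin d)]
    · by_cases h : j.val % 2 = 0 <;> simp [h]
    · intro i _ hi
      have : i.val ≠ j.val / 2 := fun h' => hi (Fin.ext h')
      simp [this]
    · simp
  · rw [if_neg hjj]
    apply Finset.sum_eq_zero
    intro i _
    by_cases h1 : i.val = j.val / 2
    · by_cases h2 : i.val = j'.val / 2
      · have hne : j.val ≠ j'.val := fun h => hjj (Fin.ext h)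
        by_cases h3 : j.val % 2 = 0
        · have h4 : ¬ j'.val % 2 = 0 := by omega
          simp [h1, h3, h4, ← h2]
        · have h4 : j'.val % 2 = 0 := by omega
          simp [h1, h3, h4, ← h2]
      · simp [h2]
    · simp [h1]

theorem finrank_real_Cn : Module.finrank ℝ (Cn d) = 2 * d := by
  rw [finrank_real_of_complex, finrank_euclideanSpace_fin]

/-- `realFrame d`, as an orthonormal basis of the real Euclidean space underlying `ℂ^d`. -/
noncomputable def realFrameBasis (d : ℕ) : OrthonormalBasis (Fin (2 * d)) ℝ (Cn d) :=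
  OrthonormalBasis.mk realFrame_orthonormal
    (realFrame_orthonormal.linearIndependent.span_eq_top_of_card_eq_finrank'
      (by rw [finrank_real_Cn, Fintype.card_fin])).ge

@[simp]
theorem coe_realFrameBasis : ⇑(realFrameBasis d) = realFrame d :=
  OrthonormalBasis.coe_mk _ _

/-- The Lebesgue measure used in `Form.posMeasure` gives measure one to the unit cube spanned by
`realFrame d`: it is the measure `dx₀ dy₀ ⋯ dx_{d-1} dy_{d-1}`. -/
theorem volume_parallelepiped_realFrame : volume (parallelepiped (realFrame d)) = 1 := by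
  rw [← coe_realFrameBasis]
  exact (realFrameBasis d).volume_parallelepiped

end Frame

/-! ## (ii) Gluing measures: the supremum of a compatible family is the glued measure -/

section Glue

variable {α ι : Type*} [MeasurableSpace α]

/-- Let `μ i` be measures concentrated on measurable sets `U i` which agree on the overlaps
`U i ∩ U j`.  Then their supremum (in the complete lattice of measures) restricts to `μ i` on `U i`:
it is the measure obtained by gluing.  No countability assumption is needed. -/
theorem restrict_iSup_of_compatible (μ : ι → Measure α) (U : ι → Set α)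
    (hU : ∀ i, MeasurableSet (U i)) (hμ : ∀ i, μ i (U i)ᶜ = 0)
    (hc : ∀ i j, (μ i).restrict (U i ∩ U j) = (μ j).restrict (U i ∩ U j)) (i : ι) :
    (⨆ j, μ j).restrict (U i) = μ i := by
  have hself : ∀ j, (μ j).restrict (U j) = μ j := fun j =>
    Measure.restrict_eq_self_of_ae_mem (by
      rw [ae_iff]; exact hμ j)
  apply le_antisymm
  · -- an explicit upper bound of the family which restricts to `μ i` on `U i`
    set ν : Measure α := μ i + ((⊤ : ℝ≥0∞) • Measure.count).restrict (U i)ᶜ with hν
    have hle : ∀ j, μ j ≤ ν := by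
      intro j
      rw [Measure.le_iff]
      intro s hs
      by_cases hne : (s ∩ (U i)ᶜ).Nonempty
      · have : ν s = ⊤ := by
          rw [hν, Measure.add_apply, Measure.restrict_apply hs, Measure.smul_apply, smul_eq_mul,
            ENNReal.top_mul (Measure.count_ne_zero hne), add_top]
        rw [this]; exact le_top
      · have hsub : s ⊆ U i := by
          intro x hx
          by_contra hxU
          exact hne ⟨x, hx, hxU⟩
        calc μ j s = (μ j).restrict (U j) s := by rw [hself j]
          _ = μ j (s ∩ (U i ∩ U j)) := by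
              rw [Measure.restrict_apply hs]
              congr 1
              ext x; constructor
              · rintro ⟨h1, h2⟩; exact ⟨h1, hsub h1, h2⟩
              · rintro ⟨h1, _, h2⟩; exact ⟨h1, h2⟩
          _ = (μ j).restrict (U i ∩ U j) s := by rw [Measure.restrict_apply hs]
          _ = (μ i).restrict (U i ∩ U j) s := by rw [hc i j]
          _ ≤ μ i s := Measure.restrict_apply_le _ _
          _ ≤ ν s := by rw [hν, Measure.add_apply]; exact le_self_add
    calc (⨆ j, μ j).restrict (U i) ≤ ν.restrict (U i) := Measure.restrict_mono le_rfl (iSup_le hle)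
      _ = μ i := by
          rw [hν, Measure.restrict_add, hself i, Measure.restrict_restrict (hU i)]
          simp
  · calc μ i = (μ i).restrict (U i) := (hself i).symm
      _ ≤ (⨆ j, μ j).restrict (U i) := Measure.restrict_mono le_rfl (le_iSup μ i)

end Glue

/-! ## (iii) Top-degree forms and determinants -/

section Det

variable {d : ℕ}

/-- A form of top degree is multiplied by the determinant under a linear substitution. -/
theorem compContinuousLinearMap_realFrame (g : (Cn d) [⋀^Fin (2 * d)]→L[ℝ] ℝ)
    (A : Cn d →L[ℝ] Cn d) :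
    g.compContinuousLinearMap A (realFrame d) = A.det * g (realFrame d) := by
  have h := AlternatingMap.eq_smul_basis_det (realFrameBasis d).toBasis g.toAlternatingMap
  have h1 : g.compContinuousLinearMap A (realFrame d) =
      g.toAlternatingMap ((A : Cn d →ₗ[ℝ] Cn d) ∘ realFrame d) := rfl
  rw [h1, h]
  simp only [AlternatingMap.smul_apply, Module.Basis.det_comp, smul_eq_mul]
  have h2 : (realFrameBasis d).toBasis.det (realFrame d) = 1 := by
    have := (realFrameBasis d).toBasis.det_self
    simpa using this
  rw [h2]
  simp [ContinuousLinearMap.det, mul_comm]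

/-- The real determinant of a complex linear map is nonnegative: holomorphic maps preserve the
orientation. -/
theorem det_restrictScalars_nonneg (A : Cn d →L[ℂ] Cn d) : 0 ≤ (A.restrictScalars ℝ).det := by
  have : (A.restrictScalars ℝ).det = Complex.normSq (LinearMap.det (A : Cn d →ₗ[ℂ] Cn d)) := by
    rw [← Algebra.norm_complex_apply, ← LinearMap.det_restrictScalars]
    rfl
  rw [this]
  exact Complex.normSq_nonneg _

end Det

/-! ## (iv) The chart measures are compatible; `posMeasure` is the measure they glue to -/

section ChartMeasure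

variable {d : ℕ} {X : Type} [TopologicalSpace X] [ChartedSpace (Cn d) X]

/-- The Borel σ-algebra of `X`, as a local instance (this is the one used in `Form.posMeasure`). -/
@[reducible] def borelMS (X : Type) [TopologicalSpace X] : MeasurableSpace X := borel X

attribute [local instance] borelMS

theorem borelMS_borelSpace (X : Type) [TopologicalSpace X] : BorelSpace X := ⟨rfl⟩

attribute [local instance] borelMS_borelSpace

/-- The coefficient `g` of `(e⁻¹)^* η = g · dx₀ ∧ dy₀ ∧ ⋯`. -/
noncomputable def Form.coeff (η : Form ℝ d X ℝ (2 * d)) (e : OpenPartialHomeomorph X (Cn d))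
    (y : Cn d) : ℝ :=
  η.inChart e y (realFrame d)

/-- The measure `(e⁻¹)_* (max(g,0) · Lebesgue|_{e.target})` on `X`. -/
noncomputable def Form.chartMeasure (η : Form ℝ d X ℝ (2 * d))
    (e : OpenPartialHomeomorph X (Cn d)) : Measure X :=
  Measure.map e.symm
    ((volume.restrict e.target).withDensity fun y => ENNReal.ofReal (η.coeff e y))

theorem Form.posMeasure_eq_iSup (η : Form ℝ d X ℝ (2 * d)) :
    η.posMeasure = ⨆ e ∈ atlas (Cn d) X, η.chartMeasure e := rfl

omit [ChartedSpace (Cn d) X] in
theorem aemeasurable_symm (e : OpenPartialHomeomorph X (Cn d)) (f : Cn d → ℝ≥0∞) :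
    AEMeasurable e.symm ((volume.restrict e.target).withDensity f) :=
  (e.continuousOn_symm.aemeasurable e.open_target.measurableSet).mono_ac
    (withDensity_absolutelyContinuous _ _)

omit [ChartedSpace (Cn d) X] in
theorem measurableSet_target_inter_preimage (e : OpenPartialHomeomorph X (Cn d)) {A : Set X}
    (hA : MeasurableSet A) : MeasurableSet (e.target ∩ e.symm ⁻¹' A) := by
  have h1 : Measurable (e.target.domRestrict e.symm) :=
    (continuousOn_iff_continuous_domRestrict.1 e.continuousOn_symm).measurable
  have h2 : e.target ∩ e.symm ⁻¹' A = Subtype.val '' ((e.target.domRestrict e.symm) ⁻¹' A) := by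
    ext y
    constructor
    · rintro ⟨hy, hyA⟩
      exact ⟨⟨y, hy⟩, hyA, rfl⟩
    · rintro ⟨⟨z, hz⟩, hzA, rfl⟩
      exact ⟨hz, hzA⟩
  rw [h2]
  exact e.open_target.measurableSet.subtype_image (h1 hA)

/-- The chart measure of a Borel set, as a Lebesgue integral in the chart. -/
theorem Form.chartMeasure_apply (η : Form ℝ d X ℝ (2 * d)) (e : OpenPartialHomeomorph X (Cn d))
    {A : Set X} (hA : MeasurableSet A) :
    η.chartMeasure e A = ∫⁻ y in e.target ∩ e.symm ⁻¹' A, ENNReal.ofReal (η.coeff e y) := by
  rw [Form.chartMeasure, Measure.map_apply_of_aemeasurable (aemeasurable_symm e _) hA,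
    withDensity_apply', Measure.restrict_restrict' e.open_target.measurableSet, inter_comm]

theorem Form.chartMeasure_compl_source (η : Form ℝ d X ℝ (2 * d))
    (e : OpenPartialHomeomorph X (Cn d)) : η.chartMeasure e (e.source)ᶜ = 0 := by
  rw [η.chartMeasure_apply e e.open_source.measurableSet.compl]
  have : e.target ∩ e.symm ⁻¹' (e.source)ᶜ = ∅ := by
    ext y
    simp only [mem_inter_iff, mem_preimage, mem_compl_iff, mem_empty_iff_false, iff_false, not_and,
      not_not]
    exact fun hy => e.map_target hy
  rw [this]
  simp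

/-- A holomorphic chart is a real-analytic chart. -/
theorem mem_maximalAtlas_real {e : OpenPartialHomeomorph X (Cn d)}
    (he : e ∈ IsManifold.maximalAtlas 𝓘(ℂ, Cn d) ω X) :
    e ∈ IsManifold.maximalAtlas 𝓘(ℝ, Cn d) ω X := by
  intro e' he'
  obtain ⟨h1, h2⟩ := he e' he'
  rw [contDiffGroupoid, mem_groupoid_of_pregroupoid] at h1 h2
  constructor
  · rw [contDiffGroupoid, mem_groupoid_of_pregroupoid]
    exact ⟨h1.1.restrict_scalars ℝ, h1.2.restrict_scalars ℝ⟩
  · rw [contDiffGroupoid, mem_groupoid_of_pregroupoid]
    exact ⟨h2.1.restrict_scalars ℝ, h2.2.restrict_scalars ℝ⟩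

theorem mem_maximalAtlas_real_one {e : OpenPartialHomeomorph X (Cn d)}
    (he : e ∈ IsManifold.maximalAtlas 𝓘(ℂ, Cn d) ω X) :
    e ∈ IsManifold.maximalAtlas 𝓘(ℝ, Cn d) 1 X :=
  IsManifold.maximalAtlas_subset_of_le le_top (mem_maximalAtlas_real he)

/-- Transformation law of the coefficient of a top-degree form. -/
theorem Form.coeff_eq_det_mul (η : Form ℝ d X ℝ (2 * d)) {e e' : OpenPartialHomeomorph X (Cn d)}
    (he : e ∈ IsManifold.maximalAtlas 𝓘(ℂ, Cn d) ω X)
    (he' : e' ∈ IsManifold.maximalAtlas 𝓘(ℂ, Cn d) ω X)
    {y : Cn d} (hy : y ∈ e.target) (hy' : e.symm y ∈ e'.source) :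
    η.coeff e y = (fderiv ℝ (e' ∘ e.symm) y).det * η.coeff e' ((e' ∘ e.symm) y) := by
  rw [Form.coeff, inChart_eq_pullback η (mem_maximalAtlas_real_one he)
    (mem_maximalAtlas_real_one he') hy hy', compContinuousLinearMap_realFrame]
  rfl

/-- Holomorphic transition maps have nonnegative real Jacobian determinant. -/
theorem det_fderiv_transition_nonneg {e e' : OpenPartialHomeomorph X (Cn d)}
    (he : e ∈ IsManifold.maximalAtlas 𝓘(ℂ, Cn d) ω X)
    (he' : e' ∈ IsManifold.maximalAtlas 𝓘(ℂ, Cn d) ω X)
    {y : Cn d} (hy : y ∈ e.target) (hy' : e.symm y ∈ e'.source) :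
    0 ≤ (fderiv ℝ (e' ∘ e.symm) y).det := by
  have h : DifferentiableAt ℂ (e' ∘ e.symm) y :=
    (contDiffAt_transition he he' hy hy').differentiableAt (by simp)
  rw [h.fderiv_restrictScalars ℝ]
  exact det_restrictScalars_nonneg _

/-- **Change of variables**: two chart measures agree on Borel subsets of the overlap of the
chart domains. -/
theorem Form.chartMeasure_eq_of_subset (η : Form ℝ d X ℝ (2 * d))
    {e e' : OpenPartialHomeomorph X (Cn d)}
    (he : e ∈ IsManifold.maximalAtlas 𝓘(ℂ, Cn d) ω X)
    (he' : e' ∈ IsManifold.maximalAtlas 𝓘(ℂ, Cn d) ω X)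
    {A : Set X} (hA : MeasurableSet A) (hAe : A ⊆ e.source) (hAe' : A ⊆ e'.source) :
    η.chartMeasure e A = η.chartMeasure e' A := by
  rw [η.chartMeasure_apply e hA, η.chartMeasure_apply e' hA]
  set s := e.target ∩ e.symm ⁻¹' A with hs
  have hsm : MeasurableSet s := measurableSet_target_inter_preimage e hA
  have himg : e'.target ∩ e'.symm ⁻¹' A = (e' ∘ e.symm) '' s := by
    ext z
    constructor
    · rintro ⟨hz, hzA⟩
      refine ⟨e (e'.symm z), ⟨e.map_source (hAe hzA), ?_⟩, ?_⟩
      · simpa [e.left_inv (hAe hzA)] using hzA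
      · simp [e.left_inv (hAe hzA), e'.right_inv hz]
    · rintro ⟨y, ⟨hy, hyA⟩, rfl⟩
      refine ⟨e'.map_source (hAe' hyA), ?_⟩
      simpa [e'.left_inv (hAe' hyA)] using hyA
  have hderiv : ∀ y ∈ s, HasFDerivWithinAt (e' ∘ e.symm) (fderiv ℝ (e' ∘ e.symm) y) s y := by
    rintro y ⟨hy, hyA⟩
    have h : DifferentiableAt ℝ (e' ∘ e.symm) y :=
      (contDiffAt_transition (mem_maximalAtlas_real he) (mem_maximalAtlas_real he') hy
        (hAe' hyA)).differentiableAt (by simp)
    exact h.hasFDerivAt.hasFDerivWithinAt
  have hinj : InjOn (e' ∘ e.symm) s := by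
    rintro y ⟨hy, hyA⟩ z ⟨hz, hzA⟩ hyz
    have h1 : e.symm y = e.symm z := e'.injOn (hAe' hyA) (hAe' hzA) hyz
    exact e.symm.injOn hy hz h1
  rw [himg, lintegral_image_eq_lintegral_abs_det_fderiv_mul volume hsm hderiv hinj]
  refine setLIntegral_congr_fun hsm ?_
  rintro y ⟨hy, hyA⟩
  have hdet := det_fderiv_transition_nonneg he he' hy (hAe' hyA)
  simp only
  rw [η.coeff_eq_det_mul he he' hy (hAe' hyA), abs_of_nonneg hdet, ENNReal.ofReal_mul hdet]

theorem Form.chartMeasure_restrict_inter (η : Form ℝ d X ℝ (2 * d))
    {e e' : OpenPartialHomeomorph X (Cn d)}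
    (he : e ∈ IsManifold.maximalAtlas 𝓘(ℂ, Cn d) ω X)
    (he' : e' ∈ IsManifold.maximalAtlas 𝓘(ℂ, Cn d) ω X) :
    (η.chartMeasure e).restrict (e.source ∩ e'.source) =
      (η.chartMeasure e').restrict (e.source ∩ e'.source) := by
  ext A hA
  rw [Measure.restrict_apply hA, Measure.restrict_apply hA]
  exact η.chartMeasure_eq_of_subset he he'
    (hA.inter (e.open_source.measurableSet.inter e'.open_source.measurableSet))
    (fun x hx => hx.2.1) (fun x hx => hx.2.2)

/-- **`posMeasure` is the glued measure**: on the domain of every chart `e` of the atlas it is the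
image under `e⁻¹` of `max(g,0)·Lebesgue`. -/
theorem Form.posMeasure_restrict_source [IsManifold 𝓘(ℂ, Cn d) ω X] (η : Form ℝ d X ℝ (2 * d))
    {e : OpenPartialHomeomorph X (Cn d)} (he : e ∈ atlas (Cn d) X) :
    η.posMeasure.restrict e.source = η.chartMeasure e := by
  rw [Form.posMeasure_eq_iSup, iSup_subtype']
  exact restrict_iSup_of_compatible
    (fun e : {e // e ∈ atlas (Cn d) X} => η.chartMeasure e.1) (fun e => e.1.source)
    (fun e => e.1.open_source.measurableSet) (fun e => η.chartMeasure_compl_source e.1)
    (fun e e' => η.chartMeasure_restrict_inter (IsManifold.subset_maximalAtlas e.2)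
      (IsManifold.subset_maximalAtlas e'.2)) ⟨e, he⟩

end ChartMeasure

end Claimed.Open.R041
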