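/-
Sanity checks for the integration theory of `Statement.lean` (result 041), continued:
finiteness of `posMeasure` on compact manifolds, linearity of `integralReal`, the integral of a form supported
in a chart domain.
-/
import Claimed.Open.R041.SanityIntegration

open scoped Manifold ContDiff Topology InnerProductSpace ENNReal
open MeasureTheory Set

namespace Claimed.Open.R041

attribute [local instance] borelMS borelMS_borelSpace

section Basic

variable {d : ℕ} {X : Type} [TopologicalSpace X] [ChartedSpace (Cn d) X]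

theorem Form.coeff_add (η ζ : Form ℝ d X ℝ (2 * d)) (e : OpenPartialHomeomorph X (Cn d)) (y : Cn d) :
    (η + ζ).coeff e y = η.coeff e y + ζ.coeff e y := rfl

theorem Form.coeff_neg (η : Form ℝ d X ℝ (2 * d)) (e : OpenPartialHomeomorph X (Cn d)) (y : Cn d) :
    (-η).coeff e y = - η.coeff e y := rfl

theorem Form.coeff_smul (c : ℝ) (η : Form ℝ d X ℝ (2 * d)) (e : OpenPartialHomeomorph X (Cn d))
    (y : Cn d) : (c • η).coeff e y = c * η.coeff e y := rfl

theorem Form.IsSmooth.contDiffOn_coeff {η : Form ℝ d X ℝ (2 * d)} (hη : η.IsSmooth)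
    {e : OpenPartialHomeomorph X (Cn d)} (he : e ∈ atlas (Cn d) X) :
    ContDiffOn ℝ ∞ (η.coeff e) e.target := by
  have h : ContDiff ℝ ∞ fun g : (Cn d) [⋀^Fin (2 * d)]→L[ℝ] ℝ => g (realFrame d) :=
    (ContinuousAlternatingMap.apply ℝ (Cn d) ℝ (realFrame d)).contDiff
  exact h.comp_contDiffOn (hη e he)

theorem Form.IsSmooth.continuousOn_coeff {η : Form ℝ d X ℝ (2 * d)} (hη : η.IsSmooth)
    {e : OpenPartialHomeomorph X (Cn d)} (he : e ∈ atlas (Cn d) X) :
    ContinuousOn (η.coeff e) e.target :=
  (hη.contDiffOn_coeff he).continuousOn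

theorem Form.IsSmooth.aemeasurable_ofReal_coeff {η : Form ℝ d X ℝ (2 * d)} (hη : η.IsSmooth)
    {e : OpenPartialHomeomorph X (Cn d)} (he : e ∈ atlas (Cn d) X) {s : Set (Cn d)}
    (hs : s ⊆ e.target) :
    AEMeasurable (fun y => ENNReal.ofReal (η.coeff e y)) (volume.restrict s) :=
  ENNReal.measurable_ofReal.comp_aemeasurable
    (((hη.continuousOn_coeff he).aemeasurable e.open_target.measurableSet).mono_set hs)

theorem Form.IsSmooth.neg {k : ℕ} {η : Form ℝ d X ℝ k} (hη : η.IsSmooth) : (-η).IsSmooth :=
  (smoothForms d X k).neg_mem hη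

theorem Form.IsSmooth.add {k : ℕ} {η ζ : Form ℝ d X ℝ k} (hη : η.IsSmooth) (hζ : ζ.IsSmooth) :
    (η + ζ).IsSmooth :=
  (smoothForms d X k).add_mem hη hζ

theorem Form.IsSmooth.const_smul {k : ℕ} {η : Form ℝ d X ℝ k} (hη : η.IsSmooth) (c : ℝ) :
    (c • η).IsSmooth :=
  (smoothForms d X k).smul_mem c hη

end Basic

section Compact

variable {d : ℕ} {X : Type} [TopologicalSpace X] [ChartedSpace (Cn d) X]

/-- On a compact manifold, two Borel measures which agree on all chart domains are equal. -/
theorem measure_ext_of_charts [CompactSpace X] {μ ν : Measure X}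
    (h : ∀ e ∈ atlas (Cn d) X, μ.restrict e.source = ν.restrict e.source) : μ = ν := by
  obtain ⟨t, -, ht⟩ := isCompact_univ.elim_nhds_subcover (fun x : X => (chartAt (Cn d) x).source)
    (fun x _ => (chartAt (Cn d) x).open_source.mem_nhds (mem_chart_source _ x))
  have hcov : ⋃ x : t, (chartAt (Cn d) (x : X)).source = univ := by
    rw [eq_univ_iff_forall]
    intro x
    obtain ⟨y, hy, hxy⟩ := mem_iUnion₂.1 (ht (mem_univ x))
    exact mem_iUnion.2 ⟨⟨y, hy⟩, hxy⟩
  exact (Measure.ext_iff_of_iUnion_eq_univ hcov).2 fun x => h _ (chart_mem_atlas _ _)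

variable [IsManifold 𝓘(ℂ, Cn d) ω X]

theorem Form.posMeasure_apply_of_subset (η : Form ℝ d X ℝ (2 * d))
    {e : OpenPartialHomeomorph X (Cn d)} (he : e ∈ atlas (Cn d) X) {A : Set X}
    (hA : MeasurableSet A) (hAe : A ⊆ e.source) :
    η.posMeasure A = ∫⁻ y in e.target ∩ e.symm ⁻¹' A, ENNReal.ofReal (η.coeff e y) := by
  rw [← η.chartMeasure_apply e hA, ← η.posMeasure_restrict_source he, Measure.restrict_apply hA,
    inter_eq_left.2 hAe]

/-- The measure `η⁺` of a smooth form is locally finite. -/
theorem Form.IsSmooth.isLocallyFiniteMeasure_posMeasure {η : Form ℝ d X ℝ (2 * d)}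
    (hη : η.IsSmooth) : IsLocallyFiniteMeasure η.posMeasure := by
  refine ⟨fun x => ?_⟩
  set e := chartAt (Cn d) x with he
  have hemem : e ∈ atlas (Cn d) X := chart_mem_atlas _ x
  obtain ⟨r, hr, hball⟩ := Metric.nhds_basis_closedBall.mem_iff.1
    (e.open_target.mem_nhds (mem_chart_target (Cn d) x))
  set A : Set X := e.source ∩ e ⁻¹' Metric.ball (e x) r with hA
  have hAopen : IsOpen A := e.isOpen_inter_preimage Metric.isOpen_ball
  refine ⟨A, hAopen.mem_nhds ⟨mem_chart_source _ x, Metric.mem_ball_self hr⟩, ?_⟩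
  rw [η.posMeasure_apply_of_subset hemem hAopen.measurableSet inter_subset_left]
  have hsub : e.target ∩ e.symm ⁻¹' A ⊆ Metric.closedBall (e x) r := by
    rintro y ⟨hy, -, hy2⟩
    have : e (e.symm y) ∈ Metric.ball (e x) r := hy2
    rw [e.right_inv hy] at this
    exact Metric.ball_subset_closedBall this
  calc ∫⁻ y in e.target ∩ e.symm ⁻¹' A, ENNReal.ofReal (η.coeff e y)
      ≤ ∫⁻ y in Metric.closedBall (e x) r, ENNReal.ofReal (η.coeff e y) :=
        lintegral_mono_set hsub
    _ < ⊤ := by
        have : IntegrableOn (η.coeff e) (Metric.closedBall (e x) r) volume :=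
          ContinuousOn.integrableOn_compact (isCompact_closedBall _ _)
            ((hη.continuousOn_coeff hemem).mono hball)
        exact this.lintegral_lt_top

/-- On a compact manifold the measure `η⁺` of a smooth form is finite. -/
theorem Form.IsSmooth.isFiniteMeasure_posMeasure [CompactSpace X] {η : Form ℝ d X ℝ (2 * d)}
    (hη : η.IsSmooth) : IsFiniteMeasure η.posMeasure := by
  have := hη.isLocallyFiniteMeasure_posMeasure
  exact CompactSpace.isFiniteMeasure

end Compact

section Linear

variable {d : ℕ} {X : Type} [TopologicalSpace X] [ChartedSpace (Cn d) X]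
  [IsManifold 𝓘(ℂ, Cn d) ω X] [CompactSpace X]

theorem ofReal_add_identity (p q : ℝ) :
    ENNReal.ofReal (p + q) + (ENNReal.ofReal (-p) + ENNReal.ofReal (-q)) =
      ENNReal.ofReal (-(p + q)) + (ENNReal.ofReal p + ENNReal.ofReal q) := by
  have h : ∀ x : ℝ, ENNReal.ofReal x = ENNReal.ofReal (max x 0) := by
    intro x
    rcases le_total x 0 with h | h
    · simp [h, ENNReal.ofReal_of_nonpos]
    · simp [h]
  rw [h (p + q), h (-p), h (-q), h (-(p + q)), h p, h q]
  rw [← ENNReal.ofReal_add (by positivity) (by positivity),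
    ← ENNReal.ofReal_add (by positivity) (by positivity),
    ← ENNReal.ofReal_add (by positivity) (by positivity),
    ← ENNReal.ofReal_add (by positivity) (by positivity)]
  congr 1
  have h1 := max_zero_sub_max_neg_zero_eq_self (p + q)
  have h2 := max_zero_sub_max_neg_zero_eq_self p
  have h3 := max_zero_sub_max_neg_zero_eq_self q
  linarith

/-- `(η+ζ)⁺ + η⁻ + ζ⁻ = (η+ζ)⁻ + η⁺ + ζ⁺` as measures. -/
theorem Form.posMeasure_add_identity {η ζ : Form ℝ d X ℝ (2 * d)} (hη : η.IsSmooth)
    (hζ : ζ.IsSmooth) :
    (η + ζ).posMeasure + ((-η).posMeasure + (-ζ).posMeasure) =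
      (-(η + ζ)).posMeasure + (η.posMeasure + ζ.posMeasure) := by
  refine measure_ext_of_charts (d := d) fun e he => ?_
  simp only [Measure.restrict_add, Form.posMeasure_restrict_source _ he]
  ext A hA
  simp only [Measure.add_apply, Form.chartMeasure_apply _ e hA]
  have hs : e.target ∩ e.symm ⁻¹' A ⊆ e.target := inter_subset_left
  rw [← lintegral_add_left' (hη.neg.aemeasurable_ofReal_coeff he hs),
    ← lintegral_add_left' ((hη.add hζ).aemeasurable_ofReal_coeff he hs),
    ← lintegral_add_left' (hη.aemeasurable_ofReal_coeff he hs),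
    ← lintegral_add_left' ((hη.add hζ).neg.aemeasurable_ofReal_coeff he hs)]
  refine lintegral_congr fun y => ?_
  simp only [Form.coeff_add, Form.coeff_neg]
  exact ofReal_add_identity _ _

omit [IsManifold 𝓘(ℂ, Cn d) ω X] [CompactSpace X] in
theorem integralReal_neg (η : Form ℝ d X ℝ (2 * d)) : integralReal (-η) = - integralReal η := by
  simp [integralReal]

/-- `∫_X` is additive on smooth forms. -/
theorem integralReal_add {η ζ : Form ℝ d X ℝ (2 * d)} (hη : η.IsSmooth) (hζ : ζ.IsSmooth) :
    integralReal (η + ζ) = integralReal η + integralReal ζ := by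
  have f1 := hη.isFiniteMeasure_posMeasure
  have f2 := hζ.isFiniteMeasure_posMeasure
  have f3 := hη.neg.isFiniteMeasure_posMeasure
  have f4 := hζ.neg.isFiniteMeasure_posMeasure
  have f5 := (hη.add hζ).isFiniteMeasure_posMeasure
  have f6 := (hη.add hζ).neg.isFiniteMeasure_posMeasure
  have h := congrArg (fun μ : Measure X => (μ univ).toReal) (Form.posMeasure_add_identity hη hζ)
  simp only [Measure.add_apply] at h
  rw [ENNReal.toReal_add (measure_ne_top _ _) (by finiteness),
    ENNReal.toReal_add (measure_ne_top _ _) (measure_ne_top _ _),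
    ENNReal.toReal_add (measure_ne_top _ _) (by finiteness),
    ENNReal.toReal_add (measure_ne_top _ _) (measure_ne_top _ _)] at h
  simp only [integralReal]
  linarith

theorem Form.posMeasure_smul_of_nonneg {c : ℝ} (hc : 0 ≤ c) (η : Form ℝ d X ℝ (2 * d)) :
    (c • η).posMeasure = ENNReal.ofReal c • η.posMeasure := by
  refine measure_ext_of_charts (d := d) fun e he => ?_
  simp only [Measure.restrict_smul, Form.posMeasure_restrict_source _ he]
  ext A hA
  simp only [Measure.smul_apply, Form.chartMeasure_apply _ e hA, smul_eq_mul]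
  rw [← lintegral_const_mul' _ _ ENNReal.ofReal_ne_top]
  refine lintegral_congr fun y => ?_
  rw [Form.coeff_smul, ENNReal.ofReal_mul hc]

theorem integralReal_smul (c : ℝ) (η : Form ℝ d X ℝ (2 * d)) :
    integralReal (c • η) = c * integralReal η := by
  have key : ∀ (c : ℝ), 0 ≤ c → ∀ η : Form ℝ d X ℝ (2 * d),
      integralReal (c • η) = c * integralReal η := by
    intro c hc η
    have h2 : -(c • η) = c • (-η) := (smul_neg c η).symm
    simp only [integralReal]
    rw [h2, Form.posMeasure_smul_of_nonneg hc, Form.posMeasure_smul_of_nonneg hc]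
    simp only [Measure.smul_apply, smul_eq_mul, ENNReal.toReal_mul, ENNReal.toReal_ofReal hc]
    ring
  rcases le_total 0 c with hc | hc
  · exact key c hc η
  · have h1 : c • η = -((-c) • η) := by simp
    rw [h1, integralReal_neg, key (-c) (by linarith)]
    ring

end Linear

section Support

variable {d : ℕ} {X : Type} [TopologicalSpace X] [ChartedSpace (Cn d) X]
  [IsManifold 𝓘(ℂ, Cn d) ω X] [CompactSpace X]

omit [IsManifold 𝓘(ℂ, Cn d) ω X] [CompactSpace X] in
theorem Form.coeff_eq_zero (η : Form ℝ d X ℝ (2 * d)) (e : OpenPartialHomeomorph X (Cn d))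
    {y : Cn d} (h : η (e.symm y) = 0) : η.coeff e y = 0 := by
  simp only [Form.coeff, Form.inChart, h]
  rfl

/-- `η⁺` does not charge the zero set of `η`. -/
theorem Form.posMeasure_eq_zero_of_forall (η : Form ℝ d X ℝ (2 * d)) {A : Set X}
    (hA : MeasurableSet A) (h0 : ∀ x ∈ A, η x = 0) : η.posMeasure A = 0 := by
  have h : η.posMeasure.restrict A = (0 : Measure X).restrict A := by
    refine measure_ext_of_charts (d := d) fun e he => ?_
    rw [Measure.restrict_restrict e.open_source.measurableSet, inter_comm,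
      ← Measure.restrict_restrict hA, η.posMeasure_restrict_source he]
    ext B hB
    rw [Measure.restrict_apply hB, η.chartMeasure_apply e (hB.inter hA)]
    simp only [Measure.restrict_zero, Measure.coe_zero, Pi.zero_apply]
    rw [setLIntegral_congr_fun (g := fun _ => 0)
      (measurableSet_target_inter_preimage e (hB.inter hA))]
    · simp
    · rintro y ⟨-, -, hy⟩
      simp [η.coeff_eq_zero e (h0 _ hy)]
  have h2 := congrArg (fun μ : Measure X => μ univ) h
  simpa using h2

theorem Form.posMeasure_univ_of_support (η : Form ℝ d X ℝ (2 * d))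
    {e : OpenPartialHomeomorph X (Cn d)} (he : e ∈ atlas (Cn d) X)
    (h0 : ∀ x, x ∉ e.source → η x = 0) :
    η.posMeasure univ = ∫⁻ y in e.target, ENNReal.ofReal (η.coeff e y) := by
  have h1 : η.posMeasure univ = η.posMeasure e.source + η.posMeasure e.sourceᶜ :=
    (measure_add_measure_compl e.open_source.measurableSet).symm
  rw [h1, η.posMeasure_eq_zero_of_forall e.open_source.measurableSet.compl h0, add_zero,
    η.posMeasure_apply_of_subset he e.open_source.measurableSet subset_rfl]
  congr 2
  exact inter_eq_left.2 fun y hy => e.map_target hy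

/-- **The integral of a form supported in a chart domain is the Lebesgue integral of its
coefficient in the chart.** -/
theorem integralReal_eq_integral_chart {η : Form ℝ d X ℝ (2 * d)} (hη : η.IsSmooth)
    {e : OpenPartialHomeomorph X (Cn d)} (he : e ∈ atlas (Cn d) X)
    (h0 : ∀ x, x ∉ e.source → η x = 0) :
    IntegrableOn (η.coeff e) e.target ∧ integralReal η = ∫ y in e.target, η.coeff e y := by
  have f1 := hη.isFiniteMeasure_posMeasure
  have f2 := hη.neg.isFiniteMeasure_posMeasure
  have h1 := η.posMeasure_univ_of_support he h0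
  have h2 := (-η).posMeasure_univ_of_support he (fun x hx => by simp [h0 x hx])
  simp only [Form.coeff_neg] at h2
  have hint : IntegrableOn (η.coeff e) e.target := by
    refine ⟨((hη.continuousOn_coeff he).aemeasurable
      e.open_target.measurableSet).aestronglyMeasurable, ?_⟩
    have h3 : ∀ y, ‖η.coeff e y‖ₑ =
        ENNReal.ofReal (η.coeff e y) + ENNReal.ofReal (-η.coeff e y) := by
      intro y
      rw [Real.enorm_eq_ofReal_abs]
      rcases le_total 0 (η.coeff e y) with h | h
      · simp [abs_of_nonneg h, ENNReal.ofReal_of_nonpos (neg_nonpos.2 h)]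
      · simp [abs_of_nonpos h, ENNReal.ofReal_of_nonpos h]
    rw [HasFiniteIntegral]
    simp only [h3]
    rw [lintegral_add_left' (hη.aemeasurable_ofReal_coeff he subset_rfl), ← h1, ← h2]
    exact ENNReal.add_lt_top.2 ⟨measure_lt_top _ _, measure_lt_top _ _⟩
  refine ⟨hint, ?_⟩
  rw [integral_eq_lintegral_pos_part_sub_lintegral_neg_part hint, ← h1, ← h2]
  rfl

end Support

end Claimed.Open.R041
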