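/-
Sanity checks for the integration theory of `Statement.lean` (result 041), continued:
**Stokes' theorem** `∫_X dζ = 0` on a compact complex manifold.
-/
import Claimed.Open.R041.SanityIntegralLinear

open scoped Manifold ContDiff Topology InnerProductSpace ENNReal
open MeasureTheory Set

namespace Claimed.Open.R041

attribute [local instance] borelMS borelMS_borelSpace

/-! ## Flat case: the integral of `dω` over a real vector space vanishes for compactly supported `ω` -/

section Flat

variable {E : Type} [NormedAddCommGroup E] [NormedSpace ℝ E] [FiniteDimensional ℝ E]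
  [MeasurableSpace E] [BorelSpace E] (μ : Measure E) [μ.IsAddHaarMeasure]

theorem integral_fderiv_apply_eq_zero {g : E → ℝ} (hg : ContDiff ℝ 1 g) (hc : HasCompactSupport g)
    (v : E) : ∫ x, fderiv ℝ g x v ∂μ = 0 := by
  have hg' : Continuous fun x => fderiv ℝ g x v :=
    (hg.continuous_fderiv one_ne_zero).clm_apply continuous_const
  have hc' : HasCompactSupport fun x => fderiv ℝ g x v := by
    have := hc.fderiv (𝕜 := ℝ)
    exact this.comp_left (g := fun L : E →L[ℝ] ℝ => L v) (by simp)
  have h := integral_mul_fderiv_eq_neg_fderiv_mul_of_integrable (μ := μ) (f := fun _ : E => (1 : ℝ))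
    (g := g) (v := v) (by simp) (by simpa using hg'.integrable_of_hasCompactSupport hc')
    (by simpa using hg.continuous.integrable_of_hasCompactSupport hc)
    (fun x _ => differentiableAt_const _) (fun x _ => hg.differentiable one_ne_zero x)
  simpa using h

theorem integral_extDeriv_eq_zero {m : ℕ} {ω' : E → E [⋀^Fin m]→L[ℝ] ℝ} (hω : ContDiff ℝ 1 ω')
    (hc : HasCompactSupport ω') (v : Fin (m + 1) → E) : ∫ x, extDeriv ω' x v ∂μ = 0 := by
  have hd : ∀ x, DifferentiableAt ℝ ω' x := fun x => hω.differentiable one_ne_zero x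
  simp only [extDeriv_apply (hd _), zsmul_eq_mul]
  have hsm : ∀ i : Fin (m + 1), ContDiff ℝ 1 fun y => ω' y (i.removeNth v) := fun i =>
    (ContinuousAlternatingMap.apply ℝ E ℝ (i.removeNth v)).contDiff.comp hω
  have hcs : ∀ i : Fin (m + 1), HasCompactSupport fun y => ω' y (i.removeNth v) := fun i =>
    hc.comp_left (g := fun L : E [⋀^Fin m]→L[ℝ] ℝ => L (i.removeNth v)) (by simp)
  rw [integral_finsetSum]
  · refine Finset.sum_eq_zero fun i _ => ?_
    rw [integral_const_mul, integral_fderiv_apply_eq_zero μ (hsm i) (hcs i), mul_zero]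
  · intro i _
    refine Integrable.const_mul ?_ _
    have hg' : Continuous fun x => fderiv ℝ (fun y => ω' y (i.removeNth v)) x (v i) :=
      ((hsm i).continuous_fderiv one_ne_zero).clm_apply continuous_const
    refine hg'.integrable_of_hasCompactSupport ?_
    exact ((hcs i).fderiv (𝕜 := ℝ)).comp_left (g := fun L : E →L[ℝ] ℝ => L (v i)) (by simp)

end Flat

/-! ## Calculus of forms: additivity and locality of `d`, products with functions -/

section Calculus

variable {d : ℕ} {X : Type} [TopologicalSpace X] [ChartedSpace (Cn d) X] {k : ℕ}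

theorem extDeriv_zero_fun {E F : Type} [NormedAddCommGroup E] [NormedSpace ℝ E]
    [NormedAddCommGroup F] [NormedSpace ℝ F] {m : ℕ} (x : E) :
    extDeriv (fun _ => 0 : E → E [⋀^Fin m]→L[ℝ] F) x = 0 := by
  ext v
  simp [extDeriv, ContinuousAlternatingMap.alternatizeUncurryFin_apply]

theorem Form.extd_add {η ζ : Form ℝ d X ℝ k} (hη : η.IsSmooth) (hζ : ζ.IsSmooth) :
    (η + ζ).extd = η.extd + ζ.extd := by
  funext x
  simp only [Form.extd, Pi.add_apply]
  rw [Form.inChart_add, extDeriv_add (hη.differentiableAt_chartAt x) (hζ.differentiableAt_chartAt x)]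

theorem Form.extd_zero : (0 : Form ℝ d X ℝ k).extd = 0 :=
  (closedForms d X k).zero_mem.2

theorem Form.isSmooth_zero : (0 : Form ℝ d X ℝ k).IsSmooth :=
  (smoothForms d X k).zero_mem

theorem Form.isSmooth_sum {ι : Type} (s : Finset ι) (η : ι → Form ℝ d X ℝ k)
    (hη : ∀ i ∈ s, (η i).IsSmooth) : (∑ i ∈ s, η i).IsSmooth :=
  (smoothForms d X k).sum_mem hη

theorem Form.extd_sum {ι : Type} (s : Finset ι) (η : ι → Form ℝ d X ℝ k)
    (hη : ∀ i ∈ s, (η i).IsSmooth) : (∑ i ∈ s, η i).extd = ∑ i ∈ s, (η i).extd := by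
  classical
  induction s using Finset.induction_on with
  | empty => simp [Form.extd_zero]
  | insert a s ha ih =>
    rw [Finset.sum_insert ha, Finset.sum_insert ha,
      Form.extd_add (hη a (Finset.mem_insert_self a s))
        (Form.isSmooth_sum s η fun i hi => hη i (Finset.mem_insert_of_mem hi)),
      ih fun i hi => hη i (Finset.mem_insert_of_mem hi)]

/-- `d` is local: `dη` vanishes on every open set on which `η` vanishes. -/
theorem Form.extd_eq_zero_of_isOpen (η : Form ℝ d X ℝ k) {U : Set X} (hU : IsOpen U)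
    (h0 : ∀ x ∈ U, η x = 0) {x : X} (hx : x ∈ U) : η.extd x = 0 := by
  set e := chartAt (Cn d) x
  have hloc : η.inChart e =ᶠ[𝓝 (e x)] fun _ => 0 := by
    have hopen : IsOpen (e.target ∩ e.symm ⁻¹' U) := e.isOpen_inter_preimage_symm hU
    have hmem : e x ∈ e.target ∩ e.symm ⁻¹' U :=
      ⟨mem_chart_target _ x, by simpa [e, (chartAt (Cn d) x).left_inv (mem_chart_source _ x)] using hx⟩
    filter_upwards [hopen.mem_nhds hmem] with y hy
    simp only [Form.inChart, h0 _ hy.2]
    rfl
  show extDeriv (η.inChart e) (e x) = 0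
  rw [hloc.extDeriv_eq, extDeriv_zero_fun]

/-- The product of a function and a form. -/
noncomputable def Form.fsmul (ρ : X → ℝ) (η : Form ℝ d X ℝ k) : Form ℝ d X ℝ k := fun x => ρ x • η x

theorem Form.inChart_fsmul (ρ : X → ℝ) (η : Form ℝ d X ℝ k) (e : OpenPartialHomeomorph X (Cn d))
    (y : Cn d) : (Form.fsmul ρ η).inChart e y = ρ (e.symm y) • η.inChart e y := rfl

theorem Form.IsSmooth.fsmul [IsManifold 𝓘(ℝ, Cn d) ∞ X] {ρ : X → ℝ}
    (hρ : ContMDiff 𝓘(ℝ, Cn d) 𝓘(ℝ, ℝ) ∞ ρ) {η : Form ℝ d X ℝ k} (hη : η.IsSmooth) :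
    (Form.fsmul ρ η).IsSmooth := by
  intro e he
  have h1 : ContDiffOn ℝ ∞ (ρ ∘ e.symm) e.target :=
    contMDiffOn_iff_contDiffOn.1 (hρ.comp_contMDiffOn
      (contMDiffOn_symm_of_mem_maximalAtlas (IsManifold.subset_maximalAtlas he)))
  exact (h1.smul (hη e he)).congr fun y _ => Form.inChart_fsmul ρ η e y

end Calculus

section Sum

variable {d : ℕ} {X : Type} [TopologicalSpace X] [ChartedSpace (Cn d) X]
  [IsManifold 𝓘(ℂ, Cn d) ω X] [CompactSpace X]

theorem integralReal_zero : integralReal (0 : Form ℝ d X ℝ (2 * d)) = 0 := by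
  have h := integralReal_smul (0 : ℝ) (0 : Form ℝ d X ℝ (2 * d))
  simpa using h

theorem integralReal_sum {ι : Type} (s : Finset ι) (η : ι → Form ℝ d X ℝ (2 * d))
    (hη : ∀ i ∈ s, (η i).IsSmooth) : integralReal (∑ i ∈ s, η i) = ∑ i ∈ s, integralReal (η i) := by
  classical
  induction s using Finset.induction_on with
  | empty => simp [integralReal_zero]
  | insert a s ha ih =>
    rw [Finset.sum_insert ha, Finset.sum_insert ha,
      integralReal_add (hη a (Finset.mem_insert_self a s))
        (Form.isSmooth_sum s η fun i hi => hη i (Finset.mem_insert_of_mem hi)),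
      ih fun i hi => hη i (Finset.mem_insert_of_mem hi)]

end Sum

/-! ## Stokes' theorem -/

section Stokes

variable {d : ℕ} {X : Type} [TopologicalSpace X] [ChartedSpace (Cn (d + 1)) X]
  [IsManifold 𝓘(ℂ, Cn (d + 1)) ω X] [CompactSpace X] [T2Space X]

/-- Stokes' theorem for a form with compact support in a chart domain. -/
theorem integralReal_extd_of_support {η : Form ℝ (d + 1) X ℝ (2 * d + 1)} (hη : η.IsSmooth)
    {e : OpenPartialHomeomorph X (Cn (d + 1))} (he : e ∈ atlas (Cn (d + 1)) X) {K : Set X}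
    (hK : IsCompact K) (hKe : K ⊆ e.source) (h0 : ∀ x, x ∉ K → η x = 0) :
    integralReal (d := d + 1) η.extd = 0 := by
  have hreal := isManifold_real (d + 1) X
  have hdη : η.extd.IsSmooth := hη.extd
  have hz : ∀ x, x ∉ K → η.extd x = 0 := fun x hx =>
    η.extd_eq_zero_of_isOpen hK.isClosed.isOpen_compl (fun z hz => h0 z hz) hx
  obtain ⟨-, hI⟩ := integralReal_eq_integral_chart (d := d + 1) hdη he
    (fun x hx => hz x (fun h => hx (hKe h)))
  rw [hI]
  set ω' : Cn (d + 1) → (Cn (d + 1)) [⋀^Fin (2 * d + 1)]→L[ℝ] ℝ :=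
    e.target.indicator (η.inChart e) with hω'
  set K' := e '' K with hK'def
  have hK' : IsCompact K' := hK.image_of_continuousOn (e.continuousOn.mono hKe)
  have hK't : K' ⊆ e.target := by
    rintro _ ⟨x, hx, rfl⟩
    exact e.map_source (hKe hx)
  have hzero : ∀ y, y ∉ K' → ω' y = 0 := by
    intro y hy
    by_cases hyt : y ∈ e.target
    · rw [hω', indicator_of_mem hyt]
      have : e.symm y ∉ K := fun h => hy ⟨e.symm y, h, e.right_inv hyt⟩
      simp only [Form.inChart, h0 _ this]
      rfl
    · exact indicator_of_notMem hyt _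
  have hev : ∀ y ∈ e.target, ω' =ᶠ[𝓝 y] η.inChart e := by
    intro y hyt
    filter_upwards [e.open_target.mem_nhds hyt] with z hz using indicator_of_mem hz _
  have hev0 : ∀ y, y ∉ e.target → ω' =ᶠ[𝓝 y] fun _ => 0 := by
    intro y hyt
    have hyK : y ∉ K' := fun h => hyt (hK't h)
    filter_upwards [hK'.isClosed.isOpen_compl.mem_nhds hyK] with z hz using hzero z hz
  have hsmooth : ContDiff ℝ ∞ ω' := by
    rw [contDiff_iff_contDiffAt]
    intro y
    by_cases hyt : y ∈ e.target
    · exact ((hη e he).contDiffAt (e.open_target.mem_nhds hyt)).congr_of_eventuallyEq (hev y hyt)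
    · exact contDiffAt_const.congr_of_eventuallyEq (hev0 y hyt)
  have hcs : HasCompactSupport ω' := HasCompactSupport.intro hK' hzero
  have h1 : EqOn (Form.coeff (d := d + 1) η.extd e)
      (fun y => extDeriv ω' y (realFrame (d + 1))) e.target := by
    intro y hy
    simp only
    rw [(hev y hy).extDeriv_eq, Form.coeff, inChart_extd (r := ω) le_top η
      (IsManifold.subset_maximalAtlas he) hy (hη.differentiableAt_chartAt _)]
  have h2 : ∀ y, y ∉ e.target → extDeriv ω' y (realFrame (d + 1)) = 0 := by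
    intro y hy
    rw [(hev0 y hy).extDeriv_eq, extDeriv_zero_fun]
    rfl
  rw [setIntegral_congr_fun e.open_target.measurableSet h1,
    setIntegral_eq_integral_of_forall_compl_eq_zero h2]
  exact integral_extDeriv_eq_zero volume (hsmooth.of_le (by simp)) hcs _

/-- **Stokes' theorem**: `∫_X dζ = 0` for every smooth form `ζ` of degree `dim_ℝ X - 1` on a compact
complex manifold `X`. -/
theorem integralReal_extd {ζ : Form ℝ (d + 1) X ℝ (2 * d + 1)} (hζ : ζ.IsSmooth) :
    integralReal (d := d + 1) ζ.extd = 0 := by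
  have hreal := isManifold_real (d + 1) X
  have hreal' : IsManifold 𝓘(ℝ, Cn (d + 1)) ∞ X := IsManifold.of_le (n := ω) le_top
  obtain ⟨ρ, hρ⟩ := SmoothPartitionOfUnity.exists_isSubordinate_chartAt_source 𝓘(ℝ, Cn (d + 1)) X
  have hfin : {x : X | (Function.support (ρ x)).Nonempty}.Finite :=
    ρ.locallyFinite.finite_nonempty_of_compact
  set s := hfin.toFinset with hs
  have hsum : ζ = ∑ x ∈ s, Form.fsmul (ρ x) ζ := by
    funext p
    rw [Finset.sum_apply]
    simp only [Form.fsmul]
    rw [← Finset.sum_smul]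
    have : ∑ x ∈ s, ρ x p = 1 := by
      rw [← ρ.sum_eq_one (mem_univ p)]
      symm
      apply finsum_eq_sum_of_support_subset
      intro x hx
      simp only [hs, Finite.coe_toFinset, mem_ofPred_eq]
      exact ⟨p, hx⟩
    rw [this, one_smul]
  have hsm : ∀ x ∈ s, (Form.fsmul (ρ x) ζ).IsSmooth := fun x _ => hζ.fsmul (ρ x).contMDiff
  have hd : ζ.extd = ∑ x ∈ s, (Form.fsmul (ρ x) ζ).extd := by
    conv_lhs => rw [hsum]
    exact Form.extd_sum s _ hsm
  rw [hd]
  rw [integralReal_sum (d := d + 1) s _ fun x hx => (hsm x hx).extd]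
  refine Finset.sum_eq_zero fun x hx => ?_
  refine integralReal_extd_of_support (hsm x hx) (chart_mem_atlas _ x) (K := tsupport (ρ x))
    (isClosed_tsupport _).isCompact (hρ x) fun p hp => ?_
  simp [Form.fsmul, image_eq_zero_of_notMem_tsupport hp]

end Stokes

end Claimed.Open.R041
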