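/-
Result 041, K3 example project, package E: the intersection pairing `∫ α ∧ β` on a compact complex
surface.

* `wedgeFam_two_apply`, `wedge22_apply`: the explicit formula for the wedge product of two `2`-forms;
* `Form.IsSmooth.wedge22`, `integralReal_wedge22_extd` (Leibniz + Stokes), `integralReal_wedge22_congr`:
  the pairing is defined on de Rham classes;
* `bbf_mk`: for `n = 1` the Beauville--Bogomolov--Fujiki form of `Statement.lean` is a multiple of the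
  intersection form, on every representative;
* `integralReal_pos`: positivity of the integral of a positive top-degree form;
* `wedge22_nonneg`, `wedge22_pos`, `wedge22_self_eq_zero`: pointwise Hermitian linear algebra.
-/
import Claimed.Open.R041.SanityStokes
import Claimed.Open.R041.SanityBasic

open scoped Manifold ContDiff Topology
open Set

namespace Claimed.Open.R041

/-! ## Sums over `S₄` -/

section Perm

open Equiv

theorem sum_perm_four {M : Type*} [AddCommMonoid M] (f : Perm (Fin 4) → M) :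
    ∑ π, f π = ∑ p : Fin 4 × Fin 3 × Fin 2, f (Perm.decomposeFin.symm (p.1,
      Perm.decomposeFin.symm (p.2.1, Perm.decomposeFin.symm (p.2.2, 1)))) := by
  rw [Finset.univ_perm_fin_succ, Finset.sum_map, Fintype.sum_prod_type, Fintype.sum_prod_type]
  refine Finset.sum_congr rfl fun i _ => ?_
  rw [Finset.univ_perm_fin_succ, Finset.sum_map, Fintype.sum_prod_type, Fintype.sum_prod_type]
  refine Finset.sum_congr rfl fun j _ => ?_
  rw [Finset.univ_perm_fin_succ, Finset.sum_map, Fintype.sum_prod_type]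
  refine Finset.sum_congr rfl fun k _ => ?_
  simp

theorem sum_perm_four_sign {M : Type*} [AddCommGroup M] (G : Fin 4 → Fin 4 → Fin 4 → Fin 4 → M) :
    ∑ π : Perm (Fin 4), Perm.sign π • G (π 0) (π 1) (π 2) (π 3) =
      G 0 1 2 3 - G 0 1 3 2 - G 0 2 1 3 + G 0 2 3 1 + G 0 3 1 2 - G 0 3 2 1 - G 1 0 2 3 + G 1 0
      3 2 + G 1 2 0 3 - G 1 2 3 0 - G 1 3 0 2 + G 1 3 2 0 + G 2 0 1 3 - G 2 0 3 1 - G 2 1 0 3 +
      G 2 1 3 0 + G 2 3 0 1 - G 2 3 1 0 - G 3 0 1 2 + G 3 0 2 1 + G 3 1 0 2 - G 3 1 2 0 - G 3 2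
      0 1 + G 3 2 1 0 := by
  rw [sum_perm_four]
  have e1 : (1 : Fin 4) = Fin.succ 0 := rfl
  have e2 : (2 : Fin 4) = Fin.succ (Fin.succ 0) := rfl
  have e3 : (3 : Fin 4) = Fin.succ (Fin.succ (Fin.succ 0)) := rfl
  rw [e1, e2, e3]
  simp only [Fintype.sum_prod_type, Fin.sum_univ_succ, Fin.sum_univ_zero,
    Perm.decomposeFin.symm_sign, Perm.decomposeFin_symm_apply_zero,
    Perm.decomposeFin_symm_apply_succ, Perm.one_apply, Equiv.swap_apply_def,
    Fin.succ_ne_zero, Fin.succ_inj, if_true, if_false, Perm.sign_one, (Fin.succ_ne_zero _).symm]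
  simp only [mul_one, one_mul, neg_mul, neg_neg, one_smul, Units.neg_smul, add_zero]
  abel

end Perm

/-! ## Alternating `2`-forms as bilinear forms -/

section Alt2

variable {𝕜 E F : Type} [NormedField 𝕜] [NormedAddCommGroup E] [NormedSpace 𝕜 E]
  [NormedAddCommGroup F] [NormedSpace 𝕜 F] (A : E [⋀^Fin 2]→L[𝕜] F)

theorem alt2_swap (u v : E) : A ![v, u] = - A ![u, v] := by
  have h := A.toAlternatingMap.map_swap ![u, v] (i := 0) (j := 1) (by decide)
  have e : (![u, v] ∘ Equiv.swap (0 : Fin 2) 1) = ![v, u] := by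
    funext i; fin_cases i <;> rfl
  rw [e] at h
  exact h

theorem alt2_self (u : E) : A ![u, u] = 0 :=
  A.toAlternatingMap.map_eq_zero_of_eq ![u, u] (i := 0) (j := 1) rfl (by decide)

theorem alt2_add_left (u u' v : E) : A ![u + u', v] = A ![u, v] + A ![u', v] := by
  have h := A.toAlternatingMap.map_update_add ![u, v] 0 u u'
  have e : ∀ x : E, Function.update ![u, v] 0 x = ![x, v] := by
    intro x; funext i; fin_cases i <;> rfl
  simp only [e] at h
  exact h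

theorem alt2_smul_left (c : 𝕜) (u v : E) : A ![c • u, v] = c • A ![u, v] := by
  have h := A.toAlternatingMap.map_update_smul ![u, v] 0 c u
  have e : ∀ x : E, Function.update ![u, v] 0 x = ![x, v] := by
    intro x; funext i; fin_cases i <;> rfl
  simp only [e] at h
  exact h

theorem alt2_add_right (u v v' : E) : A ![u, v + v'] = A ![u, v] + A ![u, v'] := by
  rw [alt2_swap, alt2_add_left, alt2_swap A u v, alt2_swap A u v']
  abel

theorem alt2_smul_right (c : 𝕜) (u v : E) : A ![u, c • v] = c • A ![u, v] := by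
  rw [alt2_swap, alt2_smul_left, alt2_swap A u v, smul_neg, neg_neg]

theorem alt2_neg_left (u v : E) : A ![-u, v] = - A ![u, v] := by
  have := alt2_smul_left A (-1) u v
  simpa using this

theorem alt2_neg_right (u v : E) : A ![u, -v] = - A ![u, v] := by
  have := alt2_smul_right A (-1) u v
  simpa using this

theorem alt2_eta (w : Fin 2 → E) : A w = A ![w 0, w 1] := by
  congr 1
  funext i; fin_cases i <;> rfl

end Alt2

/-! ## The wedge product of two `2`-forms -/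

section LinearAlgebra

variable {E : Type} [NormedAddCommGroup E] [NormedSpace ℝ E]

theorem wedge_two_two_apply (a b : E [⋀^Fin 2]→L[ℝ] ℂ) (v : Fin (2 + 2) → E) :
    wedge a b v =
      a ![v 0, v 1] * b ![v 2, v 3] - a ![v 0, v 2] * b ![v 1, v 3] + a ![v 0, v 3] * b ![v 1, v 2]
      + a ![v 1, v 2] * b ![v 0, v 3] - a ![v 1, v 3] * b ![v 0, v 2]
      + a ![v 2, v 3] * b ![v 0, v 1] := by
  rw [wedge_apply]
  have h : ∀ π : Equiv.Perm (Fin (2 + 2)),
      Equiv.Perm.sign π • (a (fun i => v (π (Fin.castAdd 2 i))) * b (fun j => v (π (Fin.natAdd 2 j))))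
      = Equiv.Perm.sign π • (fun i j k l : Fin 4 => a ![v i, v j] * b ![v k, v l])
          (π 0) (π 1) (π 2) (π 3) := by
    intro π
    rw [alt2_eta a, alt2_eta b]
    rfl
  rw [Finset.sum_congr rfl fun π _ => h π]
  have key := sum_perm_four_sign (fun i j k l : Fin 4 => a ![v i, v j] * b ![v k, v l])
  refine (congrArg (fun z : ℂ => ((Nat.factorial 2 * Nat.factorial 2 : ℝ)⁻¹) • z) key).trans ?_
  simp only [alt2_swap a (v 0) (v 1), alt2_swap a (v 0) (v 2), alt2_swap a (v 0) (v 3),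
    alt2_swap a (v 1) (v 2), alt2_swap a (v 1) (v 3), alt2_swap a (v 2) (v 3),
    alt2_swap b (v 0) (v 1), alt2_swap b (v 0) (v 2), alt2_swap b (v 0) (v 3),
    alt2_swap b (v 1) (v 2), alt2_swap b (v 1) (v 3), alt2_swap b (v 2) (v 3)]
  simp only [Nat.factorial, Complex.real_smul]
  push_cast
  ring

theorem wedge_zero_two_apply (a : E [⋀^Fin 0]→L[ℝ] ℂ) (b : E [⋀^Fin 2]→L[ℝ] ℂ)
    (w : Fin (0 + 2) → E) : wedge a b w = a ![] * b ![w 0, w 1] := by
  rw [wedge_apply]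
  have h : (Finset.univ : Finset (Equiv.Perm (Fin (0 + 2)))) = {1, Equiv.swap 0 1} := by decide
  rw [h, Finset.sum_pair (by decide)]
  have e0 : ∀ π : Equiv.Perm (Fin (0 + 2)), (fun i : Fin 0 => w (π (Fin.castAdd 2 i))) = ![] := by
    intro π; funext i; exact i.elim0
  have e1 : (fun j : Fin 2 => w ((1 : Equiv.Perm (Fin (0 + 2))) (Fin.natAdd 0 j))) = ![w 0, w 1] := by
    funext i; fin_cases i <;> rfl
  have e2 : (fun j : Fin 2 => w ((Equiv.swap (0 : Fin (0 + 2)) 1) (Fin.natAdd 0 j))) =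
      ![w 1, w 0] := by
    funext i; fin_cases i <;> rfl
  rw [e0, e0, e1, e2, alt2_swap b (w 0) (w 1)]
  simp only [Nat.factorial, Complex.real_smul, Equiv.Perm.sign_one, one_smul, Equiv.Perm.sign_swap']
  simp
  ring

theorem wedgeFam_one_apply (b : Fin 1 → E [⋀^Fin 2]→L[ℝ] ℂ) (w : Fin (2 * 1) → E) :
    wedgeFam 1 b w = b 0 ![w 0, w 1] := by
  have h := wedge_zero_two_apply (wedgeFam 0 fun j => b j.castSucc) (b (Fin.last 0)) w
  have h1 : wedgeFam 0 (fun j => b j.castSucc) ![] = 1 := rfl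
  rw [h1, one_mul] at h
  exact h

/-- The explicit formula for `a₀ ∧ a₁`. -/
theorem wedgeFam_two_apply (a : Fin 2 → E [⋀^Fin 2]→L[ℝ] ℂ) (v : Fin (2 * 2) → E) :
    wedgeFam 2 a v =
      a 0 ![v 0, v 1] * a 1 ![v 2, v 3] - a 0 ![v 0, v 2] * a 1 ![v 1, v 3]
      + a 0 ![v 0, v 3] * a 1 ![v 1, v 2] + a 0 ![v 1, v 2] * a 1 ![v 0, v 3]
      - a 0 ![v 1, v 3] * a 1 ![v 0, v 2] + a 0 ![v 2, v 3] * a 1 ![v 0, v 1] := by
  have key : ∀ c : E [⋀^Fin 2]→L[ℝ] ℂ, (∀ x y, c ![x, y] = a 0 ![x, y]) →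
      wedge c (a (Fin.last 1)) v =
      a 0 ![v 0, v 1] * a 1 ![v 2, v 3] - a 0 ![v 0, v 2] * a 1 ![v 1, v 3]
      + a 0 ![v 0, v 3] * a 1 ![v 1, v 2] + a 0 ![v 1, v 2] * a 1 ![v 0, v 3]
      - a 0 ![v 1, v 3] * a 1 ![v 0, v 2] + a 0 ![v 2, v 3] * a 1 ![v 0, v 1] := by
    intro c hc
    rw [wedge_two_two_apply]
    simp only [hc]
    rfl
  exact key (wedgeFam 1 fun j => a j.castSucc) (fun x y => wedgeFam_one_apply _ _)

/-- `A ∧ B` for real `2`-forms, expressed through the `wedgeFam` of `Statement.lean`. -/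
noncomputable def wedge22 (A B : E [⋀^Fin 2]→L[ℝ] ℝ) : E [⋀^Fin (2 * 2)]→L[ℝ] ℝ :=
  Complex.reCLM.compContinuousAlternatingMap
    (wedgeFam 2 ![Complex.ofRealCLM.compContinuousAlternatingMap A,
      Complex.ofRealCLM.compContinuousAlternatingMap B])

theorem wedgeFam_two_ofReal_apply (A B : E [⋀^Fin 2]→L[ℝ] ℝ) (v : Fin (2 * 2) → E) :
    wedgeFam 2 ![Complex.ofRealCLM.compContinuousAlternatingMap A,
      Complex.ofRealCLM.compContinuousAlternatingMap B] v =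
      ((A ![v 0, v 1] * B ![v 2, v 3] - A ![v 0, v 2] * B ![v 1, v 3] + A ![v 0, v 3] * B ![v 1, v 2]
      + A ![v 1, v 2] * B ![v 0, v 3] - A ![v 1, v 3] * B ![v 0, v 2]
      + A ![v 2, v 3] * B ![v 0, v 1] : ℝ) : ℂ) := by
  rw [wedgeFam_two_apply]
  simp

theorem wedge22_apply (A B : E [⋀^Fin 2]→L[ℝ] ℝ) (v : Fin (2 * 2) → E) :
    wedge22 A B v =
      A ![v 0, v 1] * B ![v 2, v 3] - A ![v 0, v 2] * B ![v 1, v 3] + A ![v 0, v 3] * B ![v 1, v 2]
      + A ![v 1, v 2] * B ![v 0, v 3] - A ![v 1, v 3] * B ![v 0, v 2]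
      + A ![v 2, v 3] * B ![v 0, v 1] := by
  have h : wedge22 A B v = (wedgeFam 2 ![Complex.ofRealCLM.compContinuousAlternatingMap A,
      Complex.ofRealCLM.compContinuousAlternatingMap B] v).re := rfl
  rw [h, wedgeFam_two_ofReal_apply, Complex.ofReal_re]

/-! ### Algebraic properties of `wedge22` -/

theorem wedge22_comm (A B : E [⋀^Fin 2]→L[ℝ] ℝ) : wedge22 A B = wedge22 B A := by
  ext v
  simp only [wedge22_apply]
  ring

theorem wedge22_add_left (A A' B : E [⋀^Fin 2]→L[ℝ] ℝ) :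
    wedge22 (A + A') B = wedge22 A B + wedge22 A' B := by
  ext v
  simp only [wedge22_apply, ContinuousAlternatingMap.add_apply]
  ring

theorem wedge22_smul_left (c : ℝ) (A B : E [⋀^Fin 2]→L[ℝ] ℝ) :
    wedge22 (c • A) B = c • wedge22 A B := by
  ext v
  simp only [wedge22_apply, ContinuousAlternatingMap.smul_apply, smul_eq_mul]
  ring

theorem wedge22_add_right (A B B' : E [⋀^Fin 2]→L[ℝ] ℝ) :
    wedge22 A (B + B') = wedge22 A B + wedge22 A B' := by
  rw [wedge22_comm, wedge22_add_left, wedge22_comm B, wedge22_comm B']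

theorem wedge22_smul_right (c : ℝ) (A B : E [⋀^Fin 2]→L[ℝ] ℝ) :
    wedge22 A (c • B) = c • wedge22 A B := by
  rw [wedge22_comm, wedge22_smul_left, wedge22_comm B]

theorem alt2_comp_apply {E' : Type} [NormedAddCommGroup E'] [NormedSpace ℝ E']
    (A : E [⋀^Fin 2]→L[ℝ] ℝ) (L : E' →L[ℝ] E) (u v : E') :
    A.compContinuousLinearMap L ![u, v] = A ![L u, L v] := by
  rw [ContinuousAlternatingMap.compContinuousLinearMap_apply]
  congr 1
  funext i; fin_cases i <;> rfl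

/-- Pull-back commutes with the wedge product. -/
theorem wedge22_compContinuousLinearMap {E' : Type} [NormedAddCommGroup E'] [NormedSpace ℝ E']
    (A B : E [⋀^Fin 2]→L[ℝ] ℝ) (L : E' →L[ℝ] E) :
    (wedge22 A B).compContinuousLinearMap L =
      wedge22 (A.compContinuousLinearMap L) (B.compContinuousLinearMap L) := by
  ext v
  rw [ContinuousAlternatingMap.compContinuousLinearMap_apply]
  simp only [wedge22_apply, alt2_comp_apply, Function.comp_apply]

theorem abs_alt2_le (A : E [⋀^Fin 2]→L[ℝ] ℝ) (u v : E) : |A ![u, v]| ≤ ‖A‖ * (‖u‖ * ‖v‖) := by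
  have h := A.le_opNorm ![u, v]
  simpa [Fin.prod_univ_two] using h

theorem abs_alt2_mul_le (A B : E [⋀^Fin 2]→L[ℝ] ℝ) (u v u' v' : E) :
    |A ![u, v] * B ![u', v']| ≤ ‖A‖ * (‖u‖ * ‖v‖) * (‖B‖ * (‖u'‖ * ‖v'‖)) := by
  rw [abs_mul]
  exact mul_le_mul (abs_alt2_le A u v) (abs_alt2_le B u' v') (abs_nonneg _) (by positivity)

theorem norm_wedge22_le (A B : E [⋀^Fin 2]→L[ℝ] ℝ) : ‖wedge22 A B‖ ≤ 6 * ‖A‖ * ‖B‖ := by
  refine ContinuousAlternatingMap.opNorm_le_bound _ (by positivity) fun v => ?_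
  have hp : ∏ i : Fin (2 * 2), ‖v i‖ = ‖v 0‖ * ‖v 1‖ * ‖v 2‖ * ‖v 3‖ := Fin.prod_univ_four _
  rw [hp, wedge22_apply, Real.norm_eq_abs]
  have h1 := abs_le.1 (abs_alt2_mul_le A B (v 0) (v 1) (v 2) (v 3))
  have h2 := abs_le.1 (abs_alt2_mul_le A B (v 0) (v 2) (v 1) (v 3))
  have h3 := abs_le.1 (abs_alt2_mul_le A B (v 0) (v 3) (v 1) (v 2))
  have h4 := abs_le.1 (abs_alt2_mul_le A B (v 1) (v 2) (v 0) (v 3))
  have h5 := abs_le.1 (abs_alt2_mul_le A B (v 1) (v 3) (v 0) (v 2))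
  have h6 := abs_le.1 (abs_alt2_mul_le A B (v 2) (v 3) (v 0) (v 1))
  rw [abs_le]
  constructor <;> nlinarith [h1.1, h1.2, h2.1, h2.2, h3.1, h3.2, h4.1, h4.2, h5.1, h5.2, h6.1, h6.2]

theorem isBoundedBilinearMap_wedge22 : IsBoundedBilinearMap ℝ
    (fun p : (E [⋀^Fin 2]→L[ℝ] ℝ) × (E [⋀^Fin 2]→L[ℝ] ℝ) => wedge22 p.1 p.2) where
  add_left := wedge22_add_left
  smul_left := wedge22_smul_left
  add_right := wedge22_add_right
  smul_right := wedge22_smul_right
  bound := ⟨6, by norm_num, fun A B => norm_wedge22_le A B⟩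

/-! ### The wedge product of a `1`-form and a `2`-form, and the Leibniz rule -/

/-- `b ∧ A` for a `1`-form `b` and a `2`-form `A`, as a continuous bilinear map. -/
noncomputable def wedge12 : (E [⋀^Fin 1]→L[ℝ] ℝ) →L[ℝ] (E [⋀^Fin 2]→L[ℝ] ℝ) →L[ℝ]
    E [⋀^Fin (2 + 1)]→L[ℝ] ℝ :=
  (ContinuousLinearMap.compL ℝ (E [⋀^Fin 2]→L[ℝ] ℝ) (E →L[ℝ] E [⋀^Fin 2]→L[ℝ] ℝ)
      (E [⋀^Fin (2 + 1)]→L[ℝ] ℝ) (ContinuousAlternatingMap.alternatizeUncurryFinCLM ℝ E ℝ)) ∘L
    (ContinuousLinearMap.smulRightL ℝ E (E [⋀^Fin 2]→L[ℝ] ℝ)) ∘L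
    ((ContinuousAlternatingMap.ofSubsingletonLIE (𝕜 := ℝ) (E := E) (F := ℝ)
      (0 : Fin 1)).symm.toContinuousLinearEquiv : (E [⋀^Fin 1]→L[ℝ] ℝ) →L[ℝ] (E →L[ℝ] ℝ))

theorem wedge12_apply (b : E [⋀^Fin 1]→L[ℝ] ℝ) (A : E [⋀^Fin 2]→L[ℝ] ℝ) (x y z : E) :
    wedge12 b A ![x, y, z] = b ![x] * A ![y, z] - b ![y] * A ![x, z] + b ![z] * A ![x, y] := by
  have hσ : ∀ u : E, (ContinuousAlternatingMap.ofSubsingletonLIE (𝕜 := ℝ) (E := E) (F := ℝ)
      (0 : Fin 1)).symm b u = b ![u] := by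
    intro u
    change b (fun _ => u) = b ![u]
    congr 1
    funext i; fin_cases i; rfl
  have r0 : Fin.removeNth (0 : Fin 3) ![x, y, z] = ![y, z] := by funext j; fin_cases j <;> rfl
  have r1 : Fin.removeNth (1 : Fin 3) ![x, y, z] = ![x, z] := by funext j; fin_cases j <;> rfl
  have r2 : Fin.removeNth (2 : Fin 3) ![x, y, z] = ![x, y] := by funext j; fin_cases j <;> rfl
  simp only [wedge12, ContinuousLinearMap.comp_apply, ContinuousLinearMap.compL_apply,
    ContinuousAlternatingMap.alternatizeUncurryFinCLM_apply,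
    ContinuousAlternatingMap.alternatizeUncurryFin_apply, ContinuousLinearMap.smulRightL_apply_apply]
  rw [Fin.sum_univ_three, r0, r1, r2]
  simp only [ContinuousLinearMap.smulRight_apply, ContinuousAlternatingMap.smul_apply]
  erw [hσ, hσ, hσ]
  simp
  ring

theorem alt3_eta (C : E [⋀^Fin (2 + 1)]→L[ℝ] ℝ) (w : Fin (2 + 1) → E) :
    C w = C ![w 0, w 1, w 2] := by
  congr 1
  funext i; fin_cases i <;> rfl

theorem extDeriv_one_apply {b : E → E [⋀^Fin 1]→L[ℝ] ℝ} {x : E} (u w : E) :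
    extDeriv b x ![u, w] = fderiv ℝ b x u ![w] - fderiv ℝ b x w ![u] := by
  have r0 : Fin.removeNth (0 : Fin 2) ![u, w] = ![w] := by funext j; fin_cases j; rfl
  have r1 : Fin.removeNth (1 : Fin 2) ![u, w] = ![u] := by funext j; fin_cases j; rfl
  rw [extDeriv, ContinuousAlternatingMap.alternatizeUncurryFin_apply, Fin.sum_univ_two, r0, r1]
  simp
  ring

theorem extDeriv_two_apply {a : E → E [⋀^Fin 2]→L[ℝ] ℝ} {x : E} (u v w : E) :
    extDeriv a x ![u, v, w] =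
      fderiv ℝ a x u ![v, w] - fderiv ℝ a x v ![u, w] + fderiv ℝ a x w ![u, v] := by
  have r0 : Fin.removeNth (0 : Fin 3) ![u, v, w] = ![v, w] := by funext j; fin_cases j <;> rfl
  have r1 : Fin.removeNth (1 : Fin 3) ![u, v, w] = ![u, w] := by funext j; fin_cases j <;> rfl
  have r2 : Fin.removeNth (2 : Fin 3) ![u, v, w] = ![u, v] := by funext j; fin_cases j <;> rfl
  rw [extDeriv, ContinuousAlternatingMap.alternatizeUncurryFin_apply, Fin.sum_univ_three, r0, r1, r2]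
  simp
  ring

/-- The Leibniz rule `d(b ∧ a) = db ∧ a - b ∧ da`, for closed `a`. -/
theorem extDeriv_wedge12 {b : E → E [⋀^Fin 1]→L[ℝ] ℝ} {a : E → E [⋀^Fin 2]→L[ℝ] ℝ} {x : E}
    (hb : DifferentiableAt ℝ b x) (ha : DifferentiableAt ℝ a x) (hda : extDeriv a x = 0) :
    extDeriv (fun y => wedge12 (b y) (a y)) x = wedge22 (extDeriv b x) (a x) := by
  ext v
  have r0 : Fin.removeNth (0 : Fin 4) v = ![v 1, v 2, v 3] := by funext j; fin_cases j <;> rfl
  have r1 : Fin.removeNth (1 : Fin 4) v = ![v 0, v 2, v 3] := by funext j; fin_cases j <;> rfl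
  have r2 : Fin.removeNth (2 : Fin 4) v = ![v 0, v 1, v 3] := by funext j; fin_cases j <;> rfl
  have r3 : Fin.removeNth (3 : Fin 4) v = ![v 0, v 1, v 2] := by funext j; fin_cases j <;> rfl
  have h0 : extDeriv a x ![v 1, v 2, v 3] = 0 := by rw [hda]; rfl
  have h1 : extDeriv a x ![v 0, v 2, v 3] = 0 := by rw [hda]; rfl
  have h2 : extDeriv a x ![v 0, v 1, v 3] = 0 := by rw [hda]; rfl
  have h3 : extDeriv a x ![v 0, v 1, v 2] = 0 := by rw [hda]; rfl
  rw [extDeriv_two_apply] at h0 h1 h2 h3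
  rw [wedge22_apply]
  simp only [extDeriv_one_apply]
  rw [extDeriv, wedge12.fderiv_of_bilinear hb ha,
    ContinuousAlternatingMap.alternatizeUncurryFin_apply, Fin.sum_univ_four, r0, r1, r2, r3]
  simp only [add_apply, ContinuousLinearMap.precompR_apply,
    ContinuousLinearMap.precompL_apply, ContinuousAlternatingMap.add_apply, wedge12_apply]
  simp [wedge12_apply]
  linear_combination -(b x ![v 0]) * h0 + (b x ![v 1]) * h1 - (b x ![v 2]) * h2 + (b x ![v 3]) * h3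

theorem alt1_comp_apply {E' : Type} [NormedAddCommGroup E'] [NormedSpace ℝ E']
    (b : E [⋀^Fin 1]→L[ℝ] ℝ) (L : E' →L[ℝ] E) (u : E') :
    b.compContinuousLinearMap L ![u] = b ![L u] := by
  rw [ContinuousAlternatingMap.compContinuousLinearMap_apply]
  congr 1
  funext i; fin_cases i; rfl

theorem wedge12_compContinuousLinearMap {E' : Type} [NormedAddCommGroup E'] [NormedSpace ℝ E']
    (b : E [⋀^Fin 1]→L[ℝ] ℝ) (A : E [⋀^Fin 2]→L[ℝ] ℝ) (L : E' →L[ℝ] E) :
    (wedge12 b A).compContinuousLinearMap L =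
      wedge12 (b.compContinuousLinearMap L) (A.compContinuousLinearMap L) := by
  ext v
  rw [ContinuousAlternatingMap.compContinuousLinearMap_apply, alt3_eta, alt3_eta _ v]
  simp only [wedge12_apply, alt2_comp_apply, alt1_comp_apply, Function.comp_apply]

omit [NormedAddCommGroup E] [NormedSpace ℝ E] in
theorem contDiffOn_of_isBoundedBilinearMap {F₁ F₂ F₃ G : Type} [NormedAddCommGroup F₁]
    [NormedSpace ℝ F₁] [NormedAddCommGroup F₂] [NormedSpace ℝ F₂] [NormedAddCommGroup F₃]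
    [NormedSpace ℝ F₃] [NormedAddCommGroup G] [NormedSpace ℝ G] (W : F₁ → F₂ → F₃)
    (hW : IsBoundedBilinearMap ℝ (fun p : F₁ × F₂ => W p.1 p.2)) {a : G → F₁} {b : G → F₂}
    {s : Set G} (ha : ContDiffOn ℝ ∞ a s) (hb : ContDiffOn ℝ ∞ b s) :
    ContDiffOn ℝ ∞ (fun y => W (a y) (b y)) s :=
  hW.contDiff.comp_contDiffOn (ha.prodMk hb)

theorem contDiffOn_wedge12 {G : Type} [NormedAddCommGroup G] [NormedSpace ℝ G]
    {b : G → E [⋀^Fin 1]→L[ℝ] ℝ} {a : G → E [⋀^Fin 2]→L[ℝ] ℝ} {s : Set G}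
    (hb : ContDiffOn ℝ ∞ b s) (ha : ContDiffOn ℝ ∞ a s) :
    ContDiffOn ℝ ∞ (fun y => wedge12 (b y) (a y)) s :=
  contDiffOn_of_isBoundedBilinearMap (fun b a => wedge12 b a)
    (wedge12 (E := E)).isBoundedBilinearMap hb ha

theorem contDiffOn_wedge22 {G : Type} [NormedAddCommGroup G] [NormedSpace ℝ G]
    {a b : G → E [⋀^Fin 2]→L[ℝ] ℝ} {s : Set G}
    (ha : ContDiffOn ℝ ∞ a s) (hb : ContDiffOn ℝ ∞ b s) :
    ContDiffOn ℝ ∞ (fun y => wedge22 (a y) (b y)) s :=
  contDiffOn_of_isBoundedBilinearMap wedge22 isBoundedBilinearMap_wedge22 ha hb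

end LinearAlgebra

/-! ## The intersection pairing on a compact complex surface -/

section Manifold

variable {X : Type} [TopologicalSpace X] [ChartedSpace (Cn 2) X]

/-- `α ∧ β` for real `2`-forms on a complex surface. -/
noncomputable def Form.wedge22 (α β : Form ℝ 2 X ℝ 2) : Form ℝ 2 X ℝ (2 * 2) :=
  fun x => Claimed.Open.R041.wedge22 (α x) (β x)

/-- `β ∧ α` for a real `1`-form and a real `2`-form on a complex surface. -/
noncomputable def Form.wedge12 (β : Form ℝ 2 X ℝ 1) (α : Form ℝ 2 X ℝ 2) : Form ℝ 2 X ℝ (2 + 1) :=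
  fun x => Claimed.Open.R041.wedge12 (β x) (α x)

theorem Form.inChart_wedge22 (α β : Form ℝ 2 X ℝ 2) (e : OpenPartialHomeomorph X (Cn 2)) :
    (Form.wedge22 α β).inChart e =
      fun y => Claimed.Open.R041.wedge22 (α.inChart e y) (β.inChart e y) := by
  funext y
  exact wedge22_compContinuousLinearMap _ _ _

theorem Form.inChart_wedge12 (β : Form ℝ 2 X ℝ 1) (α : Form ℝ 2 X ℝ 2)
    (e : OpenPartialHomeomorph X (Cn 2)) :
    (Form.wedge12 β α).inChart e =
      fun y => Claimed.Open.R041.wedge12 (β.inChart e y) (α.inChart e y) := by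
  funext y
  exact wedge12_compContinuousLinearMap _ _ _

omit [TopologicalSpace X] [ChartedSpace (Cn 2) X] in
theorem Form.wedge22_comm (α β : Form ℝ 2 X ℝ 2) : Form.wedge22 α β = Form.wedge22 β α := by
  funext x
  exact Claimed.Open.R041.wedge22_comm _ _

omit [TopologicalSpace X] [ChartedSpace (Cn 2) X] in
theorem Form.wedge22_add_left (α α' β : Form ℝ 2 X ℝ 2) :
    Form.wedge22 (α + α') β = Form.wedge22 α β + Form.wedge22 α' β := by
  funext x
  exact Claimed.Open.R041.wedge22_add_left _ _ _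

theorem Form.IsSmooth.wedge12 {β : Form ℝ 2 X ℝ 1} {α : Form ℝ 2 X ℝ 2} (hβ : β.IsSmooth)
    (hα : α.IsSmooth) : (Form.wedge12 β α).IsSmooth := by
  intro e he
  rw [Form.inChart_wedge12]
  exact contDiffOn_wedge12 (hβ e he) (hα e he)

variable [IsManifold 𝓘(ℂ, Cn 2) ω X]

theorem Form.IsSmooth.wedge22 {α β : Form ℝ 2 X ℝ 2} (hα : α.IsSmooth) (hβ : β.IsSmooth) :
    (Form.wedge22 α β).IsSmooth := by
  intro e he
  rw [Form.inChart_wedge22]
  exact contDiffOn_wedge22 (hα e he) (hβ e he)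

/-- Leibniz rule on the manifold: `d(β ∧ α) = dβ ∧ α` for closed `α`. -/
theorem Form.extd_wedge12 {β : Form ℝ 2 X ℝ 1} (hβ : β.IsSmooth) {α : Form ℝ 2 X ℝ 2}
    (hα : α ∈ closedForms 2 X 2) : (Form.wedge12 β α).extd = Form.wedge22 β.extd α := by
  have hreal := isManifold_real 2 X
  have hreal1 : IsManifold 𝓘(ℝ, Cn 2) 1 X := IsManifold.of_le (n := ω) le_top
  funext x
  have hda : extDeriv (α.inChart (chartAt (Cn 2) x)) (chartAt (Cn 2) x x) = 0 := congrFun hα.2 x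
  have h := extDeriv_wedge12 (hβ.differentiableAt_chartAt x) (hα.1.differentiableAt_chartAt x) hda
  rw [inChart_chartAt] at h
  simp only [Form.extd, Form.inChart_wedge12]
  exact h

variable [T2Space X] [CompactSpace X]

/-- Stokes + Leibniz. -/
theorem integralReal_wedge22_extd {β : Form ℝ 2 X ℝ 1} (hβ : β.IsSmooth) {α : Form ℝ 2 X ℝ 2}
    (hα : α ∈ closedForms 2 X 2) : integralReal (d := 2) (Form.wedge22 β.extd α) = 0 := by
  rw [← Form.extd_wedge12 hβ hα]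
  exact integralReal_extd (d := 1) (hβ.wedge12 hα.1)

omit [IsManifold 𝓘(ℂ, Cn 2) ω X] [T2Space X] [CompactSpace X] in
theorem exists_extd_eq_sub_of_H2mk_eq {α α' : closedForms 2 X 2} (h : H2.mk α = H2.mk α') :
    ∃ ζ : Form ℝ 2 X ℝ 1, ζ.IsSmooth ∧ α.1 = α'.1 + ζ.extd := by
  have h1 : α - α' ∈ (exactForms 2 X 1).submoduleOf (closedForms 2 X 2) :=
    (Submodule.Quotient.eq _).1 h
  obtain ⟨ζ, hζ, hζ'⟩ : (α - α').1 ∈ exactForms 2 X 1 := h1
  refine ⟨ζ, hζ, ?_⟩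
  rw [hζ']
  simp

theorem integralReal_wedge22_congr_left {α α' : closedForms 2 X 2} (β : closedForms 2 X 2)
    (hα : H2.mk α = H2.mk α') :
    integralReal (d := 2) (Form.wedge22 α.1 β.1) = integralReal (d := 2) (Form.wedge22 α'.1 β.1) := by
  have hreal := isManifold_real 2 X
  obtain ⟨ζ, hζ, h⟩ := exists_extd_eq_sub_of_H2mk_eq hα
  rw [h, Form.wedge22_add_left, integralReal_add (α'.2.1.wedge22 β.2.1) (hζ.extd.wedge22 β.2.1),
    integralReal_wedge22_extd hζ β.2, add_zero]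

/-- The intersection pairing `∫ α ∧ β` only depends on the de Rham classes. -/
theorem integralReal_wedge22_congr {α α' β β' : closedForms 2 X 2} (hα : H2.mk α = H2.mk α')
    (hβ : H2.mk β = H2.mk β') :
    integralReal (d := 2) (Form.wedge22 α.1 β.1) = integralReal (d := 2) (Form.wedge22 α'.1 β'.1) := by
  rw [integralReal_wedge22_congr_left β hα, Form.wedge22_comm, integralReal_wedge22_congr_left α' hβ,
    Form.wedge22_comm]

omit [TopologicalSpace X] [ChartedSpace (Cn 2) X] [IsManifold 𝓘(ℂ, Cn 2) ω X] [T2Space X]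
  [CompactSpace X] in
theorem sigmaMonomial_zero_zero (σ : Form ℂ 2 X ℂ 2) (α : Form ℝ 2 X ℝ 2) (x : X) :
    sigmaMonomial (n := 1) σ α 0 0 x =
      wedgeFam 2 ![Complex.ofRealCLM.compContinuousAlternatingMap (α x),
        Complex.ofRealCLM.compContinuousAlternatingMap (α x)] := by
  change wedgeFam 2 _ = _
  congr 1
  funext j
  fin_cases j <;> simp

omit [TopologicalSpace X] [ChartedSpace (Cn 2) X] [IsManifold 𝓘(ℂ, Cn 2) ω X] [T2Space X]
  [CompactSpace X] in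
theorem sigmaMonomial_one_one (σ : Form ℂ 2 X ℂ 2) (α α' : Form ℝ 2 X ℝ 2) :
    sigmaMonomial (n := 1) σ α 1 1 = sigmaMonomial (n := 1) σ α' 1 1 := by
  funext x
  change wedgeFam 2 _ = wedgeFam 2 _
  congr 1
  funext j
  fin_cases j <;> simp

omit [T2Space X] in
theorem integral_sigmaMonomial_zero_zero (σ : Form ℂ 2 X ℂ 2) (α : Form ℝ 2 X ℝ 2) :
    integral (d := 2) (sigmaMonomial (n := 1) σ α 0 0) =
      (integralReal (d := 2) (Form.wedge22 α α) : ℝ) := by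
  have h1 : (fun x => Complex.reCLM.compContinuousAlternatingMap (sigmaMonomial (n := 1) σ α 0 0 x))
      = Form.wedge22 α α := by
    funext x
    rw [sigmaMonomial_zero_zero]
    rfl
  have h2 : (fun x => Complex.imCLM.compContinuousAlternatingMap (sigmaMonomial (n := 1) σ α 0 0 x))
      = (0 : Form ℝ 2 X ℝ (2 * 2)) := by
    funext x
    ext v
    rw [sigmaMonomial_zero_zero]
    change (wedgeFam 2 _ v).im = 0
    rw [wedgeFam_two_ofReal_apply]
    exact Complex.ofReal_im _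
  have e : integral (d := 2) (sigmaMonomial (n := 1) σ α 0 0) =
      ((integralReal (d := 2) fun x =>
        Complex.reCLM.compContinuousAlternatingMap (sigmaMonomial (n := 1) σ α 0 0 x) : ℝ) : ℂ) +
      Complex.I * ((integralReal (d := 2) fun x =>
        Complex.imCLM.compContinuousAlternatingMap (sigmaMonomial (n := 1) σ α 0 0 x) : ℝ) : ℂ) := rfl
  rw [e, h1, h2, integralReal_zero (d := 2) (X := X)]
  simp

/-- For `n = 1` the BBF form is `q(c) = ½ (∫ σ σ̄) ∫ α ∧ α`, for every representative `α` of `c`. -/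
theorem bbf_mk (σ : Form ℂ 2 X ℂ 2) (α : closedForms 2 X 2) :
    bbf (n := 1) σ (H2.mk α) =
      (1 / 2 : ℂ) * integral (d := 2) (sigmaMonomial (n := 1) σ α.1 1 1) *
        (integralReal (d := 2) (Form.wedge22 α.1 α.1) : ℝ) := by
  obtain ⟨α', hα', hb⟩ : ∃ α' : closedForms 2 X 2, H2.mk α' = H2.mk α ∧
      bbf (n := 1) σ (H2.mk α) = bbfForm (n := 1) σ α'.1 :=
    ⟨Quotient.out (H2.mk α), Quotient.out_eq _, rfl⟩
  rw [hb]
  unfold bbfForm
  have e1 : integral (sigmaMonomial (n := 1) σ α'.1 (1 - 1) (1 - 1)) =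
      (integralReal (d := 2) (Form.wedge22 α.1 α.1) : ℝ) := by
    rw [← integralReal_wedge22_congr hα' hα']
    exact integral_sigmaMonomial_zero_zero σ α'.1
  rw [e1, sigmaMonomial_one_one σ α'.1 α.1]
  simp

theorem bbf_mk_eq_zero (σ : Form ℂ 2 X ℂ 2) (α : closedForms 2 X 2)
    (h : ∀ x, Claimed.Open.R041.wedge22 (α.1 x) (α.1 x) = 0) : bbf (n := 1) σ (H2.mk α) = 0 := by
  have h0 : Form.wedge22 α.1 α.1 = 0 := funext h
  rw [bbf_mk, h0, integralReal_zero]
  simp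

theorem H2mk_ne_zero_of_integralReal_ne_zero {α β : closedForms 2 X 2}
    (h : integralReal (d := 2) (Form.wedge22 α.1 β.1) ≠ 0) : H2.mk α ≠ 0 := by
  intro h0
  apply h
  have h1 : H2.mk α = H2.mk (0 : closedForms 2 X 2) := by
    rw [h0]; rfl
  rw [integralReal_wedge22_congr_left β h1]
  have h2 : Form.wedge22 (0 : closedForms 2 X 2).1 β.1 = 0 := by
    funext x
    ext v
    change Claimed.Open.R041.wedge22 0 (β.1 x) v = 0
    rw [wedge22_apply]
    simp
  rw [h2, integralReal_zero]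

/-! ### Positivity of the integral -/

theorem realFrame_two : realFrame 2 =
    ![EuclideanSpace.single (0 : Fin 2) (1 : ℂ), Complex.I • EuclideanSpace.single (0 : Fin 2) (1 : ℂ),
      EuclideanSpace.single (1 : Fin 2) (1 : ℂ),
      Complex.I • EuclideanSpace.single (1 : Fin 2) (1 : ℂ)] := by
  funext j
  fin_cases j
  · simp [realFrame]
  · simp [realFrame]
  · simp [realFrame]
  · simp [realFrame]

theorem linearIndependent_single_two :
    LinearIndependent ℂ ![EuclideanSpace.single (0 : Fin 2) (1 : ℂ),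
      EuclideanSpace.single (1 : Fin 2) (1 : ℂ)] := by
  have h := (EuclideanSpace.basisFun (Fin 2) ℂ).toBasis.linearIndependent
  have e : ⇑(EuclideanSpace.basisFun (Fin 2) ℂ).toBasis =
      ![EuclideanSpace.single (0 : Fin 2) (1 : ℂ), EuclideanSpace.single (1 : Fin 2) (1 : ℂ)] := by
    funext j
    fin_cases j <;> simp
  rwa [e] at h

section Positivity

attribute [local instance] borelMS borelMS_borelSpace

open MeasureTheory

omit [T2Space X] [CompactSpace X] in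
theorem Form.coeff_chartAt (η : Form ℝ 2 X ℝ (2 * 2)) (x : X) :
    η.coeff (chartAt (Cn 2) x) (chartAt (Cn 2) x x) = η x (realFrame 2) := by
  have hreal := isManifold_real 2 X
  have hreal1 : IsManifold 𝓘(ℝ, Cn 2) 1 X := IsManifold.of_le (n := ω) le_top
  rw [Form.coeff, inChart_chartAt]

omit [T2Space X] [CompactSpace X] in
/-- A form which is nonnegative on the positively oriented frames has nonnegative coefficients in all
holomorphic charts. -/
theorem Form.coeff_nonneg {η : Form ℝ 2 X ℝ (2 * 2)} (h0 : ∀ x : X, 0 ≤ η x (realFrame 2))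
    {e : OpenPartialHomeomorph X (Cn 2)} (he : e ∈ atlas (Cn 2) X) {y : Cn 2} (hy : y ∈ e.target) :
    0 ≤ η.coeff e y := by
  have he' : e ∈ IsManifold.maximalAtlas 𝓘(ℂ, Cn 2) ω X := IsManifold.subset_maximalAtlas he
  have hc : chartAt (Cn 2) (e.symm y) ∈ IsManifold.maximalAtlas 𝓘(ℂ, Cn 2) ω X :=
    IsManifold.chart_mem_maximalAtlas _
  have hs : e.symm y ∈ (chartAt (Cn 2) (e.symm y)).source := mem_chart_source _ _
  rw [η.coeff_eq_det_mul he' hc hy hs]
  refine mul_nonneg (det_fderiv_transition_nonneg he' hc hy hs) ?_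
  rw [Function.comp_apply, Form.coeff_chartAt]
  exact h0 _

omit [T2Space X] in
/-- If all coefficients of `ζ` are `≤ 0`, then `ζ⁺ = 0`. -/
theorem Form.posMeasure_eq_zero_of_coeff_nonpos {ζ : Form ℝ 2 X ℝ (2 * 2)}
    (h : ∀ e ∈ atlas (Cn 2) X, ∀ y ∈ e.target, ζ.coeff e y ≤ 0) : ζ.posMeasure = 0 := by
  refine measure_ext_of_charts (d := 2) fun e he => ?_
  rw [ζ.posMeasure_restrict_source he]
  ext A hA
  rw [ζ.chartMeasure_apply e hA]
  simp only [Measure.restrict_zero, Measure.coe_zero, Pi.zero_apply]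
  rw [setLIntegral_congr_fun (g := fun _ => 0) (measurableSet_target_inter_preimage e hA)]
  · simp
  · rintro y ⟨hy, -⟩
    simp [ENNReal.ofReal_of_nonpos (h e he y hy)]

omit [T2Space X] [CompactSpace X] in
theorem Form.posMeasure_univ_pos {η : Form ℝ 2 X ℝ (2 * 2)} (hη : η.IsSmooth) {x : X}
    (hx : 0 < η x (realFrame 2)) : 0 < η.posMeasure univ := by
  set e := chartAt (Cn 2) x with he
  have hemem : e ∈ atlas (Cn 2) X := chart_mem_atlas _ x
  set c₀ := η x (realFrame 2) with hc₀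
  have hcont := hη.continuousOn_coeff hemem
  set U : Set (Cn 2) := e.target ∩ η.coeff e ⁻¹' Ioi (c₀ / 2) with hU
  have hUo : IsOpen U := hcont.isOpen_inter_preimage e.open_target isOpen_Ioi
  have hUne : U.Nonempty :=
    ⟨e x, mem_chart_target _ x, by
      change c₀ / 2 < η.coeff e (e x)
      rw [Form.coeff_chartAt]
      linarith⟩
  have hvol : 0 < volume U := hUo.measure_pos volume hUne
  have hsub : U ⊆ e.target ∩ e.symm ⁻¹' e.source := fun y hy => ⟨hy.1, e.map_target hy.1⟩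
  calc (0 : ENNReal) < ENNReal.ofReal (c₀ / 2) * volume U :=
        ENNReal.mul_pos (ENNReal.ofReal_pos.2 (half_pos hx)).ne' hvol.ne'
    _ = ∫⁻ _ in U, ENNReal.ofReal (c₀ / 2) := by rw [setLIntegral_const]
    _ ≤ ∫⁻ y in U, ENNReal.ofReal (η.coeff e y) :=
        setLIntegral_mono' hUo.measurableSet fun y hy => ENNReal.ofReal_le_ofReal (le_of_lt hy.2)
    _ ≤ ∫⁻ y in e.target ∩ e.symm ⁻¹' e.source, ENNReal.ofReal (η.coeff e y) :=
        lintegral_mono_set hsub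
    _ = η.posMeasure e.source :=
        (η.posMeasure_apply_of_subset hemem e.open_source.measurableSet subset_rfl).symm
    _ ≤ η.posMeasure univ := measure_mono (subset_univ _)

omit [T2Space X] in
theorem integralReal_pos_of_realFrame {η : Form ℝ 2 X ℝ (2 * 2)} (hη : η.IsSmooth)
    (h0 : ∀ x : X, 0 ≤ η x (realFrame 2)) (h1 : ∃ x : X, 0 < η x (realFrame 2)) :
    0 < integralReal (d := 2) η := by
  obtain ⟨x, hx⟩ := h1
  have hfin := hη.isFiniteMeasure_posMeasure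
  have hneg : (-η).posMeasure = 0 := by
    refine Form.posMeasure_eq_zero_of_coeff_nonpos fun e he y hy => ?_
    rw [Form.coeff_neg]
    exact neg_nonpos.2 (Form.coeff_nonneg h0 he hy)
  unfold integralReal
  rw [hneg]
  simp only [Measure.coe_zero, Pi.zero_apply, ENNReal.toReal_zero, sub_zero]
  exact ENNReal.toReal_pos (Form.posMeasure_univ_pos hη hx).ne' (measure_ne_top _ _)

end Positivity

/-- A smooth top-degree form which is `≥ 0` on the positively oriented frames `(f₀, if₀, f₁, if₁)`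
and `> 0` on one such frame at one point has positive integral. -/
theorem integralReal_pos {η : Form ℝ 2 X ℝ (2 * 2)} (hη : η.IsSmooth)
    (h0 : ∀ (x : X) (f₀ f₁ : Cn 2), 0 ≤ η x ![f₀, Complex.I • f₀, f₁, Complex.I • f₁])
    (h1 : ∃ x : X, ∀ f₀ f₁ : Cn 2, LinearIndependent ℂ ![f₀, f₁] →
      0 < η x ![f₀, Complex.I • f₀, f₁, Complex.I • f₁]) :
    0 < integralReal (d := 2) η := by
  refine integralReal_pos_of_realFrame hη (fun x => ?_) ?_
  · rw [realFrame_two]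
    exact h0 x _ _
  · obtain ⟨x, hx⟩ := h1
    refine ⟨x, ?_⟩
    rw [realFrame_two]
    exact hx _ _ linearIndependent_single_two

end Manifold

/-! ## Pointwise Hermitian linear algebra -/

section RealInequalities

theorem mixed_disc_nonneg {a a' p q b b' r s : ℝ} (ha : 0 ≤ a) (ha' : 0 ≤ a') (hb : 0 ≤ b)
    (hb' : 0 ≤ b') (hA : p ^ 2 + q ^ 2 ≤ a * a') (hB : r ^ 2 + s ^ 2 ≤ b * b') :
    0 ≤ a * b' + a' * b - 2 * (p * r + q * s) := by
  by_contra hlt
  push Not at hlt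
  have hM : 0 ≤ a * b' + a' * b := by positivity
  have h1 : (p * r + q * s) ^ 2 ≤ (p ^ 2 + q ^ 2) * (r ^ 2 + s ^ 2) := by
    nlinarith [sq_nonneg (p * s - q * r)]
  have h2 : (p ^ 2 + q ^ 2) * (r ^ 2 + s ^ 2) ≤ (a * a') * (b * b') :=
    mul_le_mul hA hB (by positivity) (by positivity)
  have h3 : 4 * ((a * a') * (b * b')) ≤ (a * b' + a' * b) ^ 2 := by
    nlinarith [sq_nonneg (a * b' - a' * b)]
  have h4 : (a * b' + a' * b) ^ 2 < (2 * (p * r + q * s)) ^ 2 :=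
    pow_lt_pow_left₀ (by linarith) hM (by norm_num)
  nlinarith

theorem mixed_disc_pos {a a' p q b b' r s : ℝ} (ha : 0 ≤ a) (ha' : 0 ≤ a') (haa : 0 < a + a')
    (hb : 0 < b) (hb' : 0 < b') (hA : p ^ 2 + q ^ 2 ≤ a * a') (hB : r ^ 2 + s ^ 2 < b * b') :
    0 < a * b' + a' * b - 2 * (p * r + q * s) := by
  by_contra hle
  push Not at hle
  have hM : 0 < a * b' + a' * b := by
    rcases ha.lt_or_eq with h | h
    · have : 0 < a * b' := mul_pos h hb'
      have : 0 ≤ a' * b := by positivity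
      linarith
    · have h' : 0 < a' := by linarith
      have : 0 < a' * b := mul_pos h' hb
      have : 0 ≤ a * b' := by positivity
      linarith
  have h1 : (p * r + q * s) ^ 2 ≤ (p ^ 2 + q ^ 2) * (r ^ 2 + s ^ 2) := by
    nlinarith [sq_nonneg (p * s - q * r)]
  have h3 : 4 * ((a * a') * (b * b')) ≤ (a * b' + a' * b) ^ 2 := by
    nlinarith [sq_nonneg (a * b' - a' * b)]
  have h4 : (a * b' + a' * b) ^ 2 ≤ (2 * (p * r + q * s)) ^ 2 :=
    pow_le_pow_left₀ hM.le (by linarith) 2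
  have hS : 0 ≤ p ^ 2 + q ^ 2 := by positivity
  rcases hS.lt_or_eq with h | h
  · have h5 : (p ^ 2 + q ^ 2) * (r ^ 2 + s ^ 2) < (p ^ 2 + q ^ 2) * (b * b') :=
      mul_lt_mul_of_pos_left hB h
    have h6 : (p ^ 2 + q ^ 2) * (b * b') ≤ (a * a') * (b * b') :=
      mul_le_mul_of_nonneg_right hA (by positivity)
    nlinarith
  · rw [← h, zero_mul] at h1
    have : 0 < (a * b' + a' * b) ^ 2 := by positivity
    nlinarith

end RealInequalities

section Hermitian

/-- `A` is a real `(1,1)`-form: invariant under `J`. -/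
def IsJInv (A : (Cn 2) [⋀^Fin 2]→L[ℝ] ℝ) : Prop :=
  ∀ u v : Cn 2, A ![Complex.I • u, Complex.I • v] = A ![u, v]

theorem I_smul_I_smul (v : Cn 2) : Complex.I • Complex.I • v = -v := by
  rw [smul_smul, Complex.I_mul_I, neg_one_smul]

theorem IsJInv.left {A : (Cn 2) [⋀^Fin 2]→L[ℝ] ℝ} (hA : IsJInv A) (u v : Cn 2) :
    A ![Complex.I • u, v] = - A ![u, Complex.I • v] := by
  have h := hA u (Complex.I • v)
  rw [I_smul_I_smul, alt2_neg_right] at h
  linarith

/-- `(u, v) ↦ A(u, Jv)` is symmetric. -/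
theorem IsJInv.symm {A : (Cn 2) [⋀^Fin 2]→L[ℝ] ℝ} (hA : IsJInv A) (u v : Cn 2) :
    A ![v, Complex.I • u] = A ![u, Complex.I • v] := by
  rw [alt2_swap, hA.left, neg_neg]

/-- The Hermitian form of `A` on the complex span of `f₀`, `f₁`. -/
theorem IsJInv.quad {A : (Cn 2) [⋀^Fin 2]→L[ℝ] ℝ} (hA : IsJInv A) (f₀ f₁ : Cn 2)
    (s₁ s₂ t₁ t₂ : ℝ) :
    A ![s₁ • f₀ + s₂ • (Complex.I • f₀) + t₁ • f₁ + t₂ • (Complex.I • f₁),
      Complex.I • (s₁ • f₀ + s₂ • (Complex.I • f₀) + t₁ • f₁ + t₂ • (Complex.I • f₁))] =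
    (s₁ ^ 2 + s₂ ^ 2) * A ![f₀, Complex.I • f₀] + (t₁ ^ 2 + t₂ ^ 2) * A ![f₁, Complex.I • f₁]
      + 2 * (s₁ * t₁ + s₂ * t₂) * A ![f₀, Complex.I • f₁]
      + 2 * (s₂ * t₁ - s₁ * t₂) * A ![f₀, f₁] := by
  have e : Complex.I • (s₁ • f₀ + s₂ • (Complex.I • f₀) + t₁ • f₁ + t₂ • (Complex.I • f₁)) =
      s₁ • (Complex.I • f₀) + (-s₂) • f₀ + t₁ • (Complex.I • f₁) + (-t₂) • f₁ := by
    simp only [smul_add, smul_comm Complex.I (_ : ℝ), I_smul_I_smul, smul_neg, neg_smul]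
  rw [e]
  simp only [alt2_add_left, alt2_add_right, alt2_smul_left, alt2_smul_right, smul_eq_mul, alt2_self,
    hA f₀ f₁, hA.left f₀ f₁, hA.symm f₀ f₁, alt2_swap A f₀ f₁, alt2_swap A f₀ (Complex.I • f₀),
    alt2_swap A f₁ (Complex.I • f₁), alt2_swap A f₀ (Complex.I • f₁),
    alt2_swap A (Complex.I • f₀) (Complex.I • f₁)]
  ring

theorem IsJInv.cauchySchwarz {A : (Cn 2) [⋀^Fin 2]→L[ℝ] ℝ} (hA : IsJInv A)
    (hA0 : ∀ v, 0 ≤ A ![v, Complex.I • v]) (f₀ f₁ : Cn 2) :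
    A ![f₀, Complex.I • f₁] ^ 2 + A ![f₀, f₁] ^ 2 ≤
      A ![f₀, Complex.I • f₀] * A ![f₁, Complex.I • f₁] := by
  set p := A ![f₀, Complex.I • f₁] with hp
  set q := A ![f₀, f₁] with hq
  set a := A ![f₀, Complex.I • f₀] with ha
  set a' := A ![f₁, Complex.I • f₁] with ha'
  have h0 : 0 ≤ a := hA0 f₀
  have h0' : 0 ≤ a' := hA0 f₁
  have hd := discrim_le_zero (a := a) (b := -2 * (p ^ 2 + q ^ 2)) (c := (p ^ 2 + q ^ 2) * a')
    (fun x => by
      have h := hA0 (x • f₀ + (0 : ℝ) • (Complex.I • f₀) + (-p) • f₁ + q • (Complex.I • f₁))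
      rw [hA.quad] at h
      nlinarith [h])
  unfold discrim at hd
  by_contra hlt
  push Not at hlt
  have hS : 0 < p ^ 2 + q ^ 2 := lt_of_le_of_lt (by positivity) hlt
  nlinarith [mul_pos hS (sub_pos.2 hlt)]

theorem wedge22_apply_frame {A B : (Cn 2) [⋀^Fin 2]→L[ℝ] ℝ} (hA : IsJInv A) (hB : IsJInv B)
    (f₀ f₁ : Cn 2) :
    wedge22 A B ![f₀, Complex.I • f₀, f₁, Complex.I • f₁] =
      A ![f₀, Complex.I • f₀] * B ![f₁, Complex.I • f₁]
      + A ![f₁, Complex.I • f₁] * B ![f₀, Complex.I • f₀]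
      - 2 * (A ![f₀, Complex.I • f₁] * B ![f₀, Complex.I • f₁] + A ![f₀, f₁] * B ![f₀, f₁]) := by
  rw [wedge22_apply]
  have e0 : (![f₀, Complex.I • f₀, f₁, Complex.I • f₁] : Fin (2 * 2) → Cn 2) 0 = f₀ := rfl
  have e1 : (![f₀, Complex.I • f₀, f₁, Complex.I • f₁] : Fin (2 * 2) → Cn 2) 1 = Complex.I • f₀ := rfl
  have e2 : (![f₀, Complex.I • f₀, f₁, Complex.I • f₁] : Fin (2 * 2) → Cn 2) 2 = f₁ := rfl
  have e3 : (![f₀, Complex.I • f₀, f₁, Complex.I • f₁] : Fin (2 * 2) → Cn 2) 3 = Complex.I • f₁ := rfl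
  rw [e0, e1, e2, e3, hA f₀ f₁, hB f₀ f₁, hA.left f₀ f₁, hB.left f₀ f₁]
  ring

theorem wedge22_nonneg {A B : (Cn 2) [⋀^Fin 2]→L[ℝ] ℝ} (hA : IsJInv A) (hB : IsJInv B)
    (hA0 : ∀ v, 0 ≤ A ![v, Complex.I • v]) (hB0 : ∀ v, 0 ≤ B ![v, Complex.I • v]) (f₀ f₁ : Cn 2) :
    0 ≤ wedge22 A B ![f₀, Complex.I • f₀, f₁, Complex.I • f₁] := by
  rw [wedge22_apply_frame hA hB]
  exact mixed_disc_nonneg (hA0 f₀) (hA0 f₁) (hB0 f₀) (hB0 f₁) (hA.cauchySchwarz hA0 f₀ f₁)
    (hB.cauchySchwarz hB0 f₀ f₁)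

theorem real_comb_eq (f₀ f₁ : Cn 2) (s₁ s₂ t₁ t₂ : ℝ) :
    s₁ • f₀ + s₂ • (Complex.I • f₀) + t₁ • f₁ + t₂ • (Complex.I • f₁) =
      ((s₁ : ℂ) + s₂ * Complex.I) • f₀ + ((t₁ : ℂ) + t₂ * Complex.I) • f₁ := by
  simp only [add_smul, mul_smul, Complex.coe_smul]
  abel

theorem exists_real_comb {f₀ f₁ : Cn 2} (hf : LinearIndependent ℂ ![f₀, f₁]) (v : Cn 2) :
    ∃ s₁ s₂ t₁ t₂ : ℝ, v = s₁ • f₀ + s₂ • (Complex.I • f₀) + t₁ • f₁ + t₂ • (Complex.I • f₁) := by
  have hspan := hf.span_eq_top_of_card_eq_finrank' (by simp)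
  have hv : v ∈ Submodule.span ℂ (Set.range ![f₀, f₁]) := by rw [hspan]; trivial
  have hr : Set.range ![f₀, f₁] = {f₀, f₁} := by
    simp [Matrix.range_cons, Matrix.range_empty, Set.pair_comm]
  rw [hr, Submodule.mem_span_pair] at hv
  obtain ⟨s, t, rfl⟩ := hv
  refine ⟨s.re, s.im, t.re, t.im, ?_⟩
  rw [real_comb_eq, Complex.re_add_im, Complex.re_add_im]

theorem real_comb_ne_zero {f₀ f₁ : Cn 2} (hf : LinearIndependent ℂ ![f₀, f₁]) {s₁ : ℝ} (hs : s₁ ≠ 0)
    (s₂ t₁ t₂ : ℝ) :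
    s₁ • f₀ + s₂ • (Complex.I • f₀) + t₁ • f₁ + t₂ • (Complex.I • f₁) ≠ 0 := by
  intro h
  rw [real_comb_eq] at h
  have h1 := (LinearIndependent.pair_iff.1 hf _ _ h).1
  have h2 := congrArg Complex.re h1
  simp at h2
  exact hs h2

theorem wedge22_pos {A B : (Cn 2) [⋀^Fin 2]→L[ℝ] ℝ} (hA : IsJInv A) (hB : IsJInv B)
    (hA0 : ∀ v, 0 ≤ A ![v, Complex.I • v]) (hA1 : ∃ v, 0 < A ![v, Complex.I • v])
    (hB0 : ∀ v, v ≠ 0 → 0 < B ![v, Complex.I • v]) {f₀ f₁ : Cn 2}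
    (hf : LinearIndependent ℂ ![f₀, f₁]) :
    0 < wedge22 A B ![f₀, Complex.I • f₀, f₁, Complex.I • f₁] := by
  rw [wedge22_apply_frame hA hB]
  have hf0 : f₀ ≠ 0 := hf.ne_zero 0
  have hf1 : f₁ ≠ 0 := hf.ne_zero 1
  have hb : 0 < B ![f₀, Complex.I • f₀] := hB0 f₀ hf0
  have hb' : 0 < B ![f₁, Complex.I • f₁] := hB0 f₁ hf1
  have hCS := hA.cauchySchwarz hA0 f₀ f₁
  refine mixed_disc_pos (hA0 f₀) (hA0 f₁) ?_ hb hb' hCS ?_
  · -- the Hermitian form of `A` does not vanish on the basis `f₀, f₁`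
    by_contra hle
    push Not at hle
    have h0 : A ![f₀, Complex.I • f₀] = 0 := le_antisymm (by linarith [hA0 f₁]) (hA0 f₀)
    have h1 : A ![f₁, Complex.I • f₁] = 0 := le_antisymm (by linarith [hA0 f₀]) (hA0 f₁)
    rw [h0, h1, mul_zero] at hCS
    have hp : A ![f₀, Complex.I • f₁] = 0 := by nlinarith [sq_nonneg (A ![f₀, f₁])]
    have hq : A ![f₀, f₁] = 0 := by nlinarith [sq_nonneg (A ![f₀, Complex.I • f₁])]
    obtain ⟨v, hv⟩ := hA1
    obtain ⟨s₁, s₂, t₁, t₂, rfl⟩ := exists_real_comb hf v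
    rw [hA.quad, h0, h1, hp, hq] at hv
    simp at hv
  · -- strict Cauchy--Schwarz for `B`
    have h := hB0 _ (real_comb_ne_zero hf hb'.ne' 0 (-(B ![f₀, Complex.I • f₁])) (B ![f₀, f₁]))
    rw [hB.quad] at h
    have h2 : 0 < B ![f₁, Complex.I • f₁] * (B ![f₀, Complex.I • f₀] * B ![f₁, Complex.I • f₁] -
        (B ![f₀, Complex.I • f₁] ^ 2 + B ![f₀, f₁] ^ 2)) := by
      nlinarith [h]
    have h3 := (mul_pos_iff_of_pos_left hb').1 h2
    linarith

/-- A `(1,1)`-form of rank one, `A(v,Jv) = g |ℓ(v)|²`, has square zero. -/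
theorem wedge22_self_eq_zero {A : (Cn 2) [⋀^Fin 2]→L[ℝ] ℝ} (hA : IsJInv A) (g : ℝ)
    (ℓ : Cn 2 →L[ℂ] ℂ) (h : ∀ v, A ![v, Complex.I • v] = g * ‖ℓ v‖ ^ 2) : wedge22 A A = 0 := by
  have hn : ∀ z : ℂ, ‖z‖ ^ 2 = z.re ^ 2 + z.im ^ 2 := by
    intro z
    rw [Complex.sq_norm, Complex.normSq_apply]
    ring
  have hS : ∀ u w : Cn 2, A ![u, Complex.I • w] =
      g * ((ℓ u).re * (ℓ w).re + (ℓ u).im * (ℓ w).im) := by
    intro u w
    have h1 := h (u + w)
    rw [smul_add, alt2_add_left, alt2_add_right, alt2_add_right, h u, h w, hA.symm u w, map_add,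
      hn, hn, hn, Complex.add_re, Complex.add_im] at h1
    linarith
  have key : ∀ u v : Cn 2, A ![u, v] = g * ((ℓ u).re * (ℓ v).im - (ℓ u).im * (ℓ v).re) := by
    intro u v
    have h1 := hS u (Complex.I • v)
    rw [I_smul_I_smul, alt2_neg_right, map_smul, smul_eq_mul, Complex.I_mul_re, Complex.I_mul_im]
      at h1
    linarith
  ext v
  rw [wedge22_apply]
  simp only [key]
  change _ = (0 : ℝ)
  ring

end Hermitian

end Claimed.Open.R041
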