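/-
Result 041, sanity (package J of the Kummer K3 example): the Kummer surface is simply connected.

The surface is covered by the `16` open sets `V p`, the resolutions of `(rep p + Cube)/±`.  Each of them
is the union of two charts (star-convex domains) with path-connected intersection, hence simply connected
by the weak Seifert--van Kampen theorem; neighbouring sets overlap in a dense path-connected set.
-/
import Claimed.Open.R041.K3KummerPoints
import Claimed.Open.R041.K3Topology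

open scoped Manifold ContDiff Topology
open Set

namespace Claimed.Open.R041
namespace Kummer

/-! ### Real coordinates on `ℂ²` -/

/-- The complex coordinate to which the `l`-th real coordinate belongs. -/
def kap (l : Fin 4) : Fin 2 := ⟨l.val / 2, by omega⟩

/-- The `l`-th real coordinate `(Re z₀, Im z₀, Re z₁, Im z₁)`. -/
noncomputable def rc (l : Fin 4) : Cn 2 →L[ℝ] ℝ :=
  (if l.val % 2 = 0 then Complex.reCLM else Complex.imCLM) ∘L
    ((EuclideanSpace.proj (𝕜 := ℂ) (kap l)).restrictScalars ℝ)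

theorem rc_zero (c : Cn 2) : rc 0 c = (c 0).re := rfl
theorem rc_one (c : Cn 2) : rc 1 c = (c 0).im := rfl
theorem rc_two (c : Cn 2) : rc 2 c = (c 1).re := rfl
theorem rc_three (c : Cn 2) : rc 3 c = (c 1).im := rfl

theorem forall_rc_iff (P : ℝ → Prop) (c : Cn 2) :
    (∀ l, P (rc l c)) ↔ ∀ j, P (c j).re ∧ P (c j).im := by
  constructor
  · intro h j
    fin_cases j
    · exact ⟨h 0, h 1⟩
    · exact ⟨h 2, h 3⟩
  · intro h l
    fin_cases l
    · exact (h 0).1
    · exact (h 0).2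
    · exact (h 1).1
    · exact (h 1).2

theorem mem_Cube_iff_rc {c : Cn 2} : c ∈ Cube ↔ ∀ l, |rc l c| < 1 / 2 :=
  (forall_rc_iff (fun x => |x| < 1 / 2) c).symm

theorem mem_Lat_iff_rc {z : Cn 2} : z ∈ Lat ↔ ∀ l, ∃ m : ℤ, rc l z = m :=
  (forall_rc_iff (fun x => ∃ m : ℤ, x = m) z).symm

/-- The vector with given real coordinates. -/
noncomputable def ofRc (f : Fin 4 → ℝ) : Cn 2 := mk2 ⟨f 0, f 1⟩ ⟨f 2, f 3⟩

theorem rc_ofRc (f : Fin 4 → ℝ) (l : Fin 4) : rc l (ofRc f) = f l := by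
  fin_cases l <;> rfl

theorem rc_rep (p : Fin 4 → Bool) (l : Fin 4) :
    rc l (rep p : Cn 2) = if p l then 1 / 2 else 0 :=
  rc_ofRc (fun l => if p l then 1 / 2 else 0) l

theorem coord_ne_zero_of_rc_ne_zero {l : Fin 4} {c : Cn 2} (h : rc l c ≠ 0) : c (kap l) ≠ 0 := by
  intro h0
  apply h
  fin_cases l
  · exact congrArg Complex.re h0
  · exact congrArg Complex.im h0
  · exact congrArg Complex.re h0
  · exact congrArg Complex.im h0

/-! ### The charts near an exceptional curve are simply connected -/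

theorem sq_nonneg (w : ℂ) : 0 ≤ sq w := add_nonneg (norm_nonneg _) (abs_nonneg _)

theorem sq_real_mul {r : ℝ} (hr : 0 ≤ r) (w : ℂ) : sq ((r : ℂ) * w) = r * sq w := by
  simp only [sq, norm_mul, Complex.norm_real, Real.norm_eq_abs, abs_of_nonneg hr,
    Complex.re_ofReal_mul, abs_mul]
  ring

theorem zero_mem_DA : (0 : Cn 2) ∈ DA := by
  change sq _ < _ ∧ sq _ < _
  simp [sq]

theorem real_smul_mem_DA {y : Cn 2} (hy : y ∈ DA) {r : ℝ} (h0 : 0 ≤ r) (h1 : r ≤ 1) :
    mk2 ((r : ℂ) * y 0) (y 1) ∈ DA := by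
  constructor
  · simp only [mk2_zero]
    rw [sq_real_mul h0]
    have := sq_nonneg (y 0)
    have := hy.1
    nlinarith
  · simp only [mk2_zero, mk2_one]
    rw [mul_assoc, sq_real_mul h0]
    have := sq_nonneg (y 0 * y 1 ^ 2)
    have := hy.2
    nlinarith

theorem starConvex_DA : StarConvex ℝ (0 : Cn 2) DA := by
  intro y hy a b ha hb hab
  have hb1 : b ≤ 1 := by linarith
  rw [smul_zero, zero_add]
  constructor
  · have e : (b • y) 0 = (b : ℂ) * y 0 := by simp
    rw [e, sq_real_mul hb]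
    have := sq_nonneg (y 0)
    have := hy.1
    nlinarith
  · have e : (b • y) 0 * (b • y) 1 ^ 2 = ((b ^ 3 : ℝ) : ℂ) * (y 0 * y 1 ^ 2) := by
      simp; ring
    rw [e, sq_real_mul (by positivity)]
    have h3 : b ^ 3 ≤ 1 := pow_le_one₀ hb hb1
    have := sq_nonneg (y 0 * y 1 ^ 2)
    have := hy.2
    have : 0 ≤ b ^ 3 := by positivity
    nlinarith

theorem isSimplyConnected_DA : IsSimplyConnected DA :=
  isSimplyConnected_of_starConvex zero_mem_DA starConvex_DA

theorem isSimplyConnected_chA_source (μ : HalfLat) (κ : Fin 2) :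
    IsSimplyConnected (chA μ κ).source :=
  ((chA μ κ).toHomeomorphSourceTarget.toHomotopyEquiv.simplyConnectedSpace_iff).2
    isSimplyConnected_DA

/-! ### The overlap of the two charts at `μ` -/

/-- The part `t ≠ 0` of the chart domain. -/
def DA' : Set (Cn 2) := {y | y ∈ DA ∧ y 1 ≠ 0}

theorem continuous_mk2 {Y : Type} [TopologicalSpace Y] {f g : Y → ℂ} (hf : Continuous f)
    (hg : Continuous g) : Continuous fun w => mk2 (f w) (g w) := by
  simp only [mk2_eq]
  fun_prop

theorem isPathConnected_DA' : IsPathConnected DA' := by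
  refine ⟨mk2 0 1, ⟨mk2_zero_mem_DA 1, by simp⟩, ?_⟩
  intro y hy
  have h1 : JoinedIn DA' (mk2 0 1) (mk2 0 (y 1)) := by
    have hC : IsPathConnected ({0}ᶜ : Set ℂ) :=
      isPathConnected_compl_singleton_of_one_lt_rank
        (by rw [Complex.rank_real_complex]; exact Nat.one_lt_ofNat) 0
    have hI : IsPathConnected ((fun t : ℂ => mk2 0 t) '' ({0}ᶜ : Set ℂ)) :=
      hC.image (continuous_mk2 continuous_const continuous_id)
    refine (hI.joinedIn _ ⟨1, by simp, rfl⟩ _ ⟨y 1, hy.2, rfl⟩).mono ?_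
    rintro _ ⟨t, ht, rfl⟩
    exact ⟨mk2_zero_mem_DA t, ht⟩
  have h2 : JoinedIn DA' (mk2 0 (y 1)) y := by
    refine JoinedIn.ofLine (f := fun r : ℝ => mk2 ((r : ℂ) * y 0) (y 1)) ?_ (by simp)
      (by simp [mk2_eta]) ?_
    · exact (continuous_mk2 (Complex.continuous_ofReal.mul continuous_const)
        continuous_const).continuousOn
    · rintro _ ⟨r, hr, rfl⟩
      exact ⟨real_smul_mem_DA hy.1 hr.1 hr.2, hy.2⟩
  exact h1.trans h2

theorem chA_source_inter (μ : HalfLat) (κ : Fin 2) :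
    (chA μ κ).source ∩ (chA μ (oth κ)).source = (chA μ κ).symm '' DA' := by
  ext x
  constructor
  · rintro ⟨h1, h2⟩
    obtain ⟨y, hy, rfl⟩ := (mem_chA_source_iff μ κ x).1 h1
    obtain ⟨y', hy', he⟩ := (mem_chA_source_iff μ (oth κ) _).1 h2
    refine ⟨y, ⟨hy, ?_⟩, chA_symm_apply μ κ hy⟩
    have h' : cls μ (vec κ (y 1)) (y 0) = cls μ (vec (oth κ) (y' 1)) (y' 0) := congrArg toAmb he
    rcases cls_eq_cls.1 h' with ⟨-, -, -, c, -, hv⟩ | ⟨ρ, ρ', hρ, hρ', h3, h4, h5⟩
    · have e2 := congrArg (fun w : Cn 2 => w (oth κ)) hv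
      simp only [vec_self, PiLp.smul_apply, smul_eq_mul, vec_oth] at e2
      intro h0
      rw [h0, mul_zero] at e2
      exact one_ne_zero e2
    · have hc := smul_vec_mem_Cube hy κ h3
      have hc' := smul_vec_mem_Cube hy' (oth κ) h4
      have : ρ • vec κ (y 1) = ρ' • vec (oth κ) (y' 1) := by
        apply eq_of_sub_mem_Lat hc hc'
        simpa using h5
      have e2 := congrArg (fun w : Cn 2 => w (oth κ)) this
      simp only [vec_self, PiLp.smul_apply, smul_eq_mul, mul_one, vec_oth] at e2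
      intro h0
      rw [h0, mul_zero] at e2
      exact hρ' e2.symm
  · rintro ⟨y, ⟨hy, h1⟩, rfl⟩
    rw [chA_symm_apply μ κ hy]
    refine ⟨ptA_mem_chA_source μ κ hy, ?_⟩
    obtain ⟨hy', e⟩ := ptA_oth μ κ hy h1
    rw [e]
    exact ptA_mem_chA_source μ (oth κ) hy'

/-- The resolution of `(μ + Cube)/±`. -/
def VV (μ : HalfLat) : Set Kum := (chA μ 0).source ∪ (chA μ 1).source

theorem isOpen_VV (μ : HalfLat) : IsOpen (VV μ) :=
  (chA μ 0).open_source.union (chA μ 1).open_source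

theorem mem_VV_of_mem_source {μ : HalfLat} {κ : Fin 2} {x : Kum} (h : x ∈ (chA μ κ).source) :
    x ∈ VV μ := by
  fin_cases κ
  · exact Or.inl h
  · exact Or.inr h

theorem isSimplyConnected_VV (μ : HalfLat) : IsSimplyConnected (VV μ) := by
  refine isSimplyConnected_union (chA μ 0).open_source (chA μ 1).open_source
    (isSimplyConnected_chA_source μ 0) (isSimplyConnected_chA_source μ 1) ?_
  have h := chA_source_inter μ 0
  have h1 : oth 0 = 1 := rfl
  rw [h1] at h
  rw [h]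
  exact isPathConnected_DA'.image' ((chA μ 0).continuousOn_symm.mono fun y hy => hy.1)

/-! ### Regular points -/

theorem regT_eq_regT {z z' : Cn 2} (hz : z ∉ HalfLat) (h : GEquiv z z') : regT z = regT z' := by
  rw [regT_eq hz, regT_eq (h.notMem_HalfLat hz), reg_eq_reg]
  exact h

theorem exists_coord_ne_zero {c : Cn 2} (h0 : c ≠ 0) : ∃ κ : Fin 2, c κ ≠ 0 := by
  by_contra hcon
  push Not at hcon
  exact h0 (ext2 (hcon 0) (hcon 1))

theorem regT_mem_chA_source (μ : HalfLat) (κ : Fin 2) {c : Cn 2} (hc : c ∈ Cube) (h0 : c κ ≠ 0) :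
    regT (μ + c) ∈ (chA μ κ).source := by
  rw [regT_eq (add_notMem_HalfLat μ hc (ne_zero_of_coord_ne_zero h0))]
  exact reg_mem_chA_source μ κ hc h0

theorem regT_mem_VV (μ : HalfLat) {c : Cn 2} (hc : c ∈ Cube) (h0 : c ≠ 0) :
    regT (μ + c) ∈ VV μ := by
  obtain ⟨κ, hκ⟩ := exists_coord_ne_zero h0
  exact mem_VV_of_mem_source (regT_mem_chA_source μ κ hc hκ)

theorem continuousAt_regT {z : Cn 2} (hz : z ∉ HalfLat) : ContinuousAt regT z :=
  continuousOn_regT.continuousAt (isClosed_HalfLat.isOpen_compl.mem_nhds hz)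

/-! ### Half cubes -/

/-- The half cube `{c ∈ Cube | c_l > 0}`. -/
def HC (l : Fin 4) : Set (Cn 2) := {c | c ∈ Cube ∧ 0 < rc l c}

theorem convex_HC (l : Fin 4) : Convex ℝ (HC l) := by
  have : HC l = (⋂ l', (rc l') ⁻¹' Ioo (-(1 / 2)) (1 / 2)) ∩ (rc l) ⁻¹' Ioi 0 := by
    ext c
    simp only [HC, mem_ofPred_eq, mem_Cube_iff_rc, abs_lt, mem_inter_iff, mem_iInter, mem_preimage,
      mem_Ioo, mem_Ioi]
  rw [this]
  refine Convex.inter (convex_iInter fun l' => ?_) ?_
  · exact (convex_Ioo _ _).linear_preimage (rc l').toLinearMap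
  · exact (convex_Ioi _).linear_preimage (rc l).toLinearMap

theorem HC_nonempty (l : Fin 4) : (HC l).Nonempty := by
  refine ⟨ofRc fun _ => 1 / 4, mem_Cube_iff_rc.2 fun l' => ?_, ?_⟩
  · rw [rc_ofRc, abs_of_pos] <;> norm_num
  · rw [rc_ofRc]; norm_num

theorem ne_zero_of_mem_HC {l : Fin 4} {c : Cn 2} (hc : c ∈ HC l) : c ≠ 0 := by
  rintro rfl
  have := hc.2
  simp at this

/-- The image of `μ + HC l`. -/
def PP (μ : HalfLat) (l : Fin 4) : Set Kum := (fun c : Cn 2 => regT (μ + c)) '' HC l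

theorem isPathConnected_PP (μ : HalfLat) (l : Fin 4) : IsPathConnected (PP μ l) := by
  refine ((convex_HC l).isPathConnected (HC_nonempty l)).image' ?_
  intro c hc
  have h1 : ContinuousAt regT ((μ : Cn 2) + c) :=
    continuousAt_regT (add_notMem_HalfLat μ hc.1 (ne_zero_of_mem_HC hc))
  have h2 : ContinuousAt (fun c : Cn 2 => (μ : Cn 2) + c) c := by fun_prop
  exact (ContinuousAt.comp (g := regT) h1 h2).continuousWithinAt

theorem PP_subset_VV (μ : HalfLat) (l : Fin 4) : PP μ l ⊆ VV μ := by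
  rintro _ ⟨c, hc, rfl⟩
  exact regT_mem_VV μ hc.1 (ne_zero_of_mem_HC hc)

/-- The `l`-th real unit vector. -/
noncomputable def eV (l : Fin 4) : Cn 2 := ofRc (Pi.single l 1)

theorem rc_eV (l l' : Fin 4) : rc l' (eV l) = if l' = l then 1 else 0 := by
  rw [eV, rc_ofRc, Pi.single_apply]

theorem PP_subset_VV_adj (p : Fin 4 → Bool) (l : Fin 4) :
    PP (rep (Function.update p l (!(p l)))) l ⊆ VV (rep p) := by
  rintro _ ⟨c, hc, rfl⟩
  set q := Function.update p l (!(p l)) with hq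
  set c' : Cn 2 := c - (1 / 2 : ℝ) • eV l with hc'
  have hrc' : ∀ l', rc l' c' = rc l' c - 1 / 2 * (if l' = l then 1 else 0) := by
    intro l'
    rw [hc', map_sub, map_smul, rc_eV, smul_eq_mul]
  have hcube : c' ∈ Cube := by
    rw [mem_Cube_iff_rc]
    intro l'
    have h1 := mem_Cube_iff_rc.1 hc.1 l'
    rw [hrc' l']
    by_cases hl : l' = l
    · subst hl
      have h2 := hc.2
      rw [abs_lt] at h1 ⊢
      simp only [if_true]
      constructor <;> linarith [h1.1, h1.2]
    · simpa [hl] using h1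
  have hne : c' ≠ 0 := by
    intro h0
    have h1 := hrc' l
    have h2 := mem_Cube_iff_rc.1 hc.1 l
    rw [h0, map_zero, if_pos rfl] at h1
    rw [abs_lt] at h2
    linarith [h2.2]
  have hG : GEquiv ((rep q : Cn 2) + c) ((rep p : Cn 2) + c') := by
    left
    rw [mem_Lat_iff_rc]
    intro l'
    rw [map_sub, map_add, map_add, hrc' l', rc_rep, rc_rep]
    by_cases hl : l' = l
    · subst hl
      rw [hq, Function.update_self]
      cases p l'
      · exact ⟨1, by simp; ring⟩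
      · exact ⟨0, by simp⟩
    · rw [hq, Function.update_of_ne hl]
      exact ⟨0, by simp [hl]⟩
  show regT ((rep q : Cn 2) + c) ∈ VV (rep p)
  rw [regT_eq_regT (add_notMem_HalfLat _ hc.1 (ne_zero_of_mem_HC hc)) hG]
  exact regT_mem_VV _ hcube hne

/-! ### Density -/

theorem regT_mem_closure_PP_aux (μ : HalfLat) (l : Fin 4) {c : Cn 2} (hc : c ∈ Cube) (h0 : c ≠ 0)
    (hl : 0 ≤ rc l c) : regT (μ + c) ∈ closure (PP μ l) := by
  have hcont : ContinuousAt (fun ε : ℝ => regT ((μ : Cn 2) + (c + ε • eV l))) 0 := by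
    have h1 : ContinuousAt regT ((μ : Cn 2) + (c + (0 : ℝ) • eV l)) := by
      rw [zero_smul, add_zero]
      exact continuousAt_regT (add_notMem_HalfLat μ hc h0)
    have h2 : ContinuousAt (fun ε : ℝ => (μ : Cn 2) + (c + ε • eV l)) 0 := by fun_prop
    exact ContinuousAt.comp (g := regT) h1 h2
  have htend : Filter.Tendsto (fun ε : ℝ => regT ((μ : Cn 2) + (c + ε • eV l))) (𝓝[>] 0)
      (𝓝 (regT (μ + c))) := by
    have := hcont.tendsto
    simp only [zero_smul, add_zero] at this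
    exact this.mono_left nhdsWithin_le_nhds
  refine mem_closure_of_tendsto htend ?_
  have hδ : 0 < 1 / 2 - rc l c := by
    have := (abs_lt.1 (mem_Cube_iff_rc.1 hc l)).2
    linarith
  filter_upwards [Ioo_mem_nhdsGT hδ] with ε hε
  refine ⟨c + ε • eV l, ⟨mem_Cube_iff_rc.2 fun l' => ?_, ?_⟩, rfl⟩
  · have h1 := abs_lt.1 (mem_Cube_iff_rc.1 hc l')
    rw [map_add, map_smul, rc_eV, smul_eq_mul]
    by_cases hl' : l' = l
    · subst hl'
      rw [if_pos rfl, abs_lt]
      constructor <;> linarith [hε.1, hε.2]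
    · rw [if_neg hl', mul_zero, add_zero, abs_lt]
      exact h1
  · rw [map_add, map_smul, rc_eV, if_pos rfl, smul_eq_mul]
    linarith [hε.1]

theorem regT_mem_closure_PP (μ : HalfLat) (l : Fin 4) {c : Cn 2} (hc : c ∈ Cube) (h0 : c ≠ 0) :
    regT (μ + c) ∈ closure (PP μ l) := by
  rcases le_total 0 (rc l c) with hl | hl
  · exact regT_mem_closure_PP_aux μ l hc h0 hl
  · have hG : GEquiv ((μ : Cn 2) + c) ((μ : Cn 2) + -c) := by
      right
      have : (μ : Cn 2) + c + ((μ : Cn 2) + -c) = μ + μ := by abel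
      rw [this]
      exact μ.2
    rw [regT_eq_regT (add_notMem_HalfLat μ hc h0) hG]
    exact regT_mem_closure_PP_aux μ l (neg_mem_Cube hc) (neg_ne_zero.2 h0)
      (by rw [map_neg]; linarith)

theorem ptA_mem_closure_PP_of_ne (μ : HalfLat) (l : Fin 4) (κ : Fin 2) {y : Cn 2} (hy : y ∈ DA)
    (h0 : y 0 ≠ 0) : ptA μ κ y hy ∈ closure (PP μ l) := by
  obtain ⟨ρ, hρ⟩ := exists_root (y 0)
  have hρ0 : ρ ≠ 0 := by rintro rfl; apply h0; rw [← hρ]; simp
  rw [ptA_eq_reg μ κ hy hρ0 hρ, ← regT_eq]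
  exact regT_mem_closure_PP μ l (smul_vec_mem_Cube hy κ hρ) (smul_ne_zero hρ0 (vec_ne_zero κ _))

theorem ptA_mem_closure_PP (μ : HalfLat) (l : Fin 4) (κ : Fin 2) {y : Cn 2} (hy : y ∈ DA) :
    ptA μ κ y hy ∈ closure (PP μ l) := by
  by_cases h0 : y 0 = 0
  swap
  · exact ptA_mem_closure_PP_of_ne μ l κ hy h0
  have hy' : mk2 ((0 : ℝ) : ℂ) (y 1) = y := by
    rw [Complex.ofReal_zero, ← h0, mk2_eta]
  have hf : Continuous fun ε : ℝ => mk2 (ε : ℂ) (y 1) :=
    continuous_mk2 Complex.continuous_ofReal continuous_const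
  have hcont : ContinuousAt (fun ε : ℝ => (chA μ κ).symm (mk2 (ε : ℂ) (y 1))) 0 := by
    have h1 : ContinuousAt (chA μ κ).symm (mk2 ((0 : ℝ) : ℂ) (y 1)) := by
      rw [hy']
      exact (chA μ κ).continuousAt_symm hy
    exact ContinuousAt.comp (g := (chA μ κ).symm) h1 hf.continuousAt
  have htend : Filter.Tendsto (fun ε : ℝ => (chA μ κ).symm (mk2 (ε : ℂ) (y 1))) (𝓝[≠] 0)
      (𝓝 (ptA μ κ y hy)) := by
    have := hcont.tendsto
    rw [hy', chA_symm_apply μ κ hy] at this
    exact this.mono_left nhdsWithin_le_nhds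
  rw [← closure_closure]
  refine mem_closure_of_tendsto htend ?_
  have hDA : ∀ᶠ ε : ℝ in 𝓝 0, mk2 (ε : ℂ) (y 1) ∈ DA :=
    hf.continuousAt.eventually_mem (isOpen_DA.mem_nhds (by rw [hy']; exact hy))
  filter_upwards [eventually_nhdsWithin_of_eventually_nhds hDA, self_mem_nhdsWithin] with ε h1 h2
  rw [chA_symm_apply μ κ h1]
  exact ptA_mem_closure_PP_of_ne μ l κ h1 (by simpa using h2)

theorem VV_subset_closure_PP (μ : HalfLat) (l : Fin 4) : VV μ ⊆ closure (PP μ l) := by
  rintro x (hx | hx)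
  · obtain ⟨y, hy, rfl⟩ := (mem_chA_source_iff μ 0 x).1 hx
    exact ptA_mem_closure_PP μ l 0 hy
  · obtain ⟨y, hy, rfl⟩ := (mem_chA_source_iff μ 1 x).1 hx
    exact ptA_mem_closure_PP μ l 1 hy

/-! ### The cover -/

theorem exists_round_half (x : ℝ) :
    ∃ b : Bool, ∃ k : ℤ, |x - (if b then 1 / 2 else 0) - k| ≤ 1 / 4 := by
  have h := abs_sub_round (2 * x)
  rcases Int.even_or_odd' (round (2 * x)) with ⟨k, hk | hk⟩
  · refine ⟨false, k, ?_⟩
    rw [hk] at h
    push_cast at h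
    rw [abs_le] at h ⊢
    simp only [Bool.false_eq_true, if_false]
    constructor <;> linarith [h.1, h.2]
  · refine ⟨true, k, ?_⟩
    rw [hk] at h
    push_cast at h
    rw [abs_le] at h ⊢
    simp only [if_true]
    constructor <;> linarith [h.1, h.2]

/-- Every point of `ℂ²` is, modulo the lattice, within `1/4` (in each real coordinate) of one of
the `16` representatives of `½Λ/Λ`. -/
theorem exists_rep_add (z : Cn 2) :
    ∃ (p : Fin 4 → Bool) (c : Cn 2), (∀ l, |rc l c| ≤ 1 / 4) ∧ z - ((rep p : Cn 2) + c) ∈ Lat := by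
  choose b k h using fun l : Fin 4 => exists_round_half (rc l z)
  refine ⟨b, z - rep b - ofRc (fun l => (k l : ℝ)), fun l => ?_, ?_⟩
  · rw [map_sub, map_sub, rc_rep, rc_ofRc]
    exact h l
  · rw [mem_Lat_iff_rc]
    intro l
    refine ⟨k l, ?_⟩
    rw [map_sub, map_add, map_sub, map_sub, rc_ofRc]
    ring

theorem iUnion_VV : (⋃ p, VV (rep p)) = univ := by
  refine eq_univ_of_forall fun x => ?_
  rw [mem_iUnion]
  rcases reg_or_exc x with ⟨z, hz, rfl⟩ | ⟨μ, κ, t, rfl⟩
  · obtain ⟨p, c, hc, hl⟩ := exists_rep_add z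
    refine ⟨p, ?_⟩
    have hcube : c ∈ Cube := mem_Cube_iff_rc.2 fun l => (hc l).trans_lt (by norm_num)
    have hG : GEquiv z ((rep p : Cn 2) + c) := Or.inl hl
    have h0 : c ≠ 0 := by
      rintro rfl
      apply hG.notMem_HalfLat hz
      rw [add_zero]
      exact (rep p).2
    rw [← regT_eq hz, regT_eq_regT hz hG]
    exact regT_mem_VV _ hcube h0
  · obtain ⟨p, hp⟩ := exists_rep μ
    refine ⟨p, ?_⟩
    rw [exc, ptA_congr_Lat hp]
    exact mem_VV_of_mem_source (ptA_mem_chA_source (rep p) κ _)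

theorem simplyConnectedSpace_Kum : SimplyConnectedSpace Kum := by
  have : LocallyPathConnectedSpace Kum := ChartedSpace.locallyPathConnectedSpace (Cn 2) Kum
  apply simplyConnectedSpace_of_isSimplyConnected_univ
  rw [← iUnion_VV]
  refine isSimplyConnected_iUnion_of_graph (fun p => VV (rep p)) (fun p => isOpen_VV _)
    (fun p => isSimplyConnected_VV _) (fun p q => ∃ l, q = Function.update p l (!(p l))) ?_ ?_
  · rintro p _ ⟨l, rfl⟩
    exact ⟨PP (rep (Function.update p l (!(p l)))) l, isPathConnected_PP _ l,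
      fun x hx => ⟨PP_subset_VV_adj p l hx, PP_subset_VV _ l hx⟩, VV_subset_closure_PP _ l⟩
  · intro S hS h
    exact hypercube_connected S hS h

end Kummer
end Claimed.Open.R041
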