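import Mathlib

/-!
# Pure topology for the Kummer K3 example (package C)

* `isSimplyConnected_union`: the weak Seifert--van Kampen theorem (two simply connected open
  sets with path-connected intersection have a simply connected union);
* `isPathConnected_of_dense_subset`, `isSimplyConnected_iUnion_of_graph`: a union of simply
  connected open sets glued along a connected graph of "dense overlaps" is simply connected;
* `hypercube_connected`, `isSimplyConnected_of_starConvex`, and a bridge from
  `IsSimplyConnected univ` to `SimplyConnectedSpace`.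
-/

open Set Topology

namespace Claimed.Open.R041

open scoped unitInterval

section vanKampen

variable {X : Type} [TopologicalSpace X]

/-- Two paths with the same endpoints inside a simply connected set are homotopic. -/
theorem homotopic_of_forall_mem {s : Set X} (hs : IsSimplyConnected s) {x y : X}
    (p q : Path x y) (hp : ∀ t, p t ∈ s) (hq : ∀ t, q t ∈ s) : p.Homotopic q := by
  have := hs.simplyConnectedSpace
  have hx : x ∈ s := by simpa using hp 0
  have hy : y ∈ s := by simpa using hp 1
  let p' : Path (⟨x, hx⟩ : s) ⟨y, hy⟩ :=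
    { toFun := fun t ↦ ⟨p t, hp t⟩
      continuous_toFun := by fun_prop
      source' := by simp
      target' := by simp }
  let q' : Path (⟨x, hx⟩ : s) ⟨y, hy⟩ :=
    { toFun := fun t ↦ ⟨q t, hq t⟩
      continuous_toFun := by fun_prop
      source' := by simp
      target' := by simp }
  have h := (SimplyConnectedSpace.paths_homotopic p' q').map ⟨Subtype.val, continuous_subtype_val⟩
  exact h

/-- Left cancellation for homotopy classes of paths. -/
theorem homotopic_of_trans_homotopic {x y z : X} (e : Path x y) (p q : Path y z)
    (h : (e.trans p).Homotopic (e.trans q)) : p.Homotopic q := by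
  rw [← Path.Homotopic.Quotient.eq] at h ⊢
  rw [Path.Homotopic.Quotient.mk_trans, Path.Homotopic.Quotient.mk_trans] at h
  calc Path.Homotopic.Quotient.mk p
      = ((Path.Homotopic.Quotient.mk e).symm.trans (Path.Homotopic.Quotient.mk e)).trans
          (Path.Homotopic.Quotient.mk p) := by
        rw [Path.Homotopic.Quotient.symm_trans, Path.Homotopic.Quotient.refl_trans]
    _ = ((Path.Homotopic.Quotient.mk e).symm.trans (Path.Homotopic.Quotient.mk e)).trans
          (Path.Homotopic.Quotient.mk q) := by
        rw [Path.Homotopic.Quotient.trans_assoc, h, Path.Homotopic.Quotient.trans_assoc]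
    _ = Path.Homotopic.Quotient.mk q := by
        rw [Path.Homotopic.Quotient.symm_trans, Path.Homotopic.Quotient.refl_trans]

/-- Transport of a homotopy statement along equalities of endpoints. -/
theorem homotopic_cast_aux {x0 : X} (η : ∀ z : X, Path x0 z) {a b z w : X} (ha : a = z)
    (hb : b = w) (p : Path a b) (h : ((η a).trans p).Homotopic (η b)) :
    ((η z).trans (p.cast ha.symm hb.symm)).Homotopic (η w) := by
  subst ha hb
  exact h

/-- Weak Seifert--van Kampen theorem for an open cover of the whole space. -/
theorem simplyConnectedSpace_of_open_cover {U V : Set X}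
    (hU : IsOpen U) (hV : IsOpen V) (hUs : IsSimplyConnected U) (hVs : IsSimplyConnected V)
    (hUV : IsPathConnected (U ∩ V)) (hcov : U ∪ V = univ) : SimplyConnectedSpace X := by
  obtain ⟨x0, hx0, hjoin⟩ := hUV
  -- choose paths from the base point, staying in `U`, `V` whenever possible
  have hη : ∀ z : X, ∃ η : Path x0 z, (z ∈ U → ∀ t, η t ∈ U) ∧ (z ∈ V → ∀ t, η t ∈ V) := by
    intro z
    by_cases hzU : z ∈ U
    · by_cases hzV : z ∈ V
      · obtain ⟨γ, hγ⟩ := hjoin ⟨hzU, hzV⟩
        exact ⟨γ, fun _ t => (hγ t).1, fun _ t => (hγ t).2⟩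
      · obtain ⟨γ, hγ⟩ := hUs.isPathConnected.joinedIn x0 hx0.1 z hzU
        exact ⟨γ, fun _ => hγ, fun h => absurd h hzV⟩
    · have hzV : z ∈ V := by
        have : z ∈ U ∪ V := hcov ▸ mem_univ z
        exact this.resolve_left hzU
      obtain ⟨γ, hγ⟩ := hVs.isPathConnected.joinedIn x0 hx0.2 z hzV
      exact ⟨γ, fun h => absurd h hzU, fun _ => hγ⟩
  choose η hηU hηV using hη
  -- paths inside one of the two sets
  have claimA : ∀ W : Set X, IsSimplyConnected W → (∀ z ∈ W, ∀ t, η z t ∈ W) →
      ∀ {z w : X} (g : Path z w), (∀ t, g t ∈ W) → ((η z).trans g).Homotopic (η w) := by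
    intro W hW hηW z w g hg
    have hz : z ∈ W := by simpa using hg 0
    have hw : w ∈ W := by simpa using hg 1
    refine homotopic_of_forall_mem hW _ _ (fun t => ?_) (hηW w hw)
    have : (η z).trans g t ∈ range ((η z).trans g) := mem_range_self t
    rw [Path.trans_range] at this
    rcases this with ⟨s, hs⟩ | ⟨s, hs⟩
    · exact hs ▸ hηW z hz s
    · exact hs ▸ hg s
  -- arbitrary paths
  have claimB : ∀ {z w : X} (g : Path z w), ((η z).trans g).Homotopic (η w) := by
    intro z w g
    let c : Bool → Set I := fun b => g ⁻¹' (if b then U else V)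
    have hc₁ : ∀ b, IsOpen (c b) := by
      intro b
      cases b
      · exact hV.preimage g.continuous
      · exact hU.preimage g.continuous
    have hc₂ : (univ : Set I) ⊆ ⋃ b, c b := by
      intro s _
      have : g s ∈ U ∪ V := hcov ▸ mem_univ _
      rcases this with h | h
      · exact mem_iUnion.2 ⟨true, h⟩
      · exact mem_iUnion.2 ⟨false, h⟩
    obtain ⟨t, ht0, htm, ⟨n, hn⟩, ht⟩ :=
      exists_monotone_Icc_subset_open_cover_unitInterval hc₁ hc₂
    let P : I → Prop := fun s => ((η (g 0)).trans (g.subpath 0 s)).Homotopic (η (g s))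
    have hP0 : P 0 := by
      change ((η (g 0)).trans (g.subpath 0 0)).Homotopic (η (g 0))
      rw [Path.subpath_self]
      exact ⟨Path.Homotopy.transRefl _⟩
    have hPt : ∀ k, P (t k) := by
      intro k
      induction k with
      | zero => rw [ht0]; exact hP0
      | succ k ih =>
        have h1 : ((η (g 0)).trans (g.subpath 0 (t (k + 1)))).Homotopic
            ((η (g 0)).trans ((g.subpath 0 (t k)).trans (g.subpath (t k) (t (k + 1))))) :=
          (Path.Homotopic.refl _).hcomp ⟨(Path.Homotopy.subpathTransSubpath g 0 (t k) _).symm⟩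
        have h2 : ((η (g 0)).trans ((g.subpath 0 (t k)).trans (g.subpath (t k) (t (k + 1))))).Homotopic
            (((η (g 0)).trans (g.subpath 0 (t k))).trans (g.subpath (t k) (t (k + 1)))) :=
          ⟨(Path.Homotopy.transAssoc _ _ _).symm⟩
        have h3 : (((η (g 0)).trans (g.subpath 0 (t k))).trans
            (g.subpath (t k) (t (k + 1)))).Homotopic
            ((η (g (t k))).trans (g.subpath (t k) (t (k + 1)))) :=
          Path.Homotopic.hcomp ih (Path.Homotopic.refl _)
        have h4 : ((η (g (t k))).trans (g.subpath (t k) (t (k + 1)))).Homotopic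
            (η (g (t (k + 1)))) := by
          obtain ⟨b, hb⟩ := ht k
          have hsub : ∀ s, g.subpath (t k) (t (k + 1)) s ∈ (if b then U else V) := by
            intro s
            have hs : g.subpath (t k) (t (k + 1)) s ∈ range (g.subpath (t k) (t (k + 1))) :=
              mem_range_self s
            rw [Path.range_subpath_of_le _ _ _ (htm (Nat.le_succ k))] at hs
            obtain ⟨r, hr, hrs⟩ := hs
            exact hrs ▸ hb hr
          cases b
          · exact claimA V hVs hηV _ hsub
          · exact claimA U hUs hηU _ hsub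
        exact h1.trans (h2.trans (h3.trans h4))
    have hP1 : P 1 := by
      have := hPt n
      rwa [hn n le_rfl] at this
    have key := homotopic_cast_aux η g.source g.target (g.subpath 0 1) hP1
    have hcast : (g.subpath 0 1).cast g.source.symm g.target.symm = g := by
      ext s
      simp
    rwa [hcast] at key
  rw [simply_connected_iff_paths_homotopic']
  refine ⟨⟨⟨x0⟩, fun x y => ⟨(η x).symm.trans (η y)⟩⟩, fun {x y} p q => ?_⟩
  exact homotopic_of_trans_homotopic (η x) p q ((claimB p).trans (claimB q).symm)

end vanKampen

/-- weak Seifert--van Kampen -/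
theorem isSimplyConnected_union {X : Type} [TopologicalSpace X] {U V : Set X}
    (hU : IsOpen U) (hV : IsOpen V) (hUs : IsSimplyConnected U) (hVs : IsSimplyConnected V)
    (hUV : IsPathConnected (U ∩ V)) : IsSimplyConnected (U ∪ V) := by
  have hemb : IsEmbedding (Subtype.val : ↥(U ∪ V) → X) := IsEmbedding.subtypeVal
  have hU' : (Subtype.val : ↥(U ∪ V) → X) '' (Subtype.val ⁻¹' U) = U := by
    rw [Subtype.image_preimage_val, inter_eq_right.2 subset_union_left]
  have hV' : (Subtype.val : ↥(U ∪ V) → X) '' (Subtype.val ⁻¹' V) = V := by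
    rw [Subtype.image_preimage_val, inter_eq_right.2 subset_union_right]
  have hUV' : (Subtype.val : ↥(U ∪ V) → X) '' (Subtype.val ⁻¹' U ∩ Subtype.val ⁻¹' V) = U ∩ V := by
    rw [← preimage_inter, Subtype.image_preimage_val,
      inter_eq_right.2 (inter_subset_left.trans subset_union_left)]
  refine simplyConnectedSpace_of_open_cover (U := Subtype.val ⁻¹' U) (V := Subtype.val ⁻¹' V)
    (hU.preimage continuous_subtype_val) (hV.preimage continuous_subtype_val) ?_ ?_ ?_ ?_
  · rw [← hemb.isSimplyConnected_image, hU']; exact hUs
  · rw [← hemb.isSimplyConnected_image, hV']; exact hVs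
  · rw [hemb.isInducing.isPathConnected_iff, hUV']; exact hUV
  · ext ⟨z, hz⟩
    simpa using hz

theorem isPathConnected_of_dense_subset {X : Type} [TopologicalSpace X]
    [LocallyPathConnectedSpace X]
    {P O : Set X} (hO : IsOpen O) (hP : IsPathConnected P) (hPO : P ⊆ O) (hd : O ⊆ closure P) :
    IsPathConnected O :=
  hO.isConnected_iff_isPathConnected.1 (hP.isConnected.subset_closure hPO hd)

theorem isSimplyConnected_iUnion_of_graph {X : Type} [TopologicalSpace X]
    [LocallyPathConnectedSpace X]
    {ι : Type} [Finite ι] [Nonempty ι] (V : ι → Set X) (hVo : ∀ i, IsOpen (V i))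
    (hVs : ∀ i, IsSimplyConnected (V i)) (adj : ι → ι → Prop)
    (hadj : ∀ i j, adj i j → ∃ P, IsPathConnected P ∧ P ⊆ V i ∩ V j ∧ V j ⊆ closure P)
    (hconn : ∀ S : Set ι, S.Nonempty → (∀ i ∈ S, ∀ j, adj i j → j ∈ S) → S = Set.univ) :
    IsSimplyConnected (⋃ i, V i) := by
  let good : Set (Set ι) := {S | S.Nonempty ∧ IsSimplyConnected (⋃ i ∈ S, V i)}
  have hgood_ne : good.Nonempty := by
    obtain ⟨i0⟩ := ‹Nonempty ι›
    refine ⟨{i0}, singleton_nonempty i0, ?_⟩
    simpa using hVs i0
  obtain ⟨S, hS⟩ := (Set.toFinite good).exists_maximal hgood_ne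
  have hSuniv : S = univ := by
    refine hconn S hS.prop.1 (fun i hi j hij => ?_)
    obtain ⟨P, hPc, hPsub, hPd⟩ := hadj i j hij
    have hopen : IsOpen (⋃ i ∈ S, V i) := isOpen_biUnion fun i _ => hVo i
    have hinter : IsPathConnected ((⋃ i ∈ S, V i) ∩ V j) :=
      isPathConnected_of_dense_subset (hopen.inter (hVo j)) hPc
        (fun z hz => ⟨mem_biUnion hi (hPsub hz).1, (hPsub hz).2⟩)
        (inter_subset_right.trans hPd)
    have hnew : insert j S ∈ good := by
      refine ⟨insert_nonempty j S, ?_⟩
      rw [biUnion_insert, union_comm]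
      exact isSimplyConnected_union hopen (hVo j) hS.prop.2 (hVs j) hinter
    exact hS.le_of_ge hnew (subset_insert j S) (mem_insert j S)
  have := hS.prop.2
  rw [hSuniv] at this
  simpa using this

theorem simplyConnectedSpace_of_isSimplyConnected_univ {X : Type} [TopologicalSpace X]
    (h : IsSimplyConnected (Set.univ : Set X)) : SimplyConnectedSpace X :=
  (Homeomorph.Set.univ X).toHomotopyEquiv.simplyConnectedSpace_iff.1 h

/-- the hypercube graph is connected -/
theorem hypercube_connected {m : ℕ} (S : Set (Fin m → Bool)) (hS : S.Nonempty)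
    (h : ∀ p ∈ S, ∀ q : Fin m → Bool, (∃ l, q = Function.update p l (!(p l))) → q ∈ S) :
    S = Set.univ := by
  obtain ⟨p, hp⟩ := hS
  refine eq_univ_of_forall fun q => ?_
  have key : ∀ T : Finset (Fin m), (fun l => if l ∈ T then q l else p l) ∈ S := by
    intro T
    induction T using Finset.induction_on with
    | empty => simpa using hp
    | insert a T ha ih =>
      set r : Fin m → Bool := fun l => if l ∈ T then q l else p l with hr
      have hupd : (fun l => if l ∈ insert a T then q l else p l) = Function.update r a (q a) := by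
        funext l
        by_cases hl : l = a
        · subst hl
          simp
        · simp [hr, Finset.mem_insert, hl]
      rw [hupd]
      by_cases hqa : q a = r a
      · rw [hqa, Function.update_eq_self]
        exact ih
      · refine h r ih _ ⟨a, ?_⟩
        congr 1
        cases hq : q a <;> cases hra : r a <;> simp_all
  simpa using key Finset.univ

/-- a star-convex nonempty set is simply connected -/
theorem isSimplyConnected_of_starConvex {E : Type} [NormedAddCommGroup E] [NormedSpace ℝ E]
    {s : Set E} {x : E} (hx : x ∈ s) (hs : StarConvex ℝ x s) : IsSimplyConnected s := by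
  have : ContractibleSpace s := hs.contractibleSpace ⟨x, hx⟩
  exact SimplyConnectedSpace.ofContractible s

end Claimed.Open.R041
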