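/-
Result 041, sanity (package I of the Kummer K3 example): the Kummer surface is Hausdorff and compact.
-/
import Claimed.Open.R041.K3KummerPoints
import Claimed.Open.R041.K3Topology
import Claimed.Open.R041.K3Simply

open scoped Manifold ContDiff Topology
open Set

namespace Claimed.Open.R041
namespace Kummer

/-! ### Separation of points with different images in `ℂ²/G` -/

/-- The orbit of `z₀` under `G = Λ ⋊ {±1}`. -/
def orbit (z₀ : Cn 2) : Set (Cn 2) := {w | GEquiv w z₀}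

theorem isClosed_orbit (z₀ : Cn 2) : IsClosed (orbit z₀) := by
  have h1 : IsClosed {w : Cn 2 | w - z₀ ∈ Lat} :=
    isClosed_Lat.preimage (f := fun w : Cn 2 => w - z₀) (by fun_prop)
  have h2 : IsClosed {w : Cn 2 | w + z₀ ∈ Lat} :=
    isClosed_Lat.preimage (f := fun w : Cn 2 => w + z₀) (by fun_prop)
  exact h1.union h2

theorem orbit_nonempty (z₀ : Cn 2) : (orbit z₀).Nonempty := ⟨z₀, GEquiv.refl z₀⟩

theorem infDist_orbit_le {z₀ z z' : Cn 2} (h : GEquiv z z') :
    Metric.infDist z' (orbit z₀) ≤ Metric.infDist z (orbit z₀) := by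
  rw [Metric.le_infDist (orbit_nonempty z₀)]
  intro w hw
  rcases h with h | h
  · have hw' : w - (z - z') ∈ orbit z₀ := by
      refine GEquiv.trans (Or.inl ?_) hw
      have : w - (z - z') - w = -(z - z') := by abel
      rw [this]
      exact Lat.neg_mem h
    refine (Metric.infDist_le_dist_of_mem hw').trans (le_of_eq ?_)
    rw [dist_eq_norm, dist_eq_norm]
    congr 1
    abel
  · have hw' : (z + z') - w ∈ orbit z₀ := by
      refine GEquiv.trans (Or.inr ?_) hw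
      have : z + z' - w + w = z + z' := by abel
      rw [this]
      exact h
    refine (Metric.infDist_le_dist_of_mem hw').trans (le_of_eq ?_)
    rw [dist_eq_norm, dist_eq_norm, ← norm_neg]
    congr 1
    abel

theorem infDist_orbit_eq {z₀ z z' : Cn 2} (h : GEquiv z z') :
    Metric.infDist z (orbit z₀) = Metric.infDist z' (orbit z₀) :=
  le_antisymm (infDist_orbit_le h.symm) (infDist_orbit_le h)

theorem separated_of_not_GEquiv {x x' : Kum} (h : ¬GEquiv (lift x) (lift x')) :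
    ∃ u v : Set Kum, IsOpen u ∧ IsOpen v ∧ x ∈ u ∧ x' ∈ v ∧ Disjoint u v := by
  have hc : Continuous fun y : Kum => Metric.infDist (lift y) (orbit (lift x)) :=
    continuous_comp_lift (Φ := fun z => Metric.infDist z (orbit (lift x)))
      (Metric.continuous_infDist_pt _) (fun z z' hz => infDist_orbit_eq hz)
  refine separated_by_continuous hc ?_
  have h1 : Metric.infDist (lift x) (orbit (lift x)) = 0 :=
    Metric.infDist_zero_of_mem (GEquiv.refl _)
  have h2 : 0 < Metric.infDist (lift x') (orbit (lift x)) :=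
    ((isClosed_orbit _).notMem_iff_infDist_pos (orbit_nonempty _)).1 fun h' => h h'.symm
  simp only [h1]
  exact h2.ne

/-! ### Separation inside a chart -/

theorem separated_of_mem_source {X Y : Type} [TopologicalSpace X] [TopologicalSpace Y] [T2Space Y]
    (e : OpenPartialHomeomorph X Y) {x x' : X} (hx : x ∈ e.source) (hx' : x' ∈ e.source)
    (hne : x ≠ x') : ∃ u v : Set X, IsOpen u ∧ IsOpen v ∧ x ∈ u ∧ x' ∈ v ∧ Disjoint u v := by
  have h : e x ≠ e x' := fun h => hne (e.injOn hx hx' h)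
  obtain ⟨u, v, hu, hv, hxu, hxv, huv⟩ := t2_separation h
  refine ⟨e.source ∩ e ⁻¹' u, e.source ∩ e ⁻¹' v, e.isOpen_inter_preimage hu,
    e.isOpen_inter_preimage hv, ⟨hx, hxu⟩, ⟨hx', hxv⟩, ?_⟩
  rw [disjoint_left]
  rintro w ⟨-, hw1⟩ ⟨-, hw2⟩
  exact disjoint_left.1 huv hw1 hw2

theorem exc_mem_chA_source (μ : HalfLat) (κ : Fin 2) (t : ℂ) : exc μ κ t ∈ (chA μ κ).source :=
  ptA_mem_chA_source μ κ _

theorem exc_mem_chA_source_oth (μ : HalfLat) (κ : Fin 2) {t : ℂ} (ht : t ≠ 0) :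
    exc μ κ t ∈ (chA μ (oth κ)).source := by
  obtain ⟨hy', e⟩ := ptA_oth μ κ (mk2_zero_mem_DA t) (by simpa using ht)
  rw [exc, e]
  exact ptA_mem_chA_source μ (oth κ) hy'

theorem separated_exc_zero (μ : HalfLat) (κ : Fin 2) :
    ∃ u v : Set Kum, IsOpen u ∧ IsOpen v ∧ exc μ κ 0 ∈ u ∧ exc μ (oth κ) 0 ∈ v ∧ Disjoint u v := by
  have hopen : IsOpen {y : Cn 2 | ‖y 1‖ < 1} := by
    have h1 : Continuous fun y : Cn 2 => y 1 :=
      (EuclideanSpace.proj (𝕜 := ℂ) (1 : Fin 2)).continuous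
    exact isOpen_lt h1.norm continuous_const
  refine ⟨(chA μ κ).source ∩ chA μ κ ⁻¹' {y | ‖y 1‖ < 1},
    (chA μ (oth κ)).source ∩ chA μ (oth κ) ⁻¹' {y | ‖y 1‖ < 1},
    (chA μ κ).isOpen_inter_preimage hopen, (chA μ (oth κ)).isOpen_inter_preimage hopen,
    ⟨exc_mem_chA_source μ κ 0, ?_⟩, ⟨exc_mem_chA_source μ (oth κ) 0, ?_⟩, ?_⟩
  · rw [mem_preimage, exc, chA_ptA]
    simp
  · rw [mem_preimage, exc, chA_ptA]
    simp
  · rw [disjoint_left]
    rintro w ⟨hw1, hw2⟩ ⟨hw3, hw4⟩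
    have hmem : w ∈ (chA μ κ).symm '' DA' := by
      rw [← chA_source_inter]
      exact ⟨hw1, hw3⟩
    obtain ⟨y, ⟨hy, hy1⟩, rfl⟩ := hmem
    rw [chA_symm_apply μ κ hy] at hw2 hw4
    obtain ⟨hy', e⟩ := ptA_oth μ κ hy hy1
    rw [mem_preimage, chA_ptA] at hw2
    rw [mem_preimage, e, chA_ptA] at hw4
    have h2 : ‖y 1‖ < 1 := hw2
    have h4 : ‖(y 1)⁻¹‖ < 1 := hw4
    rw [norm_inv] at h4
    have hpos : 0 < ‖y 1‖ := norm_pos_iff.2 hy1
    have : 1 < ‖y 1‖⁻¹ := (one_lt_inv₀ hpos).2 h2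
    linarith

theorem separated_exc (μ : HalfLat) {κ κ' : Fin 2} {t t' : ℂ} (hne : exc μ κ t ≠ exc μ κ' t') :
    ∃ u v : Set Kum, IsOpen u ∧ IsOpen v ∧ exc μ κ t ∈ u ∧ exc μ κ' t' ∈ v ∧ Disjoint u v := by
  by_cases hκ : κ = κ'
  · subst hκ
    exact separated_of_mem_source (chA μ κ) (exc_mem_chA_source μ κ t) (exc_mem_chA_source μ κ t')
      hne
  · have hκ' : κ' = oth κ := eq_oth_of_ne hκ
    subst hκ'
    by_cases ht : t = 0
    · by_cases ht' : t' = 0
      · subst ht ht'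
        exact separated_exc_zero μ κ
      · have := exc_mem_chA_source_oth μ (oth κ) ht'
        rw [oth_oth] at this
        exact separated_of_mem_source (chA μ κ) (exc_mem_chA_source μ κ t) this hne
    · exact separated_of_mem_source (chA μ (oth κ)) (exc_mem_chA_source_oth μ κ ht)
        (exc_mem_chA_source μ (oth κ) t') hne

instance instT2SpaceKum : T2Space Kum := by
  refine ⟨fun x x' hne => ?_⟩
  by_cases hG : GEquiv (lift x) (lift x')
  swap
  · exact separated_of_not_GEquiv hG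
  rcases reg_or_exc x with ⟨z, hz, rfl⟩ | ⟨μ, κ, t, rfl⟩
  · rcases reg_or_exc x' with ⟨z', hz', rfl⟩ | ⟨μ', κ', t', rfl⟩
    · exfalso
      apply hne
      rw [reg_eq_reg]
      exact ((lift_reg z hz).symm.trans hG).trans (lift_reg z' hz')
    · exfalso
      have h1 : GEquiv z μ' := ((lift_reg z hz).symm.trans hG).trans (lift_exc μ' κ' t')
      exact h1.notMem_HalfLat hz μ'.2
  · rcases reg_or_exc x' with ⟨z', hz', rfl⟩ | ⟨μ', κ', t', rfl⟩
    · exfalso
      have h1 : GEquiv z' μ := ((lift_reg z' hz').symm.trans hG.symm).trans (lift_exc μ κ t)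
      exact h1.notMem_HalfLat hz' μ.2
    · have h1 : GEquiv (μ' : Cn 2) μ := ((lift_exc μ' κ' t').symm.trans hG.symm).trans (lift_exc μ κ t)
      have h2 : (μ' : Cn 2) - μ ∈ Lat := by
        rcases h1 with h1 | h1
        · exact h1
        · have := Lat.sub_mem h1 μ.2
          have e : (μ' : Cn 2) + μ - (μ + μ) = μ' - μ := by abel
          rwa [e] at this
      have h3 : exc μ' κ' t' = exc μ κ' t' := ptA_congr_Lat h2 κ' _
      rw [h3] at hne ⊢
      exact separated_exc μ hne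

/-! ### Compactness -/

/-- A compact part of the chart domain. -/
def KA : Set (Cn 2) := {y | ‖y 1‖ ≤ 1 ∧ sq (y 0) ≤ 1 / 8}

theorem norm_le_sq (w : ℂ) : ‖w‖ ≤ sq w := le_add_of_nonneg_right (abs_nonneg _)

theorem sq_le_two_norm (w : ℂ) : sq w ≤ 2 * ‖w‖ := by
  have := Complex.abs_re_le_norm w
  unfold sq
  linarith

theorem KA_subset_DA : KA ⊆ DA := by
  intro y hy
  refine ⟨hy.2.trans_lt (by norm_num), ?_⟩
  have h1 : ‖y 0 * y 1 ^ 2‖ ≤ ‖y 0‖ := by
    rw [norm_mul, norm_pow]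
    have : ‖y 1‖ ^ 2 ≤ 1 := pow_le_one₀ (norm_nonneg _) hy.1
    nlinarith [norm_nonneg (y 0)]
  have h2 := sq_le_two_norm (y 0 * y 1 ^ 2)
  have h3 := norm_le_sq (y 0)
  have h4 := hy.2
  linarith

theorem isCompact_KA : IsCompact KA := by
  have h0 : Continuous fun y : Cn 2 => y 0 := (EuclideanSpace.proj (𝕜 := ℂ) (0 : Fin 2)).continuous
  have h1 : Continuous fun y : Cn 2 => y 1 := (EuclideanSpace.proj (𝕜 := ℂ) (1 : Fin 2)).continuous
  have hcl : IsClosed KA :=
    (isClosed_le h1.norm continuous_const).inter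
      (isClosed_le (continuous_sq.comp h0) continuous_const)
  refine Metric.isCompact_of_isClosed_isBounded hcl ?_
  refine (Metric.isBounded_closedBall (x := (0 : Cn 2)) (r := 2)).subset ?_
  intro y hy
  rw [mem_closedBall_zero_iff]
  have h2 : ‖y‖ ^ 2 = ‖y 0‖ ^ 2 + ‖y 1‖ ^ 2 := norm_sq_eq_oth 0 y
  have h3 : ‖y 0‖ ≤ 1 / 8 := (norm_le_sq _).trans hy.2
  have h4 := hy.1
  have h5 := norm_nonneg (y 0)
  have h6 := norm_nonneg (y 1)
  have h7 := norm_nonneg y
  nlinarith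

theorem reg_mem_image_KA (z : Cn 2) (hz : z ∉ HalfLat) :
    ∃ (p : Fin 4 → Bool) (κ : Fin 2), reg z hz ∈ (chA (rep p) κ).symm '' KA := by
  obtain ⟨p, c, hc, hl⟩ := exists_rep_add z
  have hcube : c ∈ Cube := mem_Cube_iff_rc.2 fun l => (hc l).trans_lt (by norm_num)
  have hG : GEquiv z ((rep p : Cn 2) + c) := Or.inl hl
  have h0 : c ≠ 0 := by
    rintro rfl
    apply hG.notMem_HalfLat hz
    rw [add_zero]
    exact (rep p).2
  have hc' : ∀ j : Fin 2, |(c j).re| ≤ 1 / 4 ∧ |(c j).im| ≤ 1 / 4 :=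
    (forall_rc_iff (fun x => |x| ≤ 1 / 4) c).1 hc
  obtain ⟨κ, hκ⟩ : ∃ κ : Fin 2, ‖c (oth κ)‖ ≤ ‖c κ‖ := by
    rcases le_total ‖c 1‖ ‖c 0‖ with h | h
    · exact ⟨0, h⟩
    · exact ⟨1, h⟩
  have hκ0 : c κ ≠ 0 := by
    intro h
    rw [h, norm_zero] at hκ
    have h' : c (oth κ) = 0 := norm_le_zero_iff.1 hκ
    exact h0 (ext_oth κ h h')
  refine ⟨p, κ, mk2 (c κ ^ 2) (c (oth κ) / c κ), ⟨?_, ?_⟩, ?_⟩
  · simp only [mk2_one]
    rw [norm_div]
    exact div_le_one_of_le₀ hκ (norm_nonneg _)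
  · simp only [mk2_zero]
    rw [sq_sq]
    have h1 : (c κ).re ^ 2 ≤ 1 / 16 := by
      have := abs_le.1 (hc' κ).1
      nlinarith [this.1, this.2]
    have h2 : (c κ).im ^ 2 ≤ 1 / 16 := by
      have := abs_le.1 (hc' κ).2
      nlinarith [this.1, this.2]
    have := max_le h1 h2
    linarith
  · rw [chA_symm_apply (rep p) κ (coord_mem_DA κ hcube hκ0), ptA_coord (rep p) κ hcube hκ0,
      reg_eq_reg]
    exact hG.symm

theorem exc_mem_image_KA (μ : HalfLat) (κ : Fin 2) (t : ℂ) :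
    ∃ (p : Fin 4 → Bool) (κ' : Fin 2), exc μ κ t ∈ (chA (rep p) κ').symm '' KA := by
  obtain ⟨p, hp⟩ := exists_rep μ
  rcases le_or_gt ‖t‖ 1 with ht | ht
  · refine ⟨p, κ, mk2 0 t, ⟨by simpa using ht, by simp [sq]⟩, ?_⟩
    rw [chA_symm_apply (rep p) κ (mk2_zero_mem_DA t), exc, ptA_congr_Lat hp]
  · have ht0 : t ≠ 0 := by
      rintro rfl
      simp at ht
      linarith
    obtain ⟨hy', e⟩ := ptA_oth μ κ (mk2_zero_mem_DA t) (by simpa using ht0)
    refine ⟨p, oth κ, mk2 ((mk2 0 t) 0 * (mk2 0 t) 1 ^ 2) ((mk2 0 t) 1)⁻¹, ⟨?_, ?_⟩, ?_⟩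
    · simp only [mk2_one]
      rw [norm_inv]
      exact inv_le_one_of_one_le₀ ht.le
    · simp [sq]
    · rw [chA_symm_apply (rep p) (oth κ) hy', exc, e, ptA_congr_Lat hp]

instance instCompactSpaceKum : CompactSpace Kum := by
  refine ⟨?_⟩
  have h : (univ : Set Kum) = ⋃ (p : Fin 4 → Bool) (κ : Fin 2), (chA (rep p) κ).symm '' KA := by
    symm
    refine eq_univ_of_forall fun x => ?_
    simp only [mem_iUnion]
    rcases reg_or_exc x with ⟨z, hz, rfl⟩ | ⟨μ, κ, t, rfl⟩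
    · exact reg_mem_image_KA z hz
    · exact exc_mem_image_KA μ κ t
  rw [h]
  refine isCompact_iUnion fun p => isCompact_iUnion fun κ => ?_
  exact isCompact_KA.image_of_continuousOn
    ((chA (rep p) κ).continuousOn_symm.mono KA_subset_DA)

end Kummer
end Claimed.Open.R041
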