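import Claimed.Open.R041.K3Hessian

/-!
# Result 041, Kummer example, package F: the Levi form of `G(‖H‖²)`

For a holomorphic map `H` and a smooth real profile `G`,
`i∂∂̄ G(‖H‖²) (v, Jv) = 2 (G'(‖H‖²) ‖DH v‖² + G''(‖H‖²) |⟨H, DH v⟩|²)`.
-/

open scoped Manifold ContDiff Topology
open Set

namespace Claimed.Open.R041

/-! ### Package F: Levi form of `G(‖H‖²)` -/
section F

variable {d m : ℕ}

theorem contDiffOn_comp_normSq {V : Set (Cn d)} {H : Cn d → Cn m}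
    (hH : ContDiffOn ℂ ∞ H V) {I : Set ℝ} {G : ℝ → ℝ} (hG : ContDiffOn ℝ ∞ G I)
    (hHI : ∀ y ∈ V, ‖H y‖ ^ 2 ∈ I) : ContDiffOn ℝ ∞ (fun z => G (‖H z‖ ^ 2)) V :=
  hG.comp ((hH.restrict_scalars ℝ).norm_sq ℂ) hHI

/-- The real inner product of `ℂ^m` is the real part of the hermitian one. -/
theorem real_inner_Cn (x y : Cn m) : inner ℝ x y = (inner ℂ x y).re := by
  simp [PiLp.inner_apply, Complex.inner, mul_comm]

/-- The first derivative of `G(‖H‖²)`. -/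
theorem fderiv_comp_normSq {V : Set (Cn d)} (hV : IsOpen V) {H : Cn d → Cn m}
    (hH : ContDiffOn ℂ ∞ H V) {I : Set ℝ} (hI : IsOpen I) {G : ℝ → ℝ} (hG : ContDiffOn ℝ ∞ G I)
    (hHI : ∀ y ∈ V, ‖H y‖ ^ 2 ∈ I) {z : Cn d} (hz : z ∈ V) (a : Cn d) :
    fderiv ℝ (fun z => G (‖H z‖ ^ 2)) z a =
      deriv G (‖H z‖ ^ 2) * (2 * (inner ℂ (H z) (fderiv ℂ H z a)).re) := by
  have h1 : HasFDerivAt H ((fderiv ℂ H z).restrictScalars ℝ) z :=
    ((hH.contDiffAt (hV.mem_nhds hz)).differentiableAt (by simp)).hasFDerivAt.restrictScalars ℝ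
  have h2 := h1.norm_sq
  have h3 : HasDerivAt G (deriv G (‖H z‖ ^ 2)) (‖H z‖ ^ 2) :=
    ((hG.contDiffAt (hI.mem_nhds (hHI z hz))).differentiableAt (by simp)).hasDerivAt
  have h4 := h3.comp_hasFDerivAt z h2
  have h5 : (fun z => G (‖H z‖ ^ 2)) = G ∘ (fun z => ‖H z‖ ^ 2) := rfl
  rw [h5, h4.fderiv]
  simp [real_inner_Cn]

/-- The second derivative of `G(‖H‖²)` on the diagonal. -/
theorem hess_comp_normSq {V : Set (Cn d)} (hV : IsOpen V) {H : Cn d → Cn m}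
    (hH : ContDiffOn ℂ ∞ H V) {I : Set ℝ} (hI : IsOpen I) {G : ℝ → ℝ} (hG : ContDiffOn ℝ ∞ G I)
    (hHI : ∀ y ∈ V, ‖H y‖ ^ 2 ∈ I) {y : Cn d} (hy : y ∈ V) (a : Cn d) :
    fderiv ℝ (fderiv ℝ (fun z => G (‖H z‖ ^ 2))) y a a =
      4 * deriv (deriv G) (‖H y‖ ^ 2) * (inner ℂ (H y) (fderiv ℂ H y a)).re ^ 2 +
      2 * deriv G (‖H y‖ ^ 2) *
        ((inner ℂ (H y) (fderiv ℂ (fderiv ℂ H) y a a)).re + ‖fderiv ℂ H y a‖ ^ 2) := by
  set ψ : Cn d → ℝ := fun z => G (‖H z‖ ^ 2) with hψdef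
  have hψ : ContDiffOn ℝ ∞ ψ V := contDiffOn_comp_normSq hH hG hHI
  set γ : ℝ → Cn d := fun t => y + t • a with hγdef
  have hγ0 : γ 0 = y := by simp [hγdef]
  have hγ : HasDerivAt γ a 0 := by
    have h := ((hasDerivAt_id (0 : ℝ)).smul_const a).const_add y
    rw [one_smul] at h
    exact h
  -- left-hand side as a derivative along the line
  have hL : HasDerivAt (fun t => fderiv ℝ ψ (γ t) a) (fderiv ℝ (fderiv ℝ ψ) y a a) 0 := by
    have h1 : HasFDerivAt (fderiv ℝ ψ) (fderiv ℝ (fderiv ℝ ψ) y) (γ 0) := by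
      rw [hγ0]; exact (differentiableAt_fderiv hV hψ hy).hasFDerivAt
    have h2 : HasDerivAt (fun t => fderiv ℝ ψ (γ t)) (fderiv ℝ (fderiv ℝ ψ) y a) 0 :=
      h1.comp_hasDerivAt 0 hγ
    have h3 := h2.clm_apply (hasDerivAt_const (0 : ℝ) a)
    simpa using h3
  -- the line stays in `V`
  have hev : ∀ᶠ t in 𝓝 (0 : ℝ), γ t ∈ V := by
    have : ContinuousAt γ 0 := hγ.continuousAt
    exact this.eventually_mem (by rw [hγ0]; exact hV.mem_nhds hy)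
  have hEq : (fun t => fderiv ℝ ψ (γ t) a) =ᶠ[𝓝 0] fun t =>
      deriv G (‖H (γ t)‖ ^ 2) * (2 * (inner ℂ (H (γ t)) (fderiv ℂ H (γ t) a)).re) :=
    hev.mono fun t ht => fderiv_comp_normSq hV hH hI hG hHI ht a
  -- derivatives of the pieces
  have hh : HasDerivAt (fun t => H (γ t)) (fderiv ℂ H y a) 0 := by
    have h1 : HasFDerivAt H ((fderiv ℂ H y).restrictScalars ℝ) (γ 0) := by
      rw [hγ0]
      exact ((hH.contDiffAt (hV.mem_nhds hy)).differentiableAt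
        (by simp)).hasFDerivAt.restrictScalars ℝ
    exact h1.comp_hasDerivAt 0 hγ
  have hl : HasDerivAt (fun t => fderiv ℂ H (γ t) a) (fderiv ℂ (fderiv ℂ H) y a a) 0 := by
    have h0 : ContDiffOn ℂ ∞ (fderiv ℂ H) V := hH.fderiv_of_isOpen hV (by simp)
    have h1 : HasFDerivAt (fderiv ℂ H) ((fderiv ℂ (fderiv ℂ H) y).restrictScalars ℝ) (γ 0) := by
      rw [hγ0]
      exact ((h0.contDiffAt (hV.mem_nhds hy)).differentiableAt
        (by simp)).hasFDerivAt.restrictScalars ℝ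
    have h2 : HasDerivAt (fun t => fderiv ℂ H (γ t)) (fderiv ℂ (fderiv ℂ H) y a) 0 :=
      h1.comp_hasDerivAt 0 hγ
    have h3 : HasDerivAt (fun t => (fderiv ℂ H (γ t)).restrictScalars ℝ)
        ((fderiv ℂ (fderiv ℂ H) y a).restrictScalars ℝ) 0 :=
      (ContinuousLinearMap.restrictScalarsL ℂ (Cn d) (Cn m) ℝ ℝ).hasFDerivAt.comp_hasDerivAt 0 h2
    have h4 := h3.clm_apply (hasDerivAt_const (0 : ℝ) a)
    simpa using h4
  have hn : HasDerivAt (fun t => ‖H (γ t)‖ ^ 2)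
      (2 * (inner ℂ (H y) (fderiv ℂ H y a)).re) 0 := by
    have := hh.norm_sq
    rw [hγ0, real_inner_Cn] at this
    exact this
  have hq : HasDerivAt (fun t => (inner ℂ (H (γ t)) (fderiv ℂ H (γ t) a)).re)
      ((inner ℂ (H y) (fderiv ℂ (fderiv ℂ H) y a a)).re + ‖fderiv ℂ H y a‖ ^ 2) 0 := by
    have h1 := hh.inner ℂ hl
    rw [hγ0] at h1
    have h2 := Complex.reCLM.hasFDerivAt.comp_hasDerivAt 0 h1
    have h3 : Complex.reCLM (inner ℂ (H y) (fderiv ℂ (fderiv ℂ H) y a a) +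
        inner ℂ (fderiv ℂ H y a) (fderiv ℂ H y a)) =
        (inner ℂ (H y) (fderiv ℂ (fderiv ℂ H) y a a)).re + ‖fderiv ℂ H y a‖ ^ 2 := by
      rw [inner_self_eq_norm_sq_to_K]
      simp [← Complex.ofReal_pow]
    rw [h3] at h2
    exact h2
  have hG' : HasDerivAt (deriv G) (deriv (deriv G) (‖H y‖ ^ 2)) (‖H (γ 0)‖ ^ 2) := by
    rw [hγ0]
    have h0 : ContDiffOn ℝ ∞ (deriv G) I := hG.deriv_of_isOpen hI (by simp)
    exact ((h0.contDiffAt (hI.mem_nhds (hHI y hy))).differentiableAt (by simp)).hasDerivAt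
  have hG'n : HasDerivAt (fun t => deriv G (‖H (γ t)‖ ^ 2))
      (deriv (deriv G) (‖H y‖ ^ 2) * (2 * (inner ℂ (H y) (fderiv ℂ H y a)).re)) 0 :=
    HasDerivAt.comp (h₂ := deriv G) (h := fun t => ‖H (γ t)‖ ^ 2) 0 hG' hn
  have hR := hG'n.mul (hq.const_mul 2)
  have := (hR.congr_of_eventuallyEq hEq).unique hL
  rw [← this, hγ0]
  ring

theorem ddbar_comp_normSq {V : Set (Cn d)} (hV : IsOpen V) {H : Cn d → Cn m}
    (hH : ContDiffOn ℂ ∞ H V) {I : Set ℝ} (hI : IsOpen I) {G : ℝ → ℝ} (hG : ContDiffOn ℝ ∞ G I)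
    (hHI : ∀ y ∈ V, ‖H y‖ ^ 2 ∈ I) {y : Cn d} (hy : y ∈ V) (v : Cn d) :
    ddbar (d := d) (fun z => G (‖H z‖ ^ 2)) y ![v, Complex.I • v] =
      2 * (deriv G (‖H y‖ ^ 2) * ‖fderiv ℂ H y v‖ ^ 2 +
        deriv (deriv G) (‖H y‖ ^ 2) * ‖inner ℂ (H y) (fderiv ℂ H y v)‖ ^ 2) := by
  rw [ddbar_apply_self hV (contDiffOn_comp_normSq hH hG hHI) hy,
    hess_comp_normSq hV hH hI hG hHI hy v, hess_comp_normSq hV hH hI hG hHI hy (Complex.I • v)]
  simp only [map_smul, smul_apply, inner_smul_right, norm_smul,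
    Complex.norm_I, one_mul, smul_smul, Complex.I_mul_I, neg_one_smul, inner_neg_right]
  set w : ℂ := inner ℂ (H y) (fderiv ℂ H y v) with hw
  have h1 : ‖w‖ ^ 2 = w.re ^ 2 + w.im ^ 2 := by
    rw [Complex.sq_norm, Complex.normSq_apply]; ring
  rw [h1]
  simp only [Complex.mul_re, Complex.I_re, Complex.I_im, Complex.neg_re]
  ring

end F

end Claimed.Open.R041
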