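/-
Result 041, sanity: a tube around a smooth fibre of the elliptic fibration of the Kummer surface.
Part of the checked example (a Kummer K3 surface) for the hypotheses of `StrongSYZ`.
-/
import Claimed.Open.R041.K3Compact
import Claimed.Open.R041.K3KummerTrans
import Claimed.Open.R041.K3Simply
import Claimed.Open.R041.K3Potential
import Claimed.Open.R041.K3Levi

open scoped Manifold ContDiff Topology
open Set

namespace Claimed.Open.R041

/-- A function which is analytic in holomorphic charts is holomorphic. -/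
theorem holomorphicOn_of_chart {d : ℕ} {X : Type} [TopologicalSpace X] [ChartedSpace (Cn d) X]
    {V : Type} [NormedAddCommGroup V] [NormedSpace ℂ V] {f : X → V} {U : Set X}
    (h : ∀ x ∈ U, ∃ e ∈ IsManifold.maximalAtlas 𝓘(ℂ, Cn d) ω X, x ∈ e.source ∧
      ContDiffAt ℂ ω (f ∘ e.symm) (e x)) : HolomorphicOn d f U := by
  intro x hx
  obtain ⟨e, he, hxe, hf⟩ := h x hx
  have h1 : ContMDiffAt 𝓘(ℂ, Cn d) 𝓘(ℂ, V) ω ((f ∘ e.symm) ∘ e) x :=
    hf.contMDiffAt.comp x (contMDiffAt_of_mem_maximalAtlas he hxe)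
  have h2 : f =ᶠ[𝓝 x] (f ∘ e.symm) ∘ e := by
    filter_upwards [e.open_source.mem_nhds hxe] with w hw
    simp only [Function.comp, e.left_inv hw]
  exact (h1.congr_of_eventuallyEq h2).contMDiffWithinAt

namespace Kummer

/-! ### A tube around a smooth fibre of the elliptic fibration `z ↦ z₁` -/

/-- The base point `(1+i)/4` of the second factor. -/
noncomputable def w0 : ℂ := ⟨1 / 4, 1 / 4⟩

/-- The strip `|z₁ - w₀| < 1/4` in `ℂ²`. -/
def OO : Set (Cn 2) := {z | ‖z 1 - w0‖ < 1 / 4}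

theorem isOpen_OO : IsOpen OO := by
  have h1 : Continuous fun y : Cn 2 => y 1 := (EuclideanSpace.proj (𝕜 := ℂ) (1 : Fin 2)).continuous
  exact isOpen_lt (by fun_prop) continuous_const

theorem re_mem_of_mem_OO {z : Cn 2} (hz : z ∈ OO) : 0 < (z 1).re ∧ (z 1).re < 1 / 2 := by
  have h := (Complex.abs_re_le_norm (z 1 - w0)).trans_lt hz
  simp only [Complex.sub_re, w0] at h
  rw [abs_lt] at h
  constructor <;> linarith [h.1, h.2]

theorem im_mem_of_mem_OO {z : Cn 2} (hz : z ∈ OO) : 0 < (z 1).im ∧ (z 1).im < 1 / 2 := by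
  have h := (Complex.abs_im_le_norm (z 1 - w0)).trans_lt hz
  simp only [Complex.sub_im, w0] at h
  rw [abs_lt] at h
  constructor <;> linarith [h.1, h.2]

theorem not_int_of_mem_Ioo {x : ℝ} (h0 : 0 < x) (h1 : x < 1) : ¬ ∃ m : ℤ, x = m := by
  rintro ⟨m, rfl⟩
  have a : (0 : ℤ) < m := by exact_mod_cast h0
  have b : m < (1 : ℤ) := by exact_mod_cast h1
  omega

theorem notMem_HalfLat_of_mem_OO {z : Cn 2} (hz : z ∈ OO) : z ∉ HalfLat := by
  intro h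
  have h1 := ((mem_Lat.1 (mem_HalfLat.1 h)) 1).1
  have h2 := re_mem_of_mem_OO hz
  apply not_int_of_mem_Ioo (x := (z 1).re + (z 1).re) (by linarith [h2.1]) (by linarith [h2.2])
  simpa using h1

theorem coord_eq_of_GEquiv {z z' : Cn 2} (hz : z ∈ OO) (hz' : z' ∈ OO) (h : GEquiv z z') :
    z 1 = z' 1 := by
  have a := re_mem_of_mem_OO hz
  have a' := re_mem_of_mem_OO hz'
  have b := im_mem_of_mem_OO hz
  have b' := im_mem_of_mem_OO hz'
  rcases h with h | h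
  · have h1 := (mem_Lat.1 h) 1
    simp only [PiLp.sub_apply, Complex.sub_re, Complex.sub_im] at h1
    apply Complex.ext
    · have := int_eq_zero_of_abs_lt_one h1.1 (by rw [abs_lt]; constructor <;> linarith [a.1, a.2, a'.1, a'.2])
      linarith
    · have := int_eq_zero_of_abs_lt_one h1.2 (by rw [abs_lt]; constructor <;> linarith [b.1, b.2, b'.1, b'.2])
      linarith
  · exfalso
    have h1 := ((mem_Lat.1 h) 1).1
    apply not_int_of_mem_Ioo (x := (z 1).re + (z' 1).re) (by linarith [a.1, a'.1])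
      (by linarith [a.2, a'.2])
    simpa using h1

/-- The tube. -/
def U1 : Set Kum := regT '' OO

open Classical in
/-- The holomorphic coordinate `ζ = z₁ - w₀` transversal to the fibres, on the tube. -/
noncomputable def zeta (x : Kum) : ℂ :=
  if h : ∃ z ∈ OO, regT z = x then h.choose 1 - w0 else 0

theorem regT_eq_regT_iff {z z' : Cn 2} (hz : z ∉ HalfLat) (hz' : z' ∉ HalfLat) :
    regT z = regT z' ↔ GEquiv z z' := by
  rw [regT_eq hz, regT_eq hz', reg_eq_reg]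

theorem zeta_regT {z : Cn 2} (hz : z ∈ OO) : zeta (regT z) = z 1 - w0 := by
  have h : ∃ z' ∈ OO, regT z' = regT z := ⟨z, hz, rfl⟩
  rw [zeta, dif_pos h]
  have h1 := h.choose_spec
  rw [coord_eq_of_GEquiv h1.1 hz ((regT_eq_regT_iff (notMem_HalfLat_of_mem_OO h1.1)
    (notMem_HalfLat_of_mem_OO hz)).1 h1.2)]

theorem chZ_symm_eq_regT {z₀ : Cn 2} (h : z₀ ∉ HalfLat) {y : Cn 2}
    (hy : y ∈ Metric.ball z₀ (rad z₀)) : (chZ z₀ h).symm y = regT y := by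
  rw [chZ_symm_apply h hy, regT_eq]

theorem isOpen_regT_image {O : Set (Cn 2)} (hO : IsOpen O) (hOH : ∀ z ∈ O, z ∉ HalfLat) :
    IsOpen (regT '' O) := by
  rw [isOpen_iff_mem_nhds]
  rintro _ ⟨z, hz, rfl⟩
  have hzH := hOH z hz
  have h1 : IsOpen ((chZ z hzH).symm '' (O ∩ Metric.ball z (rad z))) :=
    (chZ z hzH).symm.isOpen_image_of_subset_source (hO.inter Metric.isOpen_ball) inter_subset_right
  refine Filter.mem_of_superset (h1.mem_nhds ⟨z, ⟨hz, Metric.mem_ball_self (rad_pos hzH)⟩,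
    chZ_symm_eq_regT hzH (Metric.mem_ball_self (rad_pos hzH))⟩) ?_
  rintro _ ⟨w, ⟨hw1, hw2⟩, rfl⟩
  exact ⟨w, hw1, (chZ_symm_eq_regT hzH hw2).symm⟩

theorem isOpen_U1 : IsOpen U1 := isOpen_regT_image isOpen_OO fun _ => notMem_HalfLat_of_mem_OO

theorem zeta_comp_chZ_symm {z : Cn 2} (hz : z ∈ OO) :
    (zeta ∘ (chZ z (notMem_HalfLat_of_mem_OO hz)).symm) =ᶠ[𝓝 z] fun w => w 1 - w0 := by
  have hzH := notMem_HalfLat_of_mem_OO hz
  filter_upwards [isOpen_OO.mem_nhds hz, Metric.ball_mem_nhds z (rad_pos hzH)] with w hw1 hw2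
  simp only [Function.comp]
  rw [chZ_symm_eq_regT hzH hw2, zeta_regT hw1]

theorem regT_mem_chZ_source {z : Cn 2} (hz : z ∉ HalfLat) : regT z ∈ (chZ z hz).source := by
  rw [regT_eq hz]
  exact reg_mem_chZ_source hz (Metric.mem_ball_self (rad_pos hz))

theorem chZ_regT {z : Cn 2} (hz : z ∉ HalfLat) : chZ z hz (regT z) = z := by
  rw [regT_eq hz]
  exact chZ_reg hz (Metric.mem_ball_self (rad_pos hz))

theorem holomorphicOn_zeta : HolomorphicOn 2 zeta U1 := by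
  apply holomorphicOn_of_chart
  rintro _ ⟨z, hz, rfl⟩
  have hzH := notMem_HalfLat_of_mem_OO hz
  refine ⟨chZ z hzH, atlas.chart_mem_maximalAtlas _, regT_mem_chZ_source hzH, ?_⟩
  rw [chZ_regT hzH]
  have h1 : ContDiffAt ℂ ω (fun w : Cn 2 => w 1 - w0) z :=
    ((EuclideanSpace.proj (𝕜 := ℂ) (1 : Fin 2)).contDiff.sub contDiff_const).contDiffAt
  exact h1.congr_of_eventuallyEq (zeta_comp_chZ_symm hz)

/-- Every point of `ℂ²` can be moved by the lattice so that the first coordinate lies in the closed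
unit square, without changing the second coordinate. -/
theorem exists_sub_mem_Lat (z : Cn 2) : ∃ z' : Cn 2, z - z' ∈ Lat ∧ z' 1 = z 1 ∧
    (z' 0).re ∈ Icc (0 : ℝ) 1 ∧ (z' 0).im ∈ Icc (0 : ℝ) 1 := by
  refine ⟨mk2 ⟨Int.fract (z 0).re, Int.fract (z 0).im⟩ (z 1), ?_, rfl, ?_, ?_⟩
  · rw [mem_Lat]
    intro j
    fin_cases j
    · exact ⟨⟨⌊(z 0).re⌋, by simp⟩, ⟨⌊(z 0).im⌋, by simp⟩⟩
    · exact ⟨⟨0, by simp⟩, ⟨0, by simp⟩⟩
  · exact ⟨Int.fract_nonneg _, (Int.fract_lt_one _).le⟩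
  · exact ⟨Int.fract_nonneg _, (Int.fract_lt_one _).le⟩

/-- The compact set whose image is the closed tube. -/
def KT (u : ℝ) : Set (Cn 2) :=
  {z | (z 0).re ∈ Icc (0 : ℝ) 1 ∧ (z 0).im ∈ Icc (0 : ℝ) 1 ∧ ‖z 1 - w0‖ ^ 2 ≤ u}

theorem isCompact_KT (u : ℝ) : IsCompact (KT u) := by
  have h0 : Continuous fun y : Cn 2 => y 0 := (EuclideanSpace.proj (𝕜 := ℂ) (0 : Fin 2)).continuous
  have h1 : Continuous fun y : Cn 2 => y 1 := (EuclideanSpace.proj (𝕜 := ℂ) (1 : Fin 2)).continuous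
  have hcl : IsClosed (KT u) := by
    refine IsClosed.inter ?_ (IsClosed.inter ?_ ?_)
    · exact isClosed_Icc.preimage (Complex.continuous_re.comp h0)
    · exact isClosed_Icc.preimage (Complex.continuous_im.comp h0)
    · exact isClosed_le (f := fun z : Cn 2 => ‖z 1 - w0‖ ^ 2) (by fun_prop) continuous_const
  refine Metric.isCompact_of_isClosed_isBounded hcl ?_
  rw [isBounded_iff_forall_norm_le]
  refine ⟨Real.sqrt (2 + (Real.sqrt |u| + 1) ^ 2), fun z hz => ?_⟩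
  apply Real.le_sqrt_of_sq_le
  rw [EuclideanSpace.norm_sq_eq, Fin.sum_univ_two]
  obtain ⟨⟨a1, a2⟩, ⟨b1, b2⟩, c⟩ := hz
  have e0 : ‖z 0‖ ^ 2 ≤ 2 := by
    rw [Complex.sq_norm, Complex.normSq_apply]; nlinarith
  have e1 : ‖z 1‖ ≤ Real.sqrt |u| + 1 := by
    have h2 : ‖z 1 - w0‖ ≤ Real.sqrt |u| :=
      Real.le_sqrt_of_sq_le (c.trans (le_abs_self u))
    have h3 : ‖w0‖ ≤ 1 := by
      have : ‖w0‖ ^ 2 ≤ 1 ^ 2 := by
        rw [Complex.sq_norm, Complex.normSq_apply]; norm_num [w0]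
      exact le_of_sq_le_sq this (by norm_num)
    calc ‖z 1‖ = ‖(z 1 - w0) + w0‖ := by rw [sub_add_cancel]
      _ ≤ ‖z 1 - w0‖ + ‖w0‖ := norm_add_le _ _
      _ ≤ _ := by linarith
  have e2 : ‖z 1‖ ^ 2 ≤ (Real.sqrt |u| + 1) ^ 2 := pow_le_pow_left₀ (norm_nonneg _) e1 2
  linarith

theorem KT_subset_OO {u : ℝ} (hu : u < 1 / 16) : KT u ⊆ OO := by
  intro z hz
  have : ‖z 1 - w0‖ ^ 2 < (1 / 4) ^ 2 := by
    have := hz.2.2; norm_num; linarith
  exact lt_of_pow_lt_pow_left₀ 2 (by norm_num) this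

theorem tube_eq {u : ℝ} (hu : u < 1 / 16) : {x | x ∈ U1 ∧ ‖zeta x‖ ^ 2 ≤ u} = regT '' KT u := by
  ext x
  constructor
  · rintro ⟨⟨z, hz, rfl⟩, h2⟩
    rw [zeta_regT hz] at h2
    obtain ⟨z', h1, h3, h4, h5⟩ := exists_sub_mem_Lat z
    refine ⟨z', ⟨h4, h5, by rw [h3]; exact h2⟩, ?_⟩
    have hz' : z' ∈ OO := by change ‖z' 1 - w0‖ < 1 / 4; rw [h3]; exact hz
    exact ((regT_eq_regT_iff (notMem_HalfLat_of_mem_OO hz) (notMem_HalfLat_of_mem_OO hz')).2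
      (Or.inl h1)).symm
  · rintro ⟨z, hz, rfl⟩
    have hzO := KT_subset_OO hu hz
    exact ⟨⟨z, hzO, rfl⟩, by rw [zeta_regT hzO]; exact hz.2.2⟩

theorem isClosed_tube {u : ℝ} (hu : u < 1 / 16) : IsClosed {x | x ∈ U1 ∧ ‖zeta x‖ ^ 2 ≤ u} := by
  rw [tube_eq hu]
  apply IsCompact.isClosed
  apply (isCompact_KT u).image_of_continuousOn
  exact continuousOn_regT.mono fun z hz => notMem_HalfLat_of_mem_OO (KT_subset_OO hu hz)

/-! ### The Levi form of `K(|ζ|²)` -/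

/-- `z₁ - w₀`, as a vector in `ℂ¹`. -/
noncomputable def H3 (w : Cn 2) : Cn 1 := !₂[w 1 - w0]

theorem norm_H3_sq (w : Cn 2) : ‖H3 w‖ ^ 2 = ‖w 1 - w0‖ ^ 2 := by
  rw [EuclideanSpace.norm_sq_eq, Fin.sum_univ_one]
  rfl

theorem contDiff_H3 : ContDiff ℂ ∞ H3 := by
  rw [contDiff_euclidean]
  intro i
  fin_cases i
  exact (EuclideanSpace.proj (𝕜 := ℂ) (1 : Fin 2)).contDiff.sub contDiff_const

theorem fderiv_H3_zero (y w : Cn 2) : (fderiv ℂ H3 y w) 0 = w 1 := by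
  have hd : DifferentiableAt ℂ H3 y := contDiff_H3.differentiable (by simp) y
  have h1 := ((EuclideanSpace.proj (𝕜 := ℂ) (0 : Fin 1)).hasFDerivAt (x := H3 y)).comp y
    hd.hasFDerivAt
  have h2 : (⇑(EuclideanSpace.proj (𝕜 := ℂ) (0 : Fin 1)) ∘ H3) =
      fun z : Cn 2 => (EuclideanSpace.proj (𝕜 := ℂ) (1 : Fin 2)) z - w0 := by
    funext z; rfl
  rw [h2] at h1
  have h3 := h1.unique ((EuclideanSpace.proj (𝕜 := ℂ) (1 : Fin 2)).hasFDerivAt.sub_const w0)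
  have := congrArg (fun L : Cn 2 →L[ℂ] ℂ => L w) h3
  simpa using this

theorem ddbar_K_flat {K : ℝ → ℝ} (hK : ContDiff ℝ ∞ K) (z v : Cn 2) :
    ddbar (d := 2) (fun w : Cn 2 => K (‖w 1 - w0‖ ^ 2)) z ![v, Complex.I • v] =
      2 * (deriv K (‖z 1 - w0‖ ^ 2) + ‖z 1 - w0‖ ^ 2 * deriv (deriv K) (‖z 1 - w0‖ ^ 2)) *
        ‖v 1‖ ^ 2 := by
  have e : (fun w : Cn 2 => K (‖w 1 - w0‖ ^ 2)) = fun w => K (‖H3 w‖ ^ 2) := by
    funext w; rw [norm_H3_sq]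
  rw [e, ddbar_comp_normSq (I := univ) isOpen_univ contDiff_H3.contDiffOn isOpen_univ hK.contDiffOn
    (fun _ _ => mem_univ _) (mem_univ z), norm_H3_sq]
  set X := fderiv ℂ H3 z v with hX
  have e1 : ‖X‖ ^ 2 = ‖v 1‖ ^ 2 := by
    rw [EuclideanSpace.norm_sq_eq, Fin.sum_univ_one, hX, fderiv_H3_zero]
  have e2 : ‖inner ℂ (H3 z) X‖ ^ 2 = ‖z 1 - w0‖ ^ 2 * ‖v 1‖ ^ 2 := by
    rw [PiLp.inner_apply, Fin.sum_univ_one, hX, fderiv_H3_zero]
    have : (H3 z) 0 = z 1 - w0 := rfl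
    rw [this, RCLike.inner_apply, norm_mul, RCLike.norm_conj, mul_pow, mul_comm]
  rw [e1, e2]
  ring

theorem contMDiffOn_K_zeta {K : ℝ → ℝ} (hK : ContDiff ℝ ∞ K) :
    ContMDiffOn 𝓘(ℝ, Cn 2) 𝓘(ℝ, ℝ) ∞ (fun y => K (‖zeta y‖ ^ 2)) U1 := by
  have h1 : ContMDiffOn 𝓘(ℝ, Cn 2) 𝓘(ℝ, ℂ) ∞ zeta U1 :=
    (contMDiffOn_real_of_complex holomorphicOn_zeta).of_le le_top
  have h2 : ContDiff ℝ ∞ fun w : ℂ => K (‖w‖ ^ 2) := hK.comp (contDiff_norm_sq ℝ)
  exact h2.contMDiff.comp_contMDiffOn h1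

/-- `i∂∂̄ K(|ζ|²) (v, Jv) = 2 (K' + u K'')(u) |dζ(v)|²`, `u = |ζ|²`. -/
theorem ddbar_K_zeta_apply {K : ℝ → ℝ} (hK : ContDiff ℝ ∞ K) {z : Cn 2} (hz : z ∈ OO) (v : Cn 2) :
    ddbar (d := 2) (fun y => K (‖zeta y‖ ^ 2)) (regT z) ![v, Complex.I • v] =
      2 * (deriv K (‖z 1 - w0‖ ^ 2) + ‖z 1 - w0‖ ^ 2 * deriv (deriv K) (‖z 1 - w0‖ ^ 2)) *
        ‖(diffAt ℂ (d := 2) (chZ z (notMem_HalfLat_of_mem_OO hz)) (regT z) v) 1‖ ^ 2 := by
  have hzH := notMem_HalfLat_of_mem_OO hz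
  rw [ddbar_apply_chart isOpen_U1 (contMDiffOn_K_zeta hK) ⟨z, hz, rfl⟩
    (atlas.chart_mem_maximalAtlas (.inr ⟨z, hzH⟩)) (regT_mem_chZ_source hzH), map_smul]
  change ddbar (d := 2) ((fun y => K (‖zeta y‖ ^ 2)) ∘ (chZ z hzH).symm) (chZ z hzH (regT z)) _ = _
  rw [chZ_regT hzH]
  have h1 : ((fun y => K (‖zeta y‖ ^ 2)) ∘ (chZ z hzH).symm) =ᶠ[𝓝 z]
      fun w : Cn 2 => K (‖w 1 - w0‖ ^ 2) := by
    filter_upwards [zeta_comp_chZ_symm hz] with w hw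
    simp only [Function.comp] at hw ⊢
    rw [hw]
  rw [ddbar_congr h1, ddbar_K_flat hK]

end Kummer

end Claimed.Open.R041
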