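/-
Result 041, sanity: a nonzero, nef, isotropic first Chern class on the Kummer surface.
Part of the checked example (a Kummer K3 surface) for the hypotheses of `StrongSYZ`.
-/
import Claimed.Open.R041.K3Tube
import Claimed.Open.R041.K3Kahler
import Claimed.Open.R041.K3Pairing

open scoped Manifold ContDiff Topology
open Set

namespace Claimed.Open.R041

namespace Kummer

/-- The properties of the Chern form of the line bundle of a fibre. -/
structure IsFibreForm (Θ : Form ℝ 2 Kum ℝ 2) : Prop where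
  invariant : ∀ x, IsJInv (Θ x)
  rankOne : ∀ x, ∃ (g : ℝ) (ℓ : Cn 2 →L[ℂ] ℂ), 0 ≤ g ∧ ∀ v, Θ x ![v, Complex.I • v] = g * ‖ℓ v‖ ^ 2
  pos : ∃ x v, 0 < Θ x ![v, Complex.I • v]

theorem exists_fibre_bundle : ∃ (L : HolLineBundle 2 Kum) (h : L.HermitianMetric)
    (Θ : closedForms 2 Kum 2), h.IsChernForm Θ.1 ∧ IsFibreForm Θ.1 := by
  obtain ⟨C, K, hK, -, hK1, hKs, u, hu, hKp⟩ :=
    exists_bump_profile (u₀ := 1 / 100) (u₁ := 1 / 25) (by norm_num) (by norm_num)
  obtain ⟨L, h, Θ, hΘ, hΘ1, hΘ0⟩ := exists_lineBundle_of_tube isOpen_U1 holomorphicOn_zeta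
    (u₁ := 1 / 25) (by norm_num) (isClosed_tube (by norm_num)) hK hK1
  have hpi : (0 : ℝ) < 1 / (2 * Real.pi) := by positivity
  refine ⟨L, h, Θ, hΘ, ?_, ?_, ?_⟩
  · intro x a b
    by_cases hx : x ∈ U1
    · rw [hΘ1 x hx]
      simp only [ContinuousAlternatingMap.smul_apply]
      rw [ddbar_invariant_mfd isOpen_U1 (contMDiffOn_K_zeta hK) hx]
    · rw [hΘ0 x hx]; simp
  · intro x
    by_cases hx : x ∈ U1
    · obtain ⟨z, hz, rfl⟩ := hx
      refine ⟨1 / (2 * Real.pi) * (2 * (deriv K (‖z 1 - w0‖ ^ 2) +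
          ‖z 1 - w0‖ ^ 2 * deriv (deriv K) (‖z 1 - w0‖ ^ 2))),
        (EuclideanSpace.proj (𝕜 := ℂ) (1 : Fin 2)) ∘L
          diffAt ℂ (d := 2) (chZ z (notMem_HalfLat_of_mem_OO hz)) (regT z), ?_, ?_⟩
      · have := hKs (‖z 1 - w0‖ ^ 2) (by positivity)
        positivity
      · intro v
        rw [hΘ1 _ ⟨z, hz, rfl⟩]
        simp only [ContinuousAlternatingMap.smul_apply, smul_eq_mul]
        rw [ddbar_K_zeta_apply hK hz]
        have e : ∀ w : Cn 2, (EuclideanSpace.proj (𝕜 := ℂ) (1 : Fin 2)) w = w 1 := fun _ => rfl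
        simp only [ContinuousLinearMap.comp_apply, e]
        ring
    · refine ⟨0, 0, le_rfl, fun v => ?_⟩
      rw [hΘ0 x hx]; simp
  · -- a point where the form is positive
    have hu0 : 0 < u := lt_trans (by norm_num) hu.1
    set z : Cn 2 := mk2 0 (w0 + (Real.sqrt u : ℂ)) with hzdef
    have hz1 : ‖z 1 - w0‖ ^ 2 = u := by
      simp only [hzdef, mk2_one, add_sub_cancel_left, Complex.norm_real, Real.norm_eq_abs, sq_abs]
      exact Real.sq_sqrt hu0.le
    have hz : z ∈ OO := by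
      have : ‖z 1 - w0‖ ^ 2 < (1 / 4) ^ 2 := by rw [hz1]; have := hu.2; norm_num at this ⊢; linarith
      exact lt_of_pow_lt_pow_left₀ 2 (by norm_num) this
    have hzH := notMem_HalfLat_of_mem_OO hz
    have hinj := diffAt_chart_injective (atlas.chart_mem_maximalAtlas (.inr ⟨z, hzH⟩))
      (regT_mem_chZ_source hzH)
    have hsurj : Function.Surjective (diffAt ℂ (d := 2) (chZ z hzH) (regT z)) :=
      (LinearMap.injective_iff_surjective
        (f := (diffAt ℂ (d := 2) (chZ z hzH) (regT z)).toLinearMap)).1 hinj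
    obtain ⟨v, hv⟩ := hsurj (mk2 0 1)
    refine ⟨regT z, v, ?_⟩
    rw [hΘ1 _ ⟨z, hz, rfl⟩]
    simp only [ContinuousAlternatingMap.smul_apply, smul_eq_mul]
    rw [ddbar_K_zeta_apply hK hz, hv, hz1]
    simp only [mk2_one, norm_one, one_pow, mul_one]
    positivity

theorem IsFibreForm.nonneg {Θ : Form ℝ 2 Kum ℝ 2} (h : IsFibreForm Θ) (x : Kum) (v : Cn 2) :
    0 ≤ Θ x ![v, Complex.I • v] := by
  obtain ⟨g, ℓ, hg, hv⟩ := h.rankOne x
  rw [hv]; positivity

/-- `Θ + εκ` is a Kähler form. -/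
theorem isKahlerForm_add {Θ : closedForms 2 Kum 2} (hΘ : IsFibreForm Θ.1) {κ : closedForms 2 Kum 2}
    (hκ : IsKahlerForm κ.1) {ε : ℝ} (hε : 0 < ε) : IsKahlerForm (Θ + ε • κ : closedForms 2 Kum 2).1 where
  smooth := (Θ + ε • κ : closedForms 2 Kum 2).2.1
  closed := (Θ + ε • κ : closedForms 2 Kum 2).2.2
  invariant := by
    intro x u v
    change Θ.1 x _ + ε • κ.1 x _ = Θ.1 x _ + ε • κ.1 x _
    rw [hΘ.invariant x u v, hκ.invariant x u v]
  positive := by
    intro x v hv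
    change 0 < Θ.1 x _ + ε • κ.1 x _
    have h1 := hΘ.nonneg x v
    have h2 := hκ.positive x v hv
    have : 0 < ε • κ.1 x ![v, Complex.I • v] := by rw [smul_eq_mul]; positivity
    linarith

/-- **A nonzero, nef, isotropic first Chern class on the Kummer surface.** -/
theorem exists_nef_isotropic : ∃ (L : HolLineBundle 2 Kum) (c : Claimed.Open.R041.H2 2 Kum),
    L.IsFirstChernClass c ∧ c ≠ 0 ∧ c ∈ nefCone 2 Kum ∧
      ∀ σ : Form ℂ 2 Kum ℂ 2, bbf (n := 1) σ c = 0 := by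
  obtain ⟨L, h, Θ, hΘ, hF⟩ := exists_fibre_bundle
  obtain ⟨κ₀, hκ₀⟩ := exists_isKahlerForm
  set κ : closedForms 2 Kum 2 := ⟨κ₀, hκ₀.smooth, hκ₀.closed⟩ with hκdef
  have hκ : IsKahlerForm κ.1 := hκ₀
  refine ⟨L, Claimed.Open.R041.H2.mk Θ, ⟨h, Θ, hΘ, rfl⟩, ?_, ?_, ?_⟩
  · -- nonzero: `∫ Θ ∧ κ > 0`
    apply H2mk_ne_zero_of_integralReal_ne_zero (β := κ)
    apply ne_of_gt
    apply integralReal_pos (Form.IsSmooth.wedge22 Θ.2.1 κ.2.1)
    · intro x f₀ f₁
      exact wedge22_nonneg (hF.invariant x) (hκ.invariant x) (hF.nonneg x)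
        (fun v => by
          by_cases hv : v = 0
          · subst hv
            have : (![0, Complex.I • 0] : Fin 2 → Cn 2) = ![0, 0] := by simp
            rw [this]
            exact le_of_eq ((κ.1 x).map_coord_zero 0 rfl).symm
          · exact (hκ.positive x v hv).le) f₀ f₁
    · obtain ⟨x, hx⟩ := hF.pos
      exact ⟨x, fun f₀ f₁ hf => wedge22_pos (hF.invariant x) (hκ.invariant x) (hF.nonneg x) hx
        (hκ.positive x) hf⟩
  · -- nef
    apply mem_nefCone_of_forall_pos (Claimed.Open.R041.H2.mk Θ) (Claimed.Open.R041.H2.mk κ)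
    intro ε hε
    exact ⟨Θ + ε • κ, isKahlerForm_add hF hκ hε, rfl⟩
  · -- isotropic
    intro σ
    apply bbf_mk_eq_zero
    intro x
    obtain ⟨g, ℓ, -, hv⟩ := hF.rankOne x
    exact wedge22_self_eq_zero (hF.invariant x) g ℓ hv

end Kummer

end Claimed.Open.R041
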