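/-
Sanity checks for section 9 of `Statement.lean` (result 041): analytic subsets, slice charts,
dimension, tangent spaces at smooth points, `VanishesOnSmoothLocus`.

Checked here:
* `IsSliceChart.dim_eq`, `IsSliceChart.tangent_iff`: the dimension `k` and the tangent space
  `T_x Z = (d_x e)⁻¹(ℂ^k × 0)` of `Z` at a smooth point `x` do not depend on the slice chart `e`; so `HasDimension` and
  `VanishesOnSmoothLocus`, which quantify over all slice charts, are consistent.  `HasDimension.unique`;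
* `isAnalyticSubset_coordPlane`, `isSliceChart_coordPlane`, `hasDimension_coordPlane`: the plane `ℂ^k × 0 ⊆ ℂ^d` is an
  analytic subset of dimension `k`;  `vanishesOnSmoothLocus_coordPlane`: a `2`-form vanishes on its smooth locus iff it
  vanishes on pairs of vectors of the plane;
* `isIrreducibleAnalytic_singleton`, `hasDimension_singleton`: a point of a complex manifold is an irreducible analytic
  subset of dimension `0`;
* `IsAnalyticSubset.isClosed`; `IsAnalyticSubset.eq_univ_of_interior_nonempty` (identity principle);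
  `isIrreducibleAnalytic_univ`, `hasDimension_univ`: a connected complex manifold modelled on `ℂ^d` is an irreducible
  analytic subset of itself, of dimension `d`;
* `vanishesOnSmoothLocus_sigmaA`, `not_vanishesOnSmoothLocus_sigmaB`: the plane `ℂ² × 0 ⊆ ℂ⁴` is Lagrangian for
  `dz₀∧dz₂ + dz₁∧dz₃` and is not Lagrangian for `dz₀∧dz₁ + dz₂∧dz₃`.
-/
import Claimed.Open.R041.Statement

open scoped Manifold ContDiff Topology

namespace Claimed.Open.R041

/-! ## 1. The coordinate planes `ℂ^k × 0 ⊆ ℂ^d` -/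

/-- The coordinate plane `ℂ^k × 0 ⊆ ℂ^d`, as a linear subspace. -/
def coordPlane (d k : ℕ) : Submodule ℂ (Cn d) where
  carrier := {y | ∀ j : Fin d, k ≤ j.val → y j = 0}
  add_mem' := by
    intro a b ha hb j hj
    simp [ha j hj, hb j hj]
  zero_mem' := by intro j _; rfl
  smul_mem' := by
    intro c a ha j hj
    simp [ha j hj]

theorem mem_coordPlane {d k : ℕ} {y : Cn d} :
    y ∈ coordPlane d k ↔ ∀ j : Fin d, k ≤ j.val → y j = 0 := Iff.rfl

/-- If a map `τ`, differentiable at `y`, maps `ℂ^k × 0` into `ℂ^{k'} × 0` near `y ∈ ℂ^k × 0`, then so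
does its derivative at `y`. -/
theorem fderiv_mem_coordPlane {d k k' : ℕ} {τ : Cn d → Cn d} {y v : Cn d}
    (hτ : DifferentiableAt ℂ τ y) (hy : y ∈ coordPlane d k) (hv : v ∈ coordPlane d k)
    (h : ∀ᶠ z in 𝓝 y, z ∈ coordPlane d k → τ z ∈ coordPlane d k') :
    fderiv ℂ τ y v ∈ coordPlane d k' := by
  intro j hj
  -- the curve `t ↦ y + t v`
  have hc : HasDerivAt (fun t : ℂ => y + t • v) v 0 := by
    simpa using ((hasDerivAt_id (0 : ℂ)).smul_const v).const_add y
  have hτ' : HasFDerivAt τ (fderiv ℂ τ y) ((fun t : ℂ => y + t • v) 0) := by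
    simpa using hτ.hasFDerivAt
  have h1 : HasDerivAt (fun t : ℂ => τ (y + t • v)) (fderiv ℂ τ y v) 0 :=
    hτ'.comp_hasDerivAt 0 hc
  have h2 : HasDerivAt (fun t : ℂ => τ (y + t • v) j) (fderiv ℂ τ y v j) 0 := by
    have := ((EuclideanSpace.proj j : Cn d →L[ℂ] ℂ).hasFDerivAt).comp_hasDerivAt 0 h1
    exact this
  have h3 : (fun t : ℂ => τ (y + t • v) j) =ᶠ[𝓝 0] fun _ => (0 : ℂ) := by
    have hcont : Filter.Tendsto (fun t : ℂ => y + t • v) (𝓝 0) (𝓝 y) := by
      simpa using hc.continuousAt.tendsto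
    filter_upwards [hcont.eventually h] with t ht
    exact ht ((coordPlane d k).add_mem hy ((coordPlane d k).smul_mem t hv)) j hj
  exact (h3.hasDerivAt_iff.1 h2).unique (hasDerivAt_const _ _)

/-! ## 2. Slice charts: the dimension and the tangent space at a smooth point are well defined -/

section Slice

variable {d : ℕ} {X : Type} [TopologicalSpace X] [ChartedSpace (Cn d) X]
  {Z : Set X} {k k' : ℕ} {e e' : OpenPartialHomeomorph X (Cn d)} {x : X}

theorem IsSliceChart.mdifferentiable (he : IsSliceChart d Z k e) :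
    e.MDifferentiable 𝓘(ℂ, Cn d) 𝓘(ℂ, Cn d) := by
  have h1 : e ∈ IsManifold.maximalAtlas 𝓘(ℂ, Cn d) 1 X :=
    IsManifold.maximalAtlas_subset_of_le (by simp) he.2.1
  exact ⟨fun x hx => (mdifferentiableAt_of_mem_maximalAtlas h1 hx).mdifferentiableWithinAt,
    fun x hx => (mdifferentiableAt_symm_of_mem_maximalAtlas h1 hx).mdifferentiableWithinAt⟩

/-- In a slice chart, `Z` is the preimage of the coordinate plane. -/
theorem IsSliceChart.mem_iff (he : IsSliceChart d Z k e) {y : X} (hy : y ∈ e.source) :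
    y ∈ Z ↔ e y ∈ coordPlane d k := by
  constructor
  · intro hZ
    have : e y ∈ e '' (Z ∩ e.source) := ⟨y, ⟨hZ, hy⟩, rfl⟩
    rw [he.2.2] at this
    exact this.2
  · intro hP
    have : e y ∈ e '' (Z ∩ e.source) := by
      rw [he.2.2]; exact ⟨e.map_source hy, hP⟩
    obtain ⟨y', ⟨hZ', hy'⟩, h⟩ := this
    rwa [← e.injOn hy' hy h]

/-- Key lemma: a tangent vector which is tangent to `Z` in one slice chart is so in any other. -/
theorem IsSliceChart.diffAt_mem (he : IsSliceChart d Z k e) (he' : IsSliceChart d Z k' e')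
    (hx : x ∈ Z) (hxe : x ∈ e.source) (hxe' : x ∈ e'.source) {u : Cn d}
    (hu : diffAt ℂ e x u ∈ coordPlane d k) : diffAt ℂ e' x u ∈ coordPlane d k' := by
  have hmd := he.mdifferentiable
  have hmd' := he'.mdifferentiable
  have hy : e x ∈ e.target := e.map_source hxe
  have hsymm : e.symm (e x) = x := e.left_inv hxe
  have h1 : MDifferentiableAt 𝓘(ℂ, Cn d) 𝓘(ℂ, Cn d) e.symm (e x) := hmd.mdifferentiableAt_symm hy
  have h2 : MDifferentiableAt 𝓘(ℂ, Cn d) 𝓘(ℂ, Cn d) e' (e.symm (e x)) := by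
    rw [hsymm]; exact hmd'.mdifferentiableAt hxe'
  have hτ : MDifferentiableAt 𝓘(ℂ, Cn d) 𝓘(ℂ, Cn d) (e' ∘ e.symm) (e x) := h2.comp _ h1
  have hτ' : DifferentiableAt ℂ (e' ∘ e.symm) (e x) := mdifferentiableAt_iff_differentiableAt.1 hτ
  have hder : fderiv ℂ (e' ∘ e.symm) (e x) (diffAt ℂ e x u) = diffAt ℂ e' x u := by
    let A : Cn d →L[ℂ] Cn d := mfderiv 𝓘(ℂ, Cn d) 𝓘(ℂ, Cn d) e.symm (e x)
    have h5 : fderiv ℂ (e' ∘ e.symm) (e x) = (diffAt ℂ e' (e.symm (e x))).comp A := by
      rw [← mfderiv_eq_fderiv, mfderiv_comp _ h2 h1]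
      rfl
    have h4 : A (diffAt ℂ e x u) = u :=
      congrArg (fun B : Cn d →L[ℂ] Cn d => B u) (hmd.symm_comp_deriv hxe)
    rw [h5, ContinuousLinearMap.comp_apply, h4, hsymm]
  rw [← hder]
  refine fderiv_mem_coordPlane hτ' ((he.mem_iff hxe).1 hx) hu ?_
  have hopen : e.target ∩ e.symm ⁻¹' e'.source ∈ 𝓝 (e x) := by
    refine (e.symm.isOpen_inter_preimage e'.open_source).mem_nhds ⟨hy, ?_⟩
    show e.symm (e x) ∈ e'.source
    rwa [hsymm]
  filter_upwards [hopen] with z hz hzP
  have hzZ : e.symm z ∈ Z := by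
    rw [he.mem_iff (e.map_target hz.1), e.right_inv hz.1]; exact hzP
  exact (he'.mem_iff hz.2).1 hzZ

end Slice

/-- `dim_ℂ (ℂ^k × 0) = k`. -/
theorem finrank_coordPlane {d k : ℕ} (hk : k ≤ d) : Module.finrank ℂ (coordPlane d k) = k := by
  let ρ : coordPlane d k →ₗ[ℂ] ({j : Fin d // j.val < k} → ℂ) :=
    { toFun := fun y j => (y : Cn d) j.1
      map_add' := fun _ _ => rfl
      map_smul' := fun _ _ => rfl }
  have hinj : Function.Injective ρ := by
    intro y y' h
    ext j
    by_cases hj : j.val < k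
    · exact congrFun h ⟨j, hj⟩
    · rw [y.2 j (not_lt.1 hj), y'.2 j (not_lt.1 hj)]
  have hsurj : Function.Surjective ρ := by
    intro z
    refine ⟨⟨WithLp.toLp 2 fun j => if h : j.val < k then z ⟨j, h⟩ else 0, ?_⟩, ?_⟩
    · intro j hj
      simp [not_lt.2 hj]
    · funext j
      show (if h : j.1.val < k then z ⟨j.1, h⟩ else 0) = z j
      rw [dif_pos j.2]
  rw [(LinearEquiv.ofBijective ρ ⟨hinj, hsurj⟩).finrank_eq, Module.finrank_fintype_fun_eq_card,
    Fintype.card_subtype, Fin.card_filter_val_lt, min_eq_right hk]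


section Slice2

variable {d : ℕ} {X : Type} [TopologicalSpace X] [ChartedSpace (Cn d) X]
  {Z : Set X} {k k' : ℕ} {e e' : OpenPartialHomeomorph X (Cn d)} {x : X}

/-- **The tangent space `T_x Z` at a smooth point does not depend on the slice chart.** -/
theorem IsSliceChart.tangent_iff (he : IsSliceChart d Z k e) (he' : IsSliceChart d Z k' e')
    (hx : x ∈ Z) (hxe : x ∈ e.source) (hxe' : x ∈ e'.source) (u : Cn d) :
    (∀ j : Fin d, k ≤ j.val → diffAt ℂ e x u j = 0) ↔
      (∀ j : Fin d, k' ≤ j.val → diffAt ℂ e' x u j = 0) :=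
  ⟨fun h => he.diffAt_mem he' hx hxe hxe' h, fun h => he'.diffAt_mem he hx hxe' hxe h⟩

theorem IsSliceChart.finrank_comap (he : IsSliceChart d Z k e) (hxe : x ∈ e.source) :
    Module.finrank ℂ ((coordPlane d k).comap (diffAt (d := d) ℂ e x).toLinearMap) = k := by
  have hbij : Function.Bijective (diffAt (d := d) ℂ e x).toLinearMap := he.mdifferentiable.mfderiv_bijective hxe
  let Â := LinearEquiv.ofBijective (diffAt (d := d) ℂ e x).toLinearMap hbij
  have h1 : ((coordPlane d k).comap (diffAt (d := d) ℂ e x).toLinearMap).map Â.toLinearMap = coordPlane d k :=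
    Submodule.map_comap_eq_of_surjective hbij.2 _
  rw [← LinearEquiv.finrank_map_eq Â, h1, finrank_coordPlane he.1]

/-- **The dimension of `Z` at a smooth point does not depend on the slice chart.** -/
theorem IsSliceChart.dim_eq (he : IsSliceChart d Z k e) (he' : IsSliceChart d Z k' e')
    (hx : x ∈ Z) (hxe : x ∈ e.source) (hxe' : x ∈ e'.source) : k = k' := by
  have h : (coordPlane d k).comap (diffAt (d := d) ℂ e x).toLinearMap =
      (coordPlane d k').comap (diffAt (d := d) ℂ e' x).toLinearMap := by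
    ext u
    exact he.tangent_iff he' hx hxe hxe' u
  rw [← he.finrank_comap hxe, h, he'.finrank_comap hxe']

end Slice2

/-! ## 3. Coordinate planes in `ℂ^d` -/

section Planes

variable {d k : ℕ}

theorem HasDimension.unique {X : Type} [TopologicalSpace X] [ChartedSpace (Cn d) X] {Z : Set X}
    {k k' : ℕ} (h : HasDimension d Z k) (h' : HasDimension d Z k') : k = k' := by
  obtain ⟨⟨e, he, hne⟩, hmax⟩ := h
  obtain ⟨⟨e', he', hne'⟩, hmax'⟩ := h'
  exact le_antisymm (hmax' k e he hne) (hmax k' e' he' hne')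

theorem holomorphicOn_of_clm {V : Type} [NormedAddCommGroup V] [NormedSpace ℂ V]
    (A : Cn d →L[ℂ] V) (U : Set (Cn d)) : HolomorphicOn d A U :=
  (contMDiff_iff_contDiff.2 A.contDiff).contMDiffOn

theorem isAnalyticSubset_coordPlane : IsAnalyticSubset d (coordPlane d k : Set (Cn d)) := by
  intro x
  refine ⟨Set.univ, isOpen_univ, trivial, d,
    fun j y => if k ≤ j.val then y j else 0, fun j => ?_, ?_⟩
  · by_cases hj : k ≤ j.val
    · simp only [hj, if_true]
      exact holomorphicOn_of_clm (EuclideanSpace.proj j : Cn d →L[ℂ] ℂ) _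
    · simp only [hj, if_false]
      exact contMDiffOn_const
  · ext y
    simp only [Set.inter_univ, SetLike.mem_coe, mem_coordPlane, Set.mem_univ, true_and,
      Set.mem_ofPred_eq]
    constructor
    · intro h j
      by_cases hj : k ≤ j.val
      · simp [hj, h j hj]
      · simp [hj]
    · intro h j hj
      simpa [hj] using h j

theorem isSliceChart_coordPlane (hk : k ≤ d) :
    IsSliceChart d (coordPlane d k : Set (Cn d)) k (OpenPartialHomeomorph.refl (Cn d)) := by
  refine ⟨hk, IsManifold.subset_maximalAtlas (by simp), ?_⟩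
  ext y
  simp [mem_coordPlane]

/-- The coordinate plane `ℂ^k × 0` has dimension `k` in the sense of `HasDimension`. -/
theorem hasDimension_coordPlane (hk : k ≤ d) : HasDimension d (coordPlane d k : Set (Cn d)) k := by
  refine ⟨⟨_, isSliceChart_coordPlane hk, ⟨0, (coordPlane d k).zero_mem, trivial⟩⟩, ?_⟩
  rintro k' e he ⟨x, hx, hxe⟩
  exact (he.dim_eq (isSliceChart_coordPlane hk) hx hxe trivial).le

theorem diffAt_refl (x : Cn d) :
    diffAt ℂ (OpenPartialHomeomorph.refl (Cn d)) x = ContinuousLinearMap.id ℂ (Cn d) := by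
  simp [diffAt, mfderiv_eq_fderiv]

/-- A holomorphic `2`-form vanishes on (the smooth locus of) the plane `ℂ^k × 0` iff it vanishes on pairs of
vectors of `ℂ^k × 0` at the points of the plane. -/
theorem vanishesOnSmoothLocus_coordPlane (hk : k ≤ d) (σ : Form ℂ d (Cn d) ℂ 2) :
    VanishesOnSmoothLocus σ (coordPlane d k : Set (Cn d)) ↔
      ∀ x ∈ coordPlane d k, ∀ u ∈ coordPlane d k, ∀ v ∈ coordPlane d k, σ x ![u, v] = 0 := by
  constructor
  · intro h x hx u hu v hv
    refine h k _ (isSliceChart_coordPlane hk) x ⟨hx, trivial⟩ u v ?_ ?_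
    · rw [diffAt_refl]; exact hu
    · rw [diffAt_refl]; exact hv
  · intro h k' e he x hx u v hu hv
    have hu' := (he.tangent_iff (isSliceChart_coordPlane hk) hx.1 hx.2 trivial u).1 hu
    have hv' := (he.tangent_iff (isSliceChart_coordPlane hk) hx.1 hx.2 trivial v).1 hv
    rw [diffAt_refl] at hu' hv'
    exact h x hx.1 u hu' v hv'

end Planes

/-! ## 4. Points -/

section Points

variable {d : ℕ} {X : Type} [TopologicalSpace X] [ChartedSpace (Cn d) X]
  [IsManifold 𝓘(ℂ, Cn d) ω X]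

/-- The coordinate functions of a chart are holomorphic. -/
theorem holomorphicOn_chart_coord (x : X) (c : ℂ) (j : Fin d) :
    HolomorphicOn d (fun y => chartAt (Cn d) x y j - c) (chartAt (Cn d) x).source := by
  have h1 : ContMDiffOn 𝓘(ℂ, Cn d) 𝓘(ℂ, Cn d) ω (chartAt (Cn d) x) (chartAt (Cn d) x).source :=
    contMDiffOn_chart
  have h2 : ContMDiff 𝓘(ℂ, Cn d) 𝓘(ℂ, ℂ) ω (fun z : Cn d => z j - c) :=
    contMDiff_iff_contDiff.2
      ((EuclideanSpace.proj j : Cn d →L[ℂ] ℂ).contDiff.sub contDiff_const)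
  exact h2.comp_contMDiffOn h1

theorem isAnalyticSubset_singleton [T1Space X] (x : X) : IsAnalyticSubset d ({x} : Set X) := by
  intro y
  by_cases hy : y = x
  · subst hy
    refine ⟨(chartAt (Cn d) y).source, (chartAt (Cn d) y).open_source, mem_chart_source _ y, d,
      fun j z => chartAt (Cn d) y z j - chartAt (Cn d) y y j,
      fun j => holomorphicOn_chart_coord y _ j, ?_⟩
    ext z
    constructor
    · rintro ⟨rfl, hz⟩
      exact ⟨hz, fun j => sub_self _⟩
    · rintro ⟨hz, h⟩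
      refine ⟨?_, hz⟩
      apply (chartAt (Cn d) y).injOn hz (mem_chart_source _ y)
      ext j
      exact sub_eq_zero.1 (h j)
  · refine ⟨{x}ᶜ, isOpen_compl_singleton, hy, 1, fun _ _ => 1, fun _ => contMDiffOn_const, ?_⟩
    ext z
    simp

/-- A point is an irreducible analytic subset. -/
theorem isIrreducibleAnalytic_singleton [T1Space X] (x : X) :
    IsIrreducibleAnalytic d ({x} : Set X) := by
  refine ⟨isAnalyticSubset_singleton x, Set.singleton_nonempty x, ?_⟩
  intro Z₁ Z₂ _ _ h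
  have hx : x ∈ Z₁ ∪ Z₂ := h ▸ Set.mem_singleton x
  have h1 : Z₁ ⊆ {x} := h ▸ Set.subset_union_left
  have h2 : Z₂ ⊆ {x} := h ▸ Set.subset_union_right
  rcases hx with hx | hx
  · exact Or.inl (Set.Subset.antisymm (Set.singleton_subset_iff.2 hx) h1)
  · exact Or.inr (Set.Subset.antisymm (Set.singleton_subset_iff.2 hx) h2)

/-- The chart at `x`, translated so that `x` is mapped to the origin. -/
noncomputable def centredChart (x : X) : OpenPartialHomeomorph X (Cn d) :=
  (chartAt (Cn d) x).trans (Homeomorph.addRight (-(chartAt (Cn d) x x))).toOpenPartialHomeomorph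

theorem centredChart_mem_maximalAtlas (x : X) :
    centredChart x ∈ IsManifold.maximalAtlas 𝓘(ℂ, Cn d) ω X := by
  rw [IsManifold.mem_maximalAtlas_iff_contMDiffOn]
  constructor
  · have h1 : ContMDiffOn 𝓘(ℂ, Cn d) 𝓘(ℂ, Cn d) ω (chartAt (Cn d) x) (chartAt (Cn d) x).source :=
      contMDiffOn_chart
    have h2 : ContMDiff 𝓘(ℂ, Cn d) 𝓘(ℂ, Cn d) ω (fun z : Cn d => z + -(chartAt (Cn d) x x)) :=
      contMDiff_iff_contDiff.2 (contDiff_id.add contDiff_const)
    refine (h2.comp_contMDiffOn h1).mono ?_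
    simp [centredChart]
  · have h1 : ContMDiffOn 𝓘(ℂ, Cn d) 𝓘(ℂ, Cn d) ω (chartAt (Cn d) x).symm (chartAt (Cn d) x).target :=
      contMDiffOn_chart_symm
    have h2 : ContMDiff 𝓘(ℂ, Cn d) 𝓘(ℂ, Cn d) ω (fun z : Cn d => z + - -(chartAt (Cn d) x x)) :=
      contMDiff_iff_contDiff.2 (contDiff_id.add contDiff_const)
    refine (h1.comp h2.contMDiffOn (s := (centredChart x).target) ?_)
    intro z hz
    simpa [centredChart] using hz

theorem isSliceChart_singleton (x : X) : IsSliceChart d ({x} : Set X) 0 (centredChart x) := by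
  refine ⟨Nat.zero_le d, centredChart_mem_maximalAtlas x, ?_⟩
  have hx : x ∈ (centredChart (d := d) x).source := by simp [centredChart]
  have h0 : centredChart (d := d) x x = 0 := by simp [centredChart]
  ext y
  constructor
  · rintro ⟨z, ⟨rfl, hz⟩, rfl⟩
    refine ⟨(centredChart z).map_source hz, fun j _ => ?_⟩
    rw [h0]; rfl
  · rintro ⟨_, hy⟩
    refine ⟨x, ⟨rfl, hx⟩, ?_⟩
    rw [h0]
    ext j
    exact (hy j (Nat.zero_le _)).symm

/-- A point has dimension `0`. -/
theorem hasDimension_singleton (x : X) : HasDimension d ({x} : Set X) 0 := by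
  have hx : x ∈ (centredChart (d := d) x).source := by simp [centredChart]
  refine ⟨⟨_, isSliceChart_singleton x, ⟨x, rfl, hx⟩⟩, ?_⟩
  rintro k' e he ⟨y, rfl, hye⟩
  exact (he.dim_eq (isSliceChart_singleton y) rfl hye hx).le

end Points

/-! ## 5. The whole manifold -/

section Whole

variable {d : ℕ} {X : Type} [TopologicalSpace X] [ChartedSpace (Cn d) X]

/-- Analytic subsets are closed. -/
theorem IsAnalyticSubset.isClosed {Z : Set X} (hZ : IsAnalyticSubset d Z) : IsClosed Z := by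
  rw [← isOpen_compl_iff, isOpen_iff_mem_nhds]
  intro x hx
  obtain ⟨U, hU, hxU, r, g, hg, hZU⟩ := hZ x
  have : ∃ i, g i x ≠ 0 := by
    by_contra h
    push Not at h
    have h2 : x ∈ Z ∩ U := by rw [hZU]; exact ⟨hxU, h⟩
    exact hx h2.1
  obtain ⟨i, hi⟩ := this
  have hcont : ContinuousOn (g i) U := (hg i).continuousOn
  have hopen : IsOpen (U ∩ g i ⁻¹' {0}ᶜ) := hcont.isOpen_inter_preimage hU isOpen_compl_singleton
  refine Filter.mem_of_superset (hopen.mem_nhds ⟨hxU, hi⟩) ?_
  rintro y ⟨hyU, hy⟩ hyZ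
  have h2 : y ∈ Z ∩ U := ⟨hyZ, hyU⟩
  rw [hZU] at h2
  exact hy (h2.2 i)

variable [IsManifold 𝓘(ℂ, Cn d) ω X]

/-- Identity principle: in a connected manifold, an analytic subset with nonempty interior is
everything. -/
theorem IsAnalyticSubset.eq_univ_of_interior_nonempty [PreconnectedSpace X] {Z : Set X}
    (hZ : IsAnalyticSubset d Z) (h : (interior Z).Nonempty) : Z = Set.univ := by
  have hclosed : IsClosed (interior Z) := by
    rw [← closure_subset_iff_isClosed]
    intro x hx
    obtain ⟨U, hU, hxU, r, g, hg, hZU⟩ := hZ x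
    set e := chartAt (Cn d) x with he
    have hxe : x ∈ e.source := mem_chart_source _ x
    have hO : IsOpen (e.target ∩ e.symm ⁻¹' U) := e.symm.isOpen_inter_preimage hU
    have hexO : e x ∈ e.target ∩ e.symm ⁻¹' U :=
      ⟨e.map_source hxe, by show e.symm (e x) ∈ U; rwa [e.left_inv hxe]⟩
    obtain ⟨ε, hε, hB⟩ := Metric.isOpen_iff.1 hO (e x) hexO
    have hV : IsOpen (e.source ∩ e ⁻¹' Metric.ball (e x) ε) :=
      e.isOpen_inter_preimage Metric.isOpen_ball
    obtain ⟨y, ⟨hye, hyB⟩, hyZ⟩ :=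
      mem_closure_iff.1 hx _ hV ⟨hxe, Metric.mem_ball_self hε⟩
    -- the local equations vanish identically on the ball
    have hzero : ∀ i, Set.EqOn (g i ∘ e.symm) 0 (Metric.ball (e x) ε) := by
      intro i
      have h1 : ContMDiffOn 𝓘(ℂ, Cn d) 𝓘(ℂ, ℂ) ω (g i ∘ e.symm) (e.target ∩ e.symm ⁻¹' U) :=
        (hg i).comp (contMDiffOn_chart_symm.mono Set.inter_subset_left) Set.inter_subset_right
      have h2 : AnalyticOnNhd ℂ (g i ∘ e.symm) (e.target ∩ e.symm ⁻¹' U) := by
        rw [← hO.analyticOn_iff_analyticOnNhd, ← contDiffOn_omega_iff_analyticOn hO.uniqueDiffOn]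
        exact contMDiffOn_iff_contDiffOn.1 h1
      refine (h2.mono hB).eqOn_zero_of_preconnected_of_eventuallyEq_zero
        (convex_ball _ _).isPreconnected hyB ?_
      have hO' : IsOpen (e.target ∩ e.symm ⁻¹' (interior Z ∩ U)) :=
        e.symm.isOpen_inter_preimage (isOpen_interior.inter hU)
      have hey : e y ∈ e.target ∩ e.symm ⁻¹' (interior Z ∩ U) := by
        refine ⟨e.map_source hye, ?_⟩
        show e.symm (e y) ∈ interior Z ∩ U
        rw [e.left_inv hye]
        refine ⟨hyZ, ?_⟩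
        have := (hB hyB).2
        rwa [Set.mem_preimage, e.left_inv hye] at this
      filter_upwards [hO'.mem_nhds hey] with z hz
      have h3 : e.symm z ∈ Z ∩ U := ⟨interior_subset hz.2.1, hz.2.2⟩
      rw [hZU] at h3
      exact h3.2 i
    refine mem_interior.2 ⟨_, ?_, hV, ⟨hxe, Metric.mem_ball_self hε⟩⟩
    rintro y' ⟨hy'e, hy'B⟩
    have hy'U : y' ∈ U := by
      have := (hB hy'B).2
      rwa [Set.mem_preimage, e.left_inv hy'e] at this
    have h4 : y' ∈ Z ∩ U := by
      rw [hZU]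
      refine ⟨hy'U, fun i => ?_⟩
      have := hzero i hy'B
      simpa [e.left_inv hy'e] using this
    exact h4.1
  have hclopen : IsClopen (interior Z) := ⟨hclosed, isOpen_interior⟩
  exact Set.eq_univ_of_univ_subset ((hclopen.eq_univ h).symm ▸ interior_subset)

omit [IsManifold 𝓘(ℂ, Cn d) ω X] in
theorem isAnalyticSubset_univ : IsAnalyticSubset d (Set.univ : Set X) := by
  intro x
  refine ⟨Set.univ, isOpen_univ, trivial, 0, fun i => i.elim0, fun i => i.elim0, ?_⟩
  ext y; simp

/-- A connected complex manifold is an irreducible analytic subset of itself. -/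
theorem isIrreducibleAnalytic_univ [ConnectedSpace X] :
    IsIrreducibleAnalytic d (Set.univ : Set X) := by
  refine ⟨isAnalyticSubset_univ, Set.univ_nonempty, ?_⟩
  intro Z₁ Z₂ h₁ h₂ h
  by_cases h1 : Z₁ = Set.univ
  · exact Or.inl h1.symm
  · right
    symm
    apply h₂.eq_univ_of_interior_nonempty
    obtain ⟨x, hx⟩ := (Set.ne_univ_iff_exists_notMem Z₁).1 h1
    refine ⟨x, mem_interior.2 ⟨Z₁ᶜ, ?_, h₁.isClosed.isOpen_compl, hx⟩⟩
    intro y hy
    have : y ∈ Z₁ ∪ Z₂ := h ▸ Set.mem_univ y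
    exact this.resolve_left hy

/-- A (nonempty) complex manifold modelled on `ℂ^d` has dimension `d`. -/
theorem hasDimension_univ [Nonempty X] : HasDimension d (Set.univ : Set X) d := by
  obtain ⟨x⟩ := ‹Nonempty X›
  refine ⟨⟨chartAt (Cn d) x, ⟨le_rfl, IsManifold.chart_mem_maximalAtlas x, ?_⟩,
    ⟨x, trivial, mem_chart_source _ x⟩⟩, fun k' e he _ => he.1⟩
  rw [Set.univ_inter, (chartAt (Cn d) x).image_source_eq_target]
  ext y
  constructor
  · intro hy
    exact ⟨hy, fun j hj => absurd j.2 (not_lt.2 hj)⟩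
  · exact fun hy => hy.1

end Whole

/-! ## 6. A Lagrangian and a non-Lagrangian plane in `ℂ⁴` -/

section Lagrangian

variable {d : ℕ}

/-- The constant `2`-form `dz_a ∧ dz_b` on `ℂ^d`. -/
noncomputable def dzdz (a b : Fin d) : (Cn d) [⋀^Fin 2]→L[ℂ] ℂ :=
  ContinuousMultilinearMap.alternatization
    ((ContinuousMultilinearMap.mkPiAlgebra ℂ (Fin 2) ℂ).compContinuousLinearMap
      fun i => (![EuclideanSpace.proj a, EuclideanSpace.proj b] : Fin 2 → (Cn d →L[ℂ] ℂ)) i)

theorem dzdz_apply (a b : Fin d) (u v : Cn d) : dzdz a b ![u, v] = u a * v b - u b * v a := by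
  rw [dzdz, ContinuousMultilinearMap.alternatization_apply_apply]
  have h : (Finset.univ : Finset (Equiv.Perm (Fin 2))) = {1, Equiv.swap 0 1} := by decide
  rw [h, Finset.sum_pair (by decide)]
  simp [Fin.prod_univ_two]
  ring

/-- The holomorphic symplectic form `dz₀ ∧ dz₂ + dz₁ ∧ dz₃` on `ℂ⁴`. -/
noncomputable def sigmaA : Form ℂ 4 (Cn 4) ℂ 2 := fun _ => dzdz 0 2 + dzdz 1 3

/-- The holomorphic symplectic form `dz₀ ∧ dz₁ + dz₂ ∧ dz₃` on `ℂ⁴`. -/
noncomputable def sigmaB : Form ℂ 4 (Cn 4) ℂ 2 := fun _ => dzdz 0 1 + dzdz 2 3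

/-- The plane `ℂ² × 0 ⊆ ℂ⁴` is Lagrangian for `dz₀ ∧ dz₂ + dz₁ ∧ dz₃`. -/
theorem vanishesOnSmoothLocus_sigmaA :
    VanishesOnSmoothLocus sigmaA (coordPlane 4 2 : Set (Cn 4)) := by
  rw [vanishesOnSmoothLocus_coordPlane (by norm_num)]
  intro x _ u hu v hv
  have hu2 : u 2 = 0 := hu 2 (by simp)
  have hu3 : u 3 = 0 := hu 3 (by simp)
  have hv2 : v 2 = 0 := hv 2 (by simp)
  have hv3 : v 3 = 0 := hv 3 (by simp)
  simp [sigmaA, dzdz_apply, hu2, hu3, hv2, hv3]

/-- The plane `ℂ² × 0 ⊆ ℂ⁴` is not Lagrangian for `dz₀ ∧ dz₁ + dz₂ ∧ dz₃`. -/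
theorem not_vanishesOnSmoothLocus_sigmaB :
    ¬ VanishesOnSmoothLocus sigmaB (coordPlane 4 2 : Set (Cn 4)) := by
  rw [vanishesOnSmoothLocus_coordPlane (by norm_num)]
  intro h
  have h0 : (EuclideanSpace.single 0 1 : Cn 4) ∈ coordPlane 4 2 := by
    intro j hj
    have : j ≠ 0 := by rintro rfl; simp at hj
    simp [this]
  have h1 : (EuclideanSpace.single 1 1 : Cn 4) ∈ coordPlane 4 2 := by
    intro j hj
    have : j ≠ 1 := by rintro rfl; simp at hj
    simp [this]
  have := h 0 (coordPlane 4 2).zero_mem _ h0 _ h1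
  simp [sigmaB, dzdz_apply] at this

end Lagrangian

end Claimed.Open.R041
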