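/-
Result 041, sanity (stage 2, package C-a): an irreducibility criterion for analytic curves.
-/
import Claimed.Open.R041.SanityAnalytic

open scoped Manifold ContDiff Topology
open Set

namespace Claimed.Open.R041

variable {d : ℕ} {X : Type} [TopologicalSpace X] [ChartedSpace (Cn d) X]

/-- The preimage of an analytic set under a holomorphic map from a connected open subset `W` of `ℂ` is all of `W` as soon as it
has an interior point (identity theorem). -/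
theorem subset_preimage_of_interior_nonempty {Z : Set X}
    (hZ : IsAnalyticSubset d Z) {W : Set ℂ}
    (hW : IsOpen W) (hWc : IsPreconnected W) {φ : ℂ → X}
    (hφ : ContMDiffOn 𝓘(ℂ, ℂ) 𝓘(ℂ, Cn d) ω φ W)
    (hint : (interior (W ∩ φ ⁻¹' Z)).Nonempty) : W ⊆ φ ⁻¹' Z := by
  set A := W ∩ φ ⁻¹' Z with hA
  have hIA : interior A ⊆ A := interior_subset
  have key : W ⊆ interior A := by
    refine hWc.subset_of_closure_inter_subset isOpen_interior ?_ ?_
    · obtain ⟨t, ht⟩ := hint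
      exact ⟨t, (hIA ht).1, ht⟩
    · rintro t ⟨htc, htW⟩
      by_contra htI
      obtain ⟨U, hU, htU, r, g, hg, hZU⟩ := hZ (φ t)
      have hVo : IsOpen (W ∩ φ ⁻¹' U) := hφ.continuousOn.isOpen_inter_preimage hW hU
      have htV : t ∈ W ∩ φ ⁻¹' U := ⟨htW, htU⟩
      have han : ∀ i, AnalyticAt ℂ (fun s => g i (φ s)) t := by
        intro i
        have h1 : ContMDiffOn 𝓘(ℂ, ℂ) 𝓘(ℂ, ℂ) ω (g i ∘ φ) (W ∩ φ ⁻¹' U) :=
          (hg i).comp (hφ.mono inter_subset_left) (fun s hs => hs.2)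
        have h2 : ContDiffOn ℂ ω (g i ∘ φ) (W ∩ φ ⁻¹' U) := contMDiffOn_iff_contDiffOn.1 h1
        exact (h2.contDiffAt (hVo.mem_nhds htV)).analyticAt
      have hfr : ∃ᶠ s in 𝓝[≠] t, s ∈ interior A ∩ (W ∩ φ ⁻¹' U) := by
        have h1 : ∃ᶠ s in 𝓝 t, s ∈ interior A := mem_closure_iff_frequently.1 htc
        have h2 : ∃ᶠ s in 𝓝 t, s ∈ interior A ∩ (W ∩ φ ⁻¹' U) :=
          (h1.and_eventually (hVo.mem_nhds htV)).mono fun s hs => hs
        rw [frequently_nhdsWithin_iff]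
        refine h2.mono fun s hs => ⟨hs, ?_⟩
        rintro rfl
        exact htI hs.1
      have hzero : ∀ i, ∀ᶠ s in 𝓝 t, g i (φ s) = 0 := by
        intro i
        rw [← (han i).frequently_zero_iff_eventually_zero]
        refine hfr.mono fun s hs => ?_
        have h3 : φ s ∈ Z ∩ U := ⟨(hIA hs.1).2, hs.2.2⟩
        rw [hZU] at h3
        exact h3.2 i
      have hall : ∀ᶠ s in 𝓝 t, ∀ i, g i (φ s) = 0 := Filter.eventually_all.2 hzero
      apply htI
      rw [mem_interior_iff_mem_nhds]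
      filter_upwards [hall, hVo.mem_nhds htV] with s hs hsV
      have h3 : φ s ∈ Z ∩ U := by
        rw [hZU]
        exact ⟨hsV.2, hs⟩
      exact ⟨hsV.1, h3.1⟩
  exact fun t ht => (hIA (key ht)).2

/-- C1: an analytic set which is the closure of the image of a connected open subset of `ℂ` under a holomorphic map is
irreducible. -/
theorem isIrreducibleAnalytic_of_param [IsManifold 𝓘(ℂ, Cn d) ω X] {Z : Set X}
    (hZ : IsAnalyticSubset d Z) {W : Set ℂ}
    (hW : IsOpen W) (hWc : IsPreconnected W) (hWn : W.Nonempty) {φ : ℂ → X}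
    (hφ : ContMDiffOn 𝓘(ℂ, ℂ) 𝓘(ℂ, Cn d) ω φ W) (h1 : φ '' W ⊆ Z) (h2 : Z ⊆ closure (φ '' W)) :
    IsIrreducibleAnalytic d Z := by
  refine ⟨hZ, (hWn.image φ).mono h1, ?_⟩
  intro Z₁ Z₂ hZ₁ hZ₂ hZZ
  have concl : ∀ Z' : Set X, IsAnalyticSubset d Z' → Z' ⊆ Z → W ⊆ φ ⁻¹' Z' → Z = Z' := by
    intro Z' hZ' hsub hWZ
    refine Subset.antisymm (h2.trans ?_) hsub
    exact closure_minimal (image_subset_iff.2 hWZ) hZ'.isClosed
  by_cases hemp : W ⊆ φ ⁻¹' Z₁
  · exact Or.inl (concl Z₁ hZ₁ (hZZ ▸ subset_union_left) hemp)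
  · right
    refine concl Z₂ hZ₂ (hZZ ▸ subset_union_right) ?_
    refine subset_preimage_of_interior_nonempty hZ₂ hW hWc hφ ?_
    obtain ⟨t, htW, htZ⟩ := not_subset.1 hemp
    have hO : IsOpen (W ∩ φ ⁻¹' Z₁ᶜ) :=
      hφ.continuousOn.isOpen_inter_preimage hW hZ₁.isClosed.isOpen_compl
    refine ⟨t, mem_interior.2 ⟨W ∩ φ ⁻¹' Z₁ᶜ, ?_, hO, htW, htZ⟩⟩
    rintro s ⟨hsW, hsZ⟩
    refine ⟨hsW, ?_⟩
    have : φ s ∈ Z₁ ∪ Z₂ := hZZ ▸ h1 ⟨s, hsW, rfl⟩
    exact this.resolve_left hsZ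

end Claimed.Open.R041
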