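/-
Result 041, sanity (stage 2, package G-a): general lemmas on holomorphic maps to `ℙ^N` and analytic subsets.
-/
import Claimed.Open.R041.CorollaryProjective
import Claimed.Open.R041.SanityAnalytic
import Claimed.Open.R041.K3Potential
import Claimed.Open.R041.K3Tube

open scoped Manifold ContDiff Topology
open Set

namespace Claimed.Open.R041

variable {d : ℕ} {X : Type} [TopologicalSpace X] [ChartedSpace (Cn d) X] {N : ℕ}

/-- Two nonzero vectors are proportional iff all their `2 × 2` minors vanish. -/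
theorem exists_smul_eq_iff_minors {n : ℕ} {v w : Fin n → ℂ} (hw : w ≠ 0) :
    (∃ a : ℂ, a • w = v) ↔ ∀ i j, v i * w j - v j * w i = 0 := by
  constructor
  · rintro ⟨a, rfl⟩ i j
    simp only [Pi.smul_apply, smul_eq_mul]
    ring
  · intro h
    obtain ⟨j, hj⟩ := Function.ne_iff.1 hw
    replace hj : w j ≠ 0 := hj
    refine ⟨v j / w j, funext fun i => ?_⟩
    have := h i j
    simp only [Pi.smul_apply, smul_eq_mul]
    field_simp
    linear_combination -this

theorem mk_eq_mk_iff_minors {v w : Fin (N + 1) → ℂ} (hv : v ≠ 0) (hw : w ≠ 0) :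
    Projectivization.mk ℂ v hv = Projectivization.mk ℂ w hw ↔
      ∀ i j, v i * w j - v j * w i = 0 := by
  rw [Projectivization.mk_eq_mk_iff', exists_smul_eq_iff_minors hw]

/-- G1: a lift given in a chart. -/
theorem isLocalLift_of_chart [IsManifold 𝓘(ℂ, Cn d) ω X] {g : X → PN N}
    {e : OpenPartialHomeomorph X (Cn d)} (he : e ∈ IsManifold.maximalAtlas 𝓘(ℂ, Cn d) ω X)
    {F : Cn d → Fin (N + 1) → ℂ} (hF : AnalyticOnNhd ℂ F e.target)
    (hg : ∀ x ∈ e.source, ∃ h : F (e x) ≠ 0, g x = Projectivization.mk ℂ (F (e x)) h) :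
    IsLocalLift d g e.source (fun x => F (e x)) := by
  refine ⟨e.open_source, holomorphicOn_of_chart fun x hx => ⟨e, he, hx, ?_⟩, hg⟩
  have h1 : ContDiffAt ℂ ω F (e x) := (hF _ (e.map_source hx)).contDiffAt
  refine h1.congr_of_eventuallyEq ?_
  filter_upwards [e.open_target.mem_nhds (e.map_source hx)] with y hy
  simp only [Function.comp, e.right_inv hy]

/-- G2: the kernel of the differential, computed in a chart. -/
theorem InKerDifferential.exists_fderiv_eq [IsManifold 𝓘(ℂ, Cn d) ω X] {g : X → PN N}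
    {e : OpenPartialHomeomorph X (Cn d)} (he : e ∈ IsManifold.maximalAtlas 𝓘(ℂ, Cn d) ω X)
    {F : Cn d → Fin (N + 1) → ℂ} (hF : AnalyticOnNhd ℂ F e.target)
    (hg : ∀ x ∈ e.source, ∃ h : F (e x) ≠ 0, g x = Projectivization.mk ℂ (F (e x)) h)
    {x : X} (hx : x ∈ e.source) {v : Cn d} (hv : InKerDifferential d g x v) :
    ∃ c : ℂ, fderiv ℂ F (e x) (diffAt ℂ (d := d) e x v) = c • F (e x) := by
  obtain ⟨c, hc⟩ := hv e.source _ hx (isLocalLift_of_chart he hF hg)
  refine ⟨c, ?_⟩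
  rw [← hc]
  have h1 : MDifferentiableAt 𝓘(ℂ, Cn d) 𝓘(ℂ, Cn d) e x :=
    (contMDiffAt_of_mem_maximalAtlas he hx).mdifferentiableAt (by simp)
  have h2 : MDifferentiableAt 𝓘(ℂ, Cn d) 𝓘(ℂ, Fin (N + 1) → ℂ) F (e x) :=
    (hF _ (e.map_source hx)).differentiableAt.mdifferentiableAt
  have h3 := mfderiv_comp x h2 h1
  unfold diffAt
  have h4 : (fun x => F (e x)) = F ∘ e := rfl
  rw [h4, h3, mfderiv_eq_fderiv]
  rfl

/-! ### Analytic subsets -/

/-- In the definition of analytic subsets the equations may be indexed by any finite type. -/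
theorem isAnalyticSubset_of_fintype {Z : Set X}
    (h : ∀ x : X, ∃ U : Set X, IsOpen U ∧ x ∈ U ∧ ∃ (ι : Type) (_ : Fintype ι) (g : ι → X → ℂ),
      (∀ i, HolomorphicOn d (g i) U) ∧ Z ∩ U = {y ∈ U | ∀ i, g i y = 0}) :
    IsAnalyticSubset d Z := by
  intro x
  obtain ⟨U, hU, hx, ι, _, g, hg, hZ⟩ := h x
  refine ⟨U, hU, hx, Fintype.card ι, fun k => g ((Fintype.equivFin ι).symm k), fun k => hg _, ?_⟩
  rw [hZ]
  ext y
  simp only [mem_ofPred_eq, and_congr_right_iff]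
  intro _
  exact ⟨fun h k => h _, fun h i => by simpa using h (Fintype.equivFin ι i)⟩

theorem HolomorphicOn.mul' {f g : X → ℂ} {U : Set X} (hf : HolomorphicOn d f U)
    (hg : HolomorphicOn d g U) : HolomorphicOn d (fun y => f y * g y) U :=
  ContMDiffOn.mul hf hg

theorem IsAnalyticSubset.inter {Z Z' : Set X} (h : IsAnalyticSubset d Z) (h' : IsAnalyticSubset d Z') :
    IsAnalyticSubset d (Z ∩ Z') := by
  refine isAnalyticSubset_of_fintype fun x => ?_
  obtain ⟨U, hU, hx, r, g, hg, hZ⟩ := h x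
  obtain ⟨U', hU', hx', r', g', hg', hZ'⟩ := h' x
  refine ⟨U ∩ U', hU.inter hU', ⟨hx, hx'⟩, Fin r ⊕ Fin r', inferInstance, Sum.elim g g', ?_, ?_⟩
  · rintro (i | i)
    · exact (hg i).mono inter_subset_left
    · exact (hg' i).mono inter_subset_right
  · ext y
    have e1 : y ∈ Z ∩ U ↔ y ∈ U ∧ ∀ i, g i y = 0 := by rw [hZ]; rfl
    have e2 : y ∈ Z' ∩ U' ↔ y ∈ U' ∧ ∀ i, g' i y = 0 := by rw [hZ']; rfl
    simp only [mem_inter_iff, mem_ofPred_eq, Sum.forall, Sum.elim_inl, Sum.elim_inr] at e1 e2 ⊢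
    tauto

theorem IsAnalyticSubset.union {Z Z' : Set X} (h : IsAnalyticSubset d Z) (h' : IsAnalyticSubset d Z') :
    IsAnalyticSubset d (Z ∪ Z') := by
  refine isAnalyticSubset_of_fintype fun x => ?_
  obtain ⟨U, hU, hx, r, g, hg, hZ⟩ := h x
  obtain ⟨U', hU', hx', r', g', hg', hZ'⟩ := h' x
  refine ⟨U ∩ U', hU.inter hU', ⟨hx, hx'⟩, Fin r × Fin r', inferInstance,
    fun p y => g p.1 y * g' p.2 y, ?_, ?_⟩
  · rintro ⟨i, j⟩
    exact HolomorphicOn.mul' ((hg i).mono inter_subset_left) ((hg' j).mono inter_subset_right)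
  · ext y
    have e1 : y ∈ Z ∩ U ↔ y ∈ U ∧ ∀ i, g i y = 0 := by rw [hZ]; rfl
    have e2 : y ∈ Z' ∩ U' ↔ y ∈ U' ∧ ∀ i, g' i y = 0 := by rw [hZ']; rfl
    simp only [mem_inter_iff, mem_union, mem_ofPred_eq, Prod.forall, mul_eq_zero] at e1 e2 ⊢
    constructor
    · rintro ⟨hy | hy, hyU, hyU'⟩
      · exact ⟨⟨hyU, hyU'⟩, fun i _ => Or.inl ((e1.1 ⟨hy, hyU⟩).2 i)⟩
      · exact ⟨⟨hyU, hyU'⟩, fun _ j => Or.inr ((e2.1 ⟨hy, hyU'⟩).2 j)⟩
    · rintro ⟨⟨hyU, hyU'⟩, hy⟩
      refine ⟨?_, hyU, hyU'⟩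
      by_cases hall : ∀ i, g i y = 0
      · exact Or.inl (e1.2 ⟨hyU, hall⟩).1
      · push Not at hall
        obtain ⟨i, hi⟩ := hall
        exact Or.inr (e2.2 ⟨hyU', fun j => (hy i j).resolve_left hi⟩).1

theorem isAnalyticSubset_empty : IsAnalyticSubset d (∅ : Set X) := by
  intro x
  refine ⟨univ, isOpen_univ, trivial, 1, fun _ _ => 1, fun _ => contMDiffOn_const, ?_⟩
  ext y
  simp

/-- The fibres of a holomorphic map to `ℙ^N` are analytic: on the domain `U` of a lift `F`, `f y = b` iff all minors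
`F y i * b.rep j - F y j * b.rep i` vanish. -/
theorem isAnalyticSubset_fibre {f : X → PN N} (hf : IsHolomorphicOnToPN d f Set.univ) (b : PN N) :
    IsAnalyticSubset d (f ⁻¹' {b}) := by
  refine isAnalyticSubset_of_fintype fun x => ?_
  obtain ⟨U, F, hx, hU, hF, hfF⟩ := hf x trivial
  have hFk : ∀ k, HolomorphicOn d (fun y => F y k) U := (holomorphicOn_pi_iff _ _).1 hF
  refine ⟨U, hU, hx, Fin (N + 1) × Fin (N + 1), inferInstance,
    fun p y => F y p.1 * b.rep p.2 - F y p.2 * b.rep p.1, ?_, ?_⟩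
  · rintro ⟨i, j⟩
    exact ContMDiffOn.sub ((hFk i).mul' contMDiffOn_const) ((hFk j).mul' contMDiffOn_const)
  · ext y
    simp only [mem_inter_iff, mem_preimage, mem_singleton_iff, mem_ofPred_eq, Prod.forall]
    constructor
    · rintro ⟨hy, hyU⟩
      refine ⟨hyU, ?_⟩
      obtain ⟨h0, h1⟩ := hfF y hyU
      rw [h1, ← b.mk_rep] at hy
      exact (mk_eq_mk_iff_minors h0 b.rep_nonzero).1 hy
    · rintro ⟨hyU, hy⟩
      refine ⟨?_, hyU⟩
      obtain ⟨h0, h1⟩ := hfF y hyU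
      rw [h1, ← b.mk_rep]
      exact (mk_eq_mk_iff_minors h0 b.rep_nonzero).2 hy

end Claimed.Open.R041
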