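/-
Result 041, sanity (stage 2, package C-b): components of finite unions of irreducible sets; curves on surfaces; affine changes of charts.
-/
import Claimed.Open.R041.K3ProjGeneral
import Claimed.Open.R041.K3Irred

open scoped Manifold ContDiff Topology
open Set

namespace Claimed.Open.R041

variable {d : ℕ} {X : Type} [TopologicalSpace X] [ChartedSpace (Cn d) X]

/-! ### C2: finite unions of irreducible sets -/

theorem finite_cover_aux {𝒞 : Set (Set X)} (hfin : 𝒞.Finite) :
    (∀ C ∈ 𝒞, IsAnalyticSubset d C) → IsAnalyticSubset d (⋃₀ 𝒞) ∧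
      ∀ Z, IsIrreducibleAnalytic d Z → Z ⊆ ⋃₀ 𝒞 → ∃ C ∈ 𝒞, Z ⊆ C := by
  induction 𝒞, hfin using Set.Finite.induction_on with
  | empty =>
    intro _
    refine ⟨by rw [sUnion_empty]; exact isAnalyticSubset_empty, ?_⟩
    intro Z hZ hsub
    obtain ⟨x, hx⟩ := hZ.2.1
    simpa using hsub hx
  | @insert C 𝒞 _ _ ih =>
    intro hC
    obtain ⟨ih1, ih2⟩ := ih fun C' hC' => hC C' (mem_insert_of_mem _ hC')
    have hCa := hC C (mem_insert _ _)
    refine ⟨by rw [sUnion_insert]; exact hCa.union ih1, ?_⟩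
    intro Z hZ hsub
    rw [sUnion_insert] at hsub
    have e : Z = (Z ∩ C) ∪ (Z ∩ ⋃₀ 𝒞) := by
      rw [← inter_union_distrib_left]
      exact (inter_eq_left.2 hsub).symm
    rcases hZ.2.2 _ _ (hZ.1.inter hCa) (hZ.1.inter ih1) e with h | h
    · exact ⟨C, mem_insert _ _, inter_eq_left.1 h.symm⟩
    · obtain ⟨C', hC', hZC'⟩ := ih2 Z hZ (inter_eq_left.1 h.symm)
      exact ⟨C', mem_insert_of_mem _ hC', hZC'⟩

/-- C2: if `W` is a finite union of irreducible analytic sets, its irreducible components are among them. -/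
theorem IsIrreducibleComponent.mem_of_finite_cover {W : Set X} {𝒞 : Set (Set X)} (hfin : 𝒞.Finite)
    (hC : ∀ C ∈ 𝒞, IsIrreducibleAnalytic d C) (hW : W = ⋃₀ 𝒞) {Z : Set X}
    (hZ : IsIrreducibleComponent d Z W) : Z ∈ 𝒞 := by
  obtain ⟨C, hC𝒞, hZC⟩ := (finite_cover_aux hfin fun C h => (hC C h).1).2 Z hZ.1 (hW ▸ hZ.2.1)
  have := hZ.2.2 C (hC C hC𝒞) (hW ▸ subset_sUnion_of_mem hC𝒞) hZC
  exact this ▸ hC𝒞

/-! ### C3: curves on surfaces -/

theorem IsSliceChart.source_subset_of_top {Z : Set X} {e : OpenPartialHomeomorph X (Cn d)}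
    (he : IsSliceChart d Z d e) : e.source ⊆ Z := by
  intro x hx
  have h1 : e x ∈ e '' (Z ∩ e.source) := by
    rw [he.2.2]
    exact ⟨e.map_source hx, fun j hj => absurd j.2 (not_lt.2 hj)⟩
  obtain ⟨x', ⟨hx'Z, hx'e⟩, h2⟩ := h1
  rwa [← e.injOn hx'e hx h2]

theorem IsSliceChart.lt_of_interior_eq_empty {Z : Set X} {e : OpenPartialHomeomorph X (Cn d)}
    {k : ℕ} (he : IsSliceChart d Z k e) (hne : e.source.Nonempty) (hint : interior Z = ∅) :
    k < d := by
  refine lt_of_le_of_ne he.1 ?_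
  rintro rfl
  obtain ⟨x, hx⟩ := hne
  have : x ∈ interior Z := mem_interior.2 ⟨e.source, he.source_subset_of_top, e.open_source, hx⟩
  rw [hint] at this
  exact this

theorem hasDimension_one_of_sliceChart {X : Type} [TopologicalSpace X] [ChartedSpace (Cn 2) X]
    {Z : Set X} {e : OpenPartialHomeomorph X (Cn 2)}
    (he : IsSliceChart 2 Z 1 e) (hne : (Z ∩ e.source).Nonempty) (hint : interior Z = ∅) :
    HasDimension 2 Z 1 := by
  refine ⟨⟨e, he, hne⟩, fun k' e' he' hne' => ?_⟩
  have := he'.lt_of_interior_eq_empty (hne'.mono inter_subset_right) hint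
  omega

theorem vanishesOnSmoothLocus_of_interior_eq_empty {X : Type} [TopologicalSpace X]
    [ChartedSpace (Cn 2) X] [IsManifold 𝓘(ℂ, Cn 2) ω X] (σ : Form ℂ 2 X ℂ 2) {Z : Set X}
    (hint : interior Z = ∅) : VanishesOnSmoothLocus σ Z := by
  intro k e he x hx u v hu hv
  have hk : k < 2 := he.lt_of_interior_eq_empty ⟨x, hx.2⟩ hint
  have hu1 : diffAt ℂ (d := 2) e x u 1 = 0 := hu 1 (by simp; omega)
  have hv1 : diffAt ℂ (d := 2) e x v 1 = 0 := hv 1 (by simp; omega)
  have hinj := diffAt_chart_injective (d := 2) he.2.1 hx.2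
  apply (σ x).toAlternatingMap.map_linearDependent
  rw [LinearIndependent.pair_iff]
  intro h
  set a := diffAt ℂ (d := 2) e x u 0 with ha
  set b := diffAt ℂ (d := 2) e x v 0 with hb
  have h0 : b • u + (-a) • v = 0 := by
    apply hinj
    rw [map_zero, map_add, map_smul, map_smul]
    ext j
    fin_cases j
    · simp only [Fin.zero_eta, PiLp.add_apply, PiLp.smul_apply, smul_eq_mul, PiLp.zero_apply, ← ha,
        ← hb]
      ring
    · simp only [Fin.mk_one, PiLp.add_apply, PiLp.smul_apply, smul_eq_mul, PiLp.zero_apply, hu1, hv1]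
      ring
  obtain ⟨hb0, ha0⟩ := h _ _ h0
  have hu0 : u = 0 := by
    apply hinj
    rw [map_zero]
    ext j
    fin_cases j
    · simpa [← ha] using ha0
    · exact hu1
  have := h 1 0 (by rw [hu0]; simp)
  exact one_ne_zero this.1

/-! ### C4: a chart followed by an affine isomorphism -/

/-- C4: a chart followed by an affine isomorphism. -/
noncomputable def affChart (e : OpenPartialHomeomorph X (Cn d)) (A : Cn d ≃L[ℂ] Cn d) (b : Cn d) :
    OpenPartialHomeomorph X (Cn d) :=
  e.trans (A.toHomeomorph.trans (Homeomorph.addRight b)).toOpenPartialHomeomorph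

omit [ChartedSpace (Cn d) X] in
theorem affChart_apply (e : OpenPartialHomeomorph X (Cn d)) (A : Cn d ≃L[ℂ] Cn d) (b : Cn d) (x : X) :
    affChart e A b x = A (e x) + b := rfl

omit [ChartedSpace (Cn d) X] in
theorem affChart_symm_apply (e : OpenPartialHomeomorph X (Cn d)) (A : Cn d ≃L[ℂ] Cn d) (b y : Cn d) :
    (affChart e A b).symm y = e.symm (A.symm (y - b)) := by
  have h : (Homeomorph.addRight b).symm y = y - b := by
    rw [Homeomorph.addRight_symm, Homeomorph.coe_addRight, sub_eq_add_neg]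
  simp only [affChart, OpenPartialHomeomorph.coe_trans_symm, Function.comp,
    Homeomorph.toOpenPartialHomeomorph_symm_apply, Homeomorph.symm_trans_apply, h]
  rfl

omit [ChartedSpace (Cn d) X] in
theorem affChart_source (e : OpenPartialHomeomorph X (Cn d)) (A : Cn d ≃L[ℂ] Cn d) (b : Cn d) :
    (affChart e A b).source = e.source := by
  simp [affChart]

omit [ChartedSpace (Cn d) X] in
theorem mem_affChart_target (e : OpenPartialHomeomorph X (Cn d)) (A : Cn d ≃L[ℂ] Cn d) (b y : Cn d) :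
    y ∈ (affChart e A b).target ↔ A.symm (y - b) ∈ e.target := by
  have h : (Homeomorph.addRight b).symm y = y - b := by
    rw [Homeomorph.addRight_symm, Homeomorph.coe_addRight, sub_eq_add_neg]
  simp only [affChart, OpenPartialHomeomorph.trans_target, Homeomorph.toOpenPartialHomeomorph_target,
    univ_inter, mem_preimage, Homeomorph.toOpenPartialHomeomorph_symm_apply,
    Homeomorph.symm_trans_apply, h]
  rfl

theorem affChart_mem_maximalAtlas [IsManifold 𝓘(ℂ, Cn d) ω X] {e : OpenPartialHomeomorph X (Cn d)}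
    (he : e ∈ IsManifold.maximalAtlas 𝓘(ℂ, Cn d) ω X) (A : Cn d ≃L[ℂ] Cn d) (b : Cn d) :
    affChart e A b ∈ IsManifold.maximalAtlas 𝓘(ℂ, Cn d) ω X := by
  rw [IsManifold.mem_maximalAtlas_iff_contMDiffOn]
  constructor
  · have h1 : ContMDiffOn 𝓘(ℂ, Cn d) 𝓘(ℂ, Cn d) ω e e.source := contMDiffOn_of_mem_maximalAtlas he
    have h2 : ContMDiff 𝓘(ℂ, Cn d) 𝓘(ℂ, Cn d) ω (fun z : Cn d => A z + b) :=
      contMDiff_iff_contDiff.2 (A.contDiff.add contDiff_const)
    rw [affChart_source]
    exact h2.comp_contMDiffOn h1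
  · have h1 : ContMDiffOn 𝓘(ℂ, Cn d) 𝓘(ℂ, Cn d) ω e.symm e.target :=
      contMDiffOn_symm_of_mem_maximalAtlas he
    have h2 : ContMDiff 𝓘(ℂ, Cn d) 𝓘(ℂ, Cn d) ω (fun z : Cn d => A.symm (z - b)) :=
      contMDiff_iff_contDiff.2 (A.symm.contDiff.comp (contDiff_id.sub contDiff_const))
    have h3 := h1.comp h2.contMDiffOn (s := (affChart e A b).target)
      (fun z hz => (mem_affChart_target e A b z).1 hz)
    refine h3.congr fun y _ => ?_
    exact affChart_symm_apply e A b y

/-- A chart in which `Z` is cut out by the vanishing of the last coordinates is a slice chart. -/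
theorem isSliceChart_of_mem_iff {Z : Set X} {k : ℕ} (hk : k ≤ d)
    {e : OpenPartialHomeomorph X (Cn d)} (he : e ∈ IsManifold.maximalAtlas 𝓘(ℂ, Cn d) ω X)
    (h : ∀ x ∈ e.source, x ∈ Z ↔ ∀ j : Fin d, k ≤ j.val → e x j = 0) : IsSliceChart d Z k e := by
  refine ⟨hk, he, ?_⟩
  ext y
  constructor
  · rintro ⟨x, ⟨hxZ, hxe⟩, rfl⟩
    exact ⟨e.map_source hxe, (h x hxe).1 hxZ⟩
  · rintro ⟨hy, hy0⟩
    refine ⟨e.symm y, ⟨(h _ (e.map_target hy)).2 ?_, e.map_target hy⟩, e.right_inv hy⟩
    rwa [e.right_inv hy]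

/-- The exchange of the two coordinates of `ℂ²`. -/
noncomputable def swapCLE : Cn 2 ≃L[ℂ] Cn 2 :=
  (LinearIsometryEquiv.piLpCongrLeft 2 ℂ ℂ (Equiv.swap (0 : Fin 2) 1)).toContinuousLinearEquiv

theorem swapCLE_apply_zero (y : Cn 2) : swapCLE y 0 = y 1 := by
  simp [swapCLE, LinearIsometryEquiv.piLpCongrLeft_apply, Equiv.piCongrLeft']

theorem swapCLE_apply_one (y : Cn 2) : swapCLE y 1 = y 0 := by
  simp [swapCLE, LinearIsometryEquiv.piLpCongrLeft_apply, Equiv.piCongrLeft']

/-- The slice chart for a curve which in the chart `e` is `{y 0 = a₀}`: the chart `x ↦ (e x 1, e x 0 - a₀)`. -/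
theorem exists_sliceChart_of_coord_zero {X : Type} [TopologicalSpace X] [ChartedSpace (Cn 2) X]
    [IsManifold 𝓘(ℂ, Cn 2) ω X] {e : OpenPartialHomeomorph X (Cn 2)}
    (he : e ∈ IsManifold.maximalAtlas 𝓘(ℂ, Cn 2) ω X) {Z : Set X} (a₀ : ℂ)
    (hZ : ∀ x ∈ e.source, x ∈ Z ↔ e x 0 = a₀) :
    ∃ e' : OpenPartialHomeomorph X (Cn 2), IsSliceChart 2 Z 1 e' ∧ e'.source = e.source := by
  refine ⟨affChart e swapCLE (Kummer.mk2 0 (-a₀)), ?_, affChart_source _ _ _⟩
  refine isSliceChart_of_mem_iff (by norm_num) (affChart_mem_maximalAtlas he _ _) ?_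
  intro x hx
  rw [affChart_source] at hx
  rw [hZ x hx]
  constructor
  · intro h j hj
    have hj1 : j = 1 := by
      ext
      have := j.2
      simp only [Fin.val_one]
      omega
    subst hj1
    rw [affChart_apply]
    simp only [PiLp.add_apply, swapCLE_apply_one, Kummer.mk2_one, h]
    ring
  · intro h
    have := h 1 (by simp)
    rw [affChart_apply] at this
    simp only [PiLp.add_apply, swapCLE_apply_one, Kummer.mk2_one] at this
    linear_combination this

/-- The chart `e` itself is a slice chart for a curve which in `e` is `{y 1 = 0}`. -/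
theorem isSliceChart_of_coord_one {X : Type} [TopologicalSpace X] [ChartedSpace (Cn 2) X]
    {e : OpenPartialHomeomorph X (Cn 2)}
    (he : e ∈ IsManifold.maximalAtlas 𝓘(ℂ, Cn 2) ω X) {Z : Set X}
    (hZ : ∀ x ∈ e.source, x ∈ Z ↔ e x 1 = 0) : IsSliceChart 2 Z 1 e := by
  refine isSliceChart_of_mem_iff (by norm_num) he ?_
  intro x hx
  rw [hZ x hx]
  constructor
  · intro h j hj
    have hj1 : j = 1 := by
      ext
      have := j.2
      simp only [Fin.val_one]
      omega
    subst hj1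
    exact h
  · intro h
    exact h 1 (by simp)

end Claimed.Open.R041
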