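/-
Result 041, sanity (Kummer K3 example, stage 2): the Weierstrass `℘` function of a lattice takes every
complex value, and `℘ z = ℘ w` iff `z ≡ ± w` modulo the lattice.

Only Liouville's theorem and a uniqueness argument for the differential equation `℘'' = 6 ℘² - g₂/2` are
used (no residues).
-/
import Mathlib

open scoped Topology
open Set Filter PeriodPair

namespace Claimed.Open.R041
namespace Kummer

variable (L : PeriodPair)

/-! ### Poles, Liouville -/

theorem tendsto_weierstrassP_cobounded {l₀ : ℂ} (h : l₀ ∈ L.lattice) :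
    Tendsto ℘[L] (𝓝[≠] l₀) (Bornology.cobounded ℂ) :=
  tendsto_cobounded_of_meromorphicOrderAt_neg (by
    rw [L.order_weierstrassP l₀ h]
    decide)

theorem eventually_notMem_lattice (l₀ : ℂ) : ∀ᶠ z in 𝓝[≠] l₀, z ∉ L.lattice := by
  have h := L.compl_lattice_sdiff_singleton_mem_nhds l₀
  filter_upwards [nhdsWithin_le_nhds h, self_mem_nhdsWithin] with z hz hz' hzl
  exact hz ⟨hzl, hz'⟩

/-- An entire function which is periodic with respect to the lattice is constant. -/
theorem eq_of_differentiable_of_periodic {F : ℂ → ℂ} (hF : Differentiable ℂ F)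
    (hper : ∀ z w, w ∈ L.lattice → F (z + w) = F z) (a b : ℂ) : F a = F b :=
  hF.apply_eq_apply_of_bounded
    (IsZLattice.isCompact_range_of_periodic L.lattice _ hF.continuous hper).isBounded a b

theorem add_mem_lattice_iff {z w : ℂ} (hw : w ∈ L.lattice) : z + w ∈ L.lattice ↔ z ∈ L.lattice :=
  L.lattice.toAddSubgroup.add_mem_cancel_right hw

open Classical in
/-- `1 / (℘ - c)`, extended by `0` to the lattice. -/
noncomputable def invSub (c : ℂ) (z : ℂ) : ℂ := if z ∈ L.lattice then 0 else (℘[L] z - c)⁻¹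

theorem invSub_of_mem (c : ℂ) {z : ℂ} (hz : z ∈ L.lattice) : invSub L c z = 0 := by
  simp [invSub, hz]

theorem invSub_of_notMem (c : ℂ) {z : ℂ} (hz : z ∉ L.lattice) :
    invSub L c z = (℘[L] z - c)⁻¹ := by
  simp [invSub, hz]

theorem invSub_add (c : ℂ) (z w : ℂ) (hw : w ∈ L.lattice) : invSub L c (z + w) = invSub L c z := by
  have h := L.weierstrassP_add_coe z ⟨w, hw⟩
  simp only at h
  by_cases hz : z ∈ L.lattice
  · rw [invSub_of_mem L c hz, invSub_of_mem L c ((add_mem_lattice_iff L hw).2 hz)]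
  · rw [invSub_of_notMem L c hz, invSub_of_notMem L c (fun h' => hz ((add_mem_lattice_iff L hw).1 h')),
      h]

theorem analyticAt_invSub_of_notMem (c : ℂ) {z : ℂ} (hz : z ∉ L.lattice) (hc : ℘[L] z ≠ c) :
    AnalyticAt ℂ (invSub L c) z := by
  have h1 : AnalyticAt ℂ (fun z => (℘[L] z - c)⁻¹) z :=
    ((L.analyticOnNhd_weierstrassP z hz).sub analyticAt_const).inv (sub_ne_zero.2 hc)
  refine h1.congr ?_
  filter_upwards [L.isClosed_lattice.isOpen_compl.mem_nhds hz] with y hy
  exact (invSub_of_notMem L c hy).symm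

theorem tendsto_invSub (c : ℂ) {l₀ : ℂ} (h : l₀ ∈ L.lattice) :
    Tendsto (invSub L c) (𝓝[≠] l₀) (𝓝 0) := by
  have h1 : Tendsto (fun z => ℘[L] z - c) (𝓝[≠] l₀) (Bornology.cobounded ℂ) := by
    rw [← tendsto_norm_atTop_iff_cobounded]
    have h2 := tendsto_norm_atTop_iff_cobounded.2 (tendsto_weierstrassP_cobounded L h)
    refine tendsto_atTop_mono (fun z => ?_) (tendsto_atTop_add_const_right _ (-‖c‖) h2)
    have := norm_sub_norm_le (℘[L] z) c
    linarith
  have h3 : Tendsto (fun z => (℘[L] z - c)⁻¹) (𝓝[≠] l₀) (𝓝 0) :=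
    tendsto_inv₀_cobounded.comp h1
  refine h3.congr' ?_
  filter_upwards [eventually_notMem_lattice L l₀] with z hz
  exact (invSub_of_notMem L c hz).symm

theorem eventually_weierstrassP_ne (c : ℂ) {l₀ : ℂ} (h : l₀ ∈ L.lattice) :
    ∀ᶠ z in 𝓝[≠] l₀, ℘[L] z ≠ c := by
  have h2 := tendsto_norm_atTop_iff_cobounded.2 (tendsto_weierstrassP_cobounded L h)
  filter_upwards [h2.eventually_gt_atTop ‖c‖] with z hz hzc
  rw [hzc] at hz
  exact lt_irrefl _ hz

theorem analyticAt_invSub_of_mem (c : ℂ) {l₀ : ℂ} (h : l₀ ∈ L.lattice) :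
    AnalyticAt ℂ (invSub L c) l₀ := by
  refine Complex.analyticAt_of_differentiable_on_punctured_nhds_of_continuousAt ?_ ?_
  · filter_upwards [eventually_notMem_lattice L l₀, eventually_weierstrassP_ne L c h] with z hz hc
    exact (analyticAt_invSub_of_notMem L c hz hc).differentiableAt
  · rw [continuousAt_iff_punctured_nhds, invSub_of_mem L c h]
    exact tendsto_invSub L c h

/-- **`℘` takes every complex value.** -/
theorem exists_weierstrassP_eq (c : ℂ) : ∃ z, z ∉ L.lattice ∧ ℘[L] z = c := by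
  by_contra hcon
  push Not at hcon
  have hd : Differentiable ℂ (invSub L c) := by
    intro z
    by_cases hz : z ∈ L.lattice
    · exact (analyticAt_invSub_of_mem L c hz).differentiableAt
    · exact (analyticAt_invSub_of_notMem L c hz (hcon z hz)).differentiableAt
  have h1 := eq_of_differentiable_of_periodic L hd (invSub_add L c) (L.ω₁ / 2) 0
  rw [invSub_of_mem L c (zero_mem _), invSub_of_notMem L c L.ω₁_div_two_notMem_lattice,
    inv_eq_zero, sub_eq_zero] at h1
  exact hcon _ L.ω₁_div_two_notMem_lattice h1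

/-! ### The differential equation of second order -/

theorem countable_lattice : (L.lattice : Set ℂ).Countable := by
  have : Countable L.lattice := L.latticeEquivProd.toEquiv.countable_iff.2 inferInstance
  exact Set.countable_coe_iff.1 this

theorem isPreconnected_compl_of_countable {s : Set ℂ} (hs : s.Countable) : IsPreconnected sᶜ :=
  (hs.isPathConnected_compl_of_one_lt_rank
    (by rw [Complex.rank_real_complex]; exact Nat.one_lt_ofNat)).isConnected.isPreconnected

theorem hasDerivAt_weierstrassP {z : ℂ} (hz : z ∉ L.lattice) :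
    HasDerivAt ℘[L] (℘'[L] z) z := by
  have h := (L.analyticOnNhd_weierstrassP z hz).differentiableAt.hasDerivAt
  rwa [L.deriv_weierstrassP] at h

theorem hasDerivAt_derivWeierstrassP {z : ℂ} (hz : z ∉ L.lattice) :
    HasDerivAt ℘'[L] (deriv ℘'[L] z) z :=
  (L.analyticOnNhd_derivWeierstrassP z hz).differentiableAt.hasDerivAt

theorem derivWeierstrassP_mul_eq_zero {z : ℂ} (hz : z ∉ L.lattice) :
    ℘'[L] z * (2 * deriv ℘'[L] z - 12 * ℘[L] z ^ 2 + L.g₂) = 0 := by
  have h1 := hasDerivAt_weierstrassP L hz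
  have h2 := hasDerivAt_derivWeierstrassP L hz
  have h3 : HasDerivAt (fun y => ℘'[L] y ^ 2 - (4 * ℘[L] y ^ 3 - L.g₂ * ℘[L] y - L.g₃))
      (2 * ℘'[L] z ^ 1 * deriv ℘'[L] z -
        (4 * (3 * ℘[L] z ^ 2 * ℘'[L] z) - L.g₂ * ℘'[L] z)) z := by
    have a1 := h2.fun_pow 2
    have a2 := ((h1.fun_pow 3).const_mul 4).fun_sub (h1.const_mul L.g₂)
    have a3 := a1.fun_sub (a2.sub_const L.g₃)
    simpa using a3
  have h4 : HasDerivAt (fun y => ℘'[L] y ^ 2 - (4 * ℘[L] y ^ 3 - L.g₂ * ℘[L] y - L.g₃)) 0 z := by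
    refine (hasDerivAt_const z (0 : ℂ)).congr_of_eventuallyEq ?_
    filter_upwards [L.isClosed_lattice.isOpen_compl.mem_nhds hz] with y hy
    rw [L.derivWeierstrassP_sq y hy, sub_self]
  have h5 := h3.unique h4
  linear_combination h5

theorem not_eventually_derivWeierstrassP_eq_zero {z : ℂ} (hz : z ∉ L.lattice) :
    ¬ ∀ᶠ y in 𝓝 z, ℘'[L] y = 0 := by
  intro h
  have hpre : IsPreconnected (L.lattice : Set ℂ)ᶜ :=
    isPreconnected_compl_of_countable (countable_lattice L)
  have hopen : IsOpen (L.lattice : Set ℂ)ᶜ := L.isClosed_lattice.isOpen_compl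
  have h0 : EqOn ℘'[L] 0 (L.lattice : Set ℂ)ᶜ :=
    L.analyticOnNhd_derivWeierstrassP.eqOn_zero_of_preconnected_of_eventuallyEq_zero hpre hz h
  have hconst : ∀ y ∈ (L.lattice : Set ℂ)ᶜ, ℘[L] y = ℘[L] z := by
    intro y hy
    refine hopen.is_const_of_deriv_eq_zero hpre L.differentiableOn_weierstrassP ?_ hy hz
    intro x hx
    rw [L.deriv_weierstrassP]
    exact h0 hx
  have h1 := eventually_weierstrassP_ne L (℘[L] z) (zero_mem L.lattice)
  obtain ⟨y, hy1, hy2⟩ := (h1.and (eventually_notMem_lattice L 0)).exists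
  exact hy1 (hconst y hy2)

/-- `℘'' = 6 ℘² - g₂ / 2`. -/
theorem deriv_derivWeierstrassP {z : ℂ} (hz : z ∉ L.lattice) :
    deriv ℘'[L] z = 6 * ℘[L] z ^ 2 - L.g₂ / 2 := by
  have hA : AnalyticAt ℂ ℘'[L] z := L.analyticOnNhd_derivWeierstrassP z hz
  have hB : AnalyticAt ℂ (fun y => 2 * deriv ℘'[L] y - 12 * ℘[L] y ^ 2 + L.g₂) z := by
    have h1 := hA.deriv
    have h2 := L.analyticOnNhd_weierstrassP z hz
    fun_prop
  rcases hA.eventually_eq_zero_or_eventually_ne_zero with h | h
  · exact absurd h (not_eventually_derivWeierstrassP_eq_zero L hz)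
  · have h1 : ∀ᶠ y in 𝓝[≠] z, 2 * deriv ℘'[L] y - 12 * ℘[L] y ^ 2 + L.g₂ = 0 := by
      filter_upwards [h, nhdsWithin_le_nhds (L.isClosed_lattice.isOpen_compl.mem_nhds hz)]
        with y hy hy'
      exact (mul_eq_zero.1 (derivWeierstrassP_mul_eq_zero L hy')).resolve_left hy
    have h2 : 2 * deriv ℘'[L] z - 12 * ℘[L] z ^ 2 + L.g₂ = 0 := by
      have h3 := hB.continuousAt.tendsto.mono_left (nhdsWithin_le_nhds (s := {z}ᶜ))
      have h4 : Tendsto (fun y => 2 * deriv ℘'[L] y - 12 * ℘[L] y ^ 2 + L.g₂) (𝓝[≠] z) (𝓝 0) :=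
        tendsto_const_nhds.congr' (h1.mono fun y hy => hy.symm)
      exact tendsto_nhds_unique h3 h4
    linear_combination h2 / 2

/-! ### Uniqueness -/

/-- An analytic solution of `d'' = q d` with `d = d' = 0` at a point vanishes near this point. -/
theorem eventually_eq_zero_of_second_order {d q : ℂ → ℂ} {x₀ : ℂ} (hd : AnalyticAt ℂ d x₀)
    (hq : AnalyticAt ℂ q x₀) (hode : deriv (deriv d) =ᶠ[𝓝 x₀] fun u => q u * d u)
    (h0 : d x₀ = 0) (h1 : deriv d x₀ = 0) : ∀ᶠ u in 𝓝 x₀, d u = 0 := by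
  rw [← analyticOrderAt_eq_top]
  have e1 : analyticOrderAt (deriv d) x₀ + 1 = analyticOrderAt d x₀ := by
    simpa [h0] using hd.analyticOrderAt_deriv_add_one
  have e2 : analyticOrderAt (deriv (deriv d)) x₀ + 1 = analyticOrderAt (deriv d) x₀ := by
    simpa [h1] using hd.deriv.analyticOrderAt_deriv_add_one
  have e3 : analyticOrderAt (deriv (deriv d)) x₀ = analyticOrderAt q x₀ + analyticOrderAt d x₀ := by
    rw [analyticOrderAt_congr hode]
    exact analyticOrderAt_mul hq hd
  rw [e3] at e2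
  rw [← e2] at e1
  generalize analyticOrderAt d x₀ = x at e1
  generalize analyticOrderAt q x₀ = y at e1
  cases x with
  | top => rfl
  | coe x =>
    cases y with
    | top => simp at e1
    | coe y =>
      exfalso
      norm_cast at e1
      omega

/-- The pair `(℘, ℘')` separates the points of `(ℂ ∖ Λ)/Λ`. -/
theorem sub_mem_lattice_of_eq {z w : ℂ} (hz : z ∉ L.lattice) (hw : w ∉ L.lattice)
    (h0 : ℘[L] z = ℘[L] w) (h1 : ℘'[L] z = ℘'[L] w) : z - w ∈ L.lattice := by
  set p := z - w with hp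
  have hwp : w + p = z := by rw [hp]; ring
  -- the domain
  set D : Set ℂ := ((L.lattice : Set ℂ) ∪ (fun v => v + p) ⁻¹' (L.lattice : Set ℂ))ᶜ with hD
  have hDmem : ∀ v, v ∈ D ↔ v ∉ L.lattice ∧ v + p ∉ L.lattice := by
    intro v
    simp [hD]
  have hDopen : IsOpen D :=
    (L.isClosed_lattice.union (L.isClosed_lattice.preimage (by fun_prop))).isOpen_compl
  have hDpre : IsPreconnected D := by
    refine isPreconnected_compl_of_countable ((countable_lattice L).union ?_)
    exact (countable_lattice L).preimage_of_injOn (fun a _ b _ hab => add_right_cancel hab)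
  have hwD : w ∈ D := (hDmem w).2 ⟨hw, by rw [hwp]; exact hz⟩
  have han1 : AnalyticOnNhd ℂ (fun v => ℘[L] (v + p)) D := by
    intro v hv
    have h2 : AnalyticAt ℂ ℘[L] (v + p) := L.analyticOnNhd_weierstrassP _ ((hDmem v).1 hv).2
    exact AnalyticAt.fun_comp (f := fun v => v + p) h2 (by fun_prop)
  have han2 : AnalyticOnNhd ℂ ℘[L] D := fun v hv =>
    L.analyticOnNhd_weierstrassP _ ((hDmem v).1 hv).1
  -- derivatives on the domain
  have hd1 : ∀ v ∈ D, HasDerivAt (fun v => ℘[L] (v + p) - ℘[L] v) (℘'[L] (v + p) - ℘'[L] v) v := by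
    intro v hv
    have a1 := (hasDerivAt_weierstrassP L ((hDmem v).1 hv).2).comp_add_const v p
    exact a1.fun_sub (hasDerivAt_weierstrassP L ((hDmem v).1 hv).1)
  have hd2 : ∀ v ∈ D, HasDerivAt (fun v => ℘'[L] (v + p) - ℘'[L] v)
      (deriv ℘'[L] (v + p) - deriv ℘'[L] v) v := by
    intro v hv
    have a1 := (hasDerivAt_derivWeierstrassP L ((hDmem v).1 hv).2).comp_add_const v p
    exact a1.fun_sub (hasDerivAt_derivWeierstrassP L ((hDmem v).1 hv).1)
  have hderiv : deriv (fun v => ℘[L] (v + p) - ℘[L] v) =ᶠ[𝓝 w]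
      fun v => ℘'[L] (v + p) - ℘'[L] v := by
    filter_upwards [hDopen.mem_nhds hwD] with v hv
    exact (hd1 v hv).deriv
  have hloc : ∀ᶠ v in 𝓝 w, ℘[L] (v + p) - ℘[L] v = 0 := by
    refine eventually_eq_zero_of_second_order (q := fun v => 6 * (℘[L] (v + p) + ℘[L] v))
      ((han1 w hwD).sub (han2 w hwD)) (analyticAt_const.mul ((han1 w hwD).add (han2 w hwD))) ?_ ?_ ?_
    · have h3 : deriv (deriv fun v => ℘[L] (v + p) - ℘[L] v) =ᶠ[𝓝 w]
          deriv fun v => ℘'[L] (v + p) - ℘'[L] v := hderiv.deriv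
      refine h3.trans ?_
      filter_upwards [hDopen.mem_nhds hwD] with v hv
      rw [(hd2 v hv).deriv, deriv_derivWeierstrassP L ((hDmem v).1 hv).2,
        deriv_derivWeierstrassP L ((hDmem v).1 hv).1]
      ring
    · simp only [hwp, h0, sub_self]
    · rw [hderiv.self_of_nhds]
      simp only [hwp, h1, sub_self]
  have heq : EqOn (fun v => ℘[L] (v + p)) ℘[L] D :=
    han1.eqOn_of_preconnected_of_eventuallyEq han2 hDpre hwD
      (hloc.mono fun v hv => sub_eq_zero.1 hv)
  -- conclusion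
  by_contra hpl
  have hev : ∀ᶠ v in 𝓝[≠] (0 : ℂ), v ∈ D := by
    have h2 : ∀ᶠ v in 𝓝 (0 : ℂ), v + p ∉ L.lattice := by
      have hc : ContinuousAt (fun v : ℂ => v + p) 0 := by fun_prop
      exact hc.eventually_mem (L.isClosed_lattice.isOpen_compl.mem_nhds (by simpa using hpl))
    filter_upwards [eventually_notMem_lattice L 0, nhdsWithin_le_nhds h2] with v hv1 hv2
    exact (hDmem v).2 ⟨hv1, hv2⟩
  have ht1 : Tendsto (fun v => ℘[L] (v + p)) (𝓝[≠] (0 : ℂ)) (𝓝 (℘[L] p)) := by
    have hc : ContinuousAt (fun v => ℘[L] (v + p)) 0 := by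
      have h2 : ContinuousAt ℘[L] ((0 : ℂ) + p) := by
        rw [zero_add]
        exact (L.analyticOnNhd_weierstrassP p hpl).continuousAt
      exact ContinuousAt.comp (f := fun v : ℂ => v + p) h2 (by fun_prop)
    have := hc.tendsto
    simp only [zero_add] at this
    exact this.mono_left nhdsWithin_le_nhds
  have ht2 : Tendsto ℘[L] (𝓝[≠] (0 : ℂ)) (𝓝 (℘[L] p)) :=
    ht1.congr' (hev.mono fun v hv => heq hv)
  have ht3 := tendsto_weierstrassP_cobounded L (zero_mem L.lattice)
  exact (ht2.not_tendsto (Metric.disjoint_nhds_cobounded _)) ht3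

/-- **`℘ z = ℘ w` iff `z ≡ ± w` modulo the lattice.** -/
theorem weierstrassP_eq_iff {z w : ℂ} (hz : z ∉ L.lattice) (hw : w ∉ L.lattice) :
    ℘[L] z = ℘[L] w ↔ z - w ∈ L.lattice ∨ z + w ∈ L.lattice := by
  constructor
  · intro h
    have h1 : ℘'[L] z ^ 2 = ℘'[L] w ^ 2 := by
      rw [L.derivWeierstrassP_sq z hz, L.derivWeierstrassP_sq w hw, h]
    rcases sq_eq_sq_iff_eq_or_eq_neg.1 h1 with h2 | h2
    · exact Or.inl (sub_mem_lattice_of_eq L hz hw h h2)
    · right
      have hw' : -w ∉ L.lattice := fun h' => hw (by simpa using neg_mem h')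
      have := sub_mem_lattice_of_eq L hz hw' (by rw [L.weierstrassP_neg, h])
        (by rw [L.derivWeierstrassP_neg, h2])
      simpa using this
  · rintro (h | h)
    · have := L.weierstrassP_add_coe w ⟨z - w, h⟩
      simpa using this
    · have := L.weierstrassP_add_coe (-w) ⟨z + w, h⟩
      simpa using this

/-! ### The lattice of Gaussian integers -/

/-- The period pair `(1, i)`. -/
noncomputable def gaussPair : PeriodPair where
  ω₁ := 1
  ω₂ := Complex.I
  indep := by
    rw [LinearIndependent.pair_iff]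
    intro s t h
    have h1 := congrArg Complex.re h
    have h2 := congrArg Complex.im h
    simp at h1 h2
    exact ⟨h1, h2⟩

theorem mem_gaussPair_lattice {x : ℂ} :
    x ∈ gaussPair.lattice ↔ (∃ m : ℤ, x.re = m) ∧ ∃ n : ℤ, x.im = n := by
  rw [PeriodPair.mem_lattice]
  constructor
  · rintro ⟨m, n, rfl⟩
    exact ⟨⟨m, by simp [gaussPair]⟩, ⟨n, by simp [gaussPair]⟩⟩
  · rintro ⟨⟨m, hm⟩, ⟨n, hn⟩⟩
    refine ⟨m, n, ?_⟩
    apply Complex.ext
    · simp [gaussPair, hm]
    · simp [gaussPair, hn]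

/-- The Weierstrass function of the lattice `ℤ[i]`. -/
noncomputable def wp : ℂ → ℂ := ℘[gaussPair]

theorem exists_wp_eq (c : ℂ) : ∃ z, z ∉ gaussPair.lattice ∧ wp z = c :=
  exists_weierstrassP_eq gaussPair c

theorem wp_eq_iff {z w : ℂ} (hz : z ∉ gaussPair.lattice) (hw : w ∉ gaussPair.lattice) :
    wp z = wp w ↔ z - w ∈ gaussPair.lattice ∨ z + w ∈ gaussPair.lattice :=
  weierstrassP_eq_iff gaussPair hz hw

end Kummer
end Claimed.Open.R041
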