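/-
Result 041, sanity (Kummer K3 example, stage 2): the lattice `ℤ[i] ⊆ ℂ`, its half-lattice, the open unit
square `Q` and its image `Q2` under `u ↦ u²`; their relation with `Lat`, `HalfLat`, `Cube`, `DA`.
-/
import Claimed.Open.R041.K3Wp
import Claimed.Open.R041.K3KummerPoints

open scoped Topology
open Set

namespace Claimed.Open.R041
namespace Kummer

/-- The lattice `ℤ[i] ⊆ ℂ`. -/
noncomputable def Lat1 : AddSubgroup ℂ := gaussPair.lattice.toAddSubgroup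

theorem mem_Lat1 {x : ℂ} : x ∈ Lat1 ↔ (∃ m : ℤ, x.re = m) ∧ ∃ n : ℤ, x.im = n :=
  mem_gaussPair_lattice

theorem mem_Lat1_iff_lattice {x : ℂ} : x ∈ Lat1 ↔ x ∈ gaussPair.lattice := Iff.rfl

/-- The half-lattice `½ℤ[i] ⊆ ℂ`. -/
noncomputable def HalfLat1 : AddSubgroup ℂ where
  carrier := {x | x + x ∈ Lat1}
  zero_mem' := by simp
  add_mem' := by
    intro a b ha hb
    have : a + b + (a + b) = (a + a) + (b + b) := by ring
    simp only [mem_ofPred_eq] at ha hb ⊢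
    rw [this]
    exact Lat1.add_mem ha hb
  neg_mem' := by
    intro a ha
    have : -a + -a = -(a + a) := by ring
    simp only [mem_ofPred_eq] at ha ⊢
    rw [this]
    exact Lat1.neg_mem ha

theorem mem_HalfLat1 {x : ℂ} : x ∈ HalfLat1 ↔ x + x ∈ Lat1 := Iff.rfl

theorem Lat1_le_HalfLat1 : Lat1 ≤ HalfLat1 := fun _ hz => Lat1.add_mem hz hz

theorem mem_Lat_iff {z : Cn 2} : z ∈ Lat ↔ ∀ j, z j ∈ Lat1 := by
  simp only [mem_Lat, mem_Lat1]

theorem mem_HalfLat_iff {z : Cn 2} : z ∈ HalfLat ↔ ∀ j, z j ∈ HalfLat1 := by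
  rw [mem_HalfLat, mem_Lat_iff]
  rfl

theorem HalfLat.coord_mem (μ : HalfLat) (j : Fin 2) : (μ : Cn 2) j ∈ HalfLat1 :=
  mem_HalfLat_iff.1 μ.2 j

/-- The open unit square centred at the origin. -/
def Q : Set ℂ := {u | |u.re| < 1 / 2 ∧ |u.im| < 1 / 2}

/-- The image of `Q` under `u ↦ u²`. -/
def Q2 : Set ℂ := {a | sq a < 1 / 2}

theorem sq_mem_Q2_iff {u : ℂ} : u ^ 2 ∈ Q2 ↔ u ∈ Q := by
  have h := sq_sq_lt_iff u (r := 1 / 2) (by norm_num)
  have e : (2 : ℝ) * (1 / 2) ^ 2 = 1 / 2 := by norm_num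
  rw [e] at h
  exact h

theorem mem_Cube_iff {c : Cn 2} : c ∈ Cube ↔ ∀ j, c j ∈ Q := Iff.rfl

theorem mem_DA_iff {y : Cn 2} : y ∈ DA ↔ y 0 ∈ Q2 ∧ y 0 * y 1 ^ 2 ∈ Q2 := Iff.rfl

theorem isOpen_Q : IsOpen Q := by
  have h1 : Continuous fun u : ℂ => |u.re| := by fun_prop
  have h2 : Continuous fun u : ℂ => |u.im| := by fun_prop
  exact (isOpen_lt h1 continuous_const).inter (isOpen_lt h2 continuous_const)

theorem isOpen_Q2 : IsOpen Q2 := isOpen_lt continuous_sq continuous_const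

theorem zero_mem_Q : (0 : ℂ) ∈ Q := by simp [Q]

theorem zero_mem_Q2 : (0 : ℂ) ∈ Q2 := by
  have := sq_mem_Q2_iff.2 zero_mem_Q
  simpa using this

theorem neg_mem_Q {u : ℂ} (hu : u ∈ Q) : -u ∈ Q := by
  simpa [Q] using hu

theorem convex_Q : Convex ℝ Q := by
  have h1 : Convex ℝ {u : ℂ | |u.re| < 1 / 2} := by
    have : {u : ℂ | |u.re| < 1 / 2} = Complex.reLm ⁻¹' (Metric.ball (0 : ℝ) (1 / 2)) := by
      ext u; simp [Real.norm_eq_abs]
    rw [this]
    exact (convex_ball _ _).linear_preimage _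
  have h2 : Convex ℝ {u : ℂ | |u.im| < 1 / 2} := by
    have : {u : ℂ | |u.im| < 1 / 2} = Complex.imLm ⁻¹' (Metric.ball (0 : ℝ) (1 / 2)) := by
      ext u; simp [Real.norm_eq_abs]
    rw [this]
    exact (convex_ball _ _).linear_preimage _
  exact h1.inter h2

theorem exists_sq_eq_of_mem_Q2 {a : ℂ} (ha : a ∈ Q2) : ∃ u ∈ Q, u ^ 2 = a := by
  obtain ⟨u, hu⟩ := exists_root a
  exact ⟨u, sq_mem_Q2_iff.1 (hu ▸ ha), hu⟩

theorem Q2_eq_image : Q2 = (fun u : ℂ => u ^ 2) '' Q := by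
  ext a
  constructor
  · intro ha
    obtain ⟨u, hu, rfl⟩ := exists_sq_eq_of_mem_Q2 ha
    exact ⟨u, hu, rfl⟩
  · rintro ⟨u, hu, rfl⟩
    exact sq_mem_Q2_iff.2 hu

theorem isPreconnected_Q2 : IsPreconnected Q2 := by
  rw [Q2_eq_image]
  exact convex_Q.isPreconnected.image _ (by fun_prop)

theorem eq_zero_of_mem_Lat1_of_abs_lt {x : ℂ} (hx : x ∈ Lat1) (h1 : |x.re| < 1) (h2 : |x.im| < 1) :
    x = 0 := by
  obtain ⟨hm, hn⟩ := mem_Lat1.1 hx
  exact Complex.ext (int_eq_zero_of_abs_lt_one hm h1) (int_eq_zero_of_abs_lt_one hn h2)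

/-- The only point of the half-lattice in the open unit square is the origin. -/
theorem eq_zero_of_mem_Q_of_mem_HalfLat1 {u : ℂ} (hu : u ∈ Q) (h : u ∈ HalfLat1) : u = 0 := by
  have h1 : u + u = 0 := by
    refine eq_zero_of_mem_Lat1_of_abs_lt h ?_ ?_
    · have := hu.1
      rw [Complex.add_re, ← two_mul, abs_mul]
      norm_num
      linarith
    · have := hu.2
      rw [Complex.add_im, ← two_mul, abs_mul]
      norm_num
      linarith
  have h2 : (2 : ℂ) * u = 0 := by rw [two_mul]; exact h1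
  simpa using h2

theorem eq_of_mem_Q_of_sub_mem_Lat1 {u u' : ℂ} (hu : u ∈ Q) (hu' : u' ∈ Q) (h : u - u' ∈ Lat1) :
    u = u' := by
  have := eq_zero_of_mem_Lat1_of_abs_lt h
    (by
      rw [Complex.sub_re]
      have h1 := abs_lt.1 hu.1
      have h2 := abs_lt.1 hu'.1
      rw [abs_lt]; constructor <;> linarith)
    (by
      rw [Complex.sub_im]
      have h1 := abs_lt.1 hu.2
      have h2 := abs_lt.1 hu'.2
      rw [abs_lt]; constructor <;> linarith)
  exact sub_eq_zero.1 this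

theorem exists_half_near (x : ℝ) : ∃ k : ℤ, |x - k / 2| ≤ 1 / 4 := by
  refine ⟨round (2 * x), ?_⟩
  have h := abs_sub_round (2 * x)
  have e : x - (round (2 * x) : ℝ) / 2 = (2 * x - round (2 * x)) / 2 := by ring
  rw [e, abs_div]
  norm_num
  linarith

/-- Every complex number is within `1/4` (in each real coordinate) of a point of the half-lattice. -/
theorem exists_HalfLat1_near (z : ℂ) :
    ∃ ν ∈ HalfLat1, |(z - ν).re| ≤ 1 / 4 ∧ |(z - ν).im| ≤ 1 / 4 := by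
  obtain ⟨k, hk⟩ := exists_half_near z.re
  obtain ⟨l, hl⟩ := exists_half_near z.im
  refine ⟨⟨k / 2, l / 2⟩, ?_, by simpa using hk, by simpa using hl⟩
  rw [mem_HalfLat1, mem_Lat1]
  exact ⟨⟨k, by simp⟩, ⟨l, by simp⟩⟩

theorem exists_HalfLat1_add_Q (z : ℂ) : ∃ ν ∈ HalfLat1, z - ν ∈ Q := by
  obtain ⟨ν, hν, h1, h2⟩ := exists_HalfLat1_near z
  exact ⟨ν, hν, by constructor <;> linarith⟩

/-- For `ν` in the half-lattice and `u, u'` in the open unit square, `ν + u ≡ ± (ν + u')` modulo the lattice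
iff `u² = u'²`. -/
theorem sq_eq_sq_of_equiv {ν u u' : ℂ} (hν : ν ∈ HalfLat1) (hu : u ∈ Q) (hu' : u' ∈ Q)
    (h : (ν + u) - (ν + u') ∈ Lat1 ∨ (ν + u) + (ν + u') ∈ Lat1) : u ^ 2 = u' ^ 2 := by
  rcases h with h | h
  · have : u - u' ∈ Lat1 := by
      have e : u - u' = (ν + u) - (ν + u') := by ring
      rw [e]; exact h
    rw [eq_of_mem_Q_of_sub_mem_Lat1 hu hu' this]
  · have : u - (-u') ∈ Lat1 := by
      have e : u - (-u') = ((ν + u) + (ν + u')) - (ν + ν) := by ring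
      rw [e]; exact Lat1.sub_mem h hν
    rw [eq_of_mem_Q_of_sub_mem_Lat1 hu (neg_mem_Q hu') this]
    ring

/-- Every point of the Kummer surface lies in the domain of one of the charts `chA μ κ`. -/
theorem exists_eq_ptA (x : Kum) : ∃ μ κ y, ∃ hy : y ∈ DA, x = ptA μ κ y hy := by
  rcases reg_or_exc x with ⟨z, hz, rfl⟩ | ⟨μ, κ, t, rfl⟩
  · obtain ⟨ν0, hν0, h0⟩ := exists_HalfLat1_add_Q (z 0)
    obtain ⟨ν1, hν1, h1⟩ := exists_HalfLat1_add_Q (z 1)
    have hμ : mk2 ν0 ν1 ∈ HalfLat := by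
      rw [mem_HalfLat_iff]
      intro j
      fin_cases j
      · exact hν0
      · exact hν1
    set c : Cn 2 := z - mk2 ν0 ν1 with hc
    have hcC : c ∈ Cube := by
      rw [mem_Cube_iff]
      intro j
      fin_cases j
      · exact h0
      · exact h1
    have hzc : z = (⟨mk2 ν0 ν1, hμ⟩ : HalfLat) + c := by
      rw [hc]; simp
    have hc0 : c ≠ 0 := by
      intro h
      apply hz
      rw [hzc, h, add_zero]
      exact hμ
    obtain ⟨κ, hκ⟩ : ∃ κ : Fin 2, c κ ≠ 0 := by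
      by_contra hcon
      push Not at hcon
      exact hc0 (ext2 (hcon 0) (hcon 1))
    refine ⟨⟨mk2 ν0 ν1, hμ⟩, κ, _, coord_mem_DA κ hcC hκ, ?_⟩
    rw [ptA_coord _ κ hcC hκ, reg_eq_reg]
    rw [← hzc]
    exact GEquiv.refl z
  · exact ⟨μ, κ, _, mk2_zero_mem_DA t, rfl⟩

end Kummer
end Claimed.Open.R041
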