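/-
Result 041, sanity (stage 2, package M1): maps `Kum → ℙ^N` given by lifts in the charts `chA μ κ`.
-/
import Claimed.Open.R041.K3Square
import Claimed.Open.R041.K3ProjGeneral
import Claimed.Open.R041.K3KummerTrans

open scoped Manifold ContDiff Topology
open Set

namespace Claimed.Open.R041
namespace Kummer

/-! ### Density of the complement of the coordinate axes -/

/-- The complement of the coordinate axes in `ℂ²`. -/
def offAxes : Set (Cn 2) := {w | w 0 ≠ 0 ∧ w 1 ≠ 0}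

theorem isOpen_offAxes : IsOpen offAxes := by
  have h0 : Continuous fun w : Cn 2 => w 0 := by fun_prop
  have h1 : Continuous fun w : Cn 2 => w 1 := by fun_prop
  exact (isOpen_ne_fun h0 continuous_const).inter (isOpen_ne_fun h1 continuous_const)

theorem dense_offAxes : Dense offAxes := by
  intro w
  rw [Metric.mem_closure_iff]
  intro ε hε
  -- perturb each vanishing coordinate by `ε / 2`
  set p : ℂ := if w 0 = 0 then ((ε / 2 : ℝ) : ℂ) else 0 with hp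
  set q : ℂ := if w 1 = 0 then ((ε / 2 : ℝ) : ℂ) else 0 with hq
  have hε2 : ((ε / 2 : ℝ) : ℂ) ≠ 0 := by
    have : (ε / 2 : ℝ) ≠ 0 := by positivity
    exact_mod_cast this
  have hpn : ‖p‖ ≤ ε / 2 := by
    rw [hp]
    split_ifs
    · rw [Complex.norm_real, Real.norm_eq_abs, abs_of_pos (by positivity)]
    · simp only [norm_zero]; positivity
  have hqn : ‖q‖ ≤ ε / 2 := by
    rw [hq]
    split_ifs
    · rw [Complex.norm_real, Real.norm_eq_abs, abs_of_pos (by positivity)]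
    · simp only [norm_zero]; positivity
  refine ⟨w + mk2 p q, ⟨?_, ?_⟩, ?_⟩
  · show (w + mk2 p q) 0 ≠ 0
    simp only [PiLp.add_apply, mk2_zero, hp]
    split_ifs with h
    · rw [h, zero_add]; exact hε2
    · rw [add_zero]; exact h
  · show (w + mk2 p q) 1 ≠ 0
    simp only [PiLp.add_apply, mk2_one, hq]
    split_ifs with h
    · rw [h, zero_add]; exact hε2
    · rw [add_zero]; exact h
  · rw [dist_eq_norm]
    have e : w - (w + mk2 p q) = -mk2 p q := by abel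
    rw [e, norm_neg]
    have h2 : ‖mk2 p q‖ ^ 2 = ‖p‖ ^ 2 + ‖q‖ ^ 2 := by
      rw [norm_sq_eq_oth 0]
      rfl
    have h3 : ‖mk2 p q‖ ^ 2 < ε ^ 2 := by
      rw [h2]
      have a1 : ‖p‖ ^ 2 ≤ (ε / 2) ^ 2 := pow_le_pow_left₀ (norm_nonneg _) hpn 2
      have a2 : ‖q‖ ^ 2 ≤ (ε / 2) ^ 2 := pow_le_pow_left₀ (norm_nonneg _) hqn 2
      nlinarith
    exact lt_of_pow_lt_pow_left₀ 2 hε.le h3

/-- The preimage of a dense set under a chart is dense in the domain of the chart. -/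
theorem source_subset_closure_preimage {Y : Type} [TopologicalSpace Y]
    (e : OpenPartialHomeomorph Y (Cn 2)) {A : Set (Cn 2)} (hA : Dense A) :
    e.source ⊆ closure (e.source ∩ e ⁻¹' A) := by
  intro x hx
  have h1 : e x ∈ closure (e.target ∩ A) :=
    hA.open_subset_closure_inter e.open_target (e.map_source hx)
  have h2 : ContinuousAt e.symm (e x) := e.continuousAt_symm (e.map_source hx)
  have h3 := mem_closure_image h2 h1
  rw [e.left_inv hx] at h3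
  refine closure_mono ?_ h3
  rintro _ ⟨y, ⟨hy, hyA⟩, rfl⟩
  exact ⟨e.map_target hy, by simpa [e.right_inv hy] using hyA⟩

theorem mem_closure_inter_preimage {Y : Type} [TopologicalSpace Y]
    (e e' : OpenPartialHomeomorph Y (Cn 2)) {A : Set (Cn 2)} (hA : Dense A) (hAo : IsOpen A) {x : Y}
    (hx : x ∈ e.source) (hx' : x ∈ e'.source) :
    x ∈ closure ((e.source ∩ e ⁻¹' A) ∩ (e'.source ∩ e' ⁻¹' A)) := by
  rw [mem_closure_iff]
  intro V hV hxV
  have hD : IsOpen (e.source ∩ e ⁻¹' A) := e.isOpen_inter_preimage hAo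
  obtain ⟨x₁, ⟨hx₁V, hx₁'⟩, hx₁D⟩ := mem_closure_iff.1 (source_subset_closure_preimage e hA hx)
    (V ∩ e'.source) (hV.inter e'.open_source) ⟨hxV, hx'⟩
  obtain ⟨x₂, ⟨hx₂V, hx₂D⟩, hx₂D'⟩ := mem_closure_iff.1
    (source_subset_closure_preimage e' hA hx₁') (V ∩ (e.source ∩ e ⁻¹' A)) (hV.inter hD)
    ⟨hx₁V, hx₁D⟩
  exact ⟨x₂, hx₂V, hx₂D, hx₂D'⟩

/-! ### M1: gluing maps to projective space from lifts in the charts `chA μ κ` -/

theorem eq_ptA_of_mem_chA_source {μ : HalfLat} {κ : Fin 2} {x : Kum} (hx : x ∈ (chA μ κ).source) :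
    ∃ hy : chA μ κ x ∈ DA, x = ptA μ κ (chA μ κ x) hy := by
  obtain ⟨y, hy, rfl⟩ := (mem_chA_source_iff μ κ x).1 hx
  rw [chA_ptA]
  exact ⟨hy, rfl⟩

section Glue

variable {N : ℕ} (F : HalfLat → Fin 2 → Cn 2 → Fin (N + 1) → ℂ)
    (hc : ∀ μ κ, ContinuousOn (F μ κ) DA) (h0 : ∀ μ κ, ∀ y ∈ DA, F μ κ y ≠ 0)
    (φ : Cn 2 → PN N) (hφ : ∀ z z', GEquiv z z' → φ z = φ z')
    (hF : ∀ (μ : HalfLat) κ, ∀ y (hy : y ∈ DA), y 0 ≠ 0 → y 1 ≠ 0 → ∀ ρ : ℂ, ρ ^ 2 = y 0 →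
      φ ((μ : Cn 2) + ρ • vec κ (y 1)) = Projectivization.mk ℂ (F μ κ y) (h0 μ κ y hy))

include hφ hF in
theorem mk_eq_mk_of_offAxes {μ μ' : HalfLat} {κ κ' : Fin 2} {w w' : Cn 2} (hw : w ∈ DA)
    (hw' : w' ∈ DA) (hwA : w ∈ offAxes) (hwA' : w' ∈ offAxes)
    (h : ptA μ κ w hw = ptA μ' κ' w' hw') :
    Projectivization.mk ℂ (F μ κ w) (h0 μ κ w hw) =
      Projectivization.mk ℂ (F μ' κ' w') (h0 μ' κ' w' hw') := by
  obtain ⟨ρ, hρ⟩ := exists_root (w 0)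
  obtain ⟨ρ', hρ'⟩ := exists_root (w' 0)
  have hρ0 : ρ ≠ 0 := by
    rintro rfl
    exact hwA.1 (by rw [← hρ]; simp)
  have hρ0' : ρ' ≠ 0 := by
    rintro rfl
    exact hwA'.1 (by rw [← hρ']; simp)
  rw [ptA_eq_reg μ κ hw hρ0 hρ, ptA_eq_reg μ' κ' hw' hρ0' hρ', reg_eq_reg] at h
  rw [← hF μ κ w hw hwA.1 hwA.2 ρ hρ, ← hF μ' κ' w' hw' hwA'.1 hwA'.2 ρ' hρ']
  exact hφ _ _ h

include hc hφ hF in
theorem mk_eq_mk_of_ptA_eq {μ μ' : HalfLat} {κ κ' : Fin 2} {y y' : Cn 2} (hy : y ∈ DA)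
    (hy' : y' ∈ DA) (h : ptA μ κ y hy = ptA μ' κ' y' hy') :
    Projectivization.mk ℂ (F μ κ y) (h0 μ κ y hy) =
      Projectivization.mk ℂ (F μ' κ' y') (h0 μ' κ' y' hy') := by
  rw [mk_eq_mk_iff_minors]
  intro i j
  set x : Kum := ptA μ κ y hy with hxdef
  have hx : x ∈ (chA μ κ).source := ptA_mem_chA_source μ κ hy
  have hx' : x ∈ (chA μ' κ').source := by rw [h]; exact ptA_mem_chA_source μ' κ' hy'
  have ey : chA μ κ x = y := chA_ptA μ κ hy
  have ey' : chA μ' κ' x = y' := by rw [h]; exact chA_ptA μ' κ' hy'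
  set δ : Kum → ℂ := fun x' => F μ κ (chA μ κ x') i * F μ' κ' (chA μ' κ' x') j -
    F μ κ (chA μ κ x') j * F μ' κ' (chA μ' κ' x') i with hδ
  have hcont : ∀ (μ : HalfLat) (κ : Fin 2) (k : Fin (N + 1)), x ∈ (chA μ κ).source →
      ContinuousAt (fun x' => F μ κ (chA μ κ x') k) x := by
    intro μ κ k hx
    have h1 : ContinuousAt (F μ κ) (chA μ κ x) :=
      (hc μ κ).continuousAt (isOpen_DA.mem_nhds ((chA μ κ).map_source hx))
    have h2 : ContinuousAt (fun x' => F μ κ (chA μ κ x')) x :=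
      ContinuousAt.comp (f := chA μ κ) h1 ((chA μ κ).continuousAt hx)
    exact (continuous_apply k).continuousAt.comp h2
  have hδc : ContinuousAt δ x :=
    ((hcont μ κ i hx).mul (hcont μ' κ' j hx')).sub ((hcont μ κ j hx).mul (hcont μ' κ' i hx'))
  have hδx : δ x = F μ κ y i * F μ' κ' y' j - F μ κ y j * F μ' κ' y' i := by
    simp only [hδ, ey, ey']
  rw [← hδx]
  by_contra hne
  have hev : ∀ᶠ x' in 𝓝 x, δ x' ≠ 0 := hδc.eventually_ne hne
  have hfr := mem_closure_iff_frequently.1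
    (mem_closure_inter_preimage (chA μ κ) (chA μ' κ') dense_offAxes isOpen_offAxes hx hx')
  obtain ⟨x', ⟨⟨hs, hA⟩, ⟨hs', hA'⟩⟩, hx'ne⟩ := (hfr.and_eventually hev).exists
  apply hx'ne
  obtain ⟨hw, e1⟩ := eq_ptA_of_mem_chA_source hs
  obtain ⟨hw', e2⟩ := eq_ptA_of_mem_chA_source hs'
  have := mk_eq_mk_of_offAxes F h0 φ hφ hF hw hw' hA hA' (e1.symm.trans e2)
  exact (mk_eq_mk_iff_minors _ _).1 this i j

include hc hφ hF in
/-- Lifts `F μ κ` in the charts `chA μ κ`, which on the dense open set `a ≠ 0`, `t ≠ 0` represent a `G`-invariant map `φ`,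
glue to a map `Kum → ℙ^N`. -/
theorem exists_map_of_local :
    ∃ g : Kum → PN N, ∀ μ κ y (hy : y ∈ DA),
      g (ptA μ κ y hy) = Projectivization.mk ℂ (F μ κ y) (h0 μ κ y hy) := by
  choose m k w hw hx using exists_eq_ptA
  refine ⟨fun x => Projectivization.mk ℂ (F (m x) (k x) (w x)) (h0 _ _ _ (hw x)), ?_⟩
  intro μ κ y hy
  exact mk_eq_mk_of_ptA_eq F hc h0 φ hφ hF _ hy (hx (ptA μ κ y hy)).symm

end Glue

theorem exists_mk_of_mem_chA_source {N : ℕ} {F : HalfLat → Fin 2 → Cn 2 → Fin (N + 1) → ℂ}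
    {g : Kum → PN N}
    (hg : ∀ μ κ y (hy : y ∈ DA), ∃ h : F μ κ y ≠ 0, g (ptA μ κ y hy) = Projectivization.mk ℂ (F μ κ y) h)
    (μ : HalfLat) (κ : Fin 2) : ∀ x ∈ (chA μ κ).source,
      ∃ h : F μ κ (chA μ κ x) ≠ 0, g x = Projectivization.mk ℂ (F μ κ (chA μ κ x)) h := by
  intro x hx
  obtain ⟨hy, e⟩ := eq_ptA_of_mem_chA_source hx
  obtain ⟨h, h'⟩ := hg μ κ _ hy
  exact ⟨h, by rw [← h', ← e]⟩

/-- A map given by analytic lifts in the charts `chA μ κ` is holomorphic. -/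
theorem isHolomorphic_of_local {N : ℕ} {F : HalfLat → Fin 2 → Cn 2 → Fin (N + 1) → ℂ}
    (hF : ∀ μ κ, AnalyticOnNhd ℂ (F μ κ) DA) {g : Kum → PN N}
    (hg : ∀ μ κ y (hy : y ∈ DA), ∃ h : F μ κ y ≠ 0, g (ptA μ κ y hy) = Projectivization.mk ℂ (F μ κ y) h) :
    IsHolomorphicOnToPN 2 g Set.univ := by
  intro x _
  obtain ⟨μ, κ, y, hy, rfl⟩ := exists_eq_ptA x
  exact ⟨(chA μ κ).source, fun x => F μ κ (chA μ κ x), ptA_mem_chA_source μ κ hy,
    isLocalLift_of_chart (atlas.chart_mem_maximalAtlas (.inl (μ, κ))) (hF μ κ)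
      (exists_mk_of_mem_chA_source hg μ κ)⟩

/-- The kernel of the differential of such a map, in the chart `chA μ κ`. -/
theorem exists_fderiv_eq_of_local {N : ℕ} {F : HalfLat → Fin 2 → Cn 2 → Fin (N + 1) → ℂ}
    (hF : ∀ μ κ, AnalyticOnNhd ℂ (F μ κ) DA) {g : Kum → PN N}
    (hg : ∀ μ κ y (hy : y ∈ DA), ∃ h : F μ κ y ≠ 0, g (ptA μ κ y hy) = Projectivization.mk ℂ (F μ κ y) h)
    (μ : HalfLat) (κ : Fin 2) {y : Cn 2} (hy : y ∈ DA) {v : Cn 2}
    (hv : InKerDifferential 2 g (ptA μ κ y hy) v) :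
    ∃ c : ℂ, fderiv ℂ (F μ κ) y (diffAt ℂ (d := 2) (chA μ κ) (ptA μ κ y hy) v) = c • F μ κ y := by
  have h := InKerDifferential.exists_fderiv_eq (atlas.chart_mem_maximalAtlas (.inl (μ, κ))) (hF μ κ)
    (exists_mk_of_mem_chA_source hg μ κ) (ptA_mem_chA_source μ κ hy) hv
  have e : chA μ κ (ptA μ κ y hy) = y := chA_ptA μ κ hy
  change ∃ c : ℂ, fderiv ℂ (F μ κ) (chA μ κ (ptA μ κ y hy))
    (diffAt ℂ (d := 2) (chA μ κ) (ptA μ κ y hy) v) = c • F μ κ (chA μ κ (ptA μ κ y hy)) at h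
  rwa [e] at h

end Kummer
end Claimed.Open.R041
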