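/-
Result 041, sanity (Kummer K3 example, stage 2, package W): one-variable elliptic functions.
`℘` of the lattice `ℤ[i]` as a map to `ℙ¹`, its local normal form at the half-periods, and the local normal
form of the odd elliptic function `r = ℘' / (℘ - e₁)`.
-/
import Claimed.Open.R041.K3Square
import Claimed.Open.R041.Statement

open scoped Topology
open Set PeriodPair

namespace Claimed.Open.R041
namespace Kummer

/-! ### Even and odd analytic functions on the square -/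

/-- The function `a ↦ g (√a)`. -/
noncomputable def evenDesc (g : ℂ → ℂ) (a : ℂ) : ℂ := g (exists_root a).choose

theorem evenDesc_sq {g : ℂ → ℂ} (heven : ∀ u ∈ Q, g (-u) = g u) {u : ℂ} (hu : u ∈ Q) :
    evenDesc g (u ^ 2) = g u := by
  have h := (exists_root (u ^ 2)).choose_spec
  rcases sq_eq_sq_iff_eq_or_eq_neg.1 h with h1 | h1
  · rw [evenDesc, h1]
  · rw [evenDesc, h1, heven u hu]

theorem analyticAt_evenDesc_of_ne {g : ℂ → ℂ} (hg : AnalyticOnNhd ℂ g Q)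
    (heven : ∀ u ∈ Q, g (-u) = g u) {a₀ : ℂ} (ha₀ : a₀ ∈ Q2) (h0 : a₀ ≠ 0) :
    AnalyticAt ℂ (evenDesc g) a₀ := by
  obtain ⟨ρ₀, hρQ, hρ⟩ := exists_sq_eq_of_mem_Q2 ha₀
  have hρ0 : ρ₀ ≠ 0 := by
    rintro rfl
    apply h0
    simpa using hρ.symm
  have h1 : AnalyticAt ℂ (root a₀ ρ₀) a₀ := analyticAt_root ρ₀ h0
  have h2 : AnalyticAt ℂ g (root a₀ ρ₀ a₀) := by
    rw [root_self h0]
    exact hg ρ₀ hρQ
  have h3 : AnalyticAt ℂ (fun a => g (root a₀ ρ₀ a)) a₀ := h2.fun_comp h1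
  refine h3.congr ?_
  filter_upwards [isOpen_Q2.mem_nhds ha₀, isOpen_ne.mem_nhds h0] with a ha ha0
  have hsq := root_sq hρ0 hρ ha0
  have hQ : root a₀ ρ₀ a ∈ Q := sq_mem_Q2_iff.1 (by rw [hsq]; exact ha)
  rw [← evenDesc_sq heven hQ, hsq]

theorem analyticAt_evenDesc_zero {g : ℂ → ℂ} (hg : AnalyticOnNhd ℂ g Q)
    (heven : ∀ u ∈ Q, g (-u) = g u) : AnalyticAt ℂ (evenDesc g) 0 := by
  refine Complex.analyticAt_of_differentiable_on_punctured_nhds_of_continuousAt ?_ ?_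
  · filter_upwards [nhdsWithin_le_nhds (isOpen_Q2.mem_nhds zero_mem_Q2), self_mem_nhdsWithin]
      with a ha ha0
    exact (analyticAt_evenDesc_of_ne hg heven ha ha0).differentiableAt
  · have hc : ContinuousAt g 0 := (hg 0 zero_mem_Q).continuousAt
    rw [Metric.continuousAt_iff] at hc ⊢
    intro ε hε
    obtain ⟨δ, hδ, h⟩ := hc ε hε
    refine ⟨δ ^ 2, by positivity, fun a ha => ?_⟩
    have h0 : evenDesc g 0 = g 0 := by
      have := evenDesc_sq heven zero_mem_Q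
      simpa using this
    rw [h0]
    show dist (g (exists_root a).choose) (g 0) < ε
    apply h
    have hs := (exists_root a).choose_spec
    rw [dist_zero_right] at ha ⊢
    rw [← hs, norm_pow] at ha
    exact lt_of_pow_lt_pow_left₀ 2 hδ.le ha

/-- An even analytic function on the square is an analytic function of `u²`. -/
theorem exists_even_factor {g : ℂ → ℂ} (hg : AnalyticOnNhd ℂ g Q)
    (heven : ∀ u ∈ Q, g (-u) = g u) :
    ∃ G : ℂ → ℂ, AnalyticOnNhd ℂ G Q2 ∧ (∀ u ∈ Q, g u = G (u ^ 2)) ∧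
      ∀ u ∈ Q, deriv g u = 2 * u * deriv G (u ^ 2) := by
  have han : AnalyticOnNhd ℂ (evenDesc g) Q2 := by
    intro a ha
    by_cases h0 : a = 0
    · subst h0
      exact analyticAt_evenDesc_zero hg heven
    · exact analyticAt_evenDesc_of_ne hg heven ha h0
  refine ⟨evenDesc g, han, fun u hu => (evenDesc_sq heven hu).symm, ?_⟩
  intro u hu
  have hG : AnalyticAt ℂ (evenDesc g) (u ^ 2) := han _ (sq_mem_Q2_iff.2 hu)
  have h1 : HasDerivAt (fun v => evenDesc g (v ^ 2)) (deriv (evenDesc g) (u ^ 2) * (2 * u)) u := by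
    have h2 : HasDerivAt (fun v : ℂ => v ^ 2) (2 * u) u := by
      simpa using (hasDerivAt_id u).fun_pow 2
    exact HasDerivAt.comp (h₂ := evenDesc g) (h := fun v : ℂ => v ^ 2) u
      hG.differentiableAt.hasDerivAt h2
  have h2 : g =ᶠ[𝓝 u] fun v => evenDesc g (v ^ 2) := by
    filter_upwards [isOpen_Q.mem_nhds hu] with v hv
    exact (evenDesc_sq heven hv).symm
  rw [h2.deriv_eq, h1.deriv]
  ring

/-! ### Basic facts on `℘` and `℘'` for the Gaussian lattice -/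

theorem wp_add_Lat1 {l : ℂ} (hl : l ∈ Lat1) (z : ℂ) : wp (z + l) = wp z :=
  gaussPair.weierstrassP_add_coe z ⟨l, hl⟩

theorem wp_neg (z : ℂ) : wp (-z) = wp z := gaussPair.weierstrassP_neg z

theorem dwp_add_Lat1 {l : ℂ} (hl : l ∈ Lat1) (z : ℂ) :
    ℘'[gaussPair] (z + l) = ℘'[gaussPair] z :=
  gaussPair.derivWeierstrassP_add_coe z ⟨l, hl⟩

theorem dwp_neg (z : ℂ) : ℘'[gaussPair] (-z) = - ℘'[gaussPair] z :=
  gaussPair.derivWeierstrassP_neg z

theorem mem_HalfLat1_of_dwp_eq_zero {z : ℂ} (hz : z ∉ Lat1) (h : ℘'[gaussPair] z = 0) :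
    z ∈ HalfLat1 := by
  have hz' : -z ∉ gaussPair.lattice := fun h' => hz (by simpa using Lat1.neg_mem h')
  have h1 := sub_mem_lattice_of_eq gaussPair hz hz' (by rw [gaussPair.weierstrassP_neg])
    (by rw [gaussPair.derivWeierstrassP_neg, h, neg_zero])
  rw [mem_HalfLat1, mem_Lat1_iff_lattice]
  simpa using h1

theorem dwp_eq_zero_of_mem_HalfLat1 {ν : ℂ} (hν : ν ∈ HalfLat1) : ℘'[gaussPair] ν = 0 := by
  have h1 : ℘'[gaussPair] (-ν + (ν + ν)) = ℘'[gaussPair] (-ν) := dwp_add_Lat1 hν _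
  rw [dwp_neg] at h1
  have e : -ν + (ν + ν) = ν := by ring
  rw [e] at h1
  have h2 : (2 : ℂ) * ℘'[gaussPair] ν = 0 := by linear_combination h1
  simpa using h2

/-- `℘''` does not vanish at the half-periods. -/
theorem deriv_dwp_ne_zero {ν : ℂ} (hν : ν ∈ HalfLat1) (hν' : ν ∉ Lat1) :
    deriv ℘'[gaussPair] ν ≠ 0 := by
  intro h0
  have hν'' : ν ∉ gaussPair.lattice := hν'
  have hg2 : 6 * ℘[gaussPair] ν ^ 2 - gaussPair.g₂ / 2 = 0 := by
    rw [← deriv_derivWeierstrassP gaussPair hν'', h0]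
  have hA : AnalyticAt ℂ ℘[gaussPair] ν := gaussPair.analyticOnNhd_weierstrassP ν hν''
  have hd : deriv (fun z => ℘[gaussPair] z - ℘[gaussPair] ν) = ℘'[gaussPair] := by
    funext z
    rw [deriv_sub_const, gaussPair.deriv_weierstrassP]
  have hloc : ∀ᶠ z in 𝓝 ν, ℘[gaussPair] z - ℘[gaussPair] ν = 0 := by
    refine eventually_eq_zero_of_second_order
      (q := fun z => 6 * (℘[gaussPair] z + ℘[gaussPair] ν)) (hA.sub analyticAt_const)
      (analyticAt_const.mul (hA.add analyticAt_const)) ?_ (sub_self _) ?_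
    · rw [hd]
      filter_upwards [gaussPair.isClosed_lattice.isOpen_compl.mem_nhds hν''] with z hz
      rw [deriv_derivWeierstrassP gaussPair hz]
      linear_combination hg2
    · rw [hd]
      exact dwp_eq_zero_of_mem_HalfLat1 hν
  apply not_eventually_derivWeierstrassP_eq_zero gaussPair hν''
  have h2 : (fun z => ℘[gaussPair] z - ℘[gaussPair] ν) =ᶠ[𝓝 ν] fun _ => 0 := hloc
  have h3 := h2.deriv
  rw [hd] at h3
  filter_upwards [h3] with z hz
  rw [hz]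
  simp

/-! ### `℘` as a map to the projective line -/

theorem mk_eq_mk_iff_det {v w : Fin (1 + 1) → ℂ} (hv : v ≠ 0) (hw : w ≠ 0) :
    Projectivization.mk ℂ v hv = Projectivization.mk ℂ w hw ↔ v 0 * w 1 = v 1 * w 0 := by
  rw [Projectivization.mk_eq_mk_iff']
  constructor
  · rintro ⟨a, rfl⟩
    simp only [Pi.smul_apply, smul_eq_mul]
    ring
  · intro h
    by_cases h0 : w 0 = 0
    · have h1 : w 1 ≠ 0 := by
        intro h1
        apply hw
        funext i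
        fin_cases i
        · exact h0
        · exact h1
      refine ⟨v 1 / w 1, ?_⟩
      funext i
      fin_cases i
      · show v 1 / w 1 * w 0 = v 0
        field_simp
        linear_combination -h
      · show v 1 / w 1 * w 1 = v 1
        field_simp
    · refine ⟨v 0 / w 0, ?_⟩
      funext i
      fin_cases i
      · show v 0 / w 0 * w 0 = v 0
        field_simp
      · show v 0 / w 0 * w 1 = v 1
        field_simp
        linear_combination h

open Classical in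
/-- `℘` as a map `ℂ → ℙ¹`. -/
noncomputable def wpP (z : ℂ) : PN 1 :=
  if z ∈ Lat1 then Projectivization.mk ℂ ![1, 0] (by intro h; simpa using congrFun h 0)
  else Projectivization.mk ℂ ![wp z, 1] (by intro h; simpa using congrFun h 1)

theorem wpP_of_mem {z : ℂ} (hz : z ∈ Lat1) :
    wpP z = Projectivization.mk ℂ ![1, 0] (by intro h; simpa using congrFun h 0) := by
  simp [wpP, hz]

theorem wpP_of_notMem {z : ℂ} (hz : z ∉ Lat1) :
    wpP z = Projectivization.mk ℂ ![wp z, 1] (by intro h; simpa using congrFun h 1) := by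
  simp [wpP, hz]

theorem wpP_eq_iff {z w : ℂ} : wpP z = wpP w ↔ z - w ∈ Lat1 ∨ z + w ∈ Lat1 := by
  by_cases hz : z ∈ Lat1
  · by_cases hw : w ∈ Lat1
    · rw [wpP_of_mem hz, wpP_of_mem hw]
      exact ⟨fun _ => Or.inl (Lat1.sub_mem hz hw), fun _ => rfl⟩
    · rw [wpP_of_mem hz, wpP_of_notMem hw, mk_eq_mk_iff_det]
      constructor
      · intro h
        simp at h
      · rintro (h | h)
        · exact absurd (by simpa using Lat1.sub_mem hz h) hw
        · exact absurd (by simpa using Lat1.sub_mem h hz) hw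
  · by_cases hw : w ∈ Lat1
    · rw [wpP_of_notMem hz, wpP_of_mem hw, mk_eq_mk_iff_det]
      constructor
      · intro h
        simp at h
      · rintro (h | h)
        · exact absurd (by simpa using Lat1.add_mem h hw) hz
        · exact absurd (by simpa using Lat1.sub_mem h hw) hz
    · rw [wpP_of_notMem hz, wpP_of_notMem hw, mk_eq_mk_iff_det]
      have := wp_eq_iff (z := z) (w := w) hz hw
      simp only [Matrix.cons_val_zero, Matrix.cons_val_one, mul_one, one_mul]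
      exact this

theorem wpP_surjective : Function.Surjective wpP := by
  intro p
  induction p using Projectivization.ind with
  | h v hv =>
    by_cases h1 : v 1 = 0
    · refine ⟨0, ?_⟩
      rw [wpP_of_mem Lat1.zero_mem, mk_eq_mk_iff_det]
      simp [h1]
    · obtain ⟨z, hz, hzv⟩ := exists_wp_eq (v 0 / v 1)
      refine ⟨z, ?_⟩
      rw [wpP_of_notMem hz, mk_eq_mk_iff_det]
      simp only [Matrix.cons_val_zero, Matrix.cons_val_one, one_mul, hzv]
      field_simp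

/-! ### The local form of `℘` at a half-period outside the lattice -/

theorem eq_zero_of_mem_Q_of_add_mem {ν u : ℂ} (hν : ν ∈ HalfLat1) (hu : u ∈ Q)
    (h : ν + u ∈ HalfLat1) : u = 0 := by
  refine eq_zero_of_mem_Q_of_mem_HalfLat1 hu ?_
  have := HalfLat1.sub_mem h hν
  simpa using this

theorem add_notMem_Lat1 {ν u : ℂ} (hν : ν ∈ HalfLat1) (hν' : ν ∉ Lat1) (hu : u ∈ Q) :
    ν + u ∉ Lat1 := by
  intro h
  have h0 := eq_zero_of_mem_Q_of_add_mem hν hu (Lat1_le_HalfLat1 h)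
  subst h0
  apply hν'
  simpa using h

theorem wp_half_add_neg {ν : ℂ} (hν : ν ∈ HalfLat1) (u : ℂ) : wp (ν + -u) = wp (ν + u) := by
  have h1 : wp (-(ν + u) + (ν + ν)) = wp (-(ν + u)) := wp_add_Lat1 hν _
  rw [wp_neg] at h1
  rw [← h1]
  congr 1
  ring

/-- `℘ (ν + u) = P (u²)` with `P' ≠ 0`. -/
theorem exists_wpHalf (ν : ℂ) (hν : ν ∈ HalfLat1) (hν' : ν ∉ Lat1) :
    ∃ P : ℂ → ℂ, AnalyticOnNhd ℂ P Q2 ∧ (∀ u ∈ Q, wp (ν + u) = P (u ^ 2)) ∧
      (∀ u ∈ Q, ℘'[gaussPair] (ν + u) = 2 * u * deriv P (u ^ 2)) ∧ ∀ a ∈ Q2, deriv P a ≠ 0 := by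
  have hder : ∀ u ∈ Q, HasDerivAt (fun u => wp (ν + u)) (℘'[gaussPair] (ν + u)) u := by
    intro u hu
    exact (hasDerivAt_weierstrassP gaussPair (add_notMem_Lat1 hν hν' hu)).comp_const_add ν u
  have han : AnalyticOnNhd ℂ (fun u => wp (ν + u)) Q := by
    intro u hu
    have h1 : AnalyticAt ℂ wp (ν + u) :=
      gaussPair.analyticOnNhd_weierstrassP _ (add_notMem_Lat1 hν hν' hu)
    exact AnalyticAt.fun_comp (f := fun u => ν + u) h1 (by fun_prop)
  obtain ⟨P, hP, hP1, hP2⟩ := exists_even_factor han (fun u _ => wp_half_add_neg hν u)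
  have hP3 : ∀ u ∈ Q, ℘'[gaussPair] (ν + u) = 2 * u * deriv P (u ^ 2) := by
    intro u hu
    rw [← hP2 u hu, (hder u hu).deriv]
  refine ⟨P, hP, hP1, hP3, ?_⟩
  intro a ha h0
  obtain ⟨u, hu, rfl⟩ := exists_sq_eq_of_mem_Q2 ha
  by_cases hu0 : u = 0
  · subst hu0
    apply deriv_dwp_ne_zero hν hν'
    have h1 : HasDerivAt (fun u => ℘'[gaussPair] (ν + u)) (deriv ℘'[gaussPair] (ν + 0)) 0 :=
      (hasDerivAt_derivWeierstrassP gaussPair
        (add_notMem_Lat1 hν hν' zero_mem_Q)).comp_const_add ν 0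
    have hk : DifferentiableAt ℂ (fun u : ℂ => deriv P (u ^ 2)) 0 := by
      have h2 : AnalyticAt ℂ (deriv P) ((0 : ℂ) ^ 2) := (hP _ ha).deriv
      have h3 : AnalyticAt ℂ (fun u : ℂ => deriv P (u ^ 2)) 0 :=
        AnalyticAt.fun_comp (f := fun u : ℂ => u ^ 2) h2 (by fun_prop)
      exact h3.differentiableAt
    have h2 : HasDerivAt (fun u : ℂ => 2 * u * deriv P (u ^ 2))
        (2 * deriv P ((0 : ℂ) ^ 2) + 2 * 0 * deriv (fun u : ℂ => deriv P (u ^ 2)) 0) 0 := by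
      have h3 : HasDerivAt (fun u : ℂ => 2 * u) 2 0 := by
        simpa using (hasDerivAt_id (0 : ℂ)).const_mul 2
      exact h3.fun_mul hk.hasDerivAt
    have h3 : (fun u => ℘'[gaussPair] (ν + u)) =ᶠ[𝓝 0] fun u : ℂ => 2 * u * deriv P (u ^ 2) := by
      filter_upwards [isOpen_Q.mem_nhds zero_mem_Q] with u hu
      exact hP3 u hu
    have h4 := (h2.congr_of_eventuallyEq h3).unique h1
    rw [add_zero] at h4
    rw [← h4, h0]
    ring
  · have h1 := hP3 u hu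
    rw [h0, mul_zero] at h1
    exact hu0 (eq_zero_of_mem_Q_of_add_mem hν hu
      (mem_HalfLat1_of_dwp_eq_zero (add_notMem_Lat1 hν hν' hu) h1))

/-! ### The functions `u² (℘ u - e₁)` and `u³ ℘' u` near the origin -/

/-- `u² (℘ u - e₁)`, extended analytically to the origin. -/
noncomputable def wpD (u : ℂ) : ℂ := 1 + u ^ 2 * (gaussPair.weierstrassPExcept 0 u - wp (1 / 2))

/-- `u³ ℘' u`, extended analytically to the origin. -/
noncomputable def wpN (u : ℂ) : ℂ := -2 + u ^ 3 * gaussPair.derivWeierstrassPExcept 0 u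

theorem wpD_zero : wpD 0 = 1 := by simp [wpD]

theorem wpN_zero : wpN 0 = -2 := by simp [wpN]

theorem wpD_eq {u : ℂ} (hu : u ≠ 0) : wpD u = u ^ 2 * (wp u - wp (1 / 2)) := by
  have h := gaussPair.weierstrassPExcept_add 0 u
  simp only [ZeroMemClass.coe_zero, sub_zero, ne_eq, OfNat.ofNat_ne_zero, not_false_eq_true,
    zero_pow, div_zero] at h
  have h' : wp u = gaussPair.weierstrassPExcept 0 u + 1 / u ^ 2 := h.symm
  rw [wpD, h']
  field_simp
  ring

theorem wpN_eq {u : ℂ} (hu : u ≠ 0) : wpN u = u ^ 3 * ℘'[gaussPair] u := by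
  have h := gaussPair.derivWeierstrassPExcept_sub 0 u
  simp only [ZeroMemClass.coe_zero, sub_zero] at h
  rw [wpN, ← h]
  field_simp
  ring

theorem notMem_Lat1_of_mem_Q {u : ℂ} (hu : u ∈ Q) (hu0 : u ≠ 0) : u ∉ Lat1 := fun h =>
  hu0 (eq_zero_of_mem_Q_of_mem_HalfLat1 hu (Lat1_le_HalfLat1 h))

theorem mem_compl_of_mem_Q {u : ℂ} (hu : u ∈ Q) :
    u ∈ ((gaussPair.lattice : Set ℂ) \ {0})ᶜ := by
  rintro ⟨h1, h2⟩
  exact notMem_Lat1_of_mem_Q hu h2 h1

theorem analyticOnNhd_wpD : AnalyticOnNhd ℂ wpD Q := by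
  intro u hu
  have h1 : AnalyticAt ℂ (gaussPair.weierstrassPExcept 0) u :=
    gaussPair.analyticOnNhd_weierstrassPExcept 0 u (mem_compl_of_mem_Q hu)
  unfold wpD
  fun_prop

theorem analyticOnNhd_wpN : AnalyticOnNhd ℂ wpN Q := by
  intro u hu
  have h1 : AnalyticAt ℂ (gaussPair.derivWeierstrassPExcept 0) u :=
    gaussPair.analyticOnNhd_derivWeierstrassPExcept 0 u (mem_compl_of_mem_Q hu)
  unfold wpN
  fun_prop

theorem wpD_neg (u : ℂ) : wpD (-u) = wpD u := by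
  unfold wpD
  rw [gaussPair.weierstrassPExcept_neg, neg_zero]
  ring

theorem wpN_neg (u : ℂ) : wpN (-u) = wpN u := by
  unfold wpN
  rw [gaussPair.derivWeierstrassPExcept_neg, neg_zero]
  ring

theorem half_mem_HalfLat1 : (1 / 2 : ℂ) ∈ HalfLat1 := by
  rw [mem_HalfLat1, mem_Lat1]
  exact ⟨⟨1, by norm_num⟩, ⟨0, by norm_num⟩⟩

theorem half_notMem_Lat1 : (1 / 2 : ℂ) ∉ Lat1 := by
  have := gaussPair.ω₁_div_two_notMem_lattice
  exact this

theorem dwp_ne_zero_of_mem_Q {u : ℂ} (hu : u ∈ Q) (hu0 : u ≠ 0) : ℘'[gaussPair] u ≠ 0 := fun h =>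
  hu0 (eq_zero_of_mem_Q_of_mem_HalfLat1 hu
    (mem_HalfLat1_of_dwp_eq_zero (notMem_Lat1_of_mem_Q hu hu0) h))

/-- if `℘ z = ℘ μ` with `μ` a half-period, then `z` is a half-period congruent to `μ`. -/
theorem sub_mem_Lat1_of_wp_eq {z μ : ℂ} (hz : z ∉ Lat1) (hμ : μ ∈ HalfLat1) (hμ' : μ ∉ Lat1)
    (h : wp z = wp μ) : z - μ ∈ Lat1 := by
  rcases (wp_eq_iff hz hμ').1 h with h1 | h1
  · exact h1
  · have := Lat1.sub_mem h1 hμ
    have e : z + μ - (μ + μ) = z - μ := by ring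
    rwa [e] at this

theorem wp_ne_half_of_mem_Q {u : ℂ} (hu : u ∈ Q) (hu0 : u ≠ 0) : wp u ≠ wp (1 / 2) := by
  intro h
  have h1 := sub_mem_Lat1_of_wp_eq (notMem_Lat1_of_mem_Q hu hu0) half_mem_HalfLat1
    half_notMem_Lat1 h
  apply hu0
  refine eq_zero_of_mem_Q_of_mem_HalfLat1 hu ?_
  have := HalfLat1.add_mem (Lat1_le_HalfLat1 h1) half_mem_HalfLat1
  simpa using this

theorem wpD_ne_zero {u : ℂ} (hu : u ∈ Q) : wpD u ≠ 0 := by
  by_cases hu0 : u = 0
  · subst hu0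
    rw [wpD_zero]
    exact one_ne_zero
  · rw [wpD_eq hu0]
    exact mul_ne_zero (pow_ne_zero _ hu0) (sub_ne_zero.2 (wp_ne_half_of_mem_Q hu hu0))

theorem wpN_ne_zero {u : ℂ} (hu : u ∈ Q) : wpN u ≠ 0 := by
  by_cases hu0 : u = 0
  · subst hu0
    rw [wpN_zero]
    norm_num
  · rw [wpN_eq hu0]
    exact mul_ne_zero (pow_ne_zero _ hu0) (dwp_ne_zero_of_mem_Q hu hu0)

theorem deriv_wpD {u : ℂ} (hu : u ∈ Q) (hu0 : u ≠ 0) :
    deriv wpD u = 2 * u * (wp u - wp (1 / 2)) + u ^ 2 * ℘'[gaussPair] u := by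
  have h1 : HasDerivAt (fun v : ℂ => v ^ 2 * (wp v - wp (1 / 2)))
      (2 * u * (wp u - wp (1 / 2)) + u ^ 2 * ℘'[gaussPair] u) u := by
    have h2 : HasDerivAt (fun v : ℂ => v ^ 2) (2 * u) u := by
      simpa using (hasDerivAt_id u).fun_pow 2
    have h3 : HasDerivAt (fun v : ℂ => wp v - wp (1 / 2)) (℘'[gaussPair] u) u :=
      (hasDerivAt_weierstrassP gaussPair (notMem_Lat1_of_mem_Q hu hu0)).sub_const _
    exact h2.fun_mul h3
  have h2 : wpD =ᶠ[𝓝 u] fun v : ℂ => v ^ 2 * (wp v - wp (1 / 2)) := by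
    filter_upwards [isOpen_ne.mem_nhds hu0] with v hv
    exact wpD_eq hv
  rw [h2.deriv_eq, h1.deriv]

/-! ### (E1) -/

theorem analyticOnNhd_vec2 {f g : ℂ → ℂ} {s : Set ℂ} (hf : AnalyticOnNhd ℂ f s)
    (hg : AnalyticOnNhd ℂ g s) :
    AnalyticOnNhd ℂ (fun a => (![f a, g a] : Fin (1 + 1) → ℂ)) s := by
  intro a ha
  rw [analyticAt_pi_iff]
  intro i
  fin_cases i
  · exact hf a ha
  · exact hg a ha

theorem deriv_vec2 {f g : ℂ → ℂ} {a : ℂ} (hf : DifferentiableAt ℂ f a)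
    (hg : DifferentiableAt ℂ g a) :
    deriv (fun a => (![f a, g a] : Fin (1 + 1) → ℂ)) a = ![deriv f a, deriv g a] := by
  apply HasDerivAt.deriv
  rw [hasDerivAt_pi]
  intro i
  fin_cases i
  · exact hf.hasDerivAt
  · exact hg.hasDerivAt

theorem exists_wpLoc_of_notMem (ν : ℂ) (hν : ν ∈ HalfLat1) (hν' : ν ∉ Lat1) :
    ∃ A : ℂ → Fin (1 + 1) → ℂ, AnalyticOnNhd ℂ A Q2 ∧
    (∀ u ∈ Q, ∃ h : A (u ^ 2) ≠ 0, wpP (ν + u) = Projectivization.mk ℂ (A (u ^ 2)) h) ∧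
    (∀ a ∈ Q2, ∀ c : ℂ, deriv A a ≠ c • A a) := by
  obtain ⟨P, hP, hP1, -, hP3⟩ := exists_wpHalf ν hν hν'
  refine ⟨fun a => ![P a, 1], analyticOnNhd_vec2 hP (fun _ _ => analyticAt_const), ?_, ?_⟩
  · intro u hu
    refine ⟨by intro h; simpa using congrFun h 1, ?_⟩
    rw [wpP_of_notMem (add_notMem_Lat1 hν hν' hu), mk_eq_mk_iff_det]
    simp [hP1 u hu]
  · intro a ha c h
    rw [deriv_vec2 (hP a ha).differentiableAt (differentiableAt_const _)] at h
    have h0 := congrFun h 0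
    have h1 := congrFun h 1
    simp at h0 h1
    rw [← h1] at h0
    simp at h0
    exact hP3 a ha h0

theorem exists_wpLoc_of_mem (ν : ℂ) (hν : ν ∈ Lat1) :
    ∃ A : ℂ → Fin (1 + 1) → ℂ, AnalyticOnNhd ℂ A Q2 ∧
    (∀ u ∈ Q, ∃ h : A (u ^ 2) ≠ 0, wpP (ν + u) = Projectivization.mk ℂ (A (u ^ 2)) h) ∧
    (∀ a ∈ Q2, ∀ c : ℂ, deriv A a ≠ c • A a) := by
  obtain ⟨D, hD, hD1, hD2⟩ := exists_even_factor analyticOnNhd_wpD (fun u _ => wpD_neg u)
  have han : AnalyticOnNhd ℂ (fun a => D a + wp (1 / 2) * a) Q2 := fun a ha =>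
    (hD a ha).add (analyticAt_const.mul analyticAt_id)
  refine ⟨fun a => ![D a + wp (1 / 2) * a, a], analyticOnNhd_vec2 han (fun _ _ => analyticAt_id),
    ?_, ?_⟩
  · intro u hu
    by_cases hu0 : u = 0
    · subst hu0
      have hD0 : D 0 = 1 := by
        have := hD1 0 zero_mem_Q
        rw [wpD_zero] at this
        simpa using this.symm
      refine ⟨by intro h; simpa [hD0] using congrFun h 0, ?_⟩
      rw [add_zero, wpP_of_mem hν, mk_eq_mk_iff_det]
      simp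
    · refine ⟨by intro h; simpa [hu0] using congrFun h 1, ?_⟩
      have hnm : ν + u ∉ Lat1 := fun h =>
        notMem_Lat1_of_mem_Q hu hu0 (by simpa using Lat1.sub_mem h hν)
      have hw : wp (ν + u) = wp u := by rw [add_comm]; exact wp_add_Lat1 hν u
      rw [wpP_of_notMem hnm, mk_eq_mk_iff_det]
      simp only [Matrix.cons_val_zero, Matrix.cons_val_one, one_mul, hw, ← hD1 u hu, wpD_eq hu0]
      ring
  · intro a ha c h
    rw [deriv_vec2 (g := fun a => a) (han a ha).differentiableAt differentiableAt_fun_id] at h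
    have h0 := congrFun h 0
    have h1 := congrFun h 1
    have hd : deriv (fun a => D a + wp (1 / 2) * a) a = deriv D a + wp (1 / 2) := by
      have h2 : HasDerivAt (fun a => D a + wp (1 / 2) * a) (deriv D a + wp (1 / 2) * 1) a :=
        (hD a ha).differentiableAt.hasDerivAt.fun_add ((hasDerivAt_id a).const_mul _)
      rw [h2.deriv, mul_one]
    simp only [Matrix.cons_val_zero, Matrix.cons_val_one, Pi.smul_apply, smul_eq_mul, hd] at h0 h1
    have h1' : c * a = 1 := by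
      rw [← h1]
      simp
    obtain ⟨u, hu, rfl⟩ := exists_sq_eq_of_mem_Q2 ha
    have hu0 : u ≠ 0 := by
      rintro rfl
      simp at h1'
    have e1 := hD2 u hu
    rw [deriv_wpD hu hu0] at e1
    have e2 := hD1 u hu
    rw [wpD_eq hu0] at e2
    apply dwp_ne_zero_of_mem_Q hu hu0
    have e3 : u ^ 3 * ℘'[gaussPair] u = 0 := by
      have e4 : deriv D (u ^ 2) = c * D (u ^ 2) := by linear_combination h0 + wp (1 / 2) * h1'
      have e5 : u ^ 2 * deriv D (u ^ 2) = D (u ^ 2) := by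
        rw [e4]
        linear_combination D (u ^ 2) * h1'
      linear_combination u * e1 + 2 * e5 - 2 * e2
    exact (mul_eq_zero.1 e3).resolve_left (pow_ne_zero _ hu0)

/-- (E1) local form of `℘` at a half-period `ν`: `℘(ν + u) = [A(u²)]` with `A` an immersion
`Q2 → ℂ² ∖ 0 → ℙ¹`. -/
theorem exists_wpLoc (ν : ℂ) (hν : ν ∈ HalfLat1) : ∃ A : ℂ → Fin (1 + 1) → ℂ,
    AnalyticOnNhd ℂ A Q2 ∧
    (∀ u ∈ Q, ∃ h : A (u ^ 2) ≠ 0, wpP (ν + u) = Projectivization.mk ℂ (A (u ^ 2)) h) ∧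
    (∀ a ∈ Q2, ∀ c : ℂ, deriv A a ≠ c • A a) := by
  by_cases h : ν ∈ Lat1
  · exact exists_wpLoc_of_mem ν h
  · exact exists_wpLoc_of_notMem ν hν h

/-! ### (E2) -/

/-- The odd elliptic function `r = ℘' / (℘ - e₁)` of degree `2`: simple zeros at `i/2`, `(1+i)/2`, simple
poles at `0`, `1/2`. -/
noncomputable def rr (z : ℂ) : ℂ := ℘'[gaussPair] z / (wp z - wp (1 / 2))

theorem rr_neg (z : ℂ) : rr (-z) = - rr z := by
  unfold rr
  rw [dwp_neg, wp_neg, neg_div]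

theorem rr_add_Lat1 {l : ℂ} (hl : l ∈ Lat1) (z : ℂ) : rr (z + l) = rr z := by
  unfold rr
  rw [dwp_add_Lat1 hl, wp_add_Lat1 hl]

theorem exists_rLoc_of_mem (ν : ℂ) (hν : ν ∈ Lat1) : ∃ C : ℂ → ℂ,
    AnalyticOnNhd ℂ C Q2 ∧ (∀ a ∈ Q2, C a ≠ 0) ∧
    ∀ u ∈ Q, u ≠ 0 → rr (ν + u) = (u * C (u ^ 2))⁻¹ := by
  have han : AnalyticOnNhd ℂ (fun u => wpD u / wpN u) Q := fun u hu =>
    (analyticOnNhd_wpD u hu).div (analyticOnNhd_wpN u hu) (wpN_ne_zero hu)
  obtain ⟨C, hC, hC1, -⟩ := exists_even_factor han (fun u _ => by simp only [wpD_neg, wpN_neg])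
  refine ⟨C, hC, ?_, ?_⟩
  · intro a ha
    obtain ⟨u, hu, rfl⟩ := exists_sq_eq_of_mem_Q2 ha
    rw [← hC1 u hu]
    exact div_ne_zero (wpD_ne_zero hu) (wpN_ne_zero hu)
  · intro u hu hu0
    rw [add_comm, rr_add_Lat1 hν, ← hC1 u hu, wpD_eq hu0, wpN_eq hu0]
    unfold rr
    have h1 := dwp_ne_zero_of_mem_Q hu hu0
    have h2 := sub_ne_zero.2 (wp_ne_half_of_mem_Q hu hu0)
    field_simp

theorem add_sub_half_mem {ν u : ℂ} (hν : ν ∈ HalfLat1) (hν' : ν ∉ Lat1) (hu : u ∈ Q)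
    (h : wp (ν + u) = wp (1 / 2)) : u = 0 ∧ ν - 1 / 2 ∈ Lat1 := by
  have h2 := sub_mem_Lat1_of_wp_eq (add_notMem_Lat1 hν hν' hu) half_mem_HalfLat1
    half_notMem_Lat1 h
  have hu0 : u = 0 := by
    refine eq_zero_of_mem_Q_of_add_mem hν hu ?_
    have := HalfLat1.add_mem (Lat1_le_HalfLat1 h2) half_mem_HalfLat1
    simpa using this
  subst hu0
  exact ⟨rfl, by simpa using h2⟩

theorem exists_rLoc_of_half (ν : ℂ) (hν : ν ∈ HalfLat1) (hν' : ν ∉ Lat1)
    (h : ν - 1 / 2 ∈ Lat1) : ∃ C : ℂ → ℂ,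
    AnalyticOnNhd ℂ C Q2 ∧ (∀ a ∈ Q2, C a ≠ 0) ∧
    ∀ u ∈ Q, u ≠ 0 → rr (ν + u) = (u * C (u ^ 2))⁻¹ := by
  obtain ⟨P, hP, hP1, hP2, hP3⟩ := exists_wpHalf ν hν hν'
  have hP0 : P 0 = wp (1 / 2) := by
    have h1 := hP1 0 zero_mem_Q
    have e : wp ν = wp (1 / 2) := by
      have h2 := wp_add_Lat1 h (1 / 2)
      rwa [add_sub_cancel] at h2
    rw [add_zero, e] at h1
    simpa using h1.symm
  have hS : AnalyticOnNhd ℂ (dslope P 0) Q2 := by
    have h1 : DifferentiableOn ℂ P Q2 := hP.differentiableOn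
    have h2 := (Complex.differentiableOn_dslope (isOpen_Q2.mem_nhds zero_mem_Q2)).2 h1
    exact h2.analyticOnNhd isOpen_Q2
  have hS1 : ∀ a, a * dslope P 0 a = P a - wp (1 / 2) := by
    intro a
    have := sub_smul_dslope P 0 a
    simpa [hP0] using this
  have hS0 : ∀ a ∈ Q2, dslope P 0 a ≠ 0 := by
    intro a ha h0
    by_cases ha0 : a = 0
    · subst ha0
      rw [dslope_same] at h0
      exact hP3 0 ha h0
    · obtain ⟨u, hu, rfl⟩ := exists_sq_eq_of_mem_Q2 ha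
      have h1 := hS1 (u ^ 2)
      rw [h0, mul_zero, ← hP1 u hu] at h1
      have h2 := (add_sub_half_mem hν hν' hu (sub_eq_zero.1 h1.symm)).1
      apply ha0
      rw [h2]
      simp
  refine ⟨fun a => dslope P 0 a / (2 * deriv P a), ?_, ?_, ?_⟩
  · intro a ha
    exact (hS a ha).div (analyticAt_const.mul (hP a ha).deriv)
      (mul_ne_zero two_ne_zero (hP3 a ha))
  · intro a ha
    exact div_ne_zero (hS0 a ha) (mul_ne_zero two_ne_zero (hP3 a ha))
  · intro u hu hu0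
    unfold rr
    rw [hP2 u hu, hP1 u hu, ← hS1]
    have h1 := hS0 _ (sq_mem_Q2_iff.2 hu)
    have h2 := hP3 _ (sq_mem_Q2_iff.2 hu)
    field_simp

theorem exists_rLoc_of_other (ν : ℂ) (hν : ν ∈ HalfLat1) (hν' : ν ∉ Lat1)
    (h : ν - 1 / 2 ∉ Lat1) : ∃ C : ℂ → ℂ,
    AnalyticOnNhd ℂ C Q2 ∧ (∀ a ∈ Q2, C a ≠ 0) ∧
    ∀ u ∈ Q, u ≠ 0 → rr (ν + u) = u * C (u ^ 2) := by
  obtain ⟨P, hP, hP1, hP2, hP3⟩ := exists_wpHalf ν hν hν'
  have hne : ∀ a ∈ Q2, P a - wp (1 / 2) ≠ 0 := by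
    intro a ha h0
    obtain ⟨u, hu, rfl⟩ := exists_sq_eq_of_mem_Q2 ha
    rw [← hP1 u hu] at h0
    exact h (add_sub_half_mem hν hν' hu (sub_eq_zero.1 h0)).2
  refine ⟨fun a => 2 * deriv P a / (P a - wp (1 / 2)), ?_, ?_, ?_⟩
  · intro a ha
    exact (analyticAt_const.mul (hP a ha).deriv).div ((hP a ha).sub analyticAt_const) (hne a ha)
  · intro a ha
    exact div_ne_zero (mul_ne_zero two_ne_zero (hP3 a ha)) (hne a ha)
  · intro u hu _
    unfold rr
    rw [hP2 u hu, hP1 u hu]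
    ring

/-- (E2) local form of `r` at a half-period `ν`: `r(ν + u) = (u C(u²))^{±1}`, `C` without zeros. -/
theorem exists_rLoc (ν : ℂ) (hν : ν ∈ HalfLat1) : ∃ (p : Bool) (C : ℂ → ℂ),
    AnalyticOnNhd ℂ C Q2 ∧ (∀ a ∈ Q2, C a ≠ 0) ∧
    ∀ u ∈ Q, u ≠ 0 → rr (ν + u) = if p then (u * C (u ^ 2))⁻¹ else u * C (u ^ 2) := by
  by_cases h : ν ∈ Lat1
  · obtain ⟨C, h1, h2, h3⟩ := exists_rLoc_of_mem ν h
    exact ⟨true, C, h1, h2, fun u hu hu0 => by simpa using h3 u hu hu0⟩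
  · by_cases h' : ν - 1 / 2 ∈ Lat1
    · obtain ⟨C, h1, h2, h3⟩ := exists_rLoc_of_half ν hν h h'
      exact ⟨true, C, h1, h2, fun u hu hu0 => by simpa using h3 u hu hu0⟩
    · obtain ⟨C, h1, h2, h3⟩ := exists_rLoc_of_other ν hν h h'
      exact ⟨false, C, h1, h2, fun u hu hu0 => by simpa using h3 u hu hu0⟩

end Kummer
end Claimed.Open.R041
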