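/-
Result 041, sanity (Kummer K3 example, stage 2): four holomorphic maps `Kum → ℙ¹`.
`XX j = ℘(z_j)`, `RR false = r(z₀) r(z₁)`, `RR true = r(z₀) / r(z₁)`, with explicit lifts in the charts `chA μ κ`.
-/
import Claimed.Open.R041.K3WpLocal
import Claimed.Open.R041.K3Glue

open scoped Manifold ContDiff Topology
open Set

namespace Claimed.Open.R041
namespace Kummer

/-! ### The local data at the half-periods -/

open Classical in
/-- `℘(ν + u) = [wpLoc ν (u²)]` for `u ∈ Q`. -/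
noncomputable def wpLoc (ν : ℂ) : ℂ → Fin (1 + 1) → ℂ :=
  if h : ν ∈ HalfLat1 then (exists_wpLoc ν h).choose else fun _ => 0

theorem analyticOnNhd_wpLoc {ν : ℂ} (hν : ν ∈ HalfLat1) : AnalyticOnNhd ℂ (wpLoc ν) Q2 := by
  rw [wpLoc, dif_pos hν]
  exact (exists_wpLoc ν hν).choose_spec.1

theorem wpP_add {ν : ℂ} (hν : ν ∈ HalfLat1) {u : ℂ} (hu : u ∈ Q) :
    ∃ h : wpLoc ν (u ^ 2) ≠ 0, wpP (ν + u) = Projectivization.mk ℂ (wpLoc ν (u ^ 2)) h := by
  rw [wpLoc, dif_pos hν]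
  exact (exists_wpLoc ν hν).choose_spec.2.1 u hu

theorem deriv_wpLoc_ne {ν : ℂ} (hν : ν ∈ HalfLat1) {a : ℂ} (ha : a ∈ Q2) (c : ℂ) :
    deriv (wpLoc ν) a ≠ c • wpLoc ν a := by
  rw [wpLoc, dif_pos hν]
  exact (exists_wpLoc ν hν).choose_spec.2.2 a ha c

open Classical in
/-- `true` if `r` has a pole at the half-period `ν`, `false` if it has a zero. -/
noncomputable def rPole (ν : ℂ) : Bool :=
  if h : ν ∈ HalfLat1 then (exists_rLoc ν h).choose else false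

open Classical in
/-- `r(ν + u) = (u · rLoc ν (u²))^{±1}` for `u ∈ Q ∖ 0`. -/
noncomputable def rLoc (ν : ℂ) : ℂ → ℂ :=
  if h : ν ∈ HalfLat1 then (exists_rLoc ν h).choose_spec.choose else fun _ => 0

theorem analyticOnNhd_rLoc {ν : ℂ} (hν : ν ∈ HalfLat1) : AnalyticOnNhd ℂ (rLoc ν) Q2 := by
  rw [rLoc, dif_pos hν]
  exact (exists_rLoc ν hν).choose_spec.choose_spec.1

theorem rLoc_ne_zero {ν : ℂ} (hν : ν ∈ HalfLat1) {a : ℂ} (ha : a ∈ Q2) : rLoc ν a ≠ 0 := by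
  rw [rLoc, dif_pos hν]
  exact (exists_rLoc ν hν).choose_spec.choose_spec.2.1 a ha

theorem rr_add {ν : ℂ} (hν : ν ∈ HalfLat1) {u : ℂ} (hu : u ∈ Q) (h0 : u ≠ 0) :
    rr (ν + u) = if rPole ν then (u * rLoc ν (u ^ 2))⁻¹ else u * rLoc ν (u ^ 2) := by
  rw [rLoc, rPole, dif_pos hν, dif_pos hν]
  exact (exists_rLoc ν hν).choose_spec.choose_spec.2.2 u hu h0

/-! ### M2: the maps `XX j = ℘(z_j)` -/

/-- `x ↦ ℘(z_j)`, as a map to `ℙ¹`. -/
noncomputable def XX (j : Fin 2) (x : Kum) : PN 1 := wpP (lift x j)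

theorem wpP_congr {z z' : Cn 2} (h : GEquiv z z') (j : Fin 2) : wpP (z j) = wpP (z' j) := by
  rw [wpP_eq_iff]
  rcases h with h | h
  · exact Or.inl (mem_Lat_iff.1 h j)
  · exact Or.inr (mem_Lat_iff.1 h j)

theorem XX_ptA (j : Fin 2) (μ : HalfLat) (κ : Fin 2) {y : Cn 2} (hy : y ∈ DA) {ρ : ℂ}
    (hρ : ρ ^ 2 = y 0) : XX j (ptA μ κ y hy) = wpP ((μ : Cn 2) j + ρ * vec κ (y 1) j) :=
  wpP_congr (lift_ptA μ κ hy hρ) j

theorem XX_reg (j : Fin 2) {z : Cn 2} (hz : z ∉ HalfLat) : XX j (reg z hz) = wpP (z j) :=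
  wpP_congr (lift_reg z hz) j

theorem XX_exc (j : Fin 2) (μ : HalfLat) (κ : Fin 2) (t : ℂ) :
    XX j (exc μ κ t) = wpP ((μ : Cn 2) j) :=
  wpP_congr (lift_exc μ κ t) j

/-- The lift of `XX j` in the chart `chA μ κ`. -/
noncomputable def liftX (j : Fin 2) (μ : HalfLat) (κ : Fin 2) (y : Cn 2) : Fin (1 + 1) → ℂ :=
  wpLoc ((μ : Cn 2) j) (y 0 * (vec κ (y 1) j) ^ 2)

theorem arg_mem_Q2 (κ j : Fin 2) {y : Cn 2} (hy : y ∈ DA) : y 0 * (vec κ (y 1) j) ^ 2 ∈ Q2 := by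
  rcases eq_or_ne κ j with rfl | h
  · rw [vec_self, one_pow, mul_one]
    exact hy.1
  · rw [eq_oth_of_ne h, vec_oth]
    exact hy.2

theorem analyticAt_vec_coord (κ j : Fin 2) (y : Cn 2) :
    AnalyticAt ℂ (fun w : Cn 2 => vec κ (w 1) j) y := by
  have a : AnalyticAt ℂ (fun w : Cn 2 => vec κ (w 1)) y := analyticAt_vec κ (analyticAt_coord 1 y)
  exact AnalyticAt.comp (g := fun v : Cn 2 => v j) (f := fun w : Cn 2 => vec κ (w 1))
    (analyticAt_coord j _) a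

theorem analyticAt_arg (κ j : Fin 2) (y : Cn 2) :
    AnalyticAt ℂ (fun w : Cn 2 => w 0 * (vec κ (w 1) j) ^ 2) y := by
  exact (analyticAt_coord 0 y).mul ((analyticAt_vec_coord κ j y).pow 2)

theorem analyticOnNhd_liftX (j : Fin 2) (μ : HalfLat) (κ : Fin 2) :
    AnalyticOnNhd ℂ (liftX j μ κ) DA := fun y hy =>
  AnalyticAt.comp (g := wpLoc ((μ : Cn 2) j)) (f := fun w : Cn 2 => w 0 * (vec κ (w 1) j) ^ 2)
    (analyticOnNhd_wpLoc (HalfLat.coord_mem μ j) _ (arg_mem_Q2 κ j hy)) (analyticAt_arg κ j y)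

theorem XX_eq_mk (j : Fin 2) (μ : HalfLat) (κ : Fin 2) (y : Cn 2) (hy : y ∈ DA) :
    ∃ h : liftX j μ κ y ≠ 0, XX j (ptA μ κ y hy) = Projectivization.mk ℂ (liftX j μ κ y) h := by
  obtain ⟨ρ, hρ⟩ := exists_root (y 0)
  have e : (ρ * vec κ (y 1) j) ^ 2 = y 0 * (vec κ (y 1) j) ^ 2 := by rw [mul_pow, hρ]
  have hu : ρ * vec κ (y 1) j ∈ Q := sq_mem_Q2_iff.1 (e ▸ arg_mem_Q2 κ j hy)
  have h := wpP_add (HalfLat.coord_mem μ j) hu
  rw [e] at h
  rw [XX_ptA j μ κ hy hρ]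
  exact h

theorem isHolomorphic_XX (j : Fin 2) : IsHolomorphicOnToPN 2 (XX j) Set.univ :=
  isHolomorphic_of_local (fun μ κ => analyticOnNhd_liftX j μ κ) (XX_eq_mk j)

/-! ### M3: the maps `RR s` -/

/-- `m_j = v_j · C_{μ_j}(a v_j²)`, `v = vec κ t`: then `r(z_j) = (ρ m_j)^{±1}` for `z = μ + ρ v`, `ρ² = a`. -/
noncomputable def mm (μ : HalfLat) (κ : Fin 2) (y : Cn 2) (j : Fin 2) : ℂ :=
  vec κ (y 1) j * rLoc ((μ : Cn 2) j) (y 0 * (vec κ (y 1) j) ^ 2)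

/-- The lift of `RR s` in the chart `chA μ κ`. -/
noncomputable def liftR (s : Bool) (μ : HalfLat) (κ : Fin 2) (y : Cn 2) : Fin (1 + 1) → ℂ :=
  match rPole ((μ : Cn 2) 0), xor (rPole ((μ : Cn 2) 1)) s with
  | false, false => ![y 0 * mm μ κ y 0 * mm μ κ y 1, 1]
  | false, true => ![mm μ κ y 0, mm μ κ y 1]
  | true, false => ![mm μ κ y 1, mm μ κ y 0]
  | true, true => ![1, y 0 * mm μ κ y 0 * mm μ κ y 1]

theorem mm_self_ne_zero (μ : HalfLat) (κ : Fin 2) {y : Cn 2} (hy : y ∈ DA) : mm μ κ y κ ≠ 0 := by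
  unfold mm
  rw [vec_self, one_mul]
  exact rLoc_ne_zero (HalfLat.coord_mem μ κ) (by simpa using arg_mem_Q2 κ κ hy)

theorem mm_eq_zero_iff (μ : HalfLat) (κ : Fin 2) {y : Cn 2} (hy : y ∈ DA) (j : Fin 2) :
    mm μ κ y j = 0 ↔ vec κ (y 1) j = 0 := by
  unfold mm
  rw [mul_eq_zero]
  exact or_iff_left (rLoc_ne_zero (HalfLat.coord_mem μ j) (arg_mem_Q2 κ j hy))

theorem analyticOnNhd_mm (μ : HalfLat) (κ j : Fin 2) :
    AnalyticOnNhd ℂ (fun y => mm μ κ y j) DA := by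
  intro y hy
  have h2 : AnalyticAt ℂ (fun w : Cn 2 => rLoc ((μ : Cn 2) j) (w 0 * (vec κ (w 1) j) ^ 2)) y :=
    AnalyticAt.comp (g := rLoc ((μ : Cn 2) j)) (f := fun w : Cn 2 => w 0 * (vec κ (w 1) j) ^ 2)
      (analyticOnNhd_rLoc (HalfLat.coord_mem μ j) _ (arg_mem_Q2 κ j hy)) (analyticAt_arg κ j y)
  exact (analyticAt_vec_coord κ j y).mul h2

theorem vec2_ne_zero_of_left {a b : ℂ} (h : a ≠ 0) : (![a, b] : Fin (1 + 1) → ℂ) ≠ 0 := by
  intro h'
  exact h (by simpa using congrFun h' 0)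

theorem vec2_ne_zero_of_right {a b : ℂ} (h : b ≠ 0) : (![a, b] : Fin (1 + 1) → ℂ) ≠ 0 := by
  intro h'
  exact h (by simpa using congrFun h' 1)

theorem analyticAt_vec2 {E : Type} [NormedAddCommGroup E] [NormedSpace ℂ E] {f g : E → ℂ} {x : E}
    (hf : AnalyticAt ℂ f x) (hg : AnalyticAt ℂ g x) :
    AnalyticAt ℂ (fun w => (![f w, g w] : Fin (1 + 1) → ℂ)) x := by
  have : (fun w => (![f w, g w] : Fin (1 + 1) → ℂ)) = fun w i => (![f, g] : Fin (1 + 1) → E → ℂ) i w := by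
    funext w i
    fin_cases i <;> rfl
  rw [this]
  refine AnalyticAt.pi fun i => ?_
  fin_cases i
  · exact hf
  · exact hg

theorem liftR_ne_zero (s : Bool) (μ : HalfLat) (κ : Fin 2) {y : Cn 2} (hy : y ∈ DA) :
    liftR s μ κ y ≠ 0 := by
  have hκ := mm_self_ne_zero μ κ hy
  unfold liftR
  split
  · exact vec2_ne_zero_of_right one_ne_zero
  · fin_cases κ
    · exact vec2_ne_zero_of_left hκ
    · exact vec2_ne_zero_of_right hκ
  · fin_cases κ
    · exact vec2_ne_zero_of_right hκ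
    · exact vec2_ne_zero_of_left hκ
  · exact vec2_ne_zero_of_left one_ne_zero

theorem analyticOnNhd_liftR (s : Bool) (μ : HalfLat) (κ : Fin 2) :
    AnalyticOnNhd ℂ (liftR s μ κ) DA := by
  intro y hy
  have h0 := analyticOnNhd_mm μ κ 0 y hy
  have h1 := analyticOnNhd_mm μ κ 1 y hy
  have h2 : AnalyticAt ℂ (fun y : Cn 2 => y 0 * mm μ κ y 0 * mm μ κ y 1) y :=
    ((analyticAt_coord 0 y).mul h0).mul h1
  unfold liftR
  split
  · exact analyticAt_vec2 h2 analyticAt_const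
  · exact analyticAt_vec2 h0 h1
  · exact analyticAt_vec2 h1 h0
  · exact analyticAt_vec2 analyticAt_const h2

/-- For every `μ` one of the two maps is, near the exceptional curve over `μ`, `[m₀ : m₁]` or `[m₁ : m₀]`. -/
theorem exists_theta (μ : HalfLat) : ∃ s : Bool,
    (∀ κ y, liftR s μ κ y = ![mm μ κ y 0, mm μ κ y 1]) ∨
    (∀ κ y, liftR s μ κ y = ![mm μ κ y 1, mm μ κ y 0]) := by
  refine ⟨xor (rPole ((μ : Cn 2) 1)) (!rPole ((μ : Cn 2) 0)), ?_⟩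
  unfold liftR
  cases rPole ((μ : Cn 2) 0) <;> cases rPole ((μ : Cn 2) 1) <;> simp

/-- `r(z₀) r(z₁)` resp. `r(z₀) / r(z₁)` on the set where `z₀, z₁` are not half-periods. -/
noncomputable def phiR (s : Bool) (z : Cn 2) : PN 1 :=
  Projectivization.mk ℂ ![rr (z 0) * (if s then (rr (z 1))⁻¹ else rr (z 1)), 1]
    (by intro h; simpa using congrFun h 1)

theorem phiR_congr (s : Bool) {z z' : Cn 2} (h : GEquiv z z') : phiR s z = phiR s z' := by
  have key : rr (z 0) * (if s then (rr (z 1))⁻¹ else rr (z 1)) =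
      rr (z' 0) * (if s then (rr (z' 1))⁻¹ else rr (z' 1)) := by
    rcases h with h | h
    · have e : ∀ j, rr (z j) = rr (z' j) := by
        intro j
        have := rr_add_Lat1 (mem_Lat_iff.1 h j) (z' j)
        rw [← this]
        congr 1
        simp
      rw [e 0, e 1]
    · have e : ∀ j, rr (z j) = - rr (z' j) := by
        intro j
        have := rr_add_Lat1 (mem_Lat_iff.1 h j) (-(z' j))
        rw [← rr_neg, ← this]
        congr 1
        simp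
      rw [e 0, e 1]
      cases s
      · simp
      · simp [inv_neg]
  unfold phiR
  simp only [key]

theorem exists_smul_vec2 {p q r : ℂ} (hq : q ≠ 0) (h : p = r * q) :
    ∃ a : ℂ, a • (![p, q] : Fin (1 + 1) → ℂ) = ![r, 1] := by
  refine ⟨q⁻¹, ?_⟩
  ext i
  fin_cases i
  · simp only [h, Fin.zero_eta, Pi.smul_apply, Matrix.cons_val_zero, smul_eq_mul]
    field_simp
  · simp [hq]

theorem phiR_eq_mk (s : Bool) (μ : HalfLat) (κ : Fin 2) (y : Cn 2) (hy : y ∈ DA) (h0 : y 0 ≠ 0)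
    (h1 : y 1 ≠ 0) (ρ : ℂ) (hρ : ρ ^ 2 = y 0) :
    phiR s ((μ : Cn 2) + ρ • vec κ (y 1)) =
      Projectivization.mk ℂ (liftR s μ κ y) (liftR_ne_zero s μ κ hy) := by
  have hρ0 : ρ ≠ 0 := by
    rintro rfl
    exact h0 (by rw [← hρ]; simp)
  have hv : ∀ j, vec κ (y 1) j ≠ 0 := by
    intro j
    rcases eq_or_ne κ j with rfl | h
    · rw [vec_self]; exact one_ne_zero
    · rw [eq_oth_of_ne h, vec_oth]; exact h1
  have hm : ∀ j, mm μ κ y j ≠ 0 := fun j => (mm_eq_zero_iff μ κ hy j).not.2 (hv j)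
  have hr : ∀ j, rr (((μ : Cn 2) + ρ • vec κ (y 1)) j) =
      if rPole ((μ : Cn 2) j) then (ρ * mm μ κ y j)⁻¹ else ρ * mm μ κ y j := by
    intro j
    have e : (ρ * vec κ (y 1) j) ^ 2 = y 0 * (vec κ (y 1) j) ^ 2 := by rw [mul_pow, hρ]
    have hu : ρ * vec κ (y 1) j ∈ Q := sq_mem_Q2_iff.1 (e ▸ arg_mem_Q2 κ j hy)
    have h := rr_add (HalfLat.coord_mem μ j) hu (mul_ne_zero hρ0 (hv j))
    rw [e] at h
    have e2 : ((μ : Cn 2) + ρ • vec κ (y 1)) j = (μ : Cn 2) j + ρ * vec κ (y 1) j := by simp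
    rw [e2, h]
    unfold mm
    simp only [mul_assoc]
  unfold phiR
  rw [Projectivization.mk_eq_mk_iff']
  rw [hr 0, hr 1]
  have hm0 := hm 0
  have hm1 := hm 1
  unfold liftR
  cases rPole ((μ : Cn 2) 0) <;> cases rPole ((μ : Cn 2) 1) <;> cases s <;>
    simp only [Bool.xor_false, Bool.xor_true, Bool.not_false, Bool.not_true, if_true, if_false,
      Bool.false_eq_true, inv_inv]
  all_goals first
    | exact exists_smul_vec2 one_ne_zero (by rw [← hρ]; ring)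
    | exact exists_smul_vec2 hm1 (by field_simp)
    | exact exists_smul_vec2 hm0 (by field_simp)
    | exact exists_smul_vec2 (mul_ne_zero (mul_ne_zero h0 hm0) hm1) (by rw [← hρ]; field_simp)

theorem exists_RR (s : Bool) : ∃ g : Kum → PN 1, ∀ μ κ y (hy : y ∈ DA),
    g (ptA μ κ y hy) = Projectivization.mk ℂ (liftR s μ κ y) (liftR_ne_zero s μ κ hy) :=
  exists_map_of_local (liftR s) (fun μ κ => (analyticOnNhd_liftR s μ κ).continuousOn)
    (fun μ κ _ hy => liftR_ne_zero s μ κ hy) (phiR s) (fun _ _ h => phiR_congr s h)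
    (fun μ κ y hy h0 h1 ρ hρ => phiR_eq_mk s μ κ y hy h0 h1 ρ hρ)

/-- `RR false = r(z₀) r(z₁)`, `RR true = r(z₀) / r(z₁)`, as maps `Kum → ℙ¹`. -/
noncomputable def RR (s : Bool) : Kum → PN 1 := (exists_RR s).choose

theorem RR_ptA (s : Bool) (μ : HalfLat) (κ : Fin 2) (y : Cn 2) (hy : y ∈ DA) :
    RR s (ptA μ κ y hy) = Projectivization.mk ℂ (liftR s μ κ y) (liftR_ne_zero s μ κ hy) :=
  (exists_RR s).choose_spec μ κ y hy

theorem RR_eq_mk (s : Bool) (μ : HalfLat) (κ : Fin 2) (y : Cn 2) (hy : y ∈ DA) :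
    ∃ h : liftR s μ κ y ≠ 0, RR s (ptA μ κ y hy) = Projectivization.mk ℂ (liftR s μ κ y) h :=
  ⟨_, RR_ptA s μ κ y hy⟩

theorem isHolomorphic_RR (s : Bool) : IsHolomorphicOnToPN 2 (RR s) Set.univ :=
  isHolomorphic_of_local (fun μ κ => analyticOnNhd_liftR s μ κ) (RR_eq_mk s)

end Kummer
end Claimed.Open.R041
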