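/-
Result 041, sanity (package L of the Kummer K3 example): the holomorphic symplectic form of the Kummer
surface, `σ = 2 dz₀ ∧ dz₁ = ± da ∧ dt`, and the fact that on a compact connected complex surface every
holomorphic `2`-form is a constant multiple of a nowhere vanishing one.
-/
import Claimed.Open.R041.K3KummerPoints
import Claimed.Open.R041.SanityForms
import Claimed.Open.R041.K3Potential

open scoped Manifold ContDiff Topology
open Set

namespace Claimed.Open.R041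
namespace Kummer

/-- `dy₀ ∧ dy₁` on `ℂ²`. -/
noncomputable def detForm : (Cn 2) [⋀^Fin 2]→L[ℂ] ℂ :=
  ContinuousAlternatingMap.alternatizeUncurryFin
    ((EuclideanSpace.proj (𝕜 := ℂ) (0 : Fin 2)).smulRight
      (ContinuousAlternatingMap.ofSubsingleton ℂ (Cn 2) ℂ (0 : Fin 1)
        (EuclideanSpace.proj (𝕜 := ℂ) (1 : Fin 2))))

theorem detForm_apply (u v : Cn 2) : detForm ![u, v] = u 0 * v 1 - u 1 * v 0 := by
  simp [detForm, ContinuousAlternatingMap.alternatizeUncurryFin_apply, Fin.sum_univ_succ,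
    Fin.removeNth]
  ring

theorem vec2_eta {α : Type} (v : Fin 2 → α) : ![v 0, v 1] = v := by
  funext k; fin_cases k <;> rfl

theorem detForm_apply' (v : Fin 2 → Cn 2) : detForm v = v 0 0 * v 1 1 - v 0 1 * v 1 0 := by
  rw [← detForm_apply, vec2_eta]

/-- The standard frame of `ℂ²`. -/
noncomputable def frame2 : Fin 2 → Cn 2 := fun k => EuclideanSpace.single k (1 : ℂ)

theorem detForm_frame2 : detForm frame2 = 1 := by
  rw [detForm_apply']
  simp [frame2]

/-- An alternating `2`-form on `ℂ²` is determined by its value on the standard frame. -/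
theorem eq_smul_detForm (η : (Cn 2) [⋀^Fin 2]→L[ℂ] ℂ) : η = η frame2 • detForm := by
  have hb : ⇑(EuclideanSpace.basisFun (Fin 2) ℂ).toBasis = frame2 := by
    funext k
    simp [frame2]
  have h1 := η.toAlternatingMap.eq_smul_basis_det (EuclideanSpace.basisFun (Fin 2) ℂ).toBasis
  have h2 := detForm.toAlternatingMap.eq_smul_basis_det (EuclideanSpace.basisFun (Fin 2) ℂ).toBasis
  rw [hb] at h1 h2
  ext v
  have e1 := congrArg (fun f : (Cn 2) [⋀^Fin 2]→ₗ[ℂ] ℂ => f v) h1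
  have e2 := congrArg (fun f : (Cn 2) [⋀^Fin 2]→ₗ[ℂ] ℂ => f v) h2
  simp only [ContinuousAlternatingMap.coe_toAlternatingMap, AlternatingMap.smul_apply,
    detForm_frame2, one_smul] at e1 e2
  rw [ContinuousAlternatingMap.smul_apply, e2]
  exact e1

theorem eq_zero_of_frame2 {η : (Cn 2) [⋀^Fin 2]→L[ℂ] ℂ} (h : η frame2 = 0) : η = 0 := by
  rw [eq_smul_detForm η, h]
  ext v
  simp

theorem detForm_ne_zero : detForm ≠ 0 := by
  intro h
  have := detForm_frame2
  rw [h] at this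
  simp at this

/-! ### Jacobians -/

/-- `τ` is differentiable at `y`, and `τ^*(dy₀ ∧ dy₁) = c · dy₀ ∧ dy₁` at `y`. -/
def HasJac (τ : Cn 2 → Cn 2) (y : Cn 2) (c : ℂ) : Prop :=
  ∃ A : Cn 2 →L[ℂ] Cn 2, HasFDerivAt τ A y ∧
    ∀ u v : Cn 2, detForm ![A u, A v] = c * detForm ![u, v]

theorem HasJac.comp {E S : Cn 2 → Cn 2} {y : Cn 2} {c₁ c₂ : ℂ} (hE : HasJac E (S y) c₁)
    (hS : HasJac S y c₂) : HasJac (E ∘ S) y (c₁ * c₂) := by
  obtain ⟨A, hA, hA'⟩ := hE
  obtain ⟨B, hB, hB'⟩ := hS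
  refine ⟨A.comp B, hA.comp y hB, fun u v => ?_⟩
  simp only [ContinuousLinearMap.comp_apply]
  rw [hA', hB', mul_assoc]

theorem HasJac.congr {τ τ' : Cn 2 → Cn 2} {y : Cn 2} {c : ℂ} (h : HasJac τ y c)
    (he : τ' =ᶠ[𝓝 y] τ) : HasJac τ' y c := by
  obtain ⟨A, hA, hA'⟩ := h
  exact ⟨A, hA.congr_of_eventuallyEq he, hA'⟩

theorem HasJac.compContinuousLinearMap {τ : Cn 2 → Cn 2} {y : Cn 2} {c : ℂ} (h : HasJac τ y c) :
    detForm.compContinuousLinearMap (fderiv ℂ τ y) = c • detForm := by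
  obtain ⟨A, hA, hA'⟩ := h
  rw [hA.fderiv]
  ext v
  rw [ContinuousAlternatingMap.compContinuousLinearMap_apply, ContinuousAlternatingMap.smul_apply,
    smul_eq_mul, ← vec2_eta v, ← hA']
  congr 1
  funext k
  fin_cases k <;> rfl

theorem hasJac_id (y : Cn 2) : HasJac id y 1 :=
  ⟨ContinuousLinearMap.id ℂ (Cn 2), hasFDerivAt_id y, fun u v => by simp⟩

theorem hasJac_mk2 {f g : Cn 2 → ℂ} {f' g' : Cn 2 →L[ℂ] ℂ} {y : Cn 2} {c : ℂ}
    (hf : HasFDerivAt f f' y) (hg : HasFDerivAt g g' y)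
    (h : ∀ u v : Cn 2, f' u * g' v - g' u * f' v = c * (u 0 * v 1 - u 1 * v 0)) :
    HasJac (fun w => mk2 (f w) (g w)) y c := by
  refine ⟨f'.smulRight (EuclideanSpace.single (0 : Fin 2) (1 : ℂ)) +
    g'.smulRight (EuclideanSpace.single (1 : Fin 2) (1 : ℂ)), ?_, fun u v => ?_⟩
  · simp only [mk2_eq]
    exact (hf.smul_const _).add (hg.smul_const _)
  · rw [detForm_apply, detForm_apply, ← h]
    simp

theorem hasFDerivAt_coord (j : Fin 2) (y : Cn 2) :
    HasFDerivAt (fun w : Cn 2 => w j) (EuclideanSpace.proj (𝕜 := ℂ) j) y :=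
  (EuclideanSpace.proj (𝕜 := ℂ) j).hasFDerivAt

theorem hasFDerivAt_inv_aux {f : Cn 2 → ℂ} {f' : Cn 2 →L[ℂ] ℂ} {y : Cn 2}
    (hf : HasFDerivAt f f' y) (h0 : f y ≠ 0) :
    HasFDerivAt (fun w => (f w)⁻¹) ((-(f y ^ 2)⁻¹) • f') y :=
  (hasDerivAt_inv h0).comp_hasFDerivAt y hf

theorem hasJac_const_smul (ρ₀ : ℂ) (l y : Cn 2) : HasJac (fun w => ρ₀ • (w - l)) y (ρ₀ ^ 2) := by
  refine ⟨ρ₀ • ContinuousLinearMap.id ℂ (Cn 2), ?_, fun u v => ?_⟩
  · exact ((hasFDerivAt_id y).sub_const l).const_smul ρ₀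
  · rw [detForm_apply, detForm_apply]
    simp
    ring

theorem hasDerivAt_root {a₀ ρ₀ : ℂ} (hρ₀ : ρ₀ ≠ 0) (h : ρ₀ ^ 2 = a₀) :
    HasDerivAt (root a₀ ρ₀) (1 / (2 * ρ₀)) a₀ := by
  have ha₀ : a₀ ≠ 0 := by rw [← h]; exact pow_ne_zero 2 hρ₀
  have hd : HasDerivAt (root a₀ ρ₀) (deriv (root a₀ ρ₀) a₀) a₀ :=
    (analyticAt_root ρ₀ ha₀).differentiableAt.hasDerivAt
  have h1 := hd.fun_pow 2
  have h2 : HasDerivAt (fun a => root a₀ ρ₀ a ^ 2) 1 a₀ := by
    refine (hasDerivAt_id a₀).congr_of_eventuallyEq ?_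
    filter_upwards [isOpen_ne.mem_nhds ha₀] with a ha
    exact root_sq hρ₀ h ha
  have h3 := h1.unique h2
  rw [root_self ha₀] at h3
  have h4 : deriv (root a₀ ρ₀) a₀ = 1 / (2 * ρ₀) := by
    field_simp
    simp only [Nat.cast_ofNat, Nat.add_one_sub_one, pow_one] at h3
    linear_combination h3
  rw [← h4]
  exact hd

/-- The sign of the chart `(a, t)`. -/
noncomputable def sgnκ (κ : Fin 2) : ℂ := if κ = 0 then 1 else -1

theorem hasJac_liftA (μ : Cn 2) (κ : Fin 2) {ρ₀ : ℂ} {y₀ : Cn 2} (hρ₀ : ρ₀ ≠ 0)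
    (h : ρ₀ ^ 2 = y₀ 0) : HasJac (liftA μ κ (y₀ 0) ρ₀) y₀ (sgnκ κ / 2) := by
  have h0 : y₀ 0 ≠ 0 := by rw [← h]; exact pow_ne_zero 2 hρ₀
  have hr : HasFDerivAt (fun w : Cn 2 => root (y₀ 0) ρ₀ (w 0))
      ((1 / (2 * ρ₀)) • EuclideanSpace.proj (𝕜 := ℂ) (0 : Fin 2)) y₀ :=
    HasDerivAt.comp_hasFDerivAt (h₂ := root (y₀ 0) ρ₀) (f := fun w : Cn 2 => w 0) y₀
      (hasDerivAt_root hρ₀ h) (hasFDerivAt_coord 0 y₀)
  have hrt := hr.fun_mul (hasFDerivAt_coord 1 y₀)
  rw [root_self h0] at hrt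
  fin_cases κ
  · have e : liftA μ 0 (y₀ 0) ρ₀ = fun w => mk2 (μ 0 + root (y₀ 0) ρ₀ (w 0))
        (μ 1 + root (y₀ 0) ρ₀ (w 0) * w 1) := by
      funext w
      apply ext2
      · simp [liftA]
      · have := vec_oth 0 (w 1)
        have h1 : oth 0 = 1 := rfl
        rw [h1] at this
        simp [liftA, this]
    show HasJac (liftA μ 0 (y₀ 0) ρ₀) y₀ _
    rw [e]
    refine hasJac_mk2 (hr.const_add _) (hrt.const_add _) fun u v => ?_
    simp [sgnκ]
    field_simp
    ring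
  · have e : liftA μ 1 (y₀ 0) ρ₀ = fun w => mk2 (μ 0 + root (y₀ 0) ρ₀ (w 0) * w 1)
        (μ 1 + root (y₀ 0) ρ₀ (w 0)) := by
      funext w
      apply ext2
      · have := vec_oth 1 (w 1)
        have h1 : oth 1 = 0 := rfl
        rw [h1] at this
        simp [liftA, this]
      · simp [liftA]
    show HasJac (liftA μ 1 (y₀ 0) ρ₀) y₀ _
    rw [e]
    refine hasJac_mk2 (hrt.const_add _) (hr.const_add _) fun u v => ?_
    simp [sgnκ]
    field_simp
    ring

theorem hasJac_coordA (μ : Cn 2) (κ : Fin 2) {z₀ : Cn 2} (h0 : (z₀ - μ) κ ≠ 0) :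
    HasJac (coordA μ κ) z₀ (2 * sgnκ κ) := by
  have h1 : ∀ j : Fin 2, HasFDerivAt (fun z : Cn 2 => (z - μ) j)
      (EuclideanSpace.proj (𝕜 := ℂ) j) z₀ := fun j => by
    have : (fun z : Cn 2 => (z - μ) j) = fun z : Cn 2 => z j - μ j := by
      funext z; simp
    rw [this]
    exact (hasFDerivAt_coord j z₀).sub_const _
  have hf := (h1 κ).pow 2
  have hg := (h1 (oth κ)).fun_mul (hasFDerivAt_inv_aux (h1 κ) h0)
  have e : coordA μ κ = fun z => mk2 ((z - μ) κ ^ 2) ((z - μ) (oth κ) * ((z - μ) κ)⁻¹) := by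
    funext z
    simp [coordA, div_eq_mul_inv]
  rw [e]
  refine hasJac_mk2 hf hg fun u v => ?_
  fin_cases κ
  · have h1 : oth 0 = 1 := rfl
    simp [sgnκ, h1] at h0 ⊢
    field_simp
    ring
  · have h1 : oth 1 = 0 := rfl
    simp [sgnκ, h1] at h0 ⊢
    field_simp
    ring

theorem hasJac_flip {y : Cn 2} (ht : y 1 ≠ 0) :
    HasJac (fun w => mk2 (w 0 * w 1 ^ 2) (w 1)⁻¹) y (-1) := by
  have hf := (hasFDerivAt_coord 0 y).fun_mul ((hasFDerivAt_coord 1 y).pow 2)
  have hg := hasFDerivAt_inv_aux (hasFDerivAt_coord 1 y) ht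
  refine hasJac_mk2 hf hg fun u v => ?_
  simp
  field_simp
  ring

/-! ### The symplectic form -/

/-- The constant `s i` such that `σ = s i · dy₀ ∧ dy₁` in the `i`-th chart (`σ = 2 dz₀ ∧ dz₁`). -/
noncomputable def sgn : Idx → ℂ
  | .inl p => if p.2 = 0 then 1 else -1
  | .inr _ => 2

theorem sgn_inl (μ : HalfLat) (κ : Fin 2) : sgn (.inl (μ, κ)) = sgnκ κ := rfl

theorem sgn_inr (z : {z : Cn 2 // z ∉ HalfLat}) : sgn (.inr z) = 2 := rfl

theorem sgnκ_mul_self (κ : Fin 2) : sgnκ κ * sgnκ κ = 1 := by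
  fin_cases κ <;> simp [sgnκ]

theorem sgnκ_ne_zero (κ : Fin 2) : sgnκ κ ≠ 0 := by
  fin_cases κ <;> simp [sgnκ]

theorem sgnκ_oth (κ : Fin 2) : sgnκ (oth κ) = -sgnκ κ := by
  fin_cases κ <;> simp [sgnκ, oth]

theorem sgn_ne_zero (i : Idx) : sgn i ≠ 0 := by
  rcases i with ⟨μ, κ⟩ | z
  · exact sgnκ_ne_zero κ
  · exact two_ne_zero

theorem exists_lift_jac (i : Idx) (y₀ : Cn 2) {ρ₀ : ℂ} (hρ₀ : ρ₀ ≠ 0)
    (h : ρ₀ ^ 2 = (trip i y₀).ξ) :
    ∃ S : Cn 2 → Cn 2, AnalyticAt ℂ S y₀ ∧ S y₀ = (trip i y₀).μ + ρ₀ • (trip i y₀).v ∧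
      (∀ᶠ w in 𝓝 y₀, par i w = img (S w)) ∧ HasJac S y₀ (sgn i / 2) := by
  rcases i with ⟨μ, κ⟩ | z
  · have h' : ρ₀ ^ 2 = y₀ 0 := h
    have h0 : y₀ 0 ≠ 0 := by rw [← h']; exact pow_ne_zero 2 hρ₀
    refine ⟨liftA μ κ (y₀ 0) ρ₀, analyticAt_liftA _ κ h0, liftA_self _ κ h0, ?_,
      hasJac_liftA _ κ hρ₀ h'⟩
    have : ∀ᶠ w : Cn 2 in 𝓝 y₀, w 0 ≠ 0 :=
      (analyticAt_coord 0 y₀).continuousAt.eventually_ne h0
    filter_upwards [this] with w hw
    exact par_eq_img_liftA μ κ hρ₀ h' hw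
  · have h' : ρ₀ ^ 2 = 1 := h
    refine ⟨fun w => ρ₀ • w, (analyticAt_const (v := ρ₀)).fun_smul analyticAt_id, by simp [trip],
      ?_, ?_⟩
    · refine Filter.Eventually.of_forall fun w => ?_
      change img w = img (ρ₀ • w)
      rcases eq_one_or_neg_one_of_sq h' with rfl | rfl
      · simp
      · rw [img_eq_img]; right; simp
    · have := hasJac_const_smul ρ₀ 0 y₀
      simp only [sub_zero, h'] at this
      rw [sgn_inr]
      simpa using this

theorem exists_coord_jac (j : Idx) (y₀ : Cn 2) {ρ₀ : ℂ} (hρ₀ : ρ₀ ≠ 0)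
    (h : ρ₀ ^ 2 = (trip j y₀).ξ) {l : Cn 2} (hl : l ∈ Lat) :
    ∃ E : Cn 2 → Cn 2, AnalyticAt ℂ E ((trip j y₀).μ + ρ₀ • (trip j y₀).v + l) ∧
      E ((trip j y₀).μ + ρ₀ • (trip j y₀).v + l) = y₀ ∧
      (∀ᶠ z in 𝓝 ((trip j y₀).μ + ρ₀ • (trip j y₀).v + l), par j (E z) = img z) ∧
      HasJac E ((trip j y₀).μ + ρ₀ • (trip j y₀).v + l) (2 / sgn j) := by
  rcases j with ⟨μ, κ⟩ | z
  · have h' : ρ₀ ^ 2 = y₀ 0 := h
    change ∃ E : Cn 2 → Cn 2, AnalyticAt ℂ E ((μ : Cn 2) + ρ₀ • vec κ (y₀ 1) + l) ∧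
      E ((μ : Cn 2) + ρ₀ • vec κ (y₀ 1) + l) = y₀ ∧
      (∀ᶠ z in 𝓝 ((μ : Cn 2) + ρ₀ • vec κ (y₀ 1) + l), par (.inl (μ, κ)) (E z) = img z) ∧
      HasJac E ((μ : Cn 2) + ρ₀ • vec κ (y₀ 1) + l) (2 / sgnκ κ)
    have e : (μ : Cn 2) + ρ₀ • vec κ (y₀ 1) + l = ((μ : Cn 2) + l) + ρ₀ • vec κ (y₀ 1) := by abel
    rw [e]
    have h0 : (((μ : Cn 2) + l) + ρ₀ • vec κ (y₀ 1) - ((μ : Cn 2) + l)) κ ≠ 0 := by
      simpa using hρ₀
    refine ⟨coordA (μ + l) κ, analyticAt_coordA _ κ h0, ?_, ?_, ?_⟩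
    · rw [coordA_add_smul_vec _ κ hρ₀, h', mk2_eta]
    · have hc : ContinuousAt (fun z : Cn 2 => (z - ((μ : Cn 2) + l)) κ)
          (((μ : Cn 2) + l) + ρ₀ • vec κ (y₀ 1)) := by
        have : Continuous fun z : Cn 2 => (z - ((μ : Cn 2) + l)) κ :=
          (EuclideanSpace.proj (𝕜 := ℂ) κ).continuous.comp (continuous_id.sub continuous_const)
        exact this.continuousAt
      filter_upwards [hc.eventually_ne h0] with z hz
      exact par_coordA μ κ hl hz
    · have h2 : 2 / sgnκ κ = 2 * sgnκ κ := by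
        rw [div_eq_iff (sgnκ_ne_zero κ), mul_assoc, sgnκ_mul_self, mul_one]
      rw [h2]
      exact hasJac_coordA _ κ h0
  · have h' : ρ₀ ^ 2 = 1 := h
    refine ⟨fun w => ρ₀ • (w - l),
      (analyticAt_const (v := ρ₀)).fun_smul (analyticAt_id.fun_sub analyticAt_const), ?_, ?_, ?_⟩
    · simp only [trip, ZeroMemClass.coe_zero, zero_add, add_sub_cancel_right, smul_smul]
      rw [← pow_two, h', one_smul]
    · refine Filter.Eventually.of_forall fun w => ?_
      change img (ρ₀ • (w - l)) = img w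
      rcases eq_one_or_neg_one_of_sq h' with rfl | rfl
      · rw [img_eq_img]; left; simpa using Lat.neg_mem hl
      · rw [img_eq_img]; right; simpa using hl
    · have := hasJac_const_smul ρ₀ l ((trip (.inr z) y₀).μ + ρ₀ • (trip (.inr z) y₀).v + l)
      rw [h'] at this
      rw [sgn_inr]
      simpa using this

theorem trans_par_jac (i j : Idx) (y y' : Cn 2) (h : par i y = par j y') :
    ∃ τ : Cn 2 → Cn 2, AnalyticAt ℂ τ y ∧ τ y = y' ∧ (∀ᶠ w in 𝓝 y, par j (τ w) = par i w) ∧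
      HasJac τ y (sgn i / sgn j) := by
  rw [par_eq_trip, par_eq_trip, cls_eq_cls] at h
  rcases h with ⟨h1, h2, h3, c, hc, hv⟩ | ⟨ρ, ρ', hρ, hρ', h3, h4, h5⟩
  · -- a point of an exceptional curve
    rcases i with ⟨μ, κ⟩ | z
    swap
    · simp [trip] at h1
    rcases j with ⟨μ', κ'⟩ | z'
    swap
    · simp [trip] at h2
    have h1' : y 0 = 0 := h1
    have h2' : y' 0 = 0 := h2
    have h3' : (μ : Cn 2) - μ' ∈ Lat := h3
    have hv' : vec κ' (y' 1) = c • vec κ (y 1) := hv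
    by_cases hκ : κ = κ'
    · subst hκ
      have e1 := congrArg (fun w : Cn 2 => w κ) hv'
      have e2 := congrArg (fun w : Cn 2 => w (oth κ)) hv'
      simp only [vec_self, PiLp.smul_apply, smul_eq_mul, mul_one, vec_oth] at e1 e2
      rw [← e1, one_mul] at e2
      refine ⟨id, analyticAt_id, ext2 (h1'.trans h2'.symm) e2.symm, ?_, ?_⟩
      · exact Filter.Eventually.of_forall fun w => (cls_congr_Lat h3' _ _).symm
      · rw [sgn_inl, sgn_inl, div_self (sgnκ_ne_zero κ)]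
        exact hasJac_id y
    · have hκ' : κ' = oth κ := eq_oth_of_ne hκ
      subst hκ'
      have e1 := congrArg (fun w : Cn 2 => w κ) hv'
      have e2 := congrArg (fun w : Cn 2 => w (oth κ)) hv'
      have e3 := vec_oth (oth κ) (y' 1)
      rw [oth_oth] at e3
      simp only [vec_self, PiLp.smul_apply, smul_eq_mul, mul_one, vec_oth, e3] at e1 e2
      have ht : y 1 ≠ 0 := by
        intro h0; rw [h0, mul_zero] at e2; exact one_ne_zero e2
      refine ⟨fun w => mk2 (w 0 * w 1 ^ 2) (w 1)⁻¹,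
        analyticAt_mk2 ((analyticAt_coord 0 y).mul ((analyticAt_coord 1 y).pow 2))
          ((analyticAt_coord 1 y).inv ht), ?_, ?_, ?_⟩
      · apply ext2
        · simp [h1', h2']
        · simp only [mk2_one]
          rw [e1]; field_simp; rw [e2, mul_comm]
      · have : ∀ᶠ w : Cn 2 in 𝓝 y, w 1 ≠ 0 :=
          (analyticAt_coord 1 y).continuousAt.eventually_ne ht
        filter_upwards [this] with w hw
        change cls μ' (vec (oth κ) _) _ = cls μ (vec κ (w 1)) (w 0)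
        simp only [mk2_zero, mk2_one]
        rw [← cls_congr_Lat h3', ← smul_vec_oth_inv κ hw, cls_smul _ _ _ hw, mul_comm]
      · rw [sgn_inl, sgn_inl, sgnκ_oth, div_neg, div_self (sgnκ_ne_zero κ)]
        exact hasJac_flip ht
  · -- a point outside the exceptional curves
    obtain ⟨S, hS, hSy, hSev, hSj⟩ := exists_lift_jac i y hρ h3
    obtain ⟨E, hE, hEy, hEev, hEj⟩ := exists_coord_jac j y' hρ' h4 h5
    have e : ((trip j y').μ : Cn 2) + ρ' • (trip j y').v +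
        ((trip i y).μ + ρ • (trip i y).v - ((trip j y').μ + ρ' • (trip j y').v)) = S y := by
      rw [hSy]; abel
    rw [e] at hE hEy hEev hEj
    refine ⟨E ∘ S, hE.comp hS, hEy, ?_, ?_⟩
    · filter_upwards [hSev, hS.continuousAt.eventually hEev] with w hw1 hw2
      rw [hw1]
      exact hw2
    · have := hEj.comp hSj
      have e2 : 2 / sgn j * (sgn i / 2) = sgn i / sgn j := by
        field_simp
      rwa [e2] at this

/-- The Jacobian of the change of charts. -/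
theorem hasJac_transition (i j : Idx) {y : Cn 2} (hy : y ∈ dom i)
    (hyj : (atlas.chart i).symm y ∈ (atlas.chart j).source) :
    HasJac (atlas.chart j ∘ (atlas.chart i).symm) y (sgn i / sgn j) := by
  rw [atlas.chart_symm_apply (i := i) hy] at hyj
  obtain ⟨y', hy', he⟩ := hyj
  obtain ⟨τ, hτ, hτy, hev, hjac⟩ := trans_par_jac i j y y' he.symm
  refine hjac.congr ?_
  have h1 : ∀ᶠ w in 𝓝 y, τ w ∈ dom j :=
    hτ.continuousAt.eventually_mem ((isOpen_dom j).mem_nhds (hτy ▸ hy'))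
  filter_upwards [hev, h1, (isOpen_dom i).mem_nhds hy] with w hw1 hw2 hw3
  have hmk : atlas.pt i w hw3 = atlas.pt j (τ w) hw2 := atlas.pt_eq_pt.2 hw1.symm
  simp only [Function.comp]
  rw [atlas.chart_symm_apply (i := i) hw3, hmk]
  exact atlas.chart_pt (i := j) hw2

/-- The holomorphic symplectic form of the Kummer surface. -/
noncomputable def sigma : Form ℂ 2 Kum ℂ 2 := fun x => sgn (atlas.idx x) • detForm

theorem sigma_inChart (i : Idx) {y : Cn 2} (hy : y ∈ dom i) :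
    sigma.inChart (atlas.chart i) y = sgn i • detForm := by
  have : IsManifold 𝓘(ℂ, Cn 2) 1 Kum := IsManifold.of_le (n := ω) le_top
  set x := (atlas.chart i).symm y with hx
  set j := atlas.idx x with hj
  have hi1 : atlas.chart i ∈ IsManifold.maximalAtlas 𝓘(ℂ, Cn 2) 1 Kum :=
    IsManifold.maximalAtlas_subset_of_le le_top (atlas.chart_mem_maximalAtlas i)
  have hj1 : atlas.chart j ∈ IsManifold.maximalAtlas 𝓘(ℂ, Cn 2) 1 Kum :=
    IsManifold.maximalAtlas_subset_of_le le_top (atlas.chart_mem_maximalAtlas j)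
  have hxj : (atlas.chart i).symm y ∈ (atlas.chart j).source := atlas.mem_pe_idx_source x
  have hid : symmDeriv ℂ (atlas.chart j) (atlas.chart j x) = ContinuousLinearMap.id ℂ (Cn 2) :=
    symmDeriv_chartAt (𝕜 := ℂ) x
  rw [inChart_eq, symmDeriv_eq_comp hi1 hj1 hy hxj, ← hx, hid, ContinuousLinearMap.id_comp]
  show (sgn j • detForm).compContinuousLinearMap _ = _
  have h2 := (hasJac_transition i j hy hxj).compContinuousLinearMap
  have h3 : (sgn j • detForm).compContinuousLinearMap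
      (fderiv ℂ (atlas.chart j ∘ (atlas.chart i).symm) y) =
      sgn j • detForm.compContinuousLinearMap
        (fderiv ℂ (atlas.chart j ∘ (atlas.chart i).symm) y) := rfl
  rw [h3, h2, smul_smul, mul_div_cancel₀ _ (sgn_ne_zero j)]

theorem sigma_isSmooth : sigma.IsSmooth := by
  intro e he
  obtain ⟨i, rfl⟩ := atlas.mem_atlas_iff.1 he
  exact (contDiffOn_const (c := sgn i • detForm)).congr fun y hy => sigma_inChart i hy

theorem sigma_nondegenerate (x : Kum) (v : Cn 2) (hv : v ≠ 0) :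
    ∃ w : Cn 2, sigma x ![v, w] ≠ 0 := by
  have hs := sgn_ne_zero (atlas.idx x)
  by_cases h0 : v 0 = 0
  · have h1 : v 1 ≠ 0 := fun h1 => hv (ext2 h0 h1)
    refine ⟨mk2 1 0, ?_⟩
    show (sgn (atlas.idx x) • detForm) ![v, mk2 1 0] ≠ 0
    rw [ContinuousAlternatingMap.smul_apply, detForm_apply]
    simpa using ⟨hs, h1⟩
  · refine ⟨mk2 0 1, ?_⟩
    show (sgn (atlas.idx x) • detForm) ![v, mk2 0 1] ≠ 0
    rw [ContinuousAlternatingMap.smul_apply, detForm_apply]
    simpa using ⟨hs, h0⟩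

theorem sigma_ne_zero (x : Kum) : sigma x ≠ 0 :=
  smul_ne_zero (sgn_ne_zero _) detForm_ne_zero

end Kummer

open Kummer in
/-- On a compact connected complex surface, every holomorphic `2`-form is a constant multiple of a
nowhere vanishing one. -/
theorem exists_eq_smul_of_nowhere_vanishing {X : Type} [TopologicalSpace X] [ChartedSpace (Cn 2) X]
    [IsManifold 𝓘(ℂ, Cn 2) ω X] [CompactSpace X] [PreconnectedSpace X] {σ τ : Form ℂ 2 X ℂ 2}
    (hσ : σ.IsSmooth) (hτ : τ.IsSmooth) (h0 : ∀ x, σ x ≠ 0) : ∃ c : ℂ, τ = c • σ := by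
  have : IsManifold 𝓘(ℂ, Cn 2) 1 X := IsManifold.of_le (n := ω) le_top
  set f : X → ℂ := fun x => τ x frame2 / σ x frame2 with hf
  have hσ0 : ∀ x, σ x frame2 ≠ 0 := fun x h => h0 x (eq_zero_of_frame2 h)
  have hτf : ∀ x, τ x = f x • σ x := by
    intro x
    calc τ x = τ x frame2 • detForm := eq_smul_detForm _
      _ = f x • (σ x frame2 • detForm) := by
          rw [smul_smul, hf]
          simp only
          rw [div_mul_cancel₀ _ (hσ0 x)]
      _ = f x • σ x := by rw [← eq_smul_detForm]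
  have hmd : MDifferentiable 𝓘(ℂ, Cn 2) 𝓘(ℂ, ℂ) f := by
    intro x
    set e := chartAt (Cn 2) x with he
    have hem : e ∈ IsManifold.maximalAtlas 𝓘(ℂ, Cn 2) ω X := IsManifold.chart_mem_maximalAtlas x
    have hea : e ∈ atlas (Cn 2) X := chart_mem_atlas _ x
    have hne : ∀ y ∈ e.target, σ.inChart e y frame2 ≠ 0 := by
      intro y hy h
      apply h0 (e.symm y)
      have h1 : σ.inChart e y = 0 := eq_zero_of_frame2 h
      ext v
      have h2 := congrArg (fun η : (Cn 2) [⋀^Fin 2]→L[ℂ] ℂ =>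
        η (fun k => diffAt ℂ (d := 2) e (e.symm y) (v k))) h1
      simp only [inChart_eq, ContinuousAlternatingMap.compContinuousLinearMap_apply] at h2
      have h3 : ∀ u, symmDeriv ℂ e y (diffAt ℂ (d := 2) e (e.symm y) u) = u := by
        intro u
        have := symmDeriv_diffAt hem (e.map_target hy) u
        rwa [e.right_inv hy] at this
      have h4 : (⇑(symmDeriv ℂ e y) ∘ fun k => diffAt ℂ (d := 2) e (e.symm y) (v k)) = v := by
        funext k
        exact h3 (v k)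
      rw [h4] at h2
      simpa using h2
    have hloc : ∀ y ∈ e.target,
        f (e.symm y) = τ.inChart e y frame2 / σ.inChart e y frame2 := by
      intro y hy
      have h1 : τ.inChart e y = f (e.symm y) • σ.inChart e y := by
        rw [inChart_eq, inChart_eq, hτf (e.symm y)]
        rfl
      rw [h1, ContinuousAlternatingMap.smul_apply, smul_eq_mul, mul_div_cancel_right₀ _ (hne y hy)]
    have hev : ∀ {η : Form ℂ 2 X ℂ 2}, η.IsSmooth →
        DifferentiableAt ℂ (fun y => η.inChart e y frame2) (e x) := by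
      intro η hη
      have h1 : DifferentiableAt ℂ (η.inChart e) (e x) := hη.differentiableAt_chartAt x
      exact (ContinuousAlternatingMap.apply ℂ (Cn 2) ℂ frame2).differentiableAt.comp (e x) h1
    have hd : DifferentiableAt ℂ (fun y => τ.inChart e y frame2 / σ.inChart e y frame2) (e x) := by
      simp only [div_eq_mul_inv]
      exact (hev hτ).fun_mul ((hev hσ).fun_inv (hne _ (mem_chart_target _ x)))
    have hd' : MDifferentiableAt 𝓘(ℂ, Cn 2) 𝓘(ℂ, ℂ)
        (fun y => τ.inChart e y frame2 / σ.inChart e y frame2) (e x) :=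
      hd.mdifferentiableAt
    have hme : MDifferentiableAt 𝓘(ℂ, Cn 2) 𝓘(ℂ, Cn 2) e x :=
      mdifferentiableAt_atlas hea (mem_chart_source _ x)
    have hcomp := hd'.comp x hme
    refine hcomp.congr_of_eventuallyEq ?_
    filter_upwards [e.open_source.mem_nhds (mem_chart_source _ x)] with z hz
    simp only [Function.comp]
    rw [← hloc _ (e.map_source hz), e.left_inv hz]
  obtain ⟨c, hc⟩ := hmd.exists_eq_const_of_compactSpace
  refine ⟨c, funext fun x => ?_⟩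
  rw [hτf x, hc]
  rfl

end Claimed.Open.R041
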