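/-
Result 041, sanity (stage 2, package E2): `(℘(z₀), ℘(z₁), r(z₀) r(z₁), r(z₀)/r(z₁)) : Kum → (ℙ¹)⁴` is immersive (computation in the charts).
-/
import Claimed.Open.R041.K3Maps
import Claimed.Open.R041.K3Sigma

open scoped Manifold ContDiff Topology
open Set

namespace Claimed.Open.R041
namespace Kummer

/-- Chain rule for `A ∘ α`, `α : ℂ² → ℂ`, `A : ℂ → V`. -/
theorem fderiv_comp_apply {V : Type} [NormedAddCommGroup V] [NormedSpace ℂ V] {A : ℂ → V}
    {α : Cn 2 → ℂ} {α' : Cn 2 →L[ℂ] ℂ} {y : Cn 2} (hA : DifferentiableAt ℂ A (α y))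
    (hα : HasFDerivAt α α' y) (w : Cn 2) :
    fderiv ℂ (fun z => A (α z)) y w = α' w • deriv A (α y) := by
  have h := (hA.hasDerivAt.hasFDerivAt.comp y hα).fderiv
  have e : (fun z => A (α z)) = A ∘ α := rfl
  rw [e, h]
  simp

theorem hasFDerivAt_arg_oth (y : Cn 2) :
    HasFDerivAt (fun z : Cn 2 => z 0 * z 1 ^ 2)
      (y 0 • ((2 * y 1) • EuclideanSpace.proj (𝕜 := ℂ) (1 : Fin 2)) +
        y 1 ^ 2 • EuclideanSpace.proj (𝕜 := ℂ) (0 : Fin 2)) y := by
  have h1 := (hasFDerivAt_coord 1 y).pow 2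
  have h := (hasFDerivAt_coord 0 y).mul h1
  have e : (y 0 • ((2 * y 1) • EuclideanSpace.proj (𝕜 := ℂ) (1 : Fin 2)) +
        y 1 ^ 2 • EuclideanSpace.proj (𝕜 := ℂ) (0 : Fin 2)) =
      y 0 • ((2 • y 1 ^ (2 - 1)) • EuclideanSpace.proj (𝕜 := ℂ) (1 : Fin 2)) +
        y 1 ^ 2 • EuclideanSpace.proj (𝕜 := ℂ) (0 : Fin 2) := by
    simp
  rw [e]
  exact h

theorem liftX_self (μ : HalfLat) (κ : Fin 2) :
    liftX κ μ κ = fun z => wpLoc ((μ : Cn 2) κ) (z 0) := by
  funext z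
  simp [liftX]

theorem liftX_oth (μ : HalfLat) (κ : Fin 2) :
    liftX (oth κ) μ κ = fun z => wpLoc ((μ : Cn 2) (oth κ)) (z 0 * z 1 ^ 2) := by
  funext z
  simp [liftX]

theorem mm_self (μ : HalfLat) (κ : Fin 2) :
    (fun z => mm μ κ z κ) = fun z => rLoc ((μ : Cn 2) κ) (z 0) := by
  funext z
  simp [mm]

theorem mm_oth (μ : HalfLat) (κ : Fin 2) :
    (fun z => mm μ κ z (oth κ)) = fun z => z 1 * rLoc ((μ : Cn 2) (oth κ)) (z 0 * z 1 ^ 2) := by
  funext z
  simp [mm]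

/-- E2 (flat core of the immersivity). -/
theorem imm_flat (μ : HalfLat) (κ : Fin 2) {y : Cn 2} (hy : y ∈ DA) (w : Cn 2)
    (hX : ∀ j, ∃ c : ℂ, fderiv ℂ (liftX j μ κ) y w = c • liftX j μ κ y)
    (hR : ∀ s, ∃ c : ℂ, fderiv ℂ (liftR s μ κ) y w = c • liftR s μ κ y) : w = 0 := by
  have hμ := HalfLat.coord_mem μ
  -- (1) `w 0 = 0`
  have hw0 : w 0 = 0 := by
    obtain ⟨c, hc⟩ := hX κ
    rw [liftX_self, fderiv_comp_apply
      (analyticOnNhd_wpLoc (hμ κ) _ hy.1).differentiableAt (hasFDerivAt_coord 0 y)] at hc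
    by_contra h
    refine deriv_wpLoc_ne (hμ κ) hy.1 ((w 0)⁻¹ * c) ?_
    have e : EuclideanSpace.proj (𝕜 := ℂ) (0 : Fin 2) w = w 0 := rfl
    rw [e] at hc
    rw [mul_smul, ← hc, smul_smul, inv_mul_cancel₀ h, one_smul]
  -- (2), (3) `w 1 = 0`
  have hw1 : w 1 = 0 := by
    by_cases hat : y 0 * y 1 = 0
    · -- the map of type `θ`
      have hat2 : y 0 * y 1 ^ 2 = 0 := by rw [pow_two, ← mul_assoc, hat, zero_mul]
      obtain ⟨s, hs⟩ := exists_theta μ
      obtain ⟨c, hc⟩ := hR s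
      have hd : DifferentiableAt ℂ (liftR s μ κ) y := (analyticOnNhd_liftR s μ κ y hy).differentiableAt
      have hcomp : ∀ i, fderiv ℂ (fun z => liftR s μ κ z i) y w = c * liftR s μ κ y i := by
        intro i
        rw [fderiv_apply hd i]
        have := congrFun hc i
        simpa using this
      have claim : ∀ j, fderiv ℂ (fun z => mm μ κ z j) y w = c * mm μ κ y j := by
        intro j
        rcases hs with hs | hs
        · have e : ∀ z, liftR s μ κ z j = mm μ κ z j := by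
            intro z
            rw [hs κ z]
            fin_cases j <;> rfl
          have := hcomp j
          simpa only [e] using this
        · have e : ∀ z, liftR s μ κ z (oth j) = mm μ κ z j := by
            intro z
            rw [hs κ z]
            fin_cases j <;> rfl
          have := hcomp (oth j)
          simpa only [e] using this
      -- the `κ`-th component gives `c = 0`
      have hc0 : c = 0 := by
        have h1 := claim κ
        rw [mm_self, fderiv_comp_apply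
          (analyticOnNhd_rLoc (hμ κ) _ hy.1).differentiableAt (hasFDerivAt_coord 0 y)] at h1
        have e : EuclideanSpace.proj (𝕜 := ℂ) (0 : Fin 2) w = w 0 := rfl
        rw [e, hw0, zero_smul] at h1
        exact (mul_eq_zero.1 h1.symm).resolve_right (mm_self_ne_zero μ κ hy)
      -- the other component
      have h2 := claim (oth κ)
      rw [hc0, zero_mul, mm_oth] at h2
      have hr : DifferentiableAt ℂ (rLoc ((μ : Cn 2) (oth κ))) (y 0 * y 1 ^ 2) :=
        (analyticOnNhd_rLoc (hμ (oth κ)) _ hy.2).differentiableAt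
      have hcompo : HasFDerivAt (fun z : Cn 2 => rLoc ((μ : Cn 2) (oth κ)) (z 0 * z 1 ^ 2))
          (fderiv ℂ (fun z : Cn 2 => rLoc ((μ : Cn 2) (oth κ)) (z 0 * z 1 ^ 2)) y) y := by
        have : DifferentiableAt ℂ (fun z : Cn 2 => rLoc ((μ : Cn 2) (oth κ)) (z 0 * z 1 ^ 2)) y :=
          DifferentiableAt.comp (g := rLoc ((μ : Cn 2) (oth κ))) y hr
            (hasFDerivAt_arg_oth y).differentiableAt
        exact this.hasFDerivAt
      have h3 := ((hasFDerivAt_coord 1 y).mul hcompo).fderiv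
      have h4 : fderiv ℂ (fun z : Cn 2 => z 1 * rLoc ((μ : Cn 2) (oth κ)) (z 0 * z 1 ^ 2)) y w =
          y 1 * fderiv ℂ (fun z : Cn 2 => rLoc ((μ : Cn 2) (oth κ)) (z 0 * z 1 ^ 2)) y w +
            rLoc ((μ : Cn 2) (oth κ)) (y 0 * y 1 ^ 2) * w 1 := by
        have e : (fun z : Cn 2 => z 1 * rLoc ((μ : Cn 2) (oth κ)) (z 0 * z 1 ^ 2)) =
          (fun z : Cn 2 => z 1) * fun z : Cn 2 => rLoc ((μ : Cn 2) (oth κ)) (z 0 * z 1 ^ 2) := rfl
        rw [e, h3]
        simp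
      rw [h4, fderiv_comp_apply hr (hasFDerivAt_arg_oth y)] at h2
      have e5 : (y 0 • ((2 * y 1) • EuclideanSpace.proj (𝕜 := ℂ) (1 : Fin 2)) +
          y 1 ^ 2 • EuclideanSpace.proj (𝕜 := ℂ) (0 : Fin 2)) w = 2 * (y 0 * y 1) * w 1 + y 1 ^ 2 * w 0 := by
        have e0 : EuclideanSpace.proj (𝕜 := ℂ) (0 : Fin 2) w = w 0 := rfl
        have e1 : EuclideanSpace.proj (𝕜 := ℂ) (1 : Fin 2) w = w 1 := rfl
        simp only [add_apply, smul_apply, e0, e1, smul_eq_mul]
        ring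
      rw [e5, hat, hw0] at h2
      simp only [mul_zero, zero_mul, add_zero, zero_smul, zero_add] at h2
      exact (mul_eq_zero.1 h2).resolve_left (rLoc_ne_zero (hμ (oth κ)) hy.2)
    · obtain ⟨c, hc⟩ := hX (oth κ)
      rw [liftX_oth, fderiv_comp_apply
        (analyticOnNhd_wpLoc (hμ (oth κ)) _ hy.2).differentiableAt (hasFDerivAt_arg_oth y)] at hc
      have e5 : (y 0 • ((2 * y 1) • EuclideanSpace.proj (𝕜 := ℂ) (1 : Fin 2)) +
          y 1 ^ 2 • EuclideanSpace.proj (𝕜 := ℂ) (0 : Fin 2)) w = 2 * (y 0 * y 1) * w 1 + y 1 ^ 2 * w 0 := by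
        have e0 : EuclideanSpace.proj (𝕜 := ℂ) (0 : Fin 2) w = w 0 := rfl
        have e1 : EuclideanSpace.proj (𝕜 := ℂ) (1 : Fin 2) w = w 1 := rfl
        simp only [add_apply, smul_apply, e0, e1, smul_eq_mul]
        ring
      rw [e5, hw0, mul_zero, add_zero] at hc
      by_contra h
      have hne : 2 * (y 0 * y 1) * w 1 ≠ 0 := mul_ne_zero (mul_ne_zero two_ne_zero hat) h
      refine deriv_wpLoc_ne (hμ (oth κ)) hy.2 ((2 * (y 0 * y 1) * w 1)⁻¹ * c) ?_
      rw [mul_smul, ← hc, smul_smul, inv_mul_cancel₀ hne, one_smul]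
  exact ext2 hw0 hw1

end Kummer
end Claimed.Open.R041
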