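/-
Result 041, sanity (stage 2, package E1): `(℘(z₀), ℘(z₁), r(z₀) r(z₁), r(z₀)/r(z₁)) : Kum → (ℙ¹)⁴` is injective.
-/
import Claimed.Open.R041.K3Maps

open scoped Manifold ContDiff Topology
open Set

namespace Claimed.Open.R041
namespace Kummer

theorem ptA_congr (μ : HalfLat) (κ : Fin 2) {y y' : Cn 2} (h : y = y') (hy : y ∈ DA) (hy' : y' ∈ DA) :
    ptA μ κ y hy = ptA μ κ y' hy' := by
  subst h
  rfl

/-- The map of type `θ` at `μ`: if both `RR s` agree at two points of charts centred at `μ`, the vectors `(m₀, m₁)` are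
proportional. -/
theorem exists_mul_mm_eq (μ : HalfLat) {κ₁ κ₂ : Fin 2} {y₁ y₂ : Cn 2} (hy₁ : y₁ ∈ DA) (hy₂ : y₂ ∈ DA)
    (h : ∀ s, RR s (ptA μ κ₁ y₁ hy₁) = RR s (ptA μ κ₂ y₂ hy₂)) :
    ∃ a : ℂ, ∀ j, a * mm μ κ₂ y₂ j = mm μ κ₁ y₁ j := by
  obtain ⟨s, hs⟩ := exists_theta μ
  have h1 := h s
  rw [RR_ptA, RR_ptA, Projectivization.mk_eq_mk_iff'] at h1
  obtain ⟨a, ha⟩ := h1
  refine ⟨a, fun j => ?_⟩
  rcases hs with hs | hs
  · rw [hs, hs] at ha
    have := congrFun ha j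
    fin_cases j
    · simpa using this
    · simpa using this
  · rw [hs, hs] at ha
    have := congrFun ha (oth j)
    fin_cases j
    · simpa [oth] using this
    · simpa [oth] using this

/-- From `℘(z_j) = ℘(z'_j)`: `z'_j ≡ μ_j ± c_j`. -/
theorem exists_sign {ν c z' : ℂ} (hν : ν ∈ HalfLat1) (h : wpP (ν + c) = wpP z') :
    ∃ ε : ℂ, (ε = 1 ∨ ε = -1) ∧ z' - (ν + ε * c) ∈ Lat1 := by
  rcases wpP_eq_iff.1 h with h | h
  · refine ⟨1, Or.inl rfl, ?_⟩
    have e : z' - (ν + 1 * c) = -(ν + c - z') := by ring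
    rw [e]
    exact Lat1.neg_mem h
  · refine ⟨-1, Or.inr rfl, ?_⟩
    have e : z' - (ν + -1 * c) = (ν + c + z') - (ν + ν) := by ring
    rw [e]
    exact Lat1.sub_mem h hν

/-- The case of a point on an exceptional curve. -/
theorem inj_exc (μ μ' : HalfLat) (κ κ' : Fin 2) {y y' : Cn 2} (hy : y ∈ DA) (hy' : y' ∈ DA)
    (h0 : y 0 = 0)
    (hX : ∀ j, XX j (ptA μ κ y hy) = XX j (ptA μ' κ' y' hy'))
    (hR : ∀ s, RR s (ptA μ κ y hy) = RR s (ptA μ' κ' y' hy')) :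
    ptA μ κ y hy = ptA μ' κ' y' hy' := by
  obtain ⟨ρ', hρ'⟩ := exists_root (y' 0)
  have hc' : ρ' • vec κ' (y' 1) ∈ Cube := smul_vec_mem_Cube hy' κ' hρ'
  have hρ : (0 : ℂ) ^ 2 = y 0 := by rw [h0]; simp
  -- `z' - μ ∈ Lat`
  have hz' : ((μ' : Cn 2) + ρ' • vec κ' (y' 1)) - μ ∈ Lat := by
    rw [mem_Lat_iff]
    intro j
    have h1 := hX j
    rw [XX_ptA j μ κ hy hρ, XX_ptA j μ' κ' hy' hρ'] at h1
    obtain ⟨ε, -, hε⟩ := exists_sign (HalfLat.coord_mem μ j) h1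
    simpa using hε
  have hc'H : ρ' • vec κ' (y' 1) ∈ HalfLat := by
    have e : ρ' • vec κ' (y' 1) = (((μ' : Cn 2) + ρ' • vec κ' (y' 1)) - μ) + (μ - μ') := by abel
    rw [e]
    exact HalfLat.add_mem (Lat_le_HalfLat hz') (HalfLat.sub_mem μ.2 μ'.2)
  have hc'0 : ρ' • vec κ' (y' 1) = 0 := eq_zero_of_mem_HalfLat_of_mem_Cube hc' hc'H
  have hρ'0 : ρ' = 0 := (smul_eq_zero.1 hc'0).resolve_right (vec_ne_zero κ' _)
  have h0' : y' 0 = 0 := by rw [← hρ', hρ'0]; simp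
  have hμ : (μ' : Cn 2) - μ ∈ Lat := by simpa [hc'0] using hz'
  rw [ptA_congr_Lat hμ κ' hy'] at hR ⊢
  obtain ⟨a, ha⟩ := exists_mul_mm_eq μ hy hy' hR
  have hv : ∀ j, a * vec κ' (y' 1) j = vec κ (y 1) j := by
    intro j
    have := ha j
    unfold mm at this
    rw [h0, h0', zero_mul, zero_mul, ← mul_assoc] at this
    exact mul_right_cancel₀ (rLoc_ne_zero (HalfLat.coord_mem μ j) zero_mem_Q2) this
  have hva : vec κ (y 1) = a • vec κ' (y' 1) := by
    refine ext2 ?_ ?_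
    · simpa using (hv 0).symm
    · simpa using (hv 1).symm
  have ha0 : a ≠ 0 := by
    rintro rfl
    exact vec_ne_zero κ (y 1) (by rw [hva, zero_smul])
  have e1 : ptA μ κ y hy = exc μ κ (y 1) :=
    ptA_congr μ κ (ext2 (by simpa using h0) (by simp)) hy _
  have e2 : ptA μ κ' y' hy' = exc μ κ' (y' 1) :=
    ptA_congr μ κ' (ext2 (by simpa using h0') (by simp)) hy' _
  rw [e1, e2, exc_eq_exc]
  refine ⟨by simp, a⁻¹, inv_ne_zero ha0, ?_⟩
  rw [hva, smul_smul, inv_mul_cancel₀ ha0, one_smul]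

/-- E1: the four maps separate points. -/
theorem inj_core (x x' : Kum) (hX : ∀ j, XX j x = XX j x') (hR : ∀ s, RR s x = RR s x') : x = x' := by
  obtain ⟨μ, κ, y, hy, rfl⟩ := exists_eq_ptA x
  obtain ⟨μ', κ', y', hy', rfl⟩ := exists_eq_ptA x'
  by_cases h0 : y 0 = 0
  · exact inj_exc μ μ' κ κ' hy hy' h0 hX hR
  by_cases h0' : y' 0 = 0
  · exact (inj_exc μ' μ κ' κ hy' hy h0' (fun j => (hX j).symm) (fun s => (hR s).symm)).symm
  obtain ⟨ρ, hρ⟩ := exists_root (y 0)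
  obtain ⟨ρ', hρ'⟩ := exists_root (y' 0)
  have hρ0 : ρ ≠ 0 := by
    rintro rfl
    exact h0 (by rw [← hρ]; simp)
  have hρ0' : ρ' ≠ 0 := by
    rintro rfl
    exact h0' (by rw [← hρ']; simp)
  have hc : ρ • vec κ (y 1) ∈ Cube := smul_vec_mem_Cube hy κ hρ
  -- the signs
  have hsign : ∀ j, ∃ ε : ℂ, (ε = 1 ∨ ε = -1) ∧
      ((μ' : Cn 2) j + ρ' * vec κ' (y' 1) j) - ((μ : Cn 2) j + ε * (ρ * vec κ (y 1) j)) ∈ Lat1 := by
    intro j
    have h1 := hX j
    rw [XX_ptA j μ κ hy hρ, XX_ptA j μ' κ' hy' hρ'] at h1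
    exact exists_sign (HalfLat.coord_mem μ j) h1
  choose ε hε hεL using hsign
  set c'' : Cn 2 := mk2 (ε 0 * (ρ * vec κ (y 1) 0)) (ε 1 * (ρ * vec κ (y 1) 1)) with hc''
  have hc''j : ∀ j, c'' j = ε j * (ρ * vec κ (y 1) j) := by
    intro j
    fin_cases j <;> rfl
  have hc''C : c'' ∈ Cube := by
    rw [mem_Cube_iff]
    intro j
    have h1 : ρ * vec κ (y 1) j ∈ Q := by
      have := mem_Cube_iff.1 hc j
      simpa using this
    rw [hc''j]
    rcases hε j with h | h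
    · rw [h, one_mul]; exact h1
    · rw [h, neg_one_mul]; exact neg_mem_Q h1
  have hεne : ∀ j, ε j ≠ 0 := by
    intro j
    rcases hε j with h | h <;> rw [h] <;> norm_num
  have hc''κ : c'' κ ≠ 0 := by
    rw [hc''j, vec_self, mul_one]
    exact mul_ne_zero (hεne κ) hρ0
  -- `x' = reg (μ + c'')`
  have e1 : ptA μ' κ' y' hy' = ptA μ κ (mk2 (c'' κ ^ 2) (c'' (oth κ) / c'' κ))
      (coord_mem_DA κ hc''C hc''κ) := by
    rw [ptA_coord μ κ hc''C hc''κ, ptA_eq_reg μ' κ' hy' hρ0' hρ', reg_eq_reg]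
    left
    rw [mem_Lat_iff]
    intro j
    have := hεL j
    rw [← hc''j] at this
    simpa using this
  have hsq : c'' κ ^ 2 = y 0 := by
    rw [hc''j, vec_self, mul_one, mul_pow, hρ]
    rcases hε κ with h | h <;> rw [h] <;> ring
  have hquot : c'' (oth κ) / c'' κ = y 1 ∨ c'' (oth κ) / c'' κ = -y 1 := by
    rw [hc''j, hc''j, vec_self, vec_oth, mul_one]
    rcases hε κ with h | h <;> rcases hε (oth κ) with h' | h' <;> rw [h, h']
    · left; field_simp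
    · right; field_simp
    · right; field_simp
    · left; field_simp
  rcases hquot with hq | hq
  · rw [e1]
    exact ptA_congr μ κ (ext2 (by simp [hsq]) (by simp [hq])) hy _
  · -- the map of type `θ` separates `(a, t)` and `(a, -t)`
    have hy'' : mk2 (y 0) (-y 1) ∈ DA := by
      have := coord_mem_DA κ hc''C hc''κ
      rwa [hsq, hq] at this
    have e2 : ptA μ' κ' y' hy' = ptA μ κ (mk2 (y 0) (-y 1)) hy'' := by
      rw [e1]
      exact ptA_congr μ κ (by rw [hsq, hq]) _ _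
    rw [e2] at hR ⊢
    obtain ⟨a, ha⟩ := exists_mul_mm_eq μ hy hy'' hR
    have h1 := ha κ
    have h2 := ha (oth κ)
    unfold mm at h1 h2
    simp only [vec_self, vec_oth, mk2_zero, mk2_one, one_pow, mul_one, one_mul, neg_sq] at h1 h2
    have hC1 : rLoc ((μ : Cn 2) κ) (y 0) ≠ 0 := rLoc_ne_zero (HalfLat.coord_mem μ κ) hy.1
    have hC2 : rLoc ((μ : Cn 2) (oth κ)) (y 0 * y 1 ^ 2) ≠ 0 :=
      rLoc_ne_zero (HalfLat.coord_mem μ (oth κ)) hy.2
    have ha1 : a = 1 := by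
      have : (a - 1) * rLoc ((μ : Cn 2) κ) (y 0) = 0 := by linear_combination h1
      exact sub_eq_zero.1 ((mul_eq_zero.1 this).resolve_right hC1)
    rw [ha1, one_mul] at h2
    have ht : y 1 = 0 := by
      have : (2 * y 1) * rLoc ((μ : Cn 2) (oth κ)) (y 0 * y 1 ^ 2) = 0 := by linear_combination -h2
      have := (mul_eq_zero.1 this).resolve_right hC2
      simpa using this
    exact ptA_congr μ κ (ext2 (by simp) (by simp [ht])) hy _

end Kummer
end Claimed.Open.R041
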