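/-
Result 041, sanity (stage 2, package G-b): the Segre embedding; four maps to `ℙ¹` which are jointly injective and
immersive embed `X` into `ℙ¹⁵`.
-/
import Claimed.Open.R041.CorollaryProjective

open scoped Manifold ContDiff Topology
open Set

namespace Claimed.Open.R041

variable {d : ℕ} {X : Type} [TopologicalSpace X] [ChartedSpace (Cn d) X] {N : ℕ}

/-! ### Differentials of products and components -/

theorem HolomorphicOn.mdifferentiableAt {V : Type} [NormedAddCommGroup V] [NormedSpace ℂ V]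
    {F : X → V} {U : Set X} (hF : HolomorphicOn d F U) (hU : IsOpen U) {x : X} (hx : x ∈ U) :
    MDifferentiableAt 𝓘(ℂ, Cn d) 𝓘(ℂ, V) F x :=
  ((hF x hx).contMDiffAt (hU.mem_nhds hx)).mdifferentiableAt (by simp)

theorem diffAt_apply_coord {ι : Type} [Fintype ι] {F : X → ι → ℂ} {x : X}
    (hF : MDifferentiableAt 𝓘(ℂ, Cn d) 𝓘(ℂ, ι → ℂ) F x) (v : Cn d) (i : ι) :
    diffAt ℂ (d := d) F x v i = diffAt ℂ (d := d) (fun y => F y i) x v := by
  have h1 : MDifferentiableAt 𝓘(ℂ, ι → ℂ) 𝓘(ℂ, ℂ)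
      (ContinuousLinearMap.proj (R := ℂ) (φ := fun _ : ι => ℂ) i) (F x) :=
    (ContinuousLinearMap.proj (R := ℂ) (φ := fun _ : ι => ℂ) i).mdifferentiableAt
  have h2 := mfderiv_comp x h1 hF
  have h3 : (fun y => F y i) = (ContinuousLinearMap.proj (R := ℂ) (φ := fun _ : ι => ℂ) i) ∘ F := rfl
  unfold diffAt
  rw [h3, h2, ContinuousLinearMap.mfderiv_eq]
  rfl

theorem mdifferentiableAt_coord {ι : Type} [Fintype ι] {F : X → ι → ℂ} {x : X}
    (hF : MDifferentiableAt 𝓘(ℂ, Cn d) 𝓘(ℂ, ι → ℂ) F x) (i : ι) :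
    MDifferentiableAt 𝓘(ℂ, Cn d) 𝓘(ℂ, ℂ) (fun y => F y i) x :=
  ((ContinuousLinearMap.proj (R := ℂ) (φ := fun _ : ι => ℂ) i).mdifferentiableAt (x := F x)).comp x hF

theorem diffAt_mul {p q : X → ℂ} {x : X} (hp : MDifferentiableAt 𝓘(ℂ, Cn d) 𝓘(ℂ, ℂ) p x)
    (hq : MDifferentiableAt 𝓘(ℂ, Cn d) 𝓘(ℂ, ℂ) q x) (v : Cn d) :
    diffAt ℂ (d := d) (fun y => p y * q y) x v =
      p x * diffAt ℂ (d := d) q x v + q x * diffAt ℂ (d := d) p x v := by
  have h := (hp.hasMFDerivAt.mul hq.hasMFDerivAt).mfderiv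
  unfold diffAt
  have e : (fun y => p y * q y) = p * q := rfl
  rw [e, h]
  rfl

/-! ### The Segre map -/

/-- G3: the Segre map `ℙ^a × ℙ^b → ℙ^c`, `c + 1 = (a + 1)(b + 1)`. -/
noncomputable def segre {a b c : ℕ} (ε : Fin (c + 1) ≃ Fin (a + 1) × Fin (b + 1)) (p : PN a) (q : PN b) :
    PN c :=
  Projectivization.mk ℂ (fun k => p.rep (ε k).1 * q.rep (ε k).2) (by
    intro h
    obtain ⟨i, hi⟩ := Function.ne_iff.1 p.rep_nonzero
    obtain ⟨j, hj⟩ := Function.ne_iff.1 q.rep_nonzero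
    have := congrFun h (ε.symm (i, j))
    simp only [Equiv.apply_symm_apply, Pi.zero_apply, mul_eq_zero] at this
    rcases this with h | h
    · exact hi h
    · exact hj h)

section

variable {a b c : ℕ} (ε : Fin (c + 1) ≃ Fin (a + 1) × Fin (b + 1))

theorem segreVec_ne_zero {v : Fin (a + 1) → ℂ} {w : Fin (b + 1) → ℂ} (hv : v ≠ 0) (hw : w ≠ 0) :
    (fun k => v (ε k).1 * w (ε k).2) ≠ 0 := by
  intro h
  obtain ⟨i, hi⟩ := Function.ne_iff.1 hv
  obtain ⟨j, hj⟩ := Function.ne_iff.1 hw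
  have := congrFun h (ε.symm (i, j))
  simp only [Equiv.apply_symm_apply, Pi.zero_apply, mul_eq_zero] at this
  rcases this with h | h
  · exact hi h
  · exact hj h

theorem segre_mk {v : Fin (a + 1) → ℂ} {w : Fin (b + 1) → ℂ} (hv : v ≠ 0) (hw : w ≠ 0) :
    segre ε (Projectivization.mk ℂ v hv) (Projectivization.mk ℂ w hw) =
      Projectivization.mk ℂ (fun k => v (ε k).1 * w (ε k).2) (segreVec_ne_zero ε hv hw) := by
  obtain ⟨s, hs⟩ := Projectivization.exists_smul_eq_mk_rep ℂ v hv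
  obtain ⟨t, ht⟩ := Projectivization.exists_smul_eq_mk_rep ℂ w hw
  unfold segre
  rw [Projectivization.mk_eq_mk_iff']
  refine ⟨(s : ℂ) * t, ?_⟩
  funext k
  rw [← hs, ← ht]
  simp only [Pi.smul_apply, Units.smul_def, smul_eq_mul]
  ring

theorem segre_left_eq {p p' : PN a} {q q' : PN b} (h : segre ε p q = segre ε p' q') : p = p' := by
  unfold segre at h
  rw [Projectivization.mk_eq_mk_iff'] at h
  obtain ⟨s, hs⟩ := h
  obtain ⟨j, hj⟩ := Function.ne_iff.1 q.rep_nonzero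
  replace hj : q.rep j ≠ 0 := hj
  rw [← p.mk_rep, ← p'.mk_rep, Projectivization.mk_eq_mk_iff']
  refine ⟨s * q'.rep j / q.rep j, funext fun i => ?_⟩
  have := congrFun hs (ε.symm (i, j))
  simp only [Pi.smul_apply, Equiv.apply_symm_apply, smul_eq_mul] at this ⊢
  field_simp
  linear_combination this

theorem segre_comm (p : PN a) (q : PN b) :
    segre ε p q = segre (ε.trans (Equiv.prodComm _ _)) q p := by
  unfold segre
  congr 1
  funext k
  simp [mul_comm]

theorem segre_eq_segre {p p' : PN a}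
    {q q' : PN b} (h : segre ε p q = segre ε p' q') : p = p' ∧ q = q' := by
  refine ⟨segre_left_eq ε h, ?_⟩
  rw [segre_comm, segre_comm ε p' q'] at h
  exact segre_left_eq _ h

/-- If `F`, `G` are lifts of `f`, `g` on `U`, `U'`, then `k ↦ F (ε k).1 * G (ε k).2` is a lift on `U ∩ U'`. -/
theorem IsLocalLift.segre {f : X → PN a} {g : X → PN b} {U U' : Set X}
    {F : X → Fin (a + 1) → ℂ} {G : X → Fin (b + 1) → ℂ} (hF : IsLocalLift d f U F)
    (hG : IsLocalLift d g U' G) :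
    IsLocalLift d (fun x => Claimed.Open.R041.segre ε (f x) (g x)) (U ∩ U')
      (fun y k => F y (ε k).1 * G y (ε k).2) := by
  refine ⟨hF.1.inter hG.1, ?_, ?_⟩
  · rw [holomorphicOn_pi_iff]
    intro k
    have h1 := ((holomorphicOn_pi_iff _ _).1 hF.2.1 (ε k).1).mono (inter_subset_left (t := U'))
    have h2 := ((holomorphicOn_pi_iff _ _).1 hG.2.1 (ε k).2).mono (inter_subset_right (s := U))
    exact ContMDiffOn.mul h1 h2
  · intro y hy
    obtain ⟨h0, h1⟩ := hF.2.2 y hy.1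
    obtain ⟨h0', h1'⟩ := hG.2.2 y hy.2
    refine ⟨segreVec_ne_zero ε h0 h0', ?_⟩
    simp only [h1, h1']
    exact segre_mk ε h0 h0'

theorem IsHolomorphicOnToPN.segre
    {f : X → PN a} {g : X → PN b} {W : Set X} (hf : IsHolomorphicOnToPN d f W)
    (hg : IsHolomorphicOnToPN d g W) :
    IsHolomorphicOnToPN d (fun x => Claimed.Open.R041.segre ε (f x) (g x)) W := by
  intro x hx
  obtain ⟨U, F, hxU, hF⟩ := hf x hx
  obtain ⟨U', G, hxU', hG⟩ := hg x hx
  exact ⟨U ∩ U', _, ⟨hxU, hxU'⟩, hF.segre ε hG⟩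

theorem InKerDifferential.of_segre_left
    {f : X → PN a} {g : X → PN b}
    (hg : IsHolomorphicOnToPN d g Set.univ) {x : X} {v : Cn d}
    (h : InKerDifferential d (fun x => Claimed.Open.R041.segre ε (f x) (g x)) x v) :
    InKerDifferential d f x v := by
  intro U F hxU hF
  obtain ⟨U', G, hxU', hG⟩ := hg x trivial
  obtain ⟨s, hs⟩ := h (U ∩ U') _ ⟨hxU, hxU'⟩ (hF.segre ε hG)
  have hH := (hF.segre ε hG).2.1.mdifferentiableAt (hF.segre ε hG).1 ⟨hxU, hxU'⟩
  have hFd := hF.2.1.mdifferentiableAt hF.1 hxU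
  have hGd := hG.2.1.mdifferentiableAt hG.1 hxU'
  obtain ⟨h0', -⟩ := hG.2.2 x hxU'
  obtain ⟨j, hj⟩ := Function.ne_iff.1 h0'
  replace hj : G x j ≠ 0 := hj
  refine ⟨s - diffAt ℂ (d := d) (fun y => G y j) x v / G x j, funext fun i => ?_⟩
  have h1 := congrFun hs (ε.symm (i, j))
  rw [diffAt_apply_coord hH] at h1
  simp only [Equiv.apply_symm_apply, Pi.smul_apply, smul_eq_mul] at h1
  rw [diffAt_mul (mdifferentiableAt_coord hFd i) (mdifferentiableAt_coord hGd j)] at h1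
  rw [diffAt_apply_coord hFd]
  simp only [Pi.smul_apply, smul_eq_mul]
  field_simp
  linear_combination h1

theorem InKerDifferential.of_segre
    {f : X → PN a} {g : X → PN b} (hf : IsHolomorphicOnToPN d f Set.univ)
    (hg : IsHolomorphicOnToPN d g Set.univ) {x : X} {v : Cn d}
    (h : InKerDifferential d (fun x => Claimed.Open.R041.segre ε (f x) (g x)) x v) :
    InKerDifferential d f x v ∧ InKerDifferential d g x v := by
  refine ⟨h.of_segre_left ε hg, ?_⟩
  have e : (fun x => Claimed.Open.R041.segre ε (f x) (g x)) =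
      fun x => Claimed.Open.R041.segre (ε.trans (Equiv.prodComm _ _)) (g x) (f x) :=
    funext fun x => segre_comm ε _ _
  rw [e] at h
  exact h.of_segre_left _ hf

end

/-- `Fin 4 ≃ Fin 2 × Fin 2`. -/
def eps4 : Fin (3 + 1) ≃ Fin (1 + 1) × Fin (1 + 1) :=
  (finCongr (by norm_num)).trans finProdFinEquiv.symm

/-- `Fin 16 ≃ Fin 4 × Fin 4`. -/
def eps16 : Fin (15 + 1) ≃ Fin (3 + 1) × Fin (3 + 1) :=
  (finCongr (by norm_num)).trans finProdFinEquiv.symm

/-- G4: four maps to `ℙ¹` which together are injective and immersive embed `X` in `ℙ¹⁵`. -/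
theorem isProjectiveManifold_of_four {g : Fin 4 → X → PN 1}
    (hg : ∀ i, IsHolomorphicOnToPN d (g i) Set.univ)
    (hinj : ∀ x x', (∀ i, g i x = g i x') → x = x')
    (himm : ∀ x v, (∀ i, InKerDifferential d (g i) x v) → v = 0) : IsProjectiveManifold d X := by
  have h01 := (hg 0).segre eps4 (hg 1)
  have h23 := (hg 2).segre eps4 (hg 3)
  refine ⟨15, fun x => segre eps16 (segre eps4 (g 0 x) (g 1 x)) (segre eps4 (g 2 x) (g 3 x)),
    h01.segre eps16 h23, ?_, ?_⟩
  · intro x x' h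
    obtain ⟨h1, h2⟩ := segre_eq_segre eps16 h
    obtain ⟨a0, a1⟩ := segre_eq_segre eps4 h1
    obtain ⟨a2, a3⟩ := segre_eq_segre eps4 h2
    refine hinj x x' fun i => ?_
    fin_cases i
    · exact a0
    · exact a1
    · exact a2
    · exact a3
  · intro x v h
    obtain ⟨h1, h2⟩ := InKerDifferential.of_segre eps16 h01 h23 h
    obtain ⟨a0, a1⟩ := InKerDifferential.of_segre eps4 (hg 0) (hg 1) h1
    obtain ⟨a2, a3⟩ := InKerDifferential.of_segre eps4 (hg 2) (hg 3) h2
    refine himm x v fun i => ?_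
    fin_cases i
    · exact a0
    · exact a1
    · exact a2
    · exact a3

end Claimed.Open.R041
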