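/-
Result 041, sanity (Kummer K3 example, stage 2): the Kummer surface is projective.
`(℘(z₀), ℘(z₁), r(z₀) r(z₁), r(z₀)/r(z₁)) : Kum → (ℙ¹)⁴` is injective and immersive.
-/
import Claimed.Open.R041.K3EmbedInj
import Claimed.Open.R041.K3EmbedImm
import Claimed.Open.R041.K3Segre

open scoped Manifold ContDiff Topology
open Set

namespace Claimed.Open.R041
namespace Kummer

/-- E2: the four maps separate tangent vectors. -/
theorem imm_core (x : Kum) (v : Cn 2) (hX : ∀ j, InKerDifferential 2 (XX j) x v)
    (hR : ∀ s, InKerDifferential 2 (RR s) x v) : v = 0 := by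
  obtain ⟨μ, κ, y, hy, rfl⟩ := exists_eq_ptA x
  have h := imm_flat μ κ hy (diffAt ℂ (d := 2) (chA μ κ) (ptA μ κ y hy) v)
    (fun j => exists_fderiv_eq_of_local (fun μ κ => analyticOnNhd_liftX j μ κ) (XX_eq_mk j) μ κ hy (hX j))
    (fun s => exists_fderiv_eq_of_local (fun μ κ => analyticOnNhd_liftR s μ κ) (RR_eq_mk s) μ κ hy (hR s))
  have hinj := diffAt_chart_injective (d := 2) (atlas.chart_mem_maximalAtlas (.inl (μ, κ)))
    (ptA_mem_chA_source μ κ hy)
  exact hinj (by rw [map_zero]; exact h)

/-- The four maps. -/
noncomputable def fourMaps : Fin 4 → Kum → PN 1 := ![XX 0, XX 1, RR false, RR true]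

/-- **The Kummer surface is a projective manifold.** -/
theorem isProjectiveManifold_Kum : IsProjectiveManifold 2 Kum := by
  refine isProjectiveManifold_of_four (g := fourMaps) ?_ ?_ ?_
  · intro i
    fin_cases i
    · exact isHolomorphic_XX 0
    · exact isHolomorphic_XX 1
    · exact isHolomorphic_RR false
    · exact isHolomorphic_RR true
  · intro x x' h
    refine inj_core x x' (fun j => ?_) (fun s => ?_)
    · fin_cases j
      · exact h 0
      · exact h 1
    · cases s
      · exact h 2
      · exact h 3
  · intro x v h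
    refine imm_core x v (fun j => ?_) (fun s => ?_)
    · fin_cases j
      · exact h 0
      · exact h 1
    · cases s
      · exact h 2
      · exact h 3

end Kummer
end Claimed.Open.R041
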