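/-
Result 041, checked example: the Kummer surface `Kum` of `ℂ² / ℤ[i]²` is an irreducible holomorphic
symplectic manifold in the sense of `IsIHS`.  (The headline statement
`strongSYZ_hypotheses_can_be_met` is in `Sanity.lean`.)
-/
import Claimed.Open.R041.K3Class
import Claimed.Open.R041.K3Sigma
import Claimed.Open.R041.K3Simply
import Claimed.Open.R041.K3Compact
import Claimed.Open.R041.K3Kahler

open scoped Manifold ContDiff Topology
open Set

namespace Claimed.Open.R041
namespace Kummer

/-- The Kummer surface `Kum` of `ℂ² / ℤ[i]²`, with the form `sigma` (`= dz₀ ∧ dz₁` downstairs), is an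
irreducible holomorphic symplectic manifold in the sense of `Statement.lean`: it is simply
connected, Kähler, and `H⁰(Ω²)` is spanned by the nowhere degenerate form `sigma`. -/
theorem isIHS_sigma : IsIHS (d := 2) (X := Kum) sigma where
  simplyConnected := simplyConnectedSpace_Kum
  kahler := exists_isKahlerForm
  holomorphic := sigma_isSmooth
  nondegenerate := sigma_nondegenerate
  spans := fun τ hτ => by
    have : SimplyConnectedSpace Kum := simplyConnectedSpace_Kum
    have : PreconnectedSpace Kum := inferInstance
    exact exists_eq_smul_of_nowhere_vanishing sigma_isSmooth hτ sigma_ne_zero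

end Kummer
end Claimed.Open.R041
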