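/-
Result 041, sanity (stage 2): the elliptic fibration `ff = ℘(z₀) : Kum → ℙ¹`; definitions of the curves in its fibres.
-/
import Claimed.Open.R041.K3Maps
import Claimed.Open.R041.K3Curves

open scoped Manifold ContDiff Topology
open Set

namespace Claimed.Open.R041
namespace Kummer

/-- The elliptic fibration `Kum → ℙ¹`, `z ↦ ℘(z₀)`. -/
noncomputable def ff : Kum → PN 1 := XX 0

/-- "`C` is a good curve": irreducible analytic, connected, smooth of dimension one somewhere. -/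
def GoodCurve (C : Set Kum) : Prop :=
  IsIrreducibleAnalytic 2 C ∧ IsPreconnected C ∧
    ∃ e, IsSliceChart 2 C 1 e ∧ (C ∩ e.source).Nonempty

/-- The criterion used for all curves: `C` is analytic, it is the closure of the image of a connected open subset of `ℂ` under a
holomorphic map, and it has a slice chart. -/
theorem GoodCurve.of_param {C : Set Kum} (hC : IsAnalyticSubset 2 C) {W : Set ℂ} (hW : IsOpen W)
    (hWc : IsPreconnected W) (hWn : W.Nonempty) {φ : ℂ → Kum}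
    (hφ : ContMDiffOn 𝓘(ℂ, ℂ) 𝓘(ℂ, Cn 2) ω φ W) (h1 : φ '' W ⊆ C) (h2 : C ⊆ closure (φ '' W))
    {e : OpenPartialHomeomorph Kum (Cn 2)} (he : IsSliceChart 2 C 1 e)
    (hne : (C ∩ e.source).Nonempty) : GoodCurve C :=
  ⟨isIrreducibleAnalytic_of_param hC hW hWc hWn hφ h1 h2,
    (hWc.image φ hφ.continuousOn).subset_closure h1 h2, e, he, hne⟩

/-- The exceptional curve over `μ`. -/
def excCurve (μ : HalfLat) : Set Kum := {x | ∀ j, XX j x = wpP ((μ : Cn 2) j)}

/-- `[0 : 1]` or `[1 : 0]`. -/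
noncomputable def ptR (p : Bool) : PN 1 :=
  if p then Projectivization.mk ℂ ![1, 0] (by intro h; simpa using congrFun h 0)
  else Projectivization.mk ℂ ![0, 1] (by intro h; simpa using congrFun h 1)

/-- The strict transform of `{z₀ = μ₀}`. -/
def strictCurve (μ : HalfLat) : Set Kum :=
  {x | XX 0 x = wpP ((μ : Cn 2) 0) ∧ ∀ s, RR s x = ptR (rPole ((μ : Cn 2) 0))}

/-- A parametrisation through the inverse of the chart `chA μ κ` is holomorphic. -/
theorem contMDiffOn_chA_symm_comp (μ : HalfLat) (κ : Fin 2) {γ : ℂ → Cn 2} {W : Set ℂ}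
    (hγ : AnalyticOnNhd ℂ γ W) (hW : ∀ w ∈ W, γ w ∈ DA) :
    ContMDiffOn 𝓘(ℂ, ℂ) 𝓘(ℂ, Cn 2) ω (fun w => (chA μ κ).symm (γ w)) W := by
  have h1 : ContMDiffOn 𝓘(ℂ, Cn 2) 𝓘(ℂ, Cn 2) ω (chA μ κ).symm (chA μ κ).target :=
    contMDiffOn_symm_of_mem_maximalAtlas (atlas.chart_mem_maximalAtlas (.inl (μ, κ)))
  have h2 : ContMDiffOn 𝓘(ℂ, ℂ) 𝓘(ℂ, Cn 2) ω γ W :=
    contMDiffOn_iff_contDiffOn.2 hγ.analyticOn.contDiffOn_of_completeSpace
  exact h1.comp h2 hW

end Kummer
end Claimed.Open.R041
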