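/-
Result 041, sanity (stage 2, package F-a): surjectivity of `ff`, empty interior of the fibres, the smooth fibres.
-/
import Claimed.Open.R041.K3FibreDefs

open scoped Manifold ContDiff Topology
open Set

namespace Claimed.Open.R041
namespace Kummer

theorem quarter_notMem_HalfLat1 : (1 / 4 : ℂ) ∉ HalfLat1 := by
  intro h
  have hQ : (1 / 4 : ℂ) ∈ Q := by
    constructor
    · have : ((1 / 4 : ℂ)).re = 1 / 4 := by norm_num
      rw [this, abs_of_pos (by norm_num)]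
      norm_num
    · have : ((1 / 4 : ℂ)).im = 0 := by norm_num
      rw [this]
      norm_num
  have := eq_zero_of_mem_Q_of_mem_HalfLat1 hQ h
  norm_num at this

/-- F0. -/
theorem ff_surjective : Function.Surjective ff := by
  intro b
  obtain ⟨c, rfl⟩ := wpP_surjective b
  have hz : mk2 c (1 / 4) ∉ HalfLat := fun h => quarter_notMem_HalfLat1 (mem_HalfLat_iff.1 h 1)
  exact ⟨reg _ hz, XX_reg 0 hz⟩

theorem wpP_add_eq_iff {ν : ℂ} (hν : ν ∈ HalfLat1) {u u' : ℂ} (hu : u ∈ Q) (hu' : u' ∈ Q) :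
    wpP (ν + u) = wpP (ν + u') ↔ u ^ 2 = u' ^ 2 := by
  constructor
  · intro h
    exact sq_eq_sq_of_equiv hν hu hu' (wpP_eq_iff.1 h)
  · intro h
    rcases sq_eq_sq_iff_eq_or_eq_neg.1 h with rfl | rfl
    · rfl
    · rw [wpP_eq_iff]
      right
      have e : ν + -u' + (ν + u') = ν + ν := by ring
      rw [e]
      exact hν

/-- In the chart `chA μ κ` the fibre of `XX j` through `μ_j + u` (`u ∈ Q`) is `{a v_j² = u²}`. -/
theorem XX_ptA_eq_iff (j : Fin 2) (μ : HalfLat) (κ : Fin 2) {y : Cn 2} (hy : y ∈ DA) {u : ℂ}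
    (hu : u ∈ Q) :
    XX j (ptA μ κ y hy) = wpP ((μ : Cn 2) j + u) ↔ y 0 * (vec κ (y 1) j) ^ 2 = u ^ 2 := by
  obtain ⟨ρ, hρ⟩ := exists_root (y 0)
  have e : (ρ * vec κ (y 1) j) ^ 2 = y 0 * (vec κ (y 1) j) ^ 2 := by rw [mul_pow, hρ]
  have hQ : ρ * vec κ (y 1) j ∈ Q := sq_mem_Q2_iff.1 (e ▸ arg_mem_Q2 κ j hy)
  rw [XX_ptA j μ κ hy hρ, wpP_add_eq_iff (HalfLat.coord_mem μ j) hQ hu, e]

/-- In the chart `chA μ 0` the fibre through `μ₀ + u` (`u ∈ Q`) is `{a = u²}`. -/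
theorem ff_ptA_zero_eq_iff (μ : HalfLat) {y : Cn 2} (hy : y ∈ DA) {u : ℂ} (hu : u ∈ Q) :
    ff (ptA μ 0 y hy) = wpP ((μ : Cn 2) 0 + u) ↔ y 0 = u ^ 2 := by
  have := XX_ptA_eq_iff 0 μ 0 hy hu
  rwa [vec_self, one_pow, mul_one] at this

/-- In the chart `chA μ 1` the fibre through `μ₀ + u` (`u ∈ Q`) is `{a t² = u²}`. -/
theorem ff_ptA_one_eq_iff (μ : HalfLat) {y : Cn 2} (hy : y ∈ DA) {u : ℂ} (hu : u ∈ Q) :
    ff (ptA μ 1 y hy) = wpP ((μ : Cn 2) 0 + u) ↔ y 0 * y 1 ^ 2 = u ^ 2 := by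
  have := XX_ptA_eq_iff 0 μ 1 hy hu
  have e : vec 1 (y 1) 0 = y 1 := vec_oth 1 (y 1)
  rwa [e] at this

/-- F1: the fibres have empty interior. -/
theorem interior_fibre (b : PN 1) : interior (ff ⁻¹' {b}) = ∅ := by
  by_contra hne
  obtain ⟨x, hx⟩ := nonempty_iff_ne_empty.2 hne
  obtain ⟨μ, κ, y, hy, rfl⟩ := exists_eq_ptA x
  set Nb : Set (Cn 2) := (chA μ κ).target ∩ (chA μ κ).symm ⁻¹' interior (ff ⁻¹' {b}) with hNb
  have hNo : IsOpen Nb := (chA μ κ).isOpen_inter_preimage_symm isOpen_interior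
  have hyN : y ∈ Nb := ⟨hy, by rw [mem_preimage, chA_symm_apply μ κ hy]; exact hx⟩
  have hval : ∀ y' (hy' : y' ∈ Nb), ff (ptA μ κ y' hy'.1) = b := by
    intro y' hy'
    have := interior_subset hy'.2
    rwa [chA_symm_apply μ κ hy'.1] at this
  obtain ⟨y', hy'N, hy'A⟩ := dense_offAxes.inter_open_nonempty Nb hNo ⟨y, hyN⟩
  have hcont : Continuous fun ε : ℂ => y' + mk2 ε 0 := by
    have : (fun ε : ℂ => y' + mk2 ε 0) =
        fun ε : ℂ => y' + ε • EuclideanSpace.single (0 : Fin 2) (1 : ℂ) := by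
      funext ε
      rw [mk2_eq]
      simp
    rw [this]
    fun_prop
  have hev : ∀ᶠ ε in 𝓝 (0 : ℂ), y' + mk2 ε 0 ∈ Nb := by
    refine hcont.continuousAt.eventually_mem (hNo.mem_nhds ?_)
    have : y' + mk2 0 0 = y' := by
      refine ext2 ?_ ?_ <;> simp
    rwa [this]
  have hev' : ∀ᶠ ε in 𝓝[≠] (0 : ℂ), y' + mk2 ε 0 ∈ Nb := hev.filter_mono nhdsWithin_le_nhds
  obtain ⟨ε, hεN, hε0⟩ := (hev'.and self_mem_nhdsWithin).exists
  replace hε0 : ε ≠ 0 := hε0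
  -- both points lie in the same fibre
  obtain ⟨ρ, hρ⟩ := exists_root (y' 0)
  have e : (ρ * vec κ (y' 1) 0) ^ 2 = y' 0 * (vec κ (y' 1) 0) ^ 2 := by rw [mul_pow, hρ]
  have hQ : ρ * vec κ (y' 1) 0 ∈ Q := sq_mem_Q2_iff.1 (e ▸ arg_mem_Q2 κ 0 hy'N.1)
  have h1 : ff (ptA μ κ y' hy'N.1) = wpP ((μ : Cn 2) 0 + ρ * vec κ (y' 1) 0) :=
    XX_ptA 0 μ κ hy'N.1 hρ
  have h2 : ff (ptA μ κ _ hεN.1) = wpP ((μ : Cn 2) 0 + ρ * vec κ (y' 1) 0) := by
    rw [hval _ hεN, ← hval _ hy'N, h1]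
  have h3 := (XX_ptA_eq_iff 0 μ κ hεN.1 hQ).1 h2
  rw [e] at h3
  have hv : vec κ (y' 1) 0 ≠ 0 := by
    rcases eq_or_ne κ 0 with rfl | h
    · rw [vec_self]; exact one_ne_zero
    · rw [eq_oth_of_ne h, vec_oth]; exact hy'A.2
  have e0 : (y' + mk2 ε 0) 0 = y' 0 + ε := by simp
  have e1 : (y' + mk2 ε 0) 1 = y' 1 := by simp
  rw [e0, e1] at h3
  have h4 : ε * (vec κ (y' 1) 0) ^ 2 = 0 := by linear_combination h3
  exact (mul_ne_zero hε0 (pow_ne_zero 2 hv)) h4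

theorem contMDiffAt_regT_comp {γ : ℂ → Cn 2} {w₀ : ℂ} (hγ : AnalyticAt ℂ γ w₀)
    (hz : γ w₀ ∉ HalfLat) : ContMDiffAt 𝓘(ℂ, ℂ) 𝓘(ℂ, Cn 2) ω (fun w => regT (γ w)) w₀ := by
  have h1 : ContMDiffOn 𝓘(ℂ, Cn 2) 𝓘(ℂ, Cn 2) ω (chZ _ hz).symm (chZ _ hz).target :=
    contMDiffOn_symm_of_mem_maximalAtlas (atlas.chart_mem_maximalAtlas (.inr ⟨_, hz⟩))
  have hmem : γ w₀ ∈ (chZ _ hz).target := by
    rw [chZ_target]
    exact Metric.mem_ball_self (rad_pos hz)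
  have h2 : ContMDiffAt 𝓘(ℂ, Cn 2) 𝓘(ℂ, Cn 2) ω (chZ _ hz).symm (γ w₀) :=
    h1.contMDiffAt ((chZ _ hz).open_target.mem_nhds hmem)
  have h3 : ContMDiffAt 𝓘(ℂ, ℂ) 𝓘(ℂ, Cn 2) ω γ w₀ := contMDiffAt_iff_contDiffAt.2 hγ.contDiffAt
  have h4 := h2.comp w₀ h3
  refine h4.congr_of_eventuallyEq ?_
  filter_upwards [hγ.continuousAt.eventually_mem ((chZ _ hz).open_target.mem_nhds hmem)] with w hw
  rw [chZ_target] at hw
  exact (chZ_symm_eq_regT hz hw).symm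

/-- F2: the fibre over `℘(c)`, `c` not a half-period, is a good curve (the elliptic curve `{c} × E`). -/
theorem goodCurve_generic {c : ℂ} (hc : c ∉ HalfLat1) : GoodCurve (ff ⁻¹' {wpP c}) := by
  have hz : ∀ w, mk2 c w ∉ HalfLat := fun w h => hc (mem_HalfLat_iff.1 h 0)
  obtain ⟨μ₀, hμ₀, hu⟩ := exists_HalfLat1_add_Q c
  have hμ : mk2 μ₀ 0 ∈ HalfLat := by
    rw [mem_HalfLat_iff]
    intro j
    fin_cases j
    · exact hμ₀
    · exact HalfLat1.zero_mem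
  set μ : HalfLat := ⟨mk2 μ₀ 0, hμ⟩ with hμdef
  have hμc : (μ : Cn 2) 0 + (c - μ₀) = c := by
    show μ₀ + (c - μ₀) = c
    ring
  obtain ⟨e', he', hsrc⟩ := exists_sliceChart_of_coord_zero (Z := ff ⁻¹' {wpP c})
    (atlas.chart_mem_maximalAtlas (.inl (μ, 0))) ((c - μ₀) ^ 2) (by
      intro x hx
      obtain ⟨hy, e⟩ := eq_ptA_of_mem_chA_source hx
      have := ff_ptA_zero_eq_iff μ hy hu
      rw [hμc, ← e] at this
      exact this)
  have hD : mk2 ((c - μ₀) ^ 2) 0 ∈ DA := by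
    rw [mem_DA_iff]
    refine ⟨sq_mem_Q2_iff.2 hu, ?_⟩
    simpa using zero_mem_Q2
  refine GoodCurve.of_param (isAnalyticSubset_fibre (isHolomorphic_XX 0) _) isOpen_univ
    isPreconnected_univ univ_nonempty (φ := fun w => regT (mk2 c w)) ?_ ?_ ?_ he'
    ⟨ptA μ 0 _ hD, ?_, ?_⟩
  · rw [contMDiffOn_univ]
    intro w₀
    exact contMDiffAt_regT_comp (analyticAt_mk2 analyticAt_const analyticAt_id) (hz w₀)
  · rintro _ ⟨w, -, rfl⟩
    show ff (regT (mk2 c w)) = wpP c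
    rw [regT_eq (hz w)]
    exact XX_reg 0 (hz w)
  · refine Subset.trans ?_ subset_closure
    intro x hx
    replace hx : ff x = wpP c := hx
    rcases reg_or_exc x with ⟨z, hz', rfl⟩ | ⟨μ', κ, t, rfl⟩
    · have h1 : wpP (z 0) = wpP c := by rw [← hx]; exact (XX_reg 0 hz').symm
      rcases wpP_eq_iff.1 h1 with h | h
      · refine ⟨z 1, trivial, ?_⟩
        show regT (mk2 c (z 1)) = _
        rw [regT_eq (hz _), reg_eq_reg]
        apply GEquiv.symm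
        left
        rw [mem_Lat_iff]
        intro j
        fin_cases j
        · simpa using h
        · simp
      · refine ⟨-z 1, trivial, ?_⟩
        show regT (mk2 c (-z 1)) = _
        rw [regT_eq (hz _), reg_eq_reg]
        apply GEquiv.symm
        right
        rw [mem_Lat_iff]
        intro j
        fin_cases j
        · simpa using h
        · simp
    · exfalso
      have h1 : wpP ((μ' : Cn 2) 0) = wpP c := by rw [← hx]; exact (XX_exc 0 μ' κ t).symm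
      apply hc
      rcases wpP_eq_iff.1 h1 with h | h
      · have e : c = (μ' : Cn 2) 0 - ((μ' : Cn 2) 0 - c) := by ring
        rw [e]
        exact HalfLat1.sub_mem (HalfLat.coord_mem μ' 0) (Lat1_le_HalfLat1 h)
      · have e : c = ((μ' : Cn 2) 0 + c) - (μ' : Cn 2) 0 := by ring
        rw [e]
        exact HalfLat1.sub_mem (Lat1_le_HalfLat1 h) (HalfLat.coord_mem μ' 0)
  · show ff (ptA μ 0 _ hD) = wpP c
    have := (ff_ptA_zero_eq_iff μ hD hu).2 (by simp)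
    rwa [hμc] at this
  · rw [hsrc]
    exact ptA_mem_chA_source μ 0 hD

end Kummer
end Claimed.Open.R041
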