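/-
Result 041, sanity (stage 2, package F-b): the sixteen exceptional curves.
-/
import Claimed.Open.R041.K3FibreGeneric

open scoped Manifold ContDiff Topology
open Set

namespace Claimed.Open.R041
namespace Kummer

theorem excCurve_congr {μ μ' : HalfLat} (h : (μ : Cn 2) - μ' ∈ Lat) : excCurve μ = excCurve μ' := by
  have e : ∀ j, wpP ((μ : Cn 2) j) = wpP ((μ' : Cn 2) j) := fun j =>
    wpP_eq_iff.2 (Or.inl (mem_Lat_iff.1 h j))
  unfold excCurve
  simp only [e]

/-- If `℘(z) = ℘(ν)` with `ν` a half-period, then `z ≡ ν`. -/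
theorem sub_mem_Lat1_of_wpP_eq {z ν : ℂ} (hν : ν ∈ HalfLat1) (h : wpP z = wpP ν) : z - ν ∈ Lat1 := by
  rcases wpP_eq_iff.1 h with h | h
  · exact h
  · have e : z - ν = (z + ν) - (ν + ν) := by ring
    rw [e]
    exact Lat1.sub_mem h hν

/-- The points of the exceptional curve. -/
theorem mem_excCurve_iff (μ : HalfLat) (x : Kum) : x ∈ excCurve μ ↔ ∃ κ t, x = exc μ κ t := by
  constructor
  · intro hx
    rcases reg_or_exc x with ⟨z, hz, rfl⟩ | ⟨μ', κ, t, rfl⟩
    · exfalso
      apply hz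
      rw [mem_HalfLat_iff]
      intro j
      have h1 : wpP (z j) = wpP ((μ : Cn 2) j) := by rw [← hx j]; exact (XX_reg j hz).symm
      have h2 := sub_mem_Lat1_of_wpP_eq (HalfLat.coord_mem μ j) h1
      have e : z j = (z j - (μ : Cn 2) j) + (μ : Cn 2) j := by ring
      rw [e]
      exact HalfLat1.add_mem (Lat1_le_HalfLat1 h2) (HalfLat.coord_mem μ j)
    · refine ⟨κ, t, ?_⟩
      refine ptA_congr_Lat ?_ κ _
      rw [mem_Lat_iff]
      intro j
      have h1 : wpP ((μ' : Cn 2) j) = wpP ((μ : Cn 2) j) := by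
        rw [← hx j]; exact (XX_exc j μ' κ t).symm
      exact sub_mem_Lat1_of_wpP_eq (HalfLat.coord_mem μ j) h1
  · rintro ⟨κ, t, rfl⟩ j
    exact XX_exc j μ κ t

theorem exc_one_eq_exc_zero (μ : HalfLat) {t : ℂ} (ht : t ≠ 0) : exc μ 1 t = exc μ 0 t⁻¹ := by
  rw [exc_eq_exc]
  refine ⟨by simp, t⁻¹, inv_ne_zero ht, ?_⟩
  have h := smul_vec_oth_inv 1 ht
  have e : oth 1 = 0 := rfl
  rw [e] at h
  rw [← h, smul_smul, inv_mul_cancel₀ ht, one_smul]

theorem ptA_mem_excCurve_iff (μ : HalfLat) (κ : Fin 2) {y : Cn 2} (hy : y ∈ DA) :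
    ptA μ κ y hy ∈ excCurve μ ↔ y 0 = 0 := by
  have h : ∀ j, XX j (ptA μ κ y hy) = wpP ((μ : Cn 2) j) ↔ y 0 * (vec κ (y 1) j) ^ 2 = 0 := by
    intro j
    have := XX_ptA_eq_iff j μ κ hy zero_mem_Q
    simpa using this
  constructor
  · intro hx
    have := (h κ).1 (hx κ)
    simpa using this
  · intro h0 j
    rw [h j, h0, zero_mul]

theorem continuous_mk2_zero : Continuous fun t : ℂ => mk2 0 t := by
  have : (fun t : ℂ => mk2 0 t) = fun t : ℂ => t • EuclideanSpace.single (1 : Fin 2) (1 : ℂ) := by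
    funext t
    rw [mk2_eq]
    simp
  rw [this]
  fun_prop

/-- F3: the exceptional curves are good curves. -/
theorem goodCurve_excCurve (μ : HalfLat) : GoodCurve (excCurve μ) := by
  have hC : IsAnalyticSubset 2 (excCurve μ) := by
    have e : excCurve μ = XX 0 ⁻¹' {wpP ((μ : Cn 2) 0)} ∩ XX 1 ⁻¹' {wpP ((μ : Cn 2) 1)} := by
      ext x
      constructor
      · intro h
        exact ⟨h 0, h 1⟩
      · rintro ⟨h0, h1⟩ j
        fin_cases j
        · exact h0
        · exact h1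
    rw [e]
    exact (isAnalyticSubset_fibre (isHolomorphic_XX 0) _).inter
      (isAnalyticSubset_fibre (isHolomorphic_XX 1) _)
  have hφe : ∀ κ t, (chA μ κ).symm (mk2 0 t) = exc μ κ t := fun κ t =>
    chA_symm_apply μ κ (mk2_zero_mem_DA t)
  obtain ⟨e', he', hsrc⟩ := exists_sliceChart_of_coord_zero (Z := excCurve μ)
    (atlas.chart_mem_maximalAtlas (.inl (μ, 0))) 0 (by
      intro x hx
      obtain ⟨hy, e⟩ := eq_ptA_of_mem_chA_source hx
      have := ptA_mem_excCurve_iff μ 0 hy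
      rwa [← e] at this)
  refine GoodCurve.of_param hC isOpen_univ isPreconnected_univ univ_nonempty
    (φ := fun t => (chA μ 0).symm (mk2 0 t)) ?_ ?_ ?_ he' ⟨exc μ 0 0, ?_, ?_⟩
  · exact contMDiffOn_chA_symm_comp μ 0
      (fun t _ => analyticAt_mk2 analyticAt_const analyticAt_id) (fun t _ => mk2_zero_mem_DA t)
  · rintro _ ⟨t, -, rfl⟩
    rw [mem_excCurve_iff]
    exact ⟨0, t, hφe 0 t⟩
  · intro x hx
    obtain ⟨κ, t, rfl⟩ := (mem_excCurve_iff μ x).1 hx
    have him : ∀ t, exc μ 0 t ∈ (fun t => (chA μ 0).symm (mk2 0 t)) '' univ := fun t =>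
      ⟨t, trivial, hφe 0 t⟩
    fin_cases κ
    · exact subset_closure (him t)
    · by_cases ht : t = 0
      · subst ht
        have hc : ContinuousAt (fun t : ℂ => (chA μ 1).symm (mk2 0 t)) 0 :=
          ContinuousAt.comp (f := fun t : ℂ => mk2 0 t)
            ((chA μ 1).continuousAt_symm (mk2_zero_mem_DA 0)) continuous_mk2_zero.continuousAt
        have ht : Filter.Tendsto (fun t : ℂ => (chA μ 1).symm (mk2 0 t)) (𝓝[≠] 0) (𝓝 (exc μ 1 0)) := by
          have := hc.tendsto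
          rw [hφe 1 0] at this
          exact this.mono_left nhdsWithin_le_nhds
        refine mem_closure_of_tendsto ht ?_
        filter_upwards [self_mem_nhdsWithin] with t ht
        rw [hφe 1 t, exc_one_eq_exc_zero μ ht]
        exact him _
      · refine subset_closure ?_
        show exc μ 1 t ∈ _
        rw [exc_one_eq_exc_zero μ ht]
        exact him _
  · exact (mem_excCurve_iff μ _).2 ⟨0, 0, rfl⟩
  · rw [hsrc]
    exact ptA_mem_chA_source μ 0 (mk2_zero_mem_DA 0)

end Kummer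
end Claimed.Open.R041
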