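/-
Result 041, sanity (stage 2, package F-c): the strict transforms of the curves `{z₀ = μ₀}`, and the decomposition of the four singular fibres.
-/
import Claimed.Open.R041.K3FibreExc
import Claimed.Open.R041.K3EmbedInj

open scoped Manifold ContDiff Topology
open Set

namespace Claimed.Open.R041
namespace Kummer

theorem mk_eq_ptR_false {v : Fin (1 + 1) → ℂ} (hv : v ≠ 0) :
    Projectivization.mk ℂ v hv = ptR false ↔ v 0 = 0 := by
  unfold ptR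
  simp only [Bool.false_eq_true, if_false]
  rw [mk_eq_mk_iff_minors]
  constructor
  · intro h
    simpa using h 0 1
  · intro h i j
    fin_cases i <;> fin_cases j <;> simp [h]

theorem mk_eq_ptR_true {v : Fin (1 + 1) → ℂ} (hv : v ≠ 0) :
    Projectivization.mk ℂ v hv = ptR true ↔ v 1 = 0 := by
  unfold ptR
  simp only [if_true]
  rw [mk_eq_mk_iff_minors]
  constructor
  · intro h
    simpa using h 0 1
  · intro h i j
    fin_cases i <;> fin_cases j <;> simp [h]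

/-- If `m₀ = 0` then both `RR s` take the value `ptR (rPole μ₀)`; conversely for the `s` of `exists_theta`. -/
theorem RR_ptA_eq_ptR_iff (μ : HalfLat) (κ : Fin 2) {y : Cn 2} (hy : y ∈ DA) :
    (∀ s, RR s (ptA μ κ y hy) = ptR (rPole ((μ : Cn 2) 0))) ↔ vec κ (y 1) 0 = 0 := by
  rw [← mm_eq_zero_iff μ κ hy 0]
  simp only [RR_ptA]
  cases h0 : rPole ((μ : Cn 2) 0) <;> cases h1 : rPole ((μ : Cn 2) 1)
  all_goals
    simp only [mk_eq_ptR_false, mk_eq_ptR_true, Bool.forall_bool, liftR, h0, h1, Bool.xor_false,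
      Bool.xor_true, Bool.not_false, Bool.not_true, Matrix.cons_val_zero, Matrix.cons_val_one]
  all_goals
    constructor
    · rintro ⟨h, h'⟩
      first
        | exact h
        | exact h'
    · intro h
      simp [h]

/-- Normal form of the points of the fibre over `℘(μ₀)`. -/
theorem fibre_normal_form (μ : HalfLat) {x : Kum} (hx : XX 0 x = wpP ((μ : Cn 2) 0)) :
    ∃ (μ' : HalfLat) (κ : Fin 2) (y : Cn 2) (hy : y ∈ DA), (μ' : Cn 2) 0 = (μ : Cn 2) 0 ∧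
      x = ptA μ' κ y hy ∧ (y 0 = 0 ∨ vec κ (y 1) 0 = 0) := by
  obtain ⟨μ'', κ, y, hy, rfl⟩ := exists_eq_ptA x
  obtain ⟨ρ, hρ⟩ := exists_root (y 0)
  have e : (ρ * vec κ (y 1) 0) ^ 2 = y 0 * (vec κ (y 1) 0) ^ 2 := by rw [mul_pow, hρ]
  have hQ : ρ * vec κ (y 1) 0 ∈ Q := sq_mem_Q2_iff.1 (e ▸ arg_mem_Q2 κ 0 hy)
  rw [XX_ptA 0 μ'' κ hy hρ] at hx
  have h1 := sub_mem_Lat1_of_wpP_eq (HalfLat.coord_mem μ 0) hx
  have h2 : ρ * vec κ (y 1) 0 ∈ HalfLat1 := by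
    have e2 : ρ * vec κ (y 1) 0 =
        ((μ'' : Cn 2) 0 + ρ * vec κ (y 1) 0 - (μ : Cn 2) 0) + ((μ : Cn 2) 0 - (μ'' : Cn 2) 0) := by ring
    rw [e2]
    exact HalfLat1.add_mem (Lat1_le_HalfLat1 h1)
      (HalfLat1.sub_mem (HalfLat.coord_mem μ 0) (HalfLat.coord_mem μ'' 0))
  have h3 : ρ * vec κ (y 1) 0 = 0 := eq_zero_of_mem_Q_of_mem_HalfLat1 hQ h2
  rw [h3, add_zero] at h1
  have hμ' : mk2 ((μ : Cn 2) 0) ((μ'' : Cn 2) 1) ∈ HalfLat := by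
    rw [mem_HalfLat_iff]
    intro j
    fin_cases j
    · exact HalfLat.coord_mem μ 0
    · exact HalfLat.coord_mem μ'' 1
  refine ⟨⟨_, hμ'⟩, κ, y, hy, rfl, ptA_congr_Lat ?_ κ hy, ?_⟩
  · rw [mem_Lat_iff]
    intro j
    fin_cases j
    · simpa using h1
    · simp
  · rcases mul_eq_zero.1 h3 with h | h
    · left
      rw [← hρ, h]
      simp
    · exact Or.inr h

theorem vec_zero_eq_zero_iff (κ : Fin 2) (t : ℂ) : vec κ t 0 = 0 ↔ κ = 1 ∧ t = 0 := by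
  fin_cases κ
  · simp
  · have : vec 1 t 0 = t := vec_oth 1 t
    simp [this]

/-- The points of the strict transform: `ptA μ' 1 (a, 0)`, `μ'₀ = μ₀`. -/
theorem mem_strictCurve_iff (μ : HalfLat) (x : Kum) : x ∈ strictCurve μ ↔
    ∃ (μ' : HalfLat) (y : Cn 2) (hy : y ∈ DA), (μ' : Cn 2) 0 = (μ : Cn 2) 0 ∧ y 1 = 0 ∧
      x = ptA μ' 1 y hy := by
  constructor
  · rintro ⟨hx, hR⟩
    obtain ⟨μ', κ, y, hy, hμ', rfl, -⟩ := fibre_normal_form μ hx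
    rw [← hμ'] at hR
    obtain ⟨rfl, ht⟩ := (vec_zero_eq_zero_iff κ _).1 ((RR_ptA_eq_ptR_iff μ' κ hy).1 hR)
    exact ⟨μ', y, hy, hμ', ht, rfl⟩
  · rintro ⟨μ', y, hy, hμ', ht, rfl⟩
    have hv : vec 1 (y 1) 0 = 0 := (vec_zero_eq_zero_iff 1 _).2 ⟨rfl, ht⟩
    refine ⟨?_, ?_⟩
    · have := (XX_ptA_eq_iff 0 μ' 1 hy zero_mem_Q).2 (by rw [hv]; simp)
      rwa [add_zero, hμ'] at this
    · rw [← hμ']
      exact (RR_ptA_eq_ptR_iff μ' 1 hy).2 hv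

theorem ptA_one_mem_strictCurve_iff (μ : HalfLat) {y : Cn 2} (hy : y ∈ DA) :
    ptA μ 1 y hy ∈ strictCurve μ ↔ y 1 = 0 := by
  constructor
  · rintro ⟨-, hR⟩
    exact ((vec_zero_eq_zero_iff 1 _).1 ((RR_ptA_eq_ptR_iff μ 1 hy).1 hR)).2
  · intro ht
    exact (mem_strictCurve_iff μ _).2 ⟨μ, y, hy, rfl, ht, rfl⟩

/-! ### The parametrisation of the strict transform -/

theorem mk2_mem_HalfLat {c ν : ℂ} (hc : c ∈ HalfLat1) (hν : ν ∈ HalfLat1) : mk2 c ν ∈ HalfLat := by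
  rw [mem_HalfLat_iff]
  intro j
  fin_cases j
  · exact hc
  · exact hν

theorem mk2_sq_zero_mem_DA {u : ℂ} (hu : u ∈ Q) : mk2 (u ^ 2) 0 ∈ DA := by
  rw [mem_DA_iff]
  refine ⟨sq_mem_Q2_iff.2 hu, ?_⟩
  simpa using zero_mem_Q2

/-- The point of the strict transform of `{z₀ = c}` over `(c, w)`, seen from the half-period `ν`. -/
theorem strict_indep {c ν ν' w : ℂ} (hc : c ∈ HalfLat1) (hν : ν ∈ HalfLat1) (hν' : ν' ∈ HalfLat1)
    (hw : w - ν ∈ Q) (hw' : w - ν' ∈ Q) :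
    ptA ⟨mk2 c ν, mk2_mem_HalfLat hc hν⟩ 1 (mk2 ((w - ν) ^ 2) 0) (mk2_sq_zero_mem_DA hw) =
      ptA ⟨mk2 c ν', mk2_mem_HalfLat hc hν'⟩ 1 (mk2 ((w - ν') ^ 2) 0) (mk2_sq_zero_mem_DA hw') := by
  by_cases h : ν = ν'
  · subst h
    rfl
  have h0 : w - ν ≠ 0 := by
    intro h0
    apply h
    have e : w - ν' = ν - ν' := by rw [sub_eq_zero.1 h0]
    rw [e] at hw'
    exact sub_eq_zero.1 (eq_zero_of_mem_Q_of_mem_HalfLat1 hw' (HalfLat1.sub_mem hν hν'))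
  have h0' : w - ν' ≠ 0 := by
    intro h0
    apply h
    have e : w - ν = ν' - ν := by rw [sub_eq_zero.1 h0]
    rw [e] at hw
    exact (sub_eq_zero.1 (eq_zero_of_mem_Q_of_mem_HalfLat1 hw (HalfLat1.sub_mem hν' hν))).symm
  rw [ptA_eq_reg _ 1 (mk2_sq_zero_mem_DA hw) h0 (by simp),
    ptA_eq_reg _ 1 (mk2_sq_zero_mem_DA hw') h0' (by simp), reg_eq_reg]
  left
  have e1 : vec 1 (0 : ℂ) 0 = 0 := vec_oth 1 0
  rw [mem_Lat_iff]
  intro j
  fin_cases j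
  · simp [e1]
  · simp

/-- F4: the strict transforms are good curves. -/
theorem goodCurve_strictCurve (μ : HalfLat) : GoodCurve (strictCurve μ) := by
  have hc : (μ : Cn 2) 0 ∈ HalfLat1 := HalfLat.coord_mem μ 0
  set c : ℂ := (μ : Cn 2) 0 with hcdef
  have hC : IsAnalyticSubset 2 (strictCurve μ) := by
    have e : strictCurve μ = XX 0 ⁻¹' {wpP c} ∩
        (RR false ⁻¹' {ptR (rPole c)} ∩ RR true ⁻¹' {ptR (rPole c)}) := by
      ext x
      constructor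
      · rintro ⟨h, h'⟩
        exact ⟨h, h' false, h' true⟩
      · rintro ⟨h, h1, h2⟩
        refine ⟨h, fun s => ?_⟩
        cases s
        · exact h1
        · exact h2
    rw [e]
    exact (isAnalyticSubset_fibre (isHolomorphic_XX 0) _).inter
      ((isAnalyticSubset_fibre (isHolomorphic_RR false) _).inter
        (isAnalyticSubset_fibre (isHolomorphic_RR true) _))
  choose ν hν hνQ using exists_HalfLat1_add_Q
  set φ : ℂ → Kum := fun w => ptA ⟨mk2 c (ν w), mk2_mem_HalfLat hc (hν w)⟩ 1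
    (mk2 ((w - ν w) ^ 2) 0) (mk2_sq_zero_mem_DA (hνQ w)) with hφ
  have hφeq : ∀ (ν₀ : ℂ) (hν₀ : ν₀ ∈ HalfLat1) (w : ℂ) (hw : w - ν₀ ∈ Q),
      φ w = ptA ⟨mk2 c ν₀, mk2_mem_HalfLat hc hν₀⟩ 1 (mk2 ((w - ν₀) ^ 2) 0)
        (mk2_sq_zero_mem_DA hw) := fun ν₀ hν₀ w hw => strict_indep hc (hν w) hν₀ (hνQ w) hw
  refine GoodCurve.of_param hC isOpen_univ isPreconnected_univ univ_nonempty (φ := φ) ?_ ?_ ?_
    (isSliceChart_of_coord_one (Z := strictCurve μ) (atlas.chart_mem_maximalAtlas (.inl (μ, 1))) ?_)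
    ⟨exc μ 1 0, ?_, ?_⟩
  · rw [contMDiffOn_univ]
    intro w₀
    set W₀ : Set ℂ := {w | w - ν w₀ ∈ Q} with hW₀
    have hW₀o : IsOpen W₀ := isOpen_Q.preimage (by fun_prop)
    have h1 := contMDiffOn_chA_symm_comp ⟨mk2 c (ν w₀), mk2_mem_HalfLat hc (hν w₀)⟩ 1
      (γ := fun w => mk2 ((w - ν w₀) ^ 2) 0) (W := W₀)
      (fun w _ => analyticAt_mk2 ((analyticAt_id.sub analyticAt_const).pow 2) analyticAt_const)
      (fun w hw => mk2_sq_zero_mem_DA hw)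
    have h2 := h1.contMDiffAt (hW₀o.mem_nhds (hνQ w₀))
    refine h2.congr_of_eventuallyEq ?_
    filter_upwards [hW₀o.mem_nhds (hνQ w₀)] with w hw
    rw [hφeq _ (hν w₀) w hw]
    exact (chA_symm_apply _ 1 (mk2_sq_zero_mem_DA hw)).symm
  · rintro _ ⟨w, -, rfl⟩
    exact (mem_strictCurve_iff μ _).2 ⟨⟨mk2 c (ν w), mk2_mem_HalfLat hc (hν w)⟩,
      mk2 ((w - ν w) ^ 2) 0, mk2_sq_zero_mem_DA (hνQ w), rfl, by simp, rfl⟩
  · refine Subset.trans ?_ subset_closure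
    intro x hx
    obtain ⟨μ', y, hy, hμ', ht, rfl⟩ := (mem_strictCurve_iff μ x).1 hx
    obtain ⟨ρ, hρ⟩ := exists_root (y 0)
    have hρQ : ρ ∈ Q := sq_mem_Q2_iff.1 (hρ ▸ hy.1)
    have hw : ((μ' : Cn 2) 1 + ρ) - (μ' : Cn 2) 1 ∈ Q := by simpa using hρQ
    refine ⟨(μ' : Cn 2) 1 + ρ, trivial, ?_⟩
    rw [hφeq _ (HalfLat.coord_mem μ' 1) _ hw]
    have e1 : (⟨mk2 c ((μ' : Cn 2) 1), mk2_mem_HalfLat hc (HalfLat.coord_mem μ' 1)⟩ : HalfLat) = μ' := by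
      apply Subtype.ext
      exact ext2 (by simp [hcdef, hμ']) (by simp)
    have e2 : mk2 ((((μ' : Cn 2) 1 + ρ) - (μ' : Cn 2) 1) ^ 2) 0 = y :=
      ext2 (by simp [hρ]) (by simp [ht])
    calc ptA ⟨mk2 c ((μ' : Cn 2) 1), mk2_mem_HalfLat hc (HalfLat.coord_mem μ' 1)⟩ 1 _
          (mk2_sq_zero_mem_DA hw) = ptA μ' 1 _ (mk2_sq_zero_mem_DA hw) := by rw [e1]
      _ = ptA μ' 1 y hy := ptA_congr μ' 1 e2 _ _
  · intro x hx
    obtain ⟨hy, e⟩ := eq_ptA_of_mem_chA_source hx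
    have := ptA_one_mem_strictCurve_iff μ hy
    rwa [← e] at this
  · exact (mem_strictCurve_iff μ _).2 ⟨μ, _, mk2_zero_mem_DA 0, rfl, by simp, rfl⟩
  · exact ptA_mem_chA_source μ 1 (mk2_zero_mem_DA 0)

/-- F5: the fibre over `℘(μ₀)` is the union of the strict transform and the exceptional curves. -/
theorem special_fibre (μ : HalfLat) :
    ff ⁻¹' {wpP ((μ : Cn 2) 0)} =
      strictCurve μ ∪ ⋃ (μ' : HalfLat) (_ : (μ' : Cn 2) 0 = (μ : Cn 2) 0), excCurve μ' := by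
  ext x
  simp only [mem_preimage, mem_singleton_iff, mem_union, mem_iUnion, exists_prop]
  constructor
  · intro hx
    obtain ⟨μ', κ, y, hy, hμ', rfl, h | h⟩ := fibre_normal_form μ hx
    · exact Or.inr ⟨μ', hμ', (ptA_mem_excCurve_iff μ' κ hy).2 h⟩
    · left
      refine ⟨hx, ?_⟩
      rw [← hμ']
      exact (RR_ptA_eq_ptR_iff μ' κ hy).2 h
  · rintro (h | ⟨μ', hμ', h⟩)
    · exact h.1
    · rw [← hμ']
      exact h 0

theorem excCurve_inter_strictCurve {μ μ' : HalfLat} (h : (μ' : Cn 2) 0 = (μ : Cn 2) 0) :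
    (excCurve μ' ∩ strictCurve μ).Nonempty :=
  ⟨exc μ' 1 0, (mem_excCurve_iff μ' _).2 ⟨1, 0, rfl⟩,
    (mem_strictCurve_iff μ _).2 ⟨μ', _, mk2_zero_mem_DA 0, h, by simp, rfl⟩⟩

end Kummer
end Claimed.Open.R041
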