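/-
Result 041, sanity (Kummer K3 example, stage 2): the fibres of the elliptic fibration
`ff = ℘(z₀) : Kum → ℙ¹` are connected, and all their irreducible components are Lagrangian curves.
Smooth fibres (elliptic curves) and four fibres of type `I₀^*`.
-/
import Claimed.Open.R041.K3FibreGeneric
import Claimed.Open.R041.K3FibreExc
import Claimed.Open.R041.K3FibreStrict
import Claimed.Open.R041.K3Sigma

open scoped Manifold ContDiff Topology
open Set

namespace Claimed.Open.R041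
namespace Kummer

/-- The structure of the fibres. -/
theorem fibre_structure (b : PN 1) : ∃ 𝒞 : Set (Set Kum), 𝒞.Finite ∧ ff ⁻¹' {b} = ⋃₀ 𝒞 ∧
    (∀ C ∈ 𝒞, GoodCurve C) ∧ ∃ C₀ ∈ 𝒞, ∀ C ∈ 𝒞, (C ∩ C₀).Nonempty := by
  obtain ⟨c, rfl⟩ := wpP_surjective b
  by_cases hc : c ∈ HalfLat1
  · have hμ : mk2 c 0 ∈ HalfLat := by
      rw [mem_HalfLat_iff]
      intro j
      fin_cases j
      · exact hc
      · exact HalfLat1.zero_mem
    set μ : HalfLat := ⟨mk2 c 0, hμ⟩ with hμdef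
    have hμ0 : (μ : Cn 2) 0 = c := rfl
    refine ⟨{strictCurve μ} ∪ {C | ∃ μ' : HalfLat, (μ' : Cn 2) 0 = (μ : Cn 2) 0 ∧ C = excCurve μ'},
      ?_, ?_, ?_, strictCurve μ, Or.inl rfl, ?_⟩
    · refine (finite_singleton _).union ?_
      refine (finite_range fun p : Fin 4 → Bool => excCurve (rep p)).subset ?_
      rintro C ⟨μ', -, rfl⟩
      obtain ⟨p, hp⟩ := exists_rep μ'
      exact ⟨p, (excCurve_congr hp).symm⟩
    · rw [← hμ0, special_fibre μ]
      ext x
      simp only [mem_union, mem_iUnion, exists_prop, mem_sUnion, mem_singleton_iff, mem_ofPred_eq]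
      constructor
      · rintro (h | ⟨μ', h1, h2⟩)
        · exact ⟨_, Or.inl rfl, h⟩
        · exact ⟨_, Or.inr ⟨μ', h1, rfl⟩, h2⟩
      · rintro ⟨C, (rfl | ⟨μ', h1, rfl⟩), h⟩
        · exact Or.inl h
        · exact Or.inr ⟨μ', h1, h⟩
    · rintro C (rfl | ⟨μ', -, rfl⟩)
      · exact goodCurve_strictCurve μ
      · exact goodCurve_excCurve μ'
    · rintro C (rfl | ⟨μ', h1, rfl⟩)
      · rw [inter_self]
        exact (goodCurve_strictCurve μ).1.2.1
      · exact excCurve_inter_strictCurve h1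
  · refine ⟨{ff ⁻¹' {wpP c}}, finite_singleton _, by simp, ?_, _, rfl, ?_⟩
    · rintro C rfl
      exact goodCurve_generic hc
    · rintro C rfl
      rw [inter_self]
      exact (goodCurve_generic hc).1.2.1

/-- **The fibres are connected.** -/
theorem isConnected_fibre (b : PN 1) : IsConnected (ff ⁻¹' {b}) := by
  obtain ⟨𝒞, -, h1, h2, C₀, hC₀, h3⟩ := fibre_structure b
  obtain ⟨x₀, hx₀⟩ := (h2 C₀ hC₀).1.2.1
  have e : ff ⁻¹' {b} = ⋃₀ ((fun C => C ∪ C₀) '' 𝒞) := by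
    rw [h1]
    ext x
    simp only [mem_sUnion, mem_image, exists_exists_and_eq_and, mem_union]
    constructor
    · rintro ⟨C, hC, hx⟩
      exact ⟨C, hC, Or.inl hx⟩
    · rintro ⟨C, hC, hx | hx⟩
      · exact ⟨C, hC, hx⟩
      · exact ⟨C₀, hC₀, hx⟩
  refine ⟨⟨x₀, by rw [h1]; exact ⟨C₀, hC₀, hx₀⟩⟩, ?_⟩
  rw [e]
  refine isPreconnected_sUnion x₀ _ ?_ ?_
  · rintro _ ⟨C, -, rfl⟩
    exact Or.inr hx₀
  · rintro _ ⟨C, hC, rfl⟩
    exact (h2 C hC).2.1.union' (h3 C hC) (h2 C₀ hC₀).2.1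

/-- **All fibre components are Lagrangian curves.** -/
theorem hasLagrangianFibres_ff : HasLagrangianFibres (d := 2) sigma ff 1 := by
  intro b Z hZ
  obtain ⟨𝒞, hfin, h1, h2, -⟩ := fibre_structure b
  have hZ𝒞 : Z ∈ 𝒞 := hZ.mem_of_finite_cover hfin (fun C hC => (h2 C hC).1) h1
  have hint : interior Z = ∅ := by
    apply subset_empty_iff.1
    rw [← interior_fibre b]
    exact interior_mono hZ.2.1
  obtain ⟨e, he, hne⟩ := (h2 Z hZ𝒞).2.2
  exact ⟨hasDimension_one_of_sliceChart he hne hint,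
    vanishesOnSmoothLocus_of_interior_eq_empty sigma hint⟩

end Kummer
end Claimed.Open.R041
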