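/-
Result 041, sanity: the local potentials of the Kähler form of the Kummer surface (computations on `ℂ²`).
Part of the checked example (a Kummer K3 surface) for the hypotheses of `StrongSYZ`.
-/
import Claimed.Open.R041.K3Levi
import Claimed.Open.R041.K3KummerPoints
import Claimed.Open.R041.SanityBasic

open scoped Manifold ContDiff Topology InnerProductSpace
open Set

namespace Claimed.Open.R041

namespace Kummer

/-- `u(a,t) = |a|² (1+|t|²)² = |z - μ|⁴`. -/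
noncomputable def uu (y : Cn 2) : ℝ := ‖y 0‖ ^ 2 * (1 + ‖y 1‖ ^ 2) ^ 2

/-- The local potential of the Kähler form near an exceptional curve. -/
noncomputable def Psi (ε : ℝ) (G : ℝ → ℝ) (y : Cn 2) : ℝ :=
  ε * Real.log (1 + ‖y 1‖ ^ 2) + G (uu y)

/-- `(1, t)`. -/
noncomputable def H1 (y : Cn 2) : Cn 2 := mk2 1 (y 1)

/-- `a (1, √2 t, t²)`. -/
noncomputable def H2 (y : Cn 2) : Cn 3 := !₂[y 0, y 0 * (Real.sqrt 2 * y 1), y 0 * y 1 ^ 2]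

theorem norm_H1_sq (y : Cn 2) : ‖H1 y‖ ^ 2 = 1 + ‖y 1‖ ^ 2 := by
  rw [EuclideanSpace.norm_sq_eq, Fin.sum_univ_two]
  simp [H1]

theorem norm_H2_sq (y : Cn 2) : ‖H2 y‖ ^ 2 = uu y := by
  rw [EuclideanSpace.norm_sq_eq, Fin.sum_univ_three]
  simp only [H2, uu, Matrix.cons_val_zero, Matrix.cons_val_one, Matrix.cons_val]
  simp only [norm_mul, norm_pow, Complex.norm_real, Real.norm_eq_abs, mul_pow, sq_abs]
  rw [Real.sq_sqrt (by norm_num)]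
  ring

theorem contDiff_coord (j : Fin 2) : ContDiff ℂ ∞ fun y : Cn 2 => y j :=
  (EuclideanSpace.proj (𝕜 := ℂ) j).contDiff

theorem contDiff_H1 : ContDiff ℂ ∞ H1 := by
  rw [contDiff_euclidean]
  intro i
  fin_cases i
  · exact contDiff_const
  · exact contDiff_coord 1

theorem contDiff_H2 : ContDiff ℂ ∞ H2 := by
  rw [contDiff_euclidean]
  intro i
  fin_cases i
  · exact contDiff_coord 0
  · exact (contDiff_coord 0).mul (contDiff_const.mul (contDiff_coord 1))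
  · exact (contDiff_coord 0).mul ((contDiff_coord 1).pow 2)

theorem Psi_eq (ε : ℝ) (G : ℝ → ℝ) :
    Psi ε G = fun y => ε * Real.log (‖H1 y‖ ^ 2) + G (‖H2 y‖ ^ 2) := by
  funext y
  rw [norm_H1_sq, norm_H2_sq]
  rfl

theorem contDiffOn_logH1 : ContDiffOn ℝ ∞ (fun y => Real.log (‖H1 y‖ ^ 2)) univ :=
  contDiffOn_comp_normSq (I := Ioi 0) contDiff_H1.contDiffOn
    (fun x hx => (Real.contDiffAt_log.2 (ne_of_gt hx)).contDiffWithinAt)
    (fun y _ => by rw [norm_H1_sq]; exact mem_Ioi.2 (by positivity))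

theorem contDiffOn_GH2 {G : ℝ → ℝ} (hG : ContDiff ℝ ∞ G) :
    ContDiffOn ℝ ∞ (fun y => G (‖H2 y‖ ^ 2)) univ :=
  contDiffOn_comp_normSq (I := univ) contDiff_H2.contDiffOn hG.contDiffOn (fun _ _ => mem_univ _)

theorem contDiff_Psi (ε : ℝ) {G : ℝ → ℝ} (hG : ContDiff ℝ ∞ G) : ContDiff ℝ ∞ (Psi ε G) := by
  rw [Psi_eq, ← contDiffOn_univ]
  exact (contDiffOn_const.mul contDiffOn_logH1).add (contDiffOn_GH2 hG)

theorem ddbar_Psi (ε : ℝ) {G : ℝ → ℝ} (hG : ContDiff ℝ ∞ G) (y : Cn 2) :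
    ddbar (d := 2) (Psi ε G) y = ε • ddbar (d := 2) (fun y => Real.log (‖H1 y‖ ^ 2)) y +
      ddbar (d := 2) (fun y => G (‖H2 y‖ ^ 2)) y := by
  rw [Psi_eq, ddbar_add isOpen_univ (contDiffOn_const.mul contDiffOn_logH1) (contDiffOn_GH2 hG)
    (mem_univ y), ddbar_const_smul]

theorem fderiv_H1 (y w : Cn 2) : fderiv ℂ H1 y w = mk2 0 (w 1) := by
  have h : HasFDerivAt H1 ((EuclideanSpace.proj (𝕜 := ℂ) (1 : Fin 2)).smulRight
      (EuclideanSpace.single (1 : Fin 2) (1 : ℂ))) y := by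
    have e : H1 = fun y : Cn 2 => EuclideanSpace.single (0 : Fin 2) (1 : ℂ) +
        ((EuclideanSpace.proj (𝕜 := ℂ) (1 : Fin 2)).smulRight
          (EuclideanSpace.single (1 : Fin 2) (1 : ℂ))) y := by
      funext y
      apply ext2 <;> simp [H1]
    rw [e]
    exact (ContinuousLinearMap.hasFDerivAt _).const_add _
  rw [h.fderiv]
  apply ext2 <;> simp

theorem ddbar_logH1_apply (y w : Cn 2) :
    ddbar (d := 2) (fun y => Real.log (‖H1 y‖ ^ 2)) y ![w, Complex.I • w] =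
      2 * ‖w 1‖ ^ 2 / (1 + ‖y 1‖ ^ 2) ^ 2 := by
  rw [ddbar_comp_normSq (I := Ioi 0) isOpen_univ contDiff_H1.contDiffOn isOpen_Ioi
    (fun x hx => (Real.contDiffAt_log.2 (ne_of_gt hx)).contDiffWithinAt)
    (fun y _ => by rw [norm_H1_sq]; exact mem_Ioi.2 (by positivity)) (mem_univ y)]
  rw [fderiv_H1, norm_H1_sq, Real.deriv_log']
  have hn : (0 : ℝ) < 1 + ‖y 1‖ ^ 2 := by positivity
  have e1 : ‖mk2 0 (w 1)‖ ^ 2 = ‖w 1‖ ^ 2 := by
    rw [EuclideanSpace.norm_sq_eq, Fin.sum_univ_two]; simp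
  have e2 : ‖inner ℂ (H1 y) (mk2 0 (w 1))‖ ^ 2 = ‖y 1‖ ^ 2 * ‖w 1‖ ^ 2 := by
    rw [PiLp.inner_apply, Fin.sum_univ_two]
    simp [H1, mul_pow, mul_comm]
  have e3 : deriv (fun x : ℝ => x⁻¹) (1 + ‖y 1‖ ^ 2) = -((1 + ‖y 1‖ ^ 2) ^ 2)⁻¹ := by
    simp
  rw [e1, e2, e3]
  field_simp
  ring

theorem fderiv_H2_zero (y w : Cn 2) : (fderiv ℂ H2 y w) 0 = w 0 := by
  have hd : DifferentiableAt ℂ H2 y := contDiff_H2.differentiable (by simp) y
  have h1 := ((EuclideanSpace.proj (𝕜 := ℂ) (0 : Fin 3)).hasFDerivAt (x := H2 y)).comp y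
    hd.hasFDerivAt
  have h2 : (⇑(EuclideanSpace.proj (𝕜 := ℂ) (0 : Fin 3)) ∘ H2) =
      ⇑(EuclideanSpace.proj (𝕜 := ℂ) (0 : Fin 2)) := by
    funext z; rfl
  rw [h2] at h1
  have h3 := h1.unique (EuclideanSpace.proj (𝕜 := ℂ) (0 : Fin 2)).hasFDerivAt
  have := congrArg (fun L : Cn 2 →L[ℂ] ℂ => L w) h3
  simpa using this

theorem ddbar_GH2_apply_ge {G : ℝ → ℝ} (hG : ContDiff ℝ ∞ G) {y : Cn 2} {m : ℝ} (hm : 0 ≤ m)
    (h1 : m ≤ deriv G (uu y)) (h2 : m ≤ deriv G (uu y) + uu y * deriv (deriv G) (uu y)) (w : Cn 2) :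
    2 * m * ‖w 0‖ ^ 2 ≤ ddbar (d := 2) (fun y => G (‖H2 y‖ ^ 2)) y ![w, Complex.I • w] := by
  rw [ddbar_comp_normSq (I := univ) isOpen_univ contDiff_H2.contDiffOn isOpen_univ hG.contDiffOn
    (fun _ _ => mem_univ _) (mem_univ y), norm_H2_sq]
  set X := fderiv ℂ H2 y w with hX
  have hX0 : ‖w 0‖ ^ 2 ≤ ‖X‖ ^ 2 := by
    rw [← fderiv_H2_zero y w]
    exact pow_le_pow_left₀ (norm_nonneg _) (PiLp.norm_apply_le X 0) 2
  have hcs : ‖inner ℂ (H2 y) X‖ ^ 2 ≤ uu y * ‖X‖ ^ 2 := by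
    rw [← norm_H2_sq, ← mul_pow]
    exact pow_le_pow_left₀ (norm_nonneg _) (norm_inner_le_norm _ _) 2
  have hkey : m * ‖X‖ ^ 2 ≤ deriv G (uu y) * ‖X‖ ^ 2 +
      deriv (deriv G) (uu y) * ‖inner ℂ (H2 y) X‖ ^ 2 := by
    rcases le_total 0 (deriv (deriv G) (uu y)) with h | h
    · have : 0 ≤ deriv (deriv G) (uu y) * ‖inner ℂ (H2 y) X‖ ^ 2 := by positivity
      nlinarith [sq_nonneg ‖X‖]
    · have : deriv (deriv G) (uu y) * (uu y * ‖X‖ ^ 2) ≤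
          deriv (deriv G) (uu y) * ‖inner ℂ (H2 y) X‖ ^ 2 :=
        mul_le_mul_of_nonpos_left hcs h
      nlinarith [sq_nonneg ‖X‖]
  nlinarith

theorem uu_nonneg (y : Cn 2) : 0 ≤ uu y := by unfold uu; positivity

/-- The local potential is strictly plurisubharmonic. -/
theorem ddbar_Psi_pos {ε : ℝ} (hε : 0 < ε) {G : ℝ → ℝ} (hG : ContDiff ℝ ∞ G)
    (h1 : ∀ u, 0 ≤ u → 0 < deriv G u) (h2 : ∀ u, 0 ≤ u → 0 < deriv G u + u * deriv (deriv G) u)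
    (y : Cn 2) {w : Cn 2} (hw : w ≠ 0) : 0 < ddbar (d := 2) (Psi ε G) y ![w, Complex.I • w] := by
  rw [ddbar_Psi ε hG]
  simp only [ContinuousAlternatingMap.add_apply, ContinuousAlternatingMap.smul_apply, smul_eq_mul]
  rw [ddbar_logH1_apply]
  set m := min (deriv G (uu y)) (deriv G (uu y) + uu y * deriv (deriv G) (uu y)) with hm
  have hm0 : 0 < m := lt_min (h1 _ (uu_nonneg y)) (h2 _ (uu_nonneg y))
  have hB := ddbar_GH2_apply_ge hG hm0.le (min_le_left _ _) (min_le_right _ _) w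
  have hn : (0 : ℝ) < (1 + ‖y 1‖ ^ 2) ^ 2 := by positivity
  by_cases hw1 : w 1 = 0
  · have hw0 : w 0 ≠ 0 := fun h0 => hw (ext2 h0 hw1)
    have : 0 < 2 * m * ‖w 0‖ ^ 2 := by
      have := norm_pos_iff.2 hw0
      positivity
    have h3 : 0 ≤ ε * (2 * ‖w 1‖ ^ 2 / (1 + ‖y 1‖ ^ 2) ^ 2) := by positivity
    linarith
  · have : 0 < ε * (2 * ‖w 1‖ ^ 2 / (1 + ‖y 1‖ ^ 2) ^ 2) := by
      have := norm_pos_iff.2 hw1
      positivity
    have h3 : 0 ≤ 2 * m * ‖w 0‖ ^ 2 := by positivity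
    linarith

/-! ### Comparison of the potentials -/

/-- Adding `c log|g|² + C`, `g` holomorphic without zeros, does not change `i∂∂̄`. -/
theorem ddbar_add_log {ψ : Cn 2 → ℝ} {g : Cn 2 → ℂ} {V : Set (Cn 2)} (hV : IsOpen V)
    (hψ : ContDiffOn ℝ ∞ ψ V) (hg : ContDiffOn ℂ ∞ g V) (hg0 : ∀ z ∈ V, g z ≠ 0) (c C : ℝ)
    {y : Cn 2} (hy : y ∈ V) :
    ddbar (d := 2) (fun z => ψ z + (c * Real.log (‖g z‖ ^ 2) + C)) y = ddbar (d := 2) ψ y := by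
  have hlog : ContDiffOn ℝ ∞ (fun z => Real.log (‖g z‖ ^ 2)) V := by
    intro z hz
    have h1 : ContDiffWithinAt ℝ ∞ (fun z => ‖g z‖ ^ 2) V z :=
      ((hg z hz).restrict_scalars ℝ).norm_sq ℝ
    exact h1.log (by have := norm_pos_iff.2 (hg0 z hz); positivity)
  have hC : ContDiffOn ℂ ∞ (fun _ : Cn 2 => (C : ℂ)) V := contDiffOn_const
  have e0 : ddbar (d := 2) (fun _ : Cn 2 => C) y = 0 := by
    have := ddbar_re_eq_zero hV hC hy
    simpa using this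
  rw [ddbar_add hV hψ ((contDiffOn_const.mul hlog).add contDiffOn_const) hy,
    ddbar_add hV (contDiffOn_const.mul hlog) contDiffOn_const hy, ddbar_const_smul,
    ddbar_log_normSq hV hg hy (hg0 y hy), e0]
  simp

theorem uu_inv {w : Cn 2} (hw : w 1 ≠ 0) : uu (mk2 (w 0 * w 1 ^ 2) (w 1)⁻¹) = uu w := by
  have := norm_pos_iff.2 hw
  simp only [uu, mk2_zero, mk2_one, norm_mul, norm_pow, norm_inv]
  field_simp
  ring

theorem Psi_inv (ε : ℝ) (G : ℝ → ℝ) {w : Cn 2} (hw : w 1 ≠ 0) :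
    Psi ε G (mk2 (w 0 * w 1 ^ 2) (w 1)⁻¹) = Psi ε G w + (-ε * Real.log (‖w 1‖ ^ 2) + 0) := by
  have h0 := norm_pos_iff.2 hw
  rw [Psi, Psi, uu_inv hw]
  simp only [mk2_one, norm_inv]
  have : 1 + ‖w 1‖⁻¹ ^ 2 = (1 + ‖w 1‖ ^ 2) / ‖w 1‖ ^ 2 := by field_simp; ring
  rw [this, Real.log_div (by positivity) (by positivity)]
  ring

/-- The potentials in the two charts at the same `μ` define the same form. -/
theorem ddbar_Psi_comp_inv (ε : ℝ) {G : ℝ → ℝ} (hG : ContDiff ℝ ∞ G) {y : Cn 2} (hy : y 1 ≠ 0) :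
    ddbar (d := 2) (fun w => Psi ε G (mk2 (w 0 * w 1 ^ 2) (w 1)⁻¹)) y = ddbar (d := 2) (Psi ε G) y := by
  have hV : IsOpen {w : Cn 2 | w 1 ≠ 0} :=
    isOpen_ne_fun (EuclideanSpace.proj (𝕜 := ℂ) (1 : Fin 2)).continuous continuous_const
  have h1 : (fun w => Psi ε G (mk2 (w 0 * w 1 ^ 2) (w 1)⁻¹)) =ᶠ[𝓝 y]
      fun w => Psi ε G w + (-ε * Real.log (‖w 1‖ ^ 2) + 0) := by
    filter_upwards [hV.mem_nhds hy] with w hw
    exact Psi_inv ε G hw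
  rw [ddbar_congr h1]
  exact ddbar_add_log hV (contDiff_Psi ε hG).contDiffOn (contDiff_coord 1).contDiffOn
    (fun z hz => hz) _ _ hy

/-- `i∂∂̄‖s z + l‖² = i∂∂̄‖z‖²` for `|s| = 1`. -/
theorem ddbar_normSq_affine {s : ℂ} (hs : ‖s‖ = 1) (l y : Cn 2) :
    ddbar (d := 2) (fun z : Cn 2 => ‖s • z + l‖ ^ 2) y = ddbar (d := 2) (fun z : Cn 2 => ‖z‖ ^ 2) y := by
  have e : (fun z : Cn 2 => ‖s • z + l‖ ^ 2) =
      fun z => ‖z‖ ^ 2 + (2 * s * ⟪l, z⟫_ℂ + (‖l‖ ^ 2 : ℝ)).re := by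
    funext z
    rw [@norm_add_sq ℂ, norm_smul, hs, one_mul, inner_smul_left]
    have : (RCLike.re ((starRingEnd ℂ) s * ⟪z, l⟫_ℂ) : ℝ) = (s * ⟪l, z⟫_ℂ).re := by
      rw [← inner_conj_symm l z]
      simp only [RCLike.re_eq_complex_re, Complex.mul_re, Complex.conj_re, Complex.conj_im]
      ring
    rw [this]
    simp only [Complex.add_re, Complex.ofReal_re, mul_assoc]
    have : (2 * (s * ⟪l, z⟫_ℂ)).re = 2 * (s * ⟪l, z⟫_ℂ).re := by simp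
    rw [this]
    ring
  have hH : ContDiffOn ℂ ∞ (fun z : Cn 2 => 2 * s * ⟪l, z⟫_ℂ + (‖l‖ ^ 2 : ℝ)) univ := by
    have : ContDiff ℂ ∞ fun z : Cn 2 => ⟪l, z⟫_ℂ := (innerSL ℂ l).contDiff
    exact ((contDiff_const.mul this).add contDiff_const).contDiffOn
  have hH' : ContDiffOn ℝ ∞ (fun z : Cn 2 => (2 * s * ⟪l, z⟫_ℂ + (‖l‖ ^ 2 : ℝ)).re) univ :=
    Complex.reCLM.contDiff.comp_contDiffOn (hH.restrict_scalars ℝ)
  rw [e, ddbar_add isOpen_univ (contDiff_norm_sq ℝ).contDiffOn hH' (mem_univ y),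
    ddbar_re_eq_zero isOpen_univ hH (mem_univ y), add_zero]

theorem uu_coord (κ : Fin 2) {c : Cn 2} (h0 : c κ ≠ 0) :
    uu (mk2 (c κ ^ 2) (c (oth κ) / c κ)) = (‖c‖ ^ 2) ^ 2 := by
  have := norm_pos_iff.2 h0
  rw [norm_sq_eq_oth κ c]
  simp only [uu, mk2_zero, mk2_one, norm_pow, norm_div]
  field_simp

theorem Psi_coord {ε C u₁ : ℝ} {G : ℝ → ℝ}
    (hG : ∀ u, u₁ ≤ u → G u = Real.sqrt u - ε / 2 * Real.log u + C) (κ : Fin 2) {c : Cn 2}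
    (h0 : c κ ≠ 0) (hu : u₁ ≤ (‖c‖ ^ 2) ^ 2) :
    Psi ε G (mk2 (c κ ^ 2) (c (oth κ) / c κ)) = ‖c‖ ^ 2 + (-ε * Real.log (‖c κ‖ ^ 2) + C) := by
  have h1 := norm_pos_iff.2 h0
  have h2 : 0 < ‖c‖ := norm_pos_iff.2 (ne_zero_of_coord_ne_zero h0)
  rw [Psi, uu_coord κ h0, hG _ hu, Real.sqrt_sq (by positivity), Real.log_pow]
  simp only [mk2_one, norm_div]
  have : 1 + (‖c (oth κ)‖ / ‖c κ‖) ^ 2 = ‖c‖ ^ 2 / ‖c κ‖ ^ 2 := by
    rw [norm_sq_eq_oth κ c]; field_simp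
  rw [this, Real.log_div (by positivity) (by positivity)]
  push_cast
  ring

/-- In the region where the profile is flat, the potential near the exceptional curve defines the
flat Kähler form of `ℂ²`. -/
theorem ddbar_Psi_comp_coordA {ε C u₁ : ℝ} {G : ℝ → ℝ}
    (hG : ∀ u, u₁ ≤ u → G u = Real.sqrt u - ε / 2 * Real.log u + C) (κ : Fin 2) {s : ℂ}
    (hs : ‖s‖ = 1) (μ : Cn 2) {z₀ : Cn 2} (h0 : (s • z₀ - μ) κ ≠ 0)
    (hu : u₁ < (‖s • z₀ - μ‖ ^ 2) ^ 2) :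
    ddbar (d := 2) (fun z => Psi ε G (coordA μ κ (s • z))) z₀ =
      ddbar (d := 2) (fun z : Cn 2 => ‖z‖ ^ 2) z₀ := by
  have hc1 : Continuous fun z : Cn 2 => (s • z - μ) κ :=
    (EuclideanSpace.proj (𝕜 := ℂ) κ).continuous.comp ((continuous_const_smul s).sub continuous_const)
  have hc2 : Continuous fun z : Cn 2 => (‖s • z - μ‖ ^ 2) ^ 2 := by fun_prop
  set V : Set (Cn 2) := {z | (s • z - μ) κ ≠ 0} ∩ {z | u₁ < (‖s • z - μ‖ ^ 2) ^ 2} with hVdef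
  have hV : IsOpen V := (isOpen_ne_fun hc1 continuous_const).inter (isOpen_lt continuous_const hc2)
  have hz₀ : z₀ ∈ V := ⟨h0, hu⟩
  have h1 : (fun z => Psi ε G (coordA μ κ (s • z))) =ᶠ[𝓝 z₀]
      fun z => ‖s • z + -μ‖ ^ 2 + (-ε * Real.log (‖(s • z - μ) κ‖ ^ 2) + C) := by
    filter_upwards [hV.mem_nhds hz₀] with z hz
    rw [coordA, Psi_coord hG κ hz.1 hz.2.le, sub_eq_add_neg]
  rw [ddbar_congr h1, ← ddbar_normSq_affine hs (-μ) z₀]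
  have hsm : ContDiff ℝ ∞ fun z : Cn 2 => ‖s • z + -μ‖ ^ 2 :=
    ((contDiff_const_smul s).add contDiff_const).norm_sq ℝ
  have hg : ContDiff ℂ ∞ fun z : Cn 2 => (s • z - μ) κ :=
    (EuclideanSpace.proj (𝕜 := ℂ) κ).contDiff.comp ((contDiff_const_smul s).sub contDiff_const)
  exact ddbar_add_log hV hsm.contDiffOn hg.contDiffOn (fun z hz => hz.1) _ _ hz₀

end Kummer

end Claimed.Open.R041
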