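/-
Result 041, sanity: the projective plane `Pl = ℙ²` as a complex manifold (definitions and basic API).

Part of the checked NON-example `not_strongSYZ_without_nondegenerate` (file `SanityPlane`): `ℙ²` with `σ = 0` meets every clause of `IsIHS` but
`nondegenerate`, every class is `q`-isotropic for `σ = 0`, and `𝒪(1)` (nonzero, nef) induces no fibration onto a curve.
-/
import Claimed.Open.R041.K3Kummer

open scoped Manifold ContDiff Topology
open Set

namespace Claimed.Open.R041

namespace Plane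

/-- Homogeneous coordinates of the point with affine coordinates `y` in the `i`-th standard chart: `1` is inserted at the place `i`. -/
noncomputable def hom (i : Fin 3) (y : Cn 2) : Fin 3 → ℂ := i.insertNth (1 : ℂ) (fun k : Fin 2 => y k)

/-- Affine coordinates in the `i`-th standard chart of the point with homogeneous coordinates `v` (meaningful if `v i ≠ 0`). -/
noncomputable def aff (i : Fin 3) (v : Fin 3 → ℂ) : Cn 2 := Kummer.mk2 (v (i.succAbove 0) / v i) (v (i.succAbove 1) / v i)

@[simp] theorem hom_self (i : Fin 3) (y : Cn 2) : hom i y i = 1 := by simp [hom]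

@[simp] theorem hom_succAbove (i : Fin 3) (y : Cn 2) (k : Fin 2) : hom i y (i.succAbove k) = y k := by simp [hom]

theorem hom_ne_zero (i : Fin 3) (y : Cn 2) : hom i y ≠ 0 := fun h => by
  have := congrFun h i
  simp at this

theorem aff_hom (i : Fin 3) (y : Cn 2) : aff i (hom i y) = y := by
  unfold aff
  simp only [hom_succAbove, hom_self, div_one]
  exact Kummer.mk2_eta y

/-- `hom i` inverts `aff i` up to the scalar `(v i)⁻¹`. -/
theorem hom_aff {i : Fin 3} {v : Fin 3 → ℂ} (h : v i ≠ 0) : hom i (aff i v) = (v i)⁻¹ • v := by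
  funext j
  rcases Fin.eq_self_or_eq_succAbove i j with rfl | ⟨k, rfl⟩
  · rw [hom_self, Pi.smul_apply, smul_eq_mul, inv_mul_cancel₀ h]
  · rw [hom_succAbove, Pi.smul_apply, smul_eq_mul]
    fin_cases k
    · show v (i.succAbove 0) / v i = _
      rw [div_eq_inv_mul]
      rfl
    · show v (i.succAbove 1) / v i = _
      rw [div_eq_inv_mul]
      rfl

/-- Affine coordinates do not depend on the scale of the homogeneous coordinates. -/
theorem aff_smul (i : Fin 3) {a : ℂ} (ha : a ≠ 0) (v : Fin 3 → ℂ) : aff i (a • v) = aff i v := by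
  unfold aff
  simp only [Pi.smul_apply, smul_eq_mul, mul_div_mul_left _ _ ha]

/-- Every homogeneous coordinate is analytic. -/
theorem a1_analyticAt_hom (i k : Fin 3) (y : Cn 2) : AnalyticAt ℂ (fun w : Cn 2 => hom i w k) y := by
  rcases Fin.eq_self_or_eq_succAbove i k with rfl | ⟨l, rfl⟩
  · simp only [hom_self]
    exact analyticAt_const
  · simp only [hom_succAbove]
    exact Kummer.analyticAt_coord l y

/-- `w ↦ aff j (hom i w)` is a rational map, analytic where the denominator `hom i w j` does not vanish. -/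
theorem analyticAt_aff_hom (i j : Fin 3) {y : Cn 2} (h : hom i y j ≠ 0) : AnalyticAt ℂ (fun w : Cn 2 => aff j (hom i w)) y := by
  unfold aff
  exact Kummer.analyticAt_mk2 ((a1_analyticAt_hom i _ y).div (a1_analyticAt_hom i j y) h)
    ((a1_analyticAt_hom i _ y).div (a1_analyticAt_hom i j y) h)

/-- `hom i` is continuous. -/
theorem continuous_hom (i : Fin 3) : Continuous (hom i) :=
  continuous_pi fun k => continuous_iff_continuousAt.2 fun y => (a1_analyticAt_hom i k y).continuousAt

/-- `Projectivization.mk_eq_mk_iff'`, then compare the `i`-th coordinates. -/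
theorem injOn_aux (i : Fin 3) {y y' : Cn 2}
    (h : Projectivization.mk ℂ (hom i y) (hom_ne_zero i y) = Projectivization.mk ℂ (hom i y') (hom_ne_zero i y')) : y = y' := by
  obtain ⟨a, ha⟩ := (Projectivization.mk_eq_mk_iff' ℂ _ _ _ _).1 h
  have h1 := congrFun ha i
  rw [Pi.smul_apply, hom_self, hom_self, smul_eq_mul, mul_one] at h1
  rw [h1, one_smul] at ha
  rw [← aff_hom i y, ← ha, aff_hom]

/-- `τ w = aff j (hom i w)`. -/
theorem trans_aux (i j : Fin 3) {y y' : Cn 2}
    (h : Projectivization.mk ℂ (hom i y) (hom_ne_zero i y) = Projectivization.mk ℂ (hom j y') (hom_ne_zero j y')) :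
    ∃ τ : Cn 2 → Cn 2, AnalyticAt ℂ τ y ∧ τ y = y' ∧
      ∀ᶠ w in 𝓝 y, Projectivization.mk ℂ (hom j (τ w)) (hom_ne_zero j (τ w)) = Projectivization.mk ℂ (hom i w) (hom_ne_zero i w) := by
  obtain ⟨a, ha⟩ := (Projectivization.mk_eq_mk_iff' ℂ _ _ _ _).1 h
  have ha0 : a ≠ 0 := by
    rintro rfl
    rw [zero_smul] at ha
    exact hom_ne_zero i y ha.symm
  have hj : hom i y j ≠ 0 := by
    rw [← ha, Pi.smul_apply, hom_self, smul_eq_mul, mul_one]
    exact ha0
  refine ⟨fun w => aff j (hom i w), analyticAt_aff_hom i j hj, ?_, ?_⟩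
  · show aff j (hom i y) = y'
    rw [← ha, aff_smul j ha0, aff_hom]
  · have hc : ContinuousAt (fun w : Cn 2 => hom i w j) y := (a1_analyticAt_hom i j y).continuousAt
    filter_upwards [hc.eventually_ne hj] with w hw
    rw [Projectivization.mk_eq_mk_iff']
    exact ⟨(hom i w j)⁻¹, (hom_aff hw).symm⟩

/-- The atlas of the projective plane: the three standard affine charts. -/
noncomputable def atlas : ParamAtlas 2 (PN 2) where
  I := Fin 3
  D := fun _ => univ
  φ := fun i y => Projectivization.mk ℂ (hom i y) (hom_ne_zero i y)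
  isOpen_D := fun _ => isOpen_univ
  injOn := fun i _ _ _ _ h => injOn_aux i h
  trans := fun i j _ _ _ _ h => trans_aux i j h
  i₀ := 0
  y₀ := 0
  hy₀ := mem_univ _

end Plane

/-- The complex projective plane `ℙ²`, as a complex manifold. -/
abbrev Pl : Type := Plane.atlas.Carrier

namespace Plane

/-- The parametrisation `ℂ² → ℙ²` of the `i`-th standard chart. -/
noncomputable def pt (i : Fin 3) (y : Cn 2) : Pl := atlas.pt i y (mem_univ _)

/-- The `i`-th standard chart `{x_i ≠ 0} → ℂ²`. -/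
noncomputable def ch (i : Fin 3) : OpenPartialHomeomorph Pl (Cn 2) := atlas.chart i

/-- The inclusion (a bijection) `Pl → ℙ²` into the projective plane of `Statement`. -/
def inc (x : Pl) : PN 2 := x.1

theorem inc_injective : Function.Injective inc := Subtype.val_injective

theorem inc_pt (i : Fin 3) (y : Cn 2) : inc (pt i y) = Projectivization.mk ℂ (hom i y) (hom_ne_zero i y) := rfl

theorem exists_pt (x : Pl) : ∃ i y, x = pt i y := by
  obtain ⟨i, y, hy, rfl⟩ := atlas.exists_pt x
  exact ⟨i, y, rfl⟩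

theorem ch_target (i : Fin 3) : (ch i).target = univ := rfl

theorem ch_symm_apply (i : Fin 3) (y : Cn 2) : (ch i).symm y = pt i y := atlas.chart_symm_apply (i := i) (mem_univ y)

theorem pt_mem_ch_source (i : Fin 3) (y : Cn 2) : pt i y ∈ (ch i).source := atlas.pt_mem_chart_source (i := i) (mem_univ y)

theorem ch_pt (i : Fin 3) (y : Cn 2) : ch i (pt i y) = y := atlas.chart_pt (i := i) (mem_univ y)

theorem pt_ch {i : Fin 3} {x : Pl} (hx : x ∈ (ch i).source) : pt i (ch i x) = x := by
  rw [← ch_symm_apply, (ch i).left_inv hx]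

theorem ch_mem_maximalAtlas (i : Fin 3) : ch i ∈ IsManifold.maximalAtlas 𝓘(ℂ, Cn 2) ω Pl := atlas.chart_mem_maximalAtlas i

theorem mem_atlas_iff {e : OpenPartialHomeomorph Pl (Cn 2)} : e ∈ _root_.atlas (Cn 2) Pl ↔ ∃ i, e = ch i := atlas.mem_atlas_iff

theorem continuous_pt (i : Fin 3) : Continuous (pt i) := by
  have h : ContinuousOn (ch i).symm univ := (ch i).continuousOn_symm
  rw [← continuousOn_univ]
  exact h.congr fun y _ => (ch_symm_apply i y).symm

/-- Some coordinate `v i` is not `0`; then `mk v = mk (hom i (aff i v))` by `hom_aff`. -/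
theorem exists_pt_of_ne_zero {v : Fin 3 → ℂ} (hv : v ≠ 0) : ∃ i, ∃ y ∈ atlas.D i, atlas.φ i y = Projectivization.mk ℂ v hv := by
  obtain ⟨i, hi⟩ : ∃ i, v i ≠ 0 := Function.ne_iff.1 hv
  refine ⟨i, aff i v, mem_univ _, ?_⟩
  show Projectivization.mk ℂ (hom i (aff i v)) (hom_ne_zero i _) = Projectivization.mk ℂ v hv
  rw [Projectivization.mk_eq_mk_iff']
  exact ⟨(v i)⁻¹, (hom_aff hi).symm⟩

/-- The point `[v₀ : v₁ : v₂]`. -/
noncomputable def mkP (v : Fin 3 → ℂ) (hv : v ≠ 0) : Pl := ⟨Projectivization.mk ℂ v hv, exists_pt_of_ne_zero hv⟩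

theorem inc_mkP (v : Fin 3 → ℂ) (hv : v ≠ 0) : inc (mkP v hv) = Projectivization.mk ℂ v hv := rfl

theorem pt_eq_mkP (i : Fin 3) (y : Cn 2) : pt i y = mkP (hom i y) (hom_ne_zero i y) := rfl

theorem exists_mkP (x : Pl) : ∃ v hv, x = mkP v hv := by
  obtain ⟨i, y, rfl⟩ := exists_pt x
  exact ⟨_, _, pt_eq_mkP i y⟩

/-- Two points are equal iff their homogeneous coordinates are proportional. -/
theorem mkP_eq_mkP_iff {v w : Fin 3 → ℂ} {hv : v ≠ 0} {hw : w ≠ 0} : mkP v hv = mkP w hw ↔ ∃ a : ℂ, a ≠ 0 ∧ v = a • w := by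
  rw [← inc_injective.eq_iff, inc_mkP, inc_mkP, Projectivization.mk_eq_mk_iff']
  constructor
  · rintro ⟨a, ha⟩
    refine ⟨a, ?_, ha.symm⟩
    rintro rfl
    rw [zero_smul] at ha
    exact hv ha.symm
  · rintro ⟨a, _, ha⟩
    exact ⟨a, ha.symm⟩

/-- The point `[v]` in the `i`-th chart. -/
theorem mkP_eq_pt {v : Fin 3 → ℂ} {hv : v ≠ 0} {i : Fin 3} (h : v i ≠ 0) : mkP v hv = pt i (aff i v) := by
  rw [pt_eq_mkP, mkP_eq_mkP_iff]
  refine ⟨v i, h, ?_⟩
  rw [hom_aff h, smul_smul, mul_inv_cancel₀ h, one_smul]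

/-- The domain of the `i`-th chart is `{v i ≠ 0}`. -/
theorem mkP_mem_ch_source_iff {v : Fin 3 → ℂ} {hv : v ≠ 0} {i : Fin 3} : mkP v hv ∈ (ch i).source ↔ v i ≠ 0 := by
  constructor
  · intro hx
    have h1 : pt i (ch i (mkP v hv)) = mkP v hv := pt_ch hx
    rw [pt_eq_mkP, mkP_eq_mkP_iff] at h1
    obtain ⟨a, _, h2⟩ := h1
    have h3 := congrFun h2 i
    rw [hom_self, Pi.smul_apply, smul_eq_mul] at h3
    intro h0
    rw [h0, mul_zero] at h3
    exact one_ne_zero h3
  · intro h
    rw [mkP_eq_pt h]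
    exact pt_mem_ch_source i _

/-- The `i`-th chart in homogeneous coordinates. -/
theorem ch_mkP {v : Fin 3 → ℂ} {hv : v ≠ 0} {i : Fin 3} (h : v i ≠ 0) : ch i (mkP v hv) = aff i v := by
  rw [mkP_eq_pt h, ch_pt]

theorem pt_mem_ch_source_iff {i j : Fin 3} {y : Cn 2} : pt i y ∈ (ch j).source ↔ hom i y j ≠ 0 := by
  rw [pt_eq_mkP, mkP_mem_ch_source_iff]

/-- The change of charts. -/
theorem ch_pt' {i j : Fin 3} {y : Cn 2} (h : hom i y j ≠ 0) : ch j (pt i y) = aff j (hom i y) := by
  rw [pt_eq_mkP, ch_mkP h]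

end Plane

end Claimed.Open.R041
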