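/-
Result 041, sanity: the projective plane has no nonzero holomorphic `2`-form.
-/
import Claimed.Open.R041.PlaneDefs
import Claimed.Open.R041.SanityForms

open scoped Manifold ContDiff Topology
open Set

namespace Claimed.Open.R041

namespace Plane

/-- The coefficient of `τ` in the `i`-th chart. -/
noncomputable def coef (τ : Form ℂ 2 Pl ℂ 2) (i : Fin 3) (y : Cn 2) : ℂ := τ.inChart (ch i) y ![Kummer.mk2 1 0, Kummer.mk2 0 1]

/-- `Form.IsSmooth` for the chart `ch i` (`mem_atlas_iff`, `ch_target`), evaluated at a fixed pair of vectors. -/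
theorem differentiable_coef {τ : Form ℂ 2 Pl ℂ 2} (hτ : τ.IsSmooth) (i : Fin 3) : Differentiable ℂ (coef τ i) := by
  have h1 : ContDiffOn ℂ ∞ (τ.inChart (ch i)) univ := by
    have h := hτ (ch i) (mem_atlas_iff.2 ⟨i, rfl⟩)
    rwa [ch_target] at h
  have h2 : Differentiable ℂ (τ.inChart (ch i)) := (contDiffOn_univ.1 h1).differentiable (by simp)
  intro y
  exact (h2 y).continuousAlternatingMap_apply_const _

/-- an alternating `2`-form on a triangular pair of vectors -/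
theorem g2_alt (A : (Cn 2) [⋀^Fin 2]→L[ℂ] ℂ) (x y : Cn 2) (a b c : ℂ) :
    A ![a • x + b • y, c • y] = a * c * A ![x, y] := by
  have e0 : ∀ p q z : Cn 2, Function.update ![p, q] 0 z = ![z, q] := by
    intro p q z; funext i; fin_cases i <;> rfl
  have e1 : ∀ p q z : Cn 2, Function.update ![p, q] 1 z = ![p, z] := by
    intro p q z; funext i; fin_cases i <;> rfl
  have h1 := A.toAlternatingMap.map_update_add ![x, c • y] 0 (a • x) (b • y)
  have h2 := A.toAlternatingMap.map_update_smul ![x, c • y] 0 a x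
  have h3 := A.toAlternatingMap.map_update_smul ![x, c • y] 0 b y
  have h4 := A.toAlternatingMap.map_update_smul ![x, y] 1 c y
  have h5 := A.toAlternatingMap.map_update_smul ![y, y] 1 c y
  have h6 : A ![y, y] = 0 :=
    A.toAlternatingMap.map_eq_zero_of_eq ![y, y] (i := 0) (j := 1) rfl (by decide)
  simp only [e0, e1] at h1 h2 h3 h4 h5
  have h1' : A ![a • x + b • y, c • y] = A ![a • x, c • y] + A ![b • y, c • y] := h1
  have h2' : A ![a • x, c • y] = a • A ![x, c • y] := h2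
  have h3' : A ![b • y, c • y] = b • A ![y, c • y] := h3
  have h4' : A ![x, c • y] = c • A ![x, y] := h4
  have h5' : A ![y, c • y] = c • A ![y, y] := h5
  rw [h1', h2', h3', h4', h5', h6]
  simp only [smul_eq_mul, mul_zero, add_zero]
  ring

/-- the derivative of the change of charts `(u₀, u₁) ↦ (1/u₀, u₁/u₀)` on the standard basis -/
theorem g2_fderiv {u : Cn 2} (hu : u 0 ≠ 0) :
    ∃ D : Cn 2 →L[ℂ] Cn 2, HasFDerivAt (fun w : Cn 2 => Kummer.mk2 (1 / w 0) (w 1 / w 0)) D u ∧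
      D (Kummer.mk2 1 0) = (-(1 / (u 0) ^ 2)) • Kummer.mk2 1 0 + (-(u 1 / (u 0) ^ 2)) • Kummer.mk2 0 1 ∧
      D (Kummer.mk2 0 1) = (1 / u 0) • Kummer.mk2 0 1 := by
  set p0 : Cn 2 →L[ℂ] ℂ := EuclideanSpace.proj (𝕜 := ℂ) (0 : Fin 2) with hp0
  set p1 : Cn 2 →L[ℂ] ℂ := EuclideanSpace.proj (𝕜 := ℂ) (1 : Fin 2) with hp1
  have d0 : HasFDerivAt (fun w : Cn 2 => w 0) p0 u := p0.hasFDerivAt
  have d1 : HasFDerivAt (fun w : Cn 2 => w 1) p1 u := p1.hasFDerivAt
  have di : HasFDerivAt (fun w : Cn 2 => (w 0)⁻¹) ((-((u 0) ^ 2)⁻¹) • p0) u :=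
    (hasDerivAt_inv hu).comp_hasFDerivAt u d0
  have dq : HasFDerivAt (fun w : Cn 2 => w 1 * (w 0)⁻¹)
      (u 1 • ((-((u 0) ^ 2)⁻¹) • p0) + (u 0)⁻¹ • p1) u := d1.mul di
  have e : (fun w : Cn 2 => Kummer.mk2 (1 / w 0) (w 1 / w 0)) =
      fun w : Cn 2 => (w 0)⁻¹ • Kummer.mk2 1 0 + (w 1 * (w 0)⁻¹) • Kummer.mk2 0 1 := by
    funext w
    apply Kummer.ext2 <;> simp [div_eq_mul_inv]
  refine ⟨_, by rw [e]; exact (di.smul_const (Kummer.mk2 1 0)).add (dq.smul_const (Kummer.mk2 0 1)),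
    ?_, ?_⟩
  · apply Kummer.ext2 <;> simp [hp0, hp1, div_eq_mul_inv]
  · apply Kummer.ext2 <;> simp [hp0, hp1, div_eq_mul_inv]

/-- Change of charts `0 ← 1` (the tensor law of `SanityForms`): with `T u = aff 0 (hom 1 u) = (1/u₀, u₁/u₀)` (`ch_pt'`), `τ.inChart (ch 1) u = (τ.inChart (ch 0) (T u)) ∘ DT(u)`,
`DT(u) e₀ = (-1/u₀², -u₁/u₀²)`, `DT(u) e₁ = (0, 1/u₀)`, so the Jacobian is `-1/u₀³`. -/
theorem coef_one_eq (τ : Form ℂ 2 Pl ℂ 2) {u : Cn 2} (hu : u 0 ≠ 0) :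
    coef τ 0 (Kummer.mk2 (1 / u 0) (u 1 / u 0)) = -(u 0) ^ 3 * coef τ 1 u := by
  have he1 : ch 1 ∈ IsManifold.maximalAtlas 𝓘(ℂ, Cn 2) 1 Pl :=
    IsManifold.maximalAtlas_subset_of_le le_top (ch_mem_maximalAtlas 1)
  have he0 : ch 0 ∈ IsManifold.maximalAtlas 𝓘(ℂ, Cn 2) 1 Pl :=
    IsManifold.maximalAtlas_subset_of_le le_top (ch_mem_maximalAtlas 0)
  have hh0 : ∀ w : Cn 2, hom 1 w 0 = w 0 := fun w => hom_succAbove 1 w 0
  have hh1 : ∀ w : Cn 2, hom 1 w 1 = 1 := fun w => hom_self 1 w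
  have hh2 : ∀ w : Cn 2, hom 1 w 2 = w 1 := fun w => hom_succAbove 1 w 1
  have htr : ∀ w : Cn 2, w 0 ≠ 0 →
      (ch 0 ∘ (ch 1).symm) w = Kummer.mk2 (1 / w 0) (w 1 / w 0) := by
    intro w hw
    simp only [Function.comp]
    rw [ch_symm_apply, ch_pt' (by rw [hh0]; exact hw)]
    show Kummer.mk2 (hom 1 w 1 / hom 1 w 0) (hom 1 w 2 / hom 1 w 0) = _
    rw [hh0, hh1, hh2]
  have hsrc : (ch 1).symm u ∈ (ch 0).source := by
    rw [ch_symm_apply, pt_mem_ch_source_iff, hh0]; exact hu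
  have hpb := inChart_eq_pullback τ he1 he0 (y := u) (by rw [ch_target]; trivial) hsrc
  have hT : (ch 0 ∘ (ch 1).symm) =ᶠ[𝓝 u] fun w : Cn 2 => Kummer.mk2 (1 / w 0) (w 1 / w 0) := by
    have hc : ContinuousAt (fun w : Cn 2 => w 0) u :=
      (EuclideanSpace.proj (𝕜 := ℂ) (0 : Fin 2)).continuous.continuousAt
    filter_upwards [hc.eventually_ne hu] with w hw
    exact htr w hw
  obtain ⟨D, hD, hD0, hD1⟩ := g2_fderiv hu
  have hfd : fderiv ℂ (ch 0 ∘ (ch 1).symm) u = D := by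
    rw [hT.fderiv_eq]; exact hD.fderiv
  have hc1 : coef τ 1 u =
      τ.inChart (ch 0) (Kummer.mk2 (1 / u 0) (u 1 / u 0)) ![D (Kummer.mk2 1 0), D (Kummer.mk2 0 1)] := by
    unfold coef
    rw [hpb, hfd, htr u hu, ContinuousAlternatingMap.compContinuousLinearMap_apply]
    congr 1
    funext k
    fin_cases k <;> rfl
  rw [hc1, hD0, hD1, g2_alt]
  unfold coef
  field_simp

/-- `t ↦ (p t, q t)` is differentiable. -/
theorem g3_differentiable_mk2 {p q : ℂ → ℂ} (hp : Differentiable ℂ p) (hq : Differentiable ℂ q) :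
    Differentiable ℂ (fun t : ℂ => Kummer.mk2 (p t) (q t)) := by
  simp only [Kummer.mk2_eq]
  exact (hp.smul_const _).add (hq.smul_const _)

/-- Along the line of slope `a`. -/
theorem g3_line {f g : Cn 2 → ℂ} (hf : Differentiable ℂ f) (hg : Differentiable ℂ g)
    (h : ∀ u : Cn 2, u 0 ≠ 0 → f (Kummer.mk2 (1 / u 0) (u 1 / u 0)) = -(u 0) ^ 3 * g u) (a t : ℂ) :
    f (Kummer.mk2 t (t * a)) = 0 := by
  have hF : Differentiable ℂ (fun t : ℂ => f (Kummer.mk2 t (t * a))) :=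
    hf.comp (g3_differentiable_mk2 differentiable_id (differentiable_id.mul_const a))
  refine hF.apply_eq_of_tendsto_cocompact t ?_
  have hinv : Filter.Tendsto (fun t : ℂ => t⁻¹) (Filter.cocompact ℂ) (𝓝 0) :=
    (Filter.tendsto_inv₀_cobounded (α := ℂ)).mono_left (Metric.cobounded_eq_cocompact (α := ℂ)).ge
  have hG : Filter.Tendsto (fun t : ℂ => -(t⁻¹) ^ 3 * g (Kummer.mk2 t⁻¹ a)) (Filter.cocompact ℂ)
      (𝓝 (-(0 : ℂ) ^ 3 * g (Kummer.mk2 0 a))) := by
    have hc : Continuous (fun s : ℂ => -s ^ 3 * g (Kummer.mk2 s a)) :=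
      ((continuous_id.pow 3).neg).mul
        (hg.continuous.comp (g3_differentiable_mk2 differentiable_id (differentiable_const a)).continuous)
    exact (hc.tendsto 0).comp hinv
  have h0 : (-(0 : ℂ) ^ 3 * g (Kummer.mk2 0 a)) = 0 := by simp
  rw [h0] at hG
  refine hG.congr' ?_
  have hne : ∀ᶠ t : ℂ in Filter.cocompact ℂ, t ≠ 0 := by
    have : ({0}ᶜ : Set ℂ) ∈ Filter.cocompact ℂ := (isCompact_singleton (x := (0 : ℂ))).compl_mem_cocompact
    exact this
  filter_upwards [hne] with t ht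
  have := h (Kummer.mk2 t⁻¹ a) (by simpa using ht)
  simp only [Kummer.mk2_zero, Kummer.mk2_one, div_inv_eq_mul, one_mul] at this
  rw [← this, mul_comm a t]

/-- An entire function `f` on `ℂ²` such that `f (1/u₀, u₁/u₀) = -u₀³ g(u)` with `g` entire vanishes identically: for fixed `a`, `t ↦ f (t, t a)` is entire and
tends to `0` as `t → ∞` (`= -t⁻³ g (t⁻¹, a)`, `g` bounded near `(0, a)`), so it is `0` by Liouville (`Differentiable.apply_eq_of_tendsto_cocompact` or boundedness);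
hence `f = 0` on `{y₀ ≠ 0}`, and everywhere by continuity. -/
theorem eq_zero_of_entire {f g : Cn 2 → ℂ} (hf : Differentiable ℂ f) (hg : Differentiable ℂ g)
    (h : ∀ u : Cn 2, u 0 ≠ 0 → f (Kummer.mk2 (1 / u 0) (u 1 / u 0)) = -(u 0) ^ 3 * g u) : f = 0 := by
  have h1 : ∀ s b : ℂ, s ≠ 0 → f (Kummer.mk2 s b) = 0 := by
    intro s b hs
    have := g3_line hf hg h (b / s) s
    rwa [mul_div_cancel₀ b hs] at this
  funext y
  rw [← Kummer.mk2_eta y]
  show f (Kummer.mk2 (y 0) (y 1)) = 0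
  by_cases hy : y 0 = 0
  · have hc : Continuous (fun s : ℂ => f (Kummer.mk2 s (y 1))) :=
      hf.continuous.comp (g3_differentiable_mk2 differentiable_id (differentiable_const _)).continuous
    have ht : Filter.Tendsto (fun s : ℂ => f (Kummer.mk2 s (y 1))) (𝓝[≠] 0) (𝓝 (f (Kummer.mk2 0 (y 1)))) :=
      (hc.tendsto 0).mono_left nhdsWithin_le_nhds
    have ht0 : Filter.Tendsto (fun s : ℂ => f (Kummer.mk2 s (y 1))) (𝓝[≠] 0) (𝓝 0) := by
      refine tendsto_const_nhds.congr' ?_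
      filter_upwards [self_mem_nhdsWithin] with s hs
      exact (h1 s _ hs).symm
    rw [hy]
    exact tendsto_nhds_unique ht ht0
  · exact h1 _ _ hy

theorem g4_alt_eq_zero (η : (Cn 2) [⋀^Fin 2]→L[ℂ] ℂ) (h : η ![Kummer.mk2 1 0, Kummer.mk2 0 1] = 0) : η = 0 := by
  let b : Module.Basis (Fin 2) ℂ (Cn 2) := (EuclideanSpace.basisFun (Fin 2) ℂ).toBasis
  have hb : (⇑b : Fin 2 → Cn 2) = ![Kummer.mk2 1 0, Kummer.mk2 0 1] := by
    funext k
    fin_cases k
    · ext j; fin_cases j <;> simp [b, Kummer.mk2]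
    · ext j; fin_cases j <;> simp [b, Kummer.mk2]
  have h1 := AlternatingMap.eq_smul_basis_det b η.toAlternatingMap
  have h0 : η.toAlternatingMap (⇑b) = 0 := by rw [hb]; exact h
  rw [h0, zero_smul] at h1
  ext v
  exact congrArg (fun f : (Cn 2) [⋀^Fin 2]→ₗ[ℂ] ℂ => f v) h1

theorem g4_symmDeriv_diffAt (i : Fin 3) (y u : Cn 2) :
    symmDeriv ℂ (ch i) y (diffAt ℂ (d := 2) (ch i) (pt i y) u) = u := by
  have he1 : ch i ∈ IsManifold.maximalAtlas 𝓘(ℂ, Cn 2) 1 Pl :=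
    IsManifold.maximalAtlas_subset_of_le le_top (ch_mem_maximalAtlas i)
  have hmd : (ch i).MDifferentiable 𝓘(ℂ, Cn 2) 𝓘(ℂ, Cn 2) :=
    ⟨fun z hz => (mdifferentiableAt_of_mem_maximalAtlas he1 hz).mdifferentiableWithinAt,
      fun z hz => (mdifferentiableAt_symm_of_mem_maximalAtlas he1 hz).mdifferentiableWithinAt⟩
  have h := congrArg (fun f : Cn 2 →L[ℂ] Cn 2 => f u) (hmd.symm_comp_deriv (pt_mem_ch_source i y))
  rw [ch_pt] at h
  exact h

/-- An alternating `2`-form on `ℂ²` is determined by its value on the basis `(1,0), (0,1)`, so `τ.inChart (ch i) y = 0`; and `τ.inChart (ch i) y` is `τ (pt i y)` (`ch_symm_apply`) composed with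
the differential of `(ch i).symm` at `y`, which is invertible (`symmDeriv`, `diffAt_symmDeriv` / `symmDeriv_diffAt` in K3Potential / SanityForms, or `mfderiv` of `ch i ∘ (ch i).symm = id`). -/
theorem eq_zero_of_coef_eq_zero (τ : Form ℂ 2 Pl ℂ 2) {i : Fin 3} {y : Cn 2} (h : coef τ i y = 0) : τ (pt i y) = 0 := by
  have hη : τ.inChart (ch i) y = 0 := g4_alt_eq_zero _ h
  ext v
  have h3 := congrArg (fun f : (Cn 2) [⋀^Fin 2]→L[ℂ] ℂ =>
    f (fun k => diffAt ℂ (d := 2) (ch i) (pt i y) (v k))) hη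
  simp only [inChart_eq, ch_symm_apply, ContinuousAlternatingMap.compContinuousLinearMap_apply] at h3
  have h4 : (⇑(symmDeriv ℂ (ch i) y) ∘ fun k => diffAt ℂ (d := 2) (ch i) (pt i y) (v k)) = v := by
    funext k
    exact g4_symmDeriv_diffAt i y (v k)
  rw [h4] at h3
  exact h3

theorem coef_eq_zero_of_eq_zero (τ : Form ℂ 2 Pl ℂ 2) {i : Fin 3} {y : Cn 2} (h : τ (pt i y) = 0) : coef τ i y = 0 := by
  unfold coef Form.inChart
  rw [ch_symm_apply, h]
  rfl

/-- For `i ≠ 0` the `0`-th homogeneous coordinate of `hom i y` is `y 0`. -/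
theorem g5_hom_zero {i : Fin 3} (hi : i ≠ 0) (y : Cn 2) : hom i y 0 = y 0 := by
  have h : i.succAbove (0 : Fin 2) = 0 := by
    fin_cases i
    · exact absurd rfl hi
    · rfl
    · rfl
  have h2 := hom_succAbove i y 0
  rwa [h] at h2

/-- A continuous function on `ℂ²` which vanishes on `{y₀ ≠ 0}` vanishes. -/
theorem g5_eq_zero_of_continuous {f : Cn 2 → ℂ} (hf : Continuous f) (h : ∀ y : Cn 2, y 0 ≠ 0 → f y = 0) : f = 0 := by
  funext y
  by_cases hy : y 0 = 0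
  · have hc : Continuous fun t : ℂ => f (y + t • Kummer.mk2 1 0) := hf.comp (by fun_prop)
    have h1 : Filter.Tendsto (fun t : ℂ => f (y + t • Kummer.mk2 1 0)) (𝓝[≠] 0) (𝓝 (f y)) := by
      have := (hc.tendsto 0).mono_left (nhdsWithin_le_nhds (s := {0}ᶜ))
      simpa using this
    have h2 : Filter.Tendsto (fun t : ℂ => f (y + t • Kummer.mk2 1 0)) (𝓝[≠] 0) (𝓝 0) := by
      refine tendsto_const_nhds.congr' ?_
      filter_upwards [self_mem_nhdsWithin] with t ht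
      symm
      apply h
      have : (y + t • Kummer.mk2 1 0) 0 = t := by
        simp [hy]
      rw [this]
      exact ht
    exact tendsto_nhds_unique h1 h2
  · exact h y hy

/-- By `eq_zero_of_coef_eq_zero`, `τ = 0` on `(ch 0).source`.  For `i = 1, 2`: if `hom i y 0 ≠ 0` (that is `y 0 ≠ 0`) then `pt i y ∈ (ch 0).source` (`pt_mem_ch_source_iff`, `pt_ch`), so `coef τ i y = 0`
(`coef_eq_zero_of_eq_zero`); `{y | y 0 ≠ 0}` is dense in `Cn 2` and `coef τ i` is continuous (`differentiable_coef`), so `coef τ i = 0`; `eq_zero_of_coef_eq_zero` again, `exists_pt`. -/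
theorem eq_zero_of_coef_zero {τ : Form ℂ 2 Pl ℂ 2} (hτ : τ.IsSmooth) (h : coef τ 0 = 0) : τ = 0 := by
  have h0 : ∀ x : Pl, x ∈ (ch 0).source → τ x = 0 := by
    intro x hx
    rw [← pt_ch hx]
    exact eq_zero_of_coef_eq_zero τ (congrFun h _)
  have hc : ∀ i : Fin 3, coef τ i = 0 := by
    intro i
    by_cases hi : i = 0
    · rw [hi]; exact h
    · refine g5_eq_zero_of_continuous (differentiable_coef hτ i).continuous fun y hy => ?_
      refine coef_eq_zero_of_eq_zero τ (h0 _ ?_)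
      rw [pt_mem_ch_source_iff, g5_hom_zero hi]
      exact hy
  funext x
  obtain ⟨i, y, rfl⟩ := exists_pt x
  exact eq_zero_of_coef_eq_zero τ (congrFun (hc i) y)

/-- **`H⁰(ℙ², Ω²) = 0`.** -/
theorem eq_zero_of_isSmooth {τ : Form ℂ 2 Pl ℂ 2} (hτ : τ.IsSmooth) : τ = 0 :=
  eq_zero_of_coef_zero hτ
    (eq_zero_of_entire (differentiable_coef hτ 0) (differentiable_coef hτ 1) fun _ hu => coef_one_eq τ hu)

end Plane

end Claimed.Open.R041
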