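/-
Result 041, sanity: the inclusion of the manifold `Pl` into the projective plane `PN 2` of `Statement` is a holomorphic immersion.
-/
import Claimed.Open.R041.PlaneDefs
import Claimed.Open.R041.K3Potential
import Claimed.Open.R041.CorollaryProjective

open scoped Manifold ContDiff Topology
open Set

namespace Claimed.Open.R041

namespace Plane

/-- `hom i` is an affine map. -/
theorem e_contDiff_hom (i : Fin 3) : ContDiff ℂ ω (hom i) := by
  rw [contDiff_pi]
  intro j
  rcases Fin.eq_self_or_eq_succAbove i j with rfl | ⟨k, rfl⟩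
  · simp only [hom_self]
    exact contDiff_const
  · simp only [hom_succAbove]
    exact (EuclideanSpace.proj (𝕜 := ℂ) k).contDiff

/-- The lift `hom i ∘ ch i` of `inc` over the `i`-th chart domain.  `HolomorphicOn`: `contMDiffOn_of_mem_maximalAtlas (ch_mem_maximalAtlas i)` composed with the affine (analytic)
map `hom i : Cn 2 → Fin 3 → ℂ`; `inc x = mk (hom i (ch i x))` by `pt_ch`, `inc_pt`. -/
theorem isLocalLift_inc (i : Fin 3) : IsLocalLift 2 inc (ch i).source (fun x => hom i (ch i x)) := by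
  refine ⟨(ch i).open_source, ?_, fun y hy => ⟨hom_ne_zero i _, ?_⟩⟩
  · have h1 : ContMDiffOn 𝓘(ℂ, Cn 2) 𝓘(ℂ, Cn 2) ω (ch i) (ch i).source :=
      contMDiffOn_of_mem_maximalAtlas (ch_mem_maximalAtlas i)
    exact (e_contDiff_hom i).contMDiff.comp_contMDiffOn h1
  · conv_lhs => rw [← pt_ch hy]
    exact inc_pt i _

theorem isHolomorphicOnToPN_inc : IsHolomorphicOnToPN 2 inc univ := by
  intro x _
  obtain ⟨i, y, rfl⟩ := exists_pt x
  exact ⟨_, _, pt_mem_ch_source i y, isLocalLift_inc i⟩

/-- the derivative of the affine map `hom i`: `0` is inserted at the place `i` -/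
theorem f_hasFDerivAt_hom (i : Fin 3) (y : Cn 2) :
    ∃ A : Cn 2 →L[ℂ] (Fin 3 → ℂ), HasFDerivAt (hom i) A y ∧ (∀ w, A w i = 0) ∧
      ∀ w (k : Fin 2), A w (i.succAbove k) = w k := by
  set A : Cn 2 →L[ℂ] (Fin 3 → ℂ) := ContinuousLinearMap.pi fun j =>
    (i.insertNth (α := fun _ => Cn 2 →L[ℂ] ℂ) 0
      (fun k : Fin 2 => EuclideanSpace.proj (𝕜 := ℂ) k)) j with hA
  have h1 : ∀ w, A w i = 0 := fun w => by simp [hA]
  have h2 : ∀ w (k : Fin 2), A w (i.succAbove k) = w k := fun w k => by simp [hA]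
  refine ⟨A, ?_, h1, h2⟩
  have e : hom i = fun w => A w + Pi.single i (1 : ℂ) := by
    funext w j
    refine Fin.succAboveCases i ?_ (fun k => ?_) j
    · simp [h1]
    · simp [h2, Fin.succAbove_ne]
  rw [e]
  exact A.hasFDerivAt.add_const _

/-- Use the lift `isLocalLift_inc i` at `x = pt i y`: `diffAt ℂ (hom i ∘ ch i) x v = c • hom i y`; the `i`-th coordinate of the lift is the constant `1`, so `c = 0`;
the other two coordinates give `diffAt ℂ (ch i) x v = 0`, and `diffAt_chart_injective` (K3Potential). -/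
theorem inc_immersion (x : Pl) (v : Cn 2) (h : InKerDifferential 2 inc x v) : v = 0 := by
  obtain ⟨i, y, rfl⟩ := exists_pt x
  have hx : pt i y ∈ (ch i).source := pt_mem_ch_source i y
  obtain ⟨c, hc⟩ := h (ch i).source _ hx (isLocalLift_inc i)
  obtain ⟨A, hA, hA1, hA2⟩ := f_hasFDerivAt_hom i (ch i (pt i y))
  have he := ch_mem_maximalAtlas i
  have h1 : MDifferentiableAt 𝓘(ℂ, Cn 2) 𝓘(ℂ, Cn 2) (ch i) (pt i y) :=
    (contMDiffAt_of_mem_maximalAtlas he hx).mdifferentiableAt (by simp)
  have h2 : MDifferentiableAt 𝓘(ℂ, Cn 2) 𝓘(ℂ, Fin 3 → ℂ) (hom i) (ch i (pt i y)) :=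
    hA.differentiableAt.mdifferentiableAt
  have h3 := mfderiv_comp (pt i y) h2 h1
  have h4 : diffAt ℂ (d := 2) (fun x => hom i (ch i x)) (pt i y) v =
      A (diffAt ℂ (d := 2) (ch i) (pt i y) v) := by
    unfold diffAt
    have h5 : (fun x => hom i (ch i x)) = hom i ∘ ch i := rfl
    rw [h5, h3, mfderiv_eq_fderiv, hA.fderiv]
    rfl
  rw [h4] at hc
  set w := diffAt ℂ (d := 2) (ch i) (pt i y) v with hw
  have hc0 : c = 0 := by
    have := congrFun hc i
    rw [hA1] at this
    simpa using this.symm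
  have hw0 : w = 0 := by
    ext k
    have := congrFun hc (i.succAbove k)
    rw [hA2, hc0] at this
    simpa using this
  exact diffAt_chart_injective he hx (by rw [← hw, hw0, map_zero])

theorem isProjectiveManifold_Pl : IsProjectiveManifold 2 Pl :=
  ⟨2, inc, isHolomorphicOnToPN_inc, inc_injective, inc_immersion⟩

end Plane

end Claimed.Open.R041
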