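/-
Result 041, sanity: the projective plane `Pl` is Hausdorff, compact and simply connected.
-/
import Claimed.Open.R041.PlaneDefs
import Claimed.Open.R041.K3Topology

open scoped Manifold ContDiff Topology
open Set

namespace Claimed.Open.R041

namespace Plane

/-- `∑ v_k \bar v_k`. -/
noncomputable def b_N (v : Fin 3 → ℂ) : ℂ := ∑ k, v k * (starRingEnd ℂ) (v k)

/-- The entries of the orthogonal projector onto `ℂ v`. -/
noncomputable def b_G (v : Fin 3 → ℂ) : Fin 3 → Fin 3 → ℂ := fun p q => v p * (starRingEnd ℂ) (v q) / b_N v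

theorem b_N_eq (v : Fin 3 → ℂ) : b_N v = ((∑ k, Complex.normSq (v k) : ℝ) : ℂ) := by
  unfold b_N
  push_cast
  exact Finset.sum_congr rfl fun k _ => Complex.mul_conj (v k)

theorem b_N_ne_zero {v : Fin 3 → ℂ} (hv : v ≠ 0) : b_N v ≠ 0 := by
  rw [b_N_eq]
  obtain ⟨k, hk⟩ := Function.ne_iff.mp hv
  have h : 0 < ∑ k, Complex.normSq (v k) :=
    Finset.sum_pos' (fun _ _ => Complex.normSq_nonneg _)
      ⟨k, Finset.mem_univ _, Complex.normSq_pos.mpr hk⟩
  exact_mod_cast h.ne'

theorem b_N_smul (a : ℂ) (v : Fin 3 → ℂ) : b_N (a • v) = (a * (starRingEnd ℂ) a) * b_N v := by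
  unfold b_N
  rw [Finset.mul_sum]
  refine Finset.sum_congr rfl fun k _ => ?_
  simp only [Pi.smul_apply, smul_eq_mul, map_mul]
  ring

theorem b_G_smul {a : ℂ} (ha : a ≠ 0) (v : Fin 3 → ℂ) : b_G (a • v) = b_G v := by
  funext p q
  unfold b_G
  rw [b_N_smul]
  simp only [Pi.smul_apply, smul_eq_mul, map_mul]
  have h : a * (starRingEnd ℂ) a ≠ 0 := mul_ne_zero ha ((map_ne_zero _).mpr ha)
  rw [show a * v p * ((starRingEnd ℂ) a * (starRingEnd ℂ) (v q)) =
    (a * (starRingEnd ℂ) a) * (v p * (starRingEnd ℂ) (v q)) by ring, mul_div_mul_left _ _ h]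

theorem b_G_inj {v w : Fin 3 → ℂ} (hv : v ≠ 0) (hw : w ≠ 0) (h : b_G v = b_G w) :
    ∃ a : ℂ, a ≠ 0 ∧ v = a • w := by
  obtain ⟨q, hq⟩ := Function.ne_iff.mp hw
  have hq' : w q ≠ 0 := hq
  have hNv := b_N_ne_zero hv
  have hNw := b_N_ne_zero hw
  have hpq : ∀ p, v p * (starRingEnd ℂ) (v q) / b_N v = w p * (starRingEnd ℂ) (w q) / b_N w :=
    fun p => congrFun (congrFun h p) q
  have hcw : (starRingEnd ℂ) (w q) ≠ 0 := (map_ne_zero _).mpr hq'
  have hvq : v q ≠ 0 := by
    intro h0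
    have h1 := hpq q
    rw [h0, zero_mul, zero_div] at h1
    exact div_ne_zero (mul_ne_zero hq' hcw) hNw h1.symm
  have hcv : (starRingEnd ℂ) (v q) ≠ 0 := (map_ne_zero _).mpr hvq
  refine ⟨(starRingEnd ℂ) (w q) * b_N v / (b_N w * (starRingEnd ℂ) (v q)),
    div_ne_zero (mul_ne_zero hcw hNv) (mul_ne_zero hNw hcv), ?_⟩
  funext p
  have h1 := hpq p
  simp only [Pi.smul_apply, smul_eq_mul]
  rw [div_eq_div_iff hNv hNw] at h1
  rw [div_mul_eq_mul_div, eq_div_iff (mul_ne_zero hNw hcv)]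
  linear_combination h1

theorem b_continuous_G_hom (i : Fin 3) : Continuous fun y : Cn 2 => b_G (hom i y) := by
  have hc : ∀ k, Continuous fun y : Cn 2 => hom i y k := fun k =>
    (continuous_apply k).comp (continuous_hom i)
  have hN : Continuous fun y : Cn 2 => b_N (hom i y) := by
    unfold b_N
    exact continuous_finsetSum _ fun k _ => (hc k).mul (Complex.continuous_conj.comp (hc k))
  refine continuous_pi fun p => continuous_pi fun q => ?_
  unfold b_G
  exact ((hc p).mul (Complex.continuous_conj.comp (hc q))).div hN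
    fun y => b_N_ne_zero (hom_ne_zero i y)

/-- The entries `v_a \bar v_b / ‖v‖²` of the orthogonal projector onto the line `ℂ v` define an injective continuous map `Pl → ℂ⁹`
(define it by `Φ x = G (exists_mkP x).choose`, `G v a b = v a * conj (v b) / ∑ k, ‖v k‖ ^ 2`, `G (a • v) = G v`; continuity at `pt i y`: on the open set
`(ch i).source` it is `(G ∘ hom i) ∘ ch i`); `T2Space.of_injective_continuous`.  Model: `Torus.instT2SpaceTor` in `TorusTop`. -/
instance instT2SpacePl : T2Space Pl := by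
  classical
  have hF : ∀ (v : Fin 3 → ℂ) (hv : v ≠ 0), b_G (exists_mkP (mkP v hv)).choose = b_G v := by
    intro v hv
    obtain ⟨hv', h⟩ := (exists_mkP (mkP v hv)).choose_spec
    obtain ⟨a, ha, hva⟩ := mkP_eq_mkP_iff.1 h
    conv_rhs => rw [hva]
    rw [b_G_smul ha]
  refine T2Space.of_injective_continuous (f := fun x : Pl => b_G (exists_mkP x).choose) ?_ ?_
  · intro x y hxy
    obtain ⟨v, hv, rfl⟩ := exists_mkP x
    obtain ⟨w, hw, rfl⟩ := exists_mkP y
    simp only [hF] at hxy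
    exact mkP_eq_mkP_iff.2 (b_G_inj hv hw hxy)
  · rw [continuous_iff_continuousAt]
    intro x
    obtain ⟨i, y, rfl⟩ := exists_pt x
    have hz : pt i y ∈ (ch i).source := pt_mem_ch_source i y
    have h1 : ContinuousAt (fun x : Pl => b_G (hom i (ch i x))) (pt i y) :=
      (b_continuous_G_hom i).continuousAt.comp ((ch i).continuousAt hz)
    refine h1.congr ?_
    filter_upwards [(ch i).open_source.mem_nhds hz] with x hx
    rw [← hF (hom i (ch i x)) (hom_ne_zero i _), ← pt_eq_mkP, pt_ch hx]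

/-- the closed unit polydisc of `ℂ²`. -/
def c_K : Set (Cn 2) := {y | ‖y 0‖ ≤ 1 ∧ ‖y 1‖ ≤ 1}

theorem c_isCompact_K : IsCompact c_K := by
  refine Metric.isCompact_of_isClosed_isBounded ?_ ?_
  · have h0 : Continuous fun y : Cn 2 => ‖y 0‖ := (EuclideanSpace.proj (𝕜 := ℂ) (0 : Fin 2)).continuous.norm
    have h1 : Continuous fun y : Cn 2 => ‖y 1‖ := (EuclideanSpace.proj (𝕜 := ℂ) (1 : Fin 2)).continuous.norm
    exact (isClosed_le h0 continuous_const).inter (isClosed_le h1 continuous_const)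
  · refine (Metric.isBounded_closedBall (x := (0 : Cn 2)) (r := 2)).subset fun y hy => ?_
    rw [mem_closedBall_zero_iff, EuclideanSpace.norm_eq, Fin.sum_univ_two]
    have h0 : ‖y 0‖ ^ 2 ≤ 1 := pow_le_one₀ (norm_nonneg _) hy.1
    have h1 : ‖y 1‖ ^ 2 ≤ 1 := pow_le_one₀ (norm_nonneg _) hy.2
    refine Real.sqrt_le_iff.2 ⟨by norm_num, by linarith⟩

theorem c_exists_pt_mem_K (x : Pl) : ∃ i, ∃ y ∈ c_K, pt i y = x := by
  obtain ⟨v, hv, rfl⟩ := exists_mkP x
  obtain ⟨i, hi⟩ := Finite.exists_max fun j : Fin 3 => ‖v j‖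
  have hvi : v i ≠ 0 := by
    intro h0
    apply hv
    funext j
    have := hi j
    rw [h0, norm_zero] at this
    exact norm_le_zero_iff.1 this
  have hpos : 0 < ‖v i‖ := norm_pos_iff.2 hvi
  refine ⟨i, aff i v, ⟨?_, ?_⟩, (mkP_eq_pt hvi).symm⟩
  · change ‖v (i.succAbove 0) / v i‖ ≤ 1
    rw [norm_div]
    exact (div_le_one hpos).2 (hi _)
  · change ‖v (i.succAbove 1) / v i‖ ≤ 1
    rw [norm_div]
    exact (div_le_one hpos).2 (hi _)

/-- `Pl` is the union of the images under `pt i` (`continuous_pt`) of the three closed unit polydiscs `{y | ‖y 0‖ ≤ 1 ∧ ‖y 1‖ ≤ 1}`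
(compact: closed and bounded in `Cn 2`): for `x = mkP v hv` take `i` with `‖v i‖` maximal, `mkP_eq_pt`.  Model: `Torus.instCompactSpaceTor` in `TorusTop`. -/
instance instCompactSpacePl : CompactSpace Pl := by
  refine ⟨?_⟩
  have : (univ : Set Pl) = ⋃ i : Fin 3, pt i '' c_K := by
    refine (eq_univ_of_forall fun x => ?_).symm
    obtain ⟨i, y, hy, rfl⟩ := c_exists_pt_mem_K x
    exact mem_iUnion.2 ⟨i, y, hy, rfl⟩
  rw [this]
  exact isCompact_iUnion fun i => c_isCompact_K.image (continuous_pt i)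

theorem d_isSimplyConnected_source (i : Fin 3) : IsSimplyConnected (ch i).source := by
  refine ((ch i).toHomeomorphSourceTarget.toHomotopyEquiv.simplyConnectedSpace_iff).2 ?_
  show IsSimplyConnected (ch i).target
  rw [ch_target]
  exact isSimplyConnected_of_starConvex (x := (0 : Cn 2)) (mem_univ _) (starConvex_univ _)

theorem d_continuous_mk2 : Continuous fun p : ℂ × ℂ => Kummer.mk2 p.1 p.2 := by
  simp only [Kummer.mk2_eq]
  fun_prop

theorem d_isPathConnected_C : IsPathConnected ({0}ᶜ : Set ℂ) :=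
  isPathConnected_compl_singleton_of_one_lt_rank
    (by rw [Complex.rank_real_complex]; exact Nat.one_lt_ofNat) 0

theorem d_isPathConnected_left : IsPathConnected {y : Cn 2 | y 0 ≠ 0} := by
  have h := (d_isPathConnected_C.prod (isPathConnected_univ (X := ℂ))).image d_continuous_mk2
  convert h using 1
  ext y
  constructor
  · intro hy
    exact ⟨(y 0, y 1), ⟨hy, mem_univ _⟩, Kummer.mk2_eta y⟩
  · rintro ⟨⟨a, b⟩, ⟨ha, -⟩, rfl⟩
    exact ha

theorem d_isPathConnected_right : IsPathConnected {y : Cn 2 | y 1 ≠ 0} := by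
  have h := ((isPathConnected_univ (X := ℂ)).prod d_isPathConnected_C).image d_continuous_mk2
  convert h using 1
  ext y
  constructor
  · intro hy
    exact ⟨(y 0, y 1), ⟨mem_univ _, hy⟩, Kummer.mk2_eta y⟩
  · rintro ⟨⟨a, b⟩, ⟨-, hb⟩, rfl⟩
    exact hb

theorem d_isPathConnected_either : IsPathConnected {y : Cn 2 | y 0 ≠ 0 ∨ y 1 ≠ 0} := by
  have h := d_isPathConnected_left.union d_isPathConnected_right
    ⟨Kummer.mk2 1 1, by simp, by simp⟩
  exact h

theorem d_hom_zero_one (y : Cn 2) : hom 0 y 1 = y 0 := hom_succAbove 0 y 0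

theorem d_hom_two_zero (y : Cn 2) : hom 2 y 0 = y 0 := hom_succAbove 2 y 0

theorem d_hom_two_one (y : Cn 2) : hom 2 y 1 = y 1 := hom_succAbove 2 y 1

theorem d_inter_01 : (ch 0).source ∩ (ch 1).source = pt 0 '' {y : Cn 2 | y 0 ≠ 0} := by
  ext x
  constructor
  · rintro ⟨h0, h1⟩
    refine ⟨ch 0 x, ?_, pt_ch h0⟩
    rw [← pt_ch h0, pt_mem_ch_source_iff, d_hom_zero_one] at h1
    exact h1
  · rintro ⟨y, hy, rfl⟩
    refine ⟨pt_mem_ch_source 0 y, ?_⟩
    rw [pt_mem_ch_source_iff, d_hom_zero_one]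
    exact hy

theorem d_inter_012 : ((ch 0).source ∪ (ch 1).source) ∩ (ch 2).source =
    pt 2 '' {y : Cn 2 | y 0 ≠ 0 ∨ y 1 ≠ 0} := by
  ext x
  constructor
  · rintro ⟨h01, h2⟩
    refine ⟨ch 2 x, ?_, pt_ch h2⟩
    rcases h01 with h | h
    · rw [← pt_ch h2, pt_mem_ch_source_iff, d_hom_two_zero] at h
      exact Or.inl h
    · rw [← pt_ch h2, pt_mem_ch_source_iff, d_hom_two_one] at h
      exact Or.inr h
  · rintro ⟨y, hy, rfl⟩
    refine ⟨?_, pt_mem_ch_source 2 y⟩
    rcases hy with h | h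
    · left
      rw [pt_mem_ch_source_iff, d_hom_two_zero]
      exact h
    · right
      rw [pt_mem_ch_source_iff, d_hom_two_one]
      exact h

theorem d_union : ((ch 0).source ∪ (ch 1).source) ∪ (ch 2).source = univ := by
  refine eq_univ_of_forall fun x => ?_
  obtain ⟨i, y, rfl⟩ := exists_pt x
  have h := pt_mem_ch_source i y
  fin_cases i
  · exact Or.inl (Or.inl h)
  · exact Or.inl (Or.inr h)
  · exact Or.inr h

/-- `isSimplyConnected_union` (K3Topology) twice: `U_i = (ch i).source` is homeomorphic to `ℂ²` (as in `Kummer.isSimplyConnected_chA_source`, K3Simply, with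
`isSimplyConnected_of_starConvex`); `U₀ ∩ U₁ = pt 0 '' {y | y 0 ≠ 0}` and `(U₀ ∪ U₁) ∩ U₂ = pt 2 '' {y | y ≠ 0}` are path connected (`pt_mem_ch_source_iff`;
`isPathConnected_compl_singleton_of_one_lt_rank`, `isPathConnected_compl_of_one_lt_codim` or by hand); `U₀ ∪ U₁ ∪ U₂ = univ`;
`simplyConnectedSpace_of_isSimplyConnected_univ`. -/
instance instSimplyConnectedSpacePl : SimplyConnectedSpace Pl := by
  have h01 : IsSimplyConnected ((ch 0).source ∪ (ch 1).source) := by
    refine isSimplyConnected_union (ch 0).open_source (ch 1).open_source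
      (d_isSimplyConnected_source 0) (d_isSimplyConnected_source 1) ?_
    rw [d_inter_01]
    exact d_isPathConnected_left.image (continuous_pt 0)
  have h012 : IsSimplyConnected (((ch 0).source ∪ (ch 1).source) ∪ (ch 2).source) := by
    refine isSimplyConnected_union ((ch 0).open_source.union (ch 1).open_source) (ch 2).open_source
      h01 (d_isSimplyConnected_source 2) ?_
    rw [d_inter_012]
    exact d_isPathConnected_either.image (continuous_pt 2)
  rw [d_union] at h012
  exact simplyConnectedSpace_of_isSimplyConnected_univ h012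

end Plane

end Claimed.Open.R041
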