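/-
Sanity checks for `ProjVariety.IsNormal` and `AreIsomorphic` (result 041): a NON-example.

The cuspidal cubic `C : x₀ x₁² = x₂³` in `ℙ²` is a projective curve in the sense of `ProjVariety` (`cusp`,
`cusp_hasDim`).  Checked here:
* `cusp_not_isNormal`: `C` is not normal in the sense of `ProjVariety.IsNormal` (the coordinate ring of the
  chart `x₀ = 1` is `ℂ[t², t³]`, and `t` is integral over it);
* `isRegularOn_cuspParam`, `bijOn_cuspParam`: `[s : t] ↦ [s³ : t³ : s t²]` is a regular map which is a bijection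
  from `ℙ¹` onto `C`;
* `cusp_not_areIsomorphic`: nevertheless `C` is NOT isomorphic to `ℙ¹` in the sense of `AreIsomorphic`.
So the conclusion `AreIsomorphic B.points Set.univ` of `ProjectiveSpaceBase` says more than "there is a
bijective (or homeomorphic) regular map", and the hypothesis `B.IsNormal` excludes something.
-/
import Claimed.Open.R041.SanityProj

open MvPolynomial

namespace Claimed.Open.R041

/-! ## 1. The cuspidal cubic `x₀ x₁² = x₂³` -/

/-- The form `x₀ x₁² - x₂³`. -/
noncomputable def cuspForm : MvPolynomial (Fin 3) ℂ := X 0 * X 1 ^ 2 - X 2 ^ 3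

theorem cuspForm_isHomogeneous : cuspForm.IsHomogeneous 3 :=
  ((isHomogeneous_X ℂ 0).mul ((isHomogeneous_X ℂ 1).pow 2)).sub ((isHomogeneous_X ℂ 2).pow 3)

theorem cuspForm_prime : Prime cuspForm := by
  have h := prime_linear_in_X0 (n := 2) (a := X 0 ^ 2) (b := -(X 1) ^ 3)
    (pow_ne_zero _ (X_ne_zero _)) (isRelPrime_X_X.pow.neg_right)
  have e : (X 0 * rename Fin.succ (X 0 ^ 2) + rename Fin.succ (-(X 1) ^ 3) :
      MvPolynomial (Fin 3) ℂ) = cuspForm := by
    simp only [rename_X, map_neg, map_pow, cuspForm]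
    rw [sub_eq_add_neg]
    rfl
  rwa [e] at h

/-- The cuspidal cubic curve `x₀ x₁² = x₂³` in `ℙ²`. -/
noncomputable def cusp : ProjVariety 2 :=
  hypersurface cuspForm cuspForm_isHomogeneous cuspForm_prime

theorem cusp_hasDim : cusp.HasDim 1 := hypersurface_hasDim _ _ _

theorem mk_mem_cusp (v : Fin 3 → ℂ) (hv : v ≠ 0) :
    Projectivization.mk ℂ v hv ∈ cusp.points ↔ v 0 * v 1 ^ 2 = v 2 ^ 3 := by
  rw [cusp, mk_mem_hypersurface_points]
  simp [cuspForm, sub_eq_zero]

/-! ## 2. The cuspidal cubic is not normal -/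

section NotNormal

open Polynomial in
/-- Even and odd parts: `A(t²) + t³ B(t²) = 0` forces `A = B = 0`. -/
theorem expand_add_eq_zero {A B : Polynomial ℂ}
    (h : expand ℂ 2 A + Polynomial.X ^ 3 * expand ℂ 2 B = 0) : A = 0 ∧ B = 0 := by
  constructor
  · ext k
    have := congrArg (fun p => Polynomial.coeff p (2 * k)) h
    simp only [Polynomial.coeff_add, coeff_expand_mul' (by norm_num : 0 < 2), coeff_X_pow_mul',
      Polynomial.coeff_zero] at this
    rw [coeff_expand (by norm_num : 0 < 2)] at this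
    have h2 : ¬ (2 ∣ 2 * k - 3 ∧ 3 ≤ 2 * k) := by omega
    by_cases h3 : 3 ≤ 2 * k
    · rw [if_pos h3, if_neg (fun hd => h2 ⟨hd, h3⟩), add_zero] at this
      simpa using this
    · rw [if_neg h3, add_zero] at this
      simpa using this
  · ext k
    have := congrArg (fun p => Polynomial.coeff p (2 * k + 3)) h
    simp only [Polynomial.coeff_add, coeff_X_pow_mul, Polynomial.coeff_zero,
      coeff_expand_mul' (by norm_num : 0 < 2)] at this
    rw [coeff_expand (by norm_num : 0 < 2), if_neg (by omega), zero_add] at this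
    simpa using this

/-- The ideal of the affine chart `x₀ = 1` of the cuspidal cubic. -/
noncomputable def cuspChartIdeal : Ideal (MvPolynomial (Fin 3) ℂ) :=
  cusp.ideal ⊔ Ideal.span {X 0 - 1}

/-- The parametrisation `(x₀, x₁, x₂) = (1, t³, t²)` of the affine chart. -/
noncomputable def cuspChartParam : MvPolynomial (Fin 3) ℂ →ₐ[ℂ] Polynomial ℂ :=
  aeval ![1, Polynomial.X ^ 3, Polynomial.X ^ 2]

theorem cuspChartIdeal_le_ker : ∀ P ∈ cuspChartIdeal, cuspChartParam P = 0 := by
  intro P hP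
  have : cuspChartIdeal ≤ RingHom.ker cuspChartParam.toRingHom := by
    refine sup_le ?_ ?_
    · show Ideal.span {cuspForm} ≤ _
      rw [Ideal.span_singleton_le_iff_mem, RingHom.mem_ker]
      simp [cuspChartParam, cuspForm]
      ring
    · rw [Ideal.span_singleton_le_iff_mem, RingHom.mem_ker]
      simp [cuspChartParam]
  exact this hP

/-- The induced map from the coordinate ring of the chart to `ℂ[t]`. -/
noncomputable def cuspChartMap : (MvPolynomial (Fin 3) ℂ ⧸ cuspChartIdeal) →+* Polynomial ℂ :=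
  Ideal.Quotient.lift cuspChartIdeal cuspChartParam.toRingHom cuspChartIdeal_le_ker

local notation "Rc" => (MvPolynomial (Fin 3) ℂ ⧸ cuspChartIdeal)

/-- The classes of `x₂` and `x₁` in the coordinate ring of the chart. -/
noncomputable def cuspX : Rc := Ideal.Quotient.mk cuspChartIdeal (X 2)
noncomputable def cuspY : Rc := Ideal.Quotient.mk cuspChartIdeal (X 1)

theorem cusp_mk_X0 : Ideal.Quotient.mk cuspChartIdeal (X 0) = 1 := by
  rw [← map_one (Ideal.Quotient.mk cuspChartIdeal), Ideal.Quotient.eq]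
  exact Ideal.mem_sup_right (Ideal.mem_span_singleton_self _)

theorem cuspY_sq : cuspY ^ 2 = cuspX ^ 3 := by
  have h : Ideal.Quotient.mk cuspChartIdeal cuspForm = 0 :=
    Ideal.Quotient.eq_zero_iff_mem.2 (Ideal.mem_sup_left (Ideal.mem_span_singleton_self _))
  rw [cuspForm, map_sub, map_mul, cusp_mk_X0, one_mul, map_pow, map_pow, sub_eq_zero] at h
  exact h

/-- Normal form: every element of the coordinate ring is `A(x) + y B(x)`. -/
theorem cusp_normalForm (r : Rc) : ∃ A B : Polynomial ℂ,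
    r = Polynomial.aeval cuspX A + cuspY * Polynomial.aeval cuspX B := by
  obtain ⟨P, rfl⟩ := Ideal.Quotient.mk_surjective r
  induction P using MvPolynomial.induction_on with
  | C c =>
    refine ⟨Polynomial.C c, 0, ?_⟩
    simp
    rfl
  | add p q hp hq =>
    obtain ⟨A, B, h⟩ := hp
    obtain ⟨A', B', h'⟩ := hq
    refine ⟨A + A', B + B', ?_⟩
    rw [map_add, h, h', map_add, map_add]
    ring
  | mul_X p i hp =>
    obtain ⟨A, B, h⟩ := hp
    rw [map_mul, h]
    fin_cases i
    · exact ⟨A, B, by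
        show _ * Ideal.Quotient.mk cuspChartIdeal (X 0) = _
        rw [cusp_mk_X0, mul_one]⟩
    · refine ⟨Polynomial.X ^ 3 * B, A, ?_⟩
      show _ * cuspY = _
      rw [map_mul, map_pow, Polynomial.aeval_X, ← cuspY_sq]
      ring
    · refine ⟨A * Polynomial.X, B * Polynomial.X, ?_⟩
      show _ * cuspX = _
      rw [map_mul, map_mul, Polynomial.aeval_X]
      ring

theorem cuspChartMap_X : cuspChartMap cuspX = Polynomial.X ^ 2 := by
  simp [cuspChartMap, cuspX, cuspChartParam]

theorem cuspChartMap_Y : cuspChartMap cuspY = Polynomial.X ^ 3 := by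
  simp [cuspChartMap, cuspY, cuspChartParam]

theorem cuspChartMap_aeval (A : Polynomial ℂ) :
    cuspChartMap (Polynomial.aeval cuspX A) = Polynomial.expand ℂ 2 A := by
  induction A using Polynomial.induction_on' with
  | add p q hp hq => rw [map_add, map_add, hp, hq, map_add]
  | monomial n a =>
    rw [Polynomial.aeval_monomial, map_mul, map_pow, cuspChartMap_X, Polynomial.expand_monomial]
    have h : cuspChartMap (algebraMap ℂ Rc a) = Polynomial.C a := by
      have : algebraMap ℂ Rc a = Ideal.Quotient.mk cuspChartIdeal (C a) := rfl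
      rw [this]
      simp [cuspChartMap, cuspChartParam]
    rw [h, ← pow_mul, mul_comm 2 n, Polynomial.C_mul_X_pow_eq_monomial]

theorem cuspChartMap_injective : Function.Injective cuspChartMap := by
  rw [injective_iff_map_eq_zero]
  intro r hr
  obtain ⟨A, B, rfl⟩ := cusp_normalForm r
  rw [map_add, map_mul, cuspChartMap_aeval, cuspChartMap_aeval, cuspChartMap_Y] at hr
  obtain ⟨rfl, rfl⟩ := expand_add_eq_zero hr
  simp

/-- No element of the coordinate ring is mapped to `t`: the image is `ℂ[t², t³]`. -/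
theorem cuspChartMap_coeff_one (r : Rc) : (cuspChartMap r).coeff 1 = 0 := by
  obtain ⟨A, B, rfl⟩ := cusp_normalForm r
  rw [map_add, map_mul, cuspChartMap_aeval, cuspChartMap_aeval, cuspChartMap_Y,
    Polynomial.coeff_add, Polynomial.coeff_X_pow_mul', Polynomial.coeff_expand (by norm_num)]
  simp

theorem X0_notMem_cusp_ideal : (X 0 : MvPolynomial (Fin 3) ℂ) ∉ cusp.ideal := by
  intro h
  obtain ⟨Q, hQ⟩ := Ideal.mem_span_singleton'.1 h
  have := congrArg (eval (fun _ => (1 : ℂ))) hQ
  simp [cuspForm] at this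

/-- **The cuspidal cubic is not normal** in the sense of `ProjVariety.IsNormal`: in the chart
`x₀ = 1` the function `t = x₁ / x₂` is integral over the coordinate ring (`t² = x₂`) but does not
belong to it. -/
theorem cusp_not_isNormal : ¬ cusp.IsNormal := by
  intro h
  have h0 : IsIntegrallyClosed Rc := h 0 X0_notMem_cusp_ideal
  have hdom : IsDomain Rc := cuspChartMap_injective.isDomain cuspChartMap
  have hdvd : cuspX ^ 2 ∣ cuspY ^ 2 := ⟨cuspX, by rw [cuspY_sq]; ring⟩
  obtain ⟨r, hr⟩ := (IsIntegrallyClosed.pow_dvd_pow_iff two_ne_zero).1 hdvd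
  have h1 := congrArg cuspChartMap hr
  rw [map_mul, cuspChartMap_X, cuspChartMap_Y] at h1
  have h2 : cuspChartMap r = Polynomial.X := by
    have : (Polynomial.X : Polynomial ℂ) ^ 2 * Polynomial.X = Polynomial.X ^ 2 * cuspChartMap r := by
      rw [← h1]; ring
    exact (mul_left_cancel₀ (pow_ne_zero 2 Polynomial.X_ne_zero) this).symm
  have h3 := cuspChartMap_coeff_one r
  rw [h2] at h3
  simp at h3

end NotNormal

/-! ## 3. A bijective regular map `ℙ¹ → C` -/

section Param

/-- The forms `s³, t³, s t²`. -/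
noncomputable def cuspParamForms : Fin 3 → MvPolynomial (Fin 2) ℂ :=
  ![X 0 ^ 3, X 1 ^ 3, X 0 * X 1 ^ 2]

theorem cuspParamForms_isHomogeneous (k : Fin 3) : (cuspParamForms k).IsHomogeneous 3 := by
  fin_cases k
  · exact (isHomogeneous_X ℂ 0).pow 3
  · exact (isHomogeneous_X ℂ 1).pow 3
  · exact (isHomogeneous_X ℂ 0).mul ((isHomogeneous_X ℂ 1).pow 2)

theorem eval_cuspParamForms (v : Fin 2 → ℂ) :
    (fun k => eval v (cuspParamForms k)) = ![v 0 ^ 3, v 1 ^ 3, v 0 * v 1 ^ 2] := by
  funext k; fin_cases k <;> simp [cuspParamForms]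

theorem cuspParam_ne_zero {v : Fin 2 → ℂ} (hv : v ≠ 0) :
    (fun k => eval v (cuspParamForms k)) ≠ 0 := by
  rw [eval_cuspParamForms]
  intro h
  apply hv
  have h0 := congrFun h 0
  have h1 := congrFun h 1
  simp at h0 h1
  funext k; fin_cases k
  · exact h0
  · exact h1

/-- The normalisation map `ℙ¹ → C`, `[s : t] ↦ [s³ : t³ : s t²]`. -/
noncomputable def cuspParam : PN 1 → PN 2 := polyMap cuspParamForms

theorem cuspParam_mk (v : Fin 2 → ℂ) (hv : v ≠ 0) :
    cuspParam (Projectivization.mk ℂ v hv) =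
      Projectivization.mk ℂ _ (cuspParam_ne_zero hv) :=
  polyMap_mk cuspParamForms_isHomogeneous v hv _

theorem isRegularOn_cuspParam : IsRegularOn Set.univ cuspParam :=
  isRegularOn_polyMap cuspParamForms_isHomogeneous _ fun a _ => cuspParam_ne_zero a.rep_nonzero

/-- The normalisation map is a bijection from `ℙ¹` onto the cuspidal cubic. -/
theorem bijOn_cuspParam : Set.BijOn cuspParam Set.univ cusp.points := by
  refine ⟨?_, ?_, ?_⟩
  · intro p _
    induction p using Projectivization.ind with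
    | h v hv =>
    rw [cuspParam_mk, mk_mem_cusp]
    simp [cuspParamForms]; ring
  · intro p _ p' _ h
    induction p using Projectivization.ind with
    | h v hv =>
    induction p' using Projectivization.ind with
    | h v' hv' =>
    rw [cuspParam_mk, cuspParam_mk] at h
    obtain ⟨c, hc⟩ := (Projectivization.mk_eq_mk_iff' ℂ _ _ _ _).1 h
    rw [eval_cuspParamForms, eval_cuspParamForms] at hc
    have h0 : c * v' 0 ^ 3 = v 0 ^ 3 := by simpa using congrFun hc 0
    have h1 : c * v' 1 ^ 3 = v 1 ^ 3 := by simpa using congrFun hc 1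
    have h2 : c * (v' 0 * v' 1 ^ 2) = v 0 * v 1 ^ 2 := by simpa using congrFun hc 2
    by_cases ht : v 1 = 0
    · have hs : v 0 ≠ 0 := by
        intro hs
        apply hv
        funext k; fin_cases k
        · exact hs
        · exact ht
      have hc0 : c ≠ 0 := by
        rintro rfl
        rw [zero_mul] at h0
        exact hs (pow_eq_zero_iff three_ne_zero |>.1 h0.symm)
      have ht' : v' 1 = 0 := by
        rw [ht] at h1
        have : v' 1 ^ 3 = 0 := (mul_eq_zero.1 (h1.trans (by simp))).resolve_left hc0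
        exact pow_eq_zero_iff three_ne_zero |>.1 this
      have hs' : v' 0 ≠ 0 := by
        intro hs'
        apply hv'
        funext k; fin_cases k
        · exact hs'
        · exact ht'
      refine (Projectivization.mk_eq_mk_iff' ℂ _ _ _ _).2 ⟨v 0 / v' 0, ?_⟩
      funext k; fin_cases k
      · simp; field_simp
      · simp [ht, ht']
    · have ht' : v' 1 ≠ 0 := by
        intro ht'
        rw [ht'] at h1
        exact ht (pow_eq_zero_iff three_ne_zero |>.1 (h1.symm.trans (by simp)))
      refine (Projectivization.mk_eq_mk_iff' ℂ _ _ _ _).2 ⟨v 1 / v' 1, ?_⟩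
      funext k; fin_cases k
      · simp only [Fin.zero_eta, Pi.smul_apply, smul_eq_mul]
        have : v 1 ^ 2 * (v 1 * v' 0 - v 0 * v' 1) = 0 := by
          linear_combination (-v' 0) * h1 + v' 1 * h2
        have h3 := (mul_eq_zero.1 this).resolve_left (pow_ne_zero 2 ht)
        field_simp
        linear_combination h3
      · simp; field_simp
  · intro a ha
    induction a using Projectivization.ind with
    | h w hw =>
    rw [mk_mem_cusp] at ha
    by_cases h1 : w 1 = 0
    · have h2 : w 2 = 0 := by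
        rw [h1] at ha
        exact pow_eq_zero_iff three_ne_zero |>.1 (ha.symm.trans (by simp))
      have h0 : w 0 ≠ 0 := by
        intro h0
        apply hw
        funext k; fin_cases k
        · exact h0
        · exact h1
        · exact h2
      have hv : (![1, 0] : Fin 2 → ℂ) ≠ 0 :=
        fun h => (one_ne_zero : (1 : ℂ) ≠ 0) (by simpa using congrFun h 0)
      refine ⟨Projectivization.mk ℂ ![1, 0] hv, trivial, ?_⟩
      rw [cuspParam_mk]
      refine (Projectivization.mk_eq_mk_iff' ℂ _ _ _ _).2 ⟨(w 0)⁻¹, ?_⟩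
      rw [eval_cuspParamForms]
      funext k; fin_cases k
      · simp [h0]
      · simp [h1]
      · simp [h2]
    · have hv : (![w 2, w 1] : Fin 2 → ℂ) ≠ 0 := fun h => h1 (by simpa using congrFun h 1)
      refine ⟨Projectivization.mk ℂ ![w 2, w 1] hv, trivial, ?_⟩
      rw [cuspParam_mk]
      refine (Projectivization.mk_eq_mk_iff' ℂ _ _ _ _).2 ⟨w 1 ^ 2, ?_⟩
      rw [eval_cuspParamForms]
      funext k; fin_cases k
      · simp; linear_combination ha
      · simp; ring
      · simp; ring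

end Param

/-! ## 4. The cuspidal cubic is not isomorphic to `ℙ¹` -/

section General

/-- A form of degree `k` satisfies `P(c v) = c^k P(v)`, with values in any `ℂ`-algebra. -/
theorem aeval_smul_of_isHomogeneous {σ : Type} [Fintype σ] {A : Type} [CommRing A] [Algebra ℂ A]
    {P : MvPolynomial σ ℂ} {k : ℕ} (hP : P.IsHomogeneous k) (c : A) (v : σ → A) :
    aeval (c • v) P = c ^ k * aeval v P := by
  rw [aeval_def, aeval_def, eval₂_eq', eval₂_eq', Finset.mul_sum]
  refine Finset.sum_congr rfl fun m hm => ?_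
  have hk : ∑ i, m i = k := by
    have := hP (mem_support_iff.1 hm)
    rw [← this, Finsupp.weight_apply, Finsupp.sum_fintype _ _ (by simp)]
    simp
  simp only [Pi.smul_apply, smul_eq_mul, mul_pow, Finset.prod_mul_distrib,
    Finset.prod_pow_eq_pow_sum, hk]
  ring

/-- The local expression of a regular map may be evaluated on any representative. -/
theorem regular_apply_mk {M N D : ℕ} {A : Set (PN M)} {φ : PN M → PN N}
    {P : Fin (N + 1) → MvPolynomial (Fin (M + 1)) ℂ} (hP : ∀ k, (P k).IsHomogeneous D)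
    (h : ∀ a' ∈ A, ∀ h : (fun k => eval a'.rep (P k)) ≠ 0, φ a' = Projectivization.mk ℂ _ h)
    (v : Fin (M + 1) → ℂ) (hv : v ≠ 0) (hA : Projectivization.mk ℂ v hv ∈ A)
    (h' : (fun k => eval v (P k)) ≠ 0) :
    φ (Projectivization.mk ℂ v hv) = Projectivization.mk ℂ _ h' := by
  obtain ⟨a, ha⟩ := Projectivization.exists_smul_eq_mk_rep ℂ v hv
  have key : (fun k => eval (Projectivization.mk ℂ v hv).rep (P k)) =
      ((a : ℂ) ^ D) • fun k => eval v (P k) := by
    funext k
    rw [← ha, Units.smul_def, eval_smul_of_isHomogeneous (hP k)]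
    rfl
  have h'' : (fun k => eval (Projectivization.mk ℂ v hv).rep (P k)) ≠ 0 := by
    rw [key]; exact smul_ne_zero (pow_ne_zero _ a.ne_zero) h'
  rw [h _ hA h'', ← polyMap_mk hP v hv h', polyMap, dif_pos h'']

end General

section Multiplicity

open Polynomial in
/-- A polynomial arc `(z, y, x)` on the cone `z y² = x³` through the cusp (`x(0) = y(0) = 0`,
`z(0) ≠ 0`) has vanishing first order terms in `x` and `y`. -/
theorem cusp_arc {x y z : Polynomial ℂ} (h : z * y ^ 2 = x ^ 3) (hz : z.coeff 0 ≠ 0)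
    (hx : x.coeff 0 = 0) (hy : y.coeff 0 = 0) :
    (Polynomial.X ^ 2 ∣ x) ∧ (Polynomial.X ^ 2 ∣ y) := by
  obtain ⟨x₁, rfl⟩ := Polynomial.X_dvd_iff.2 hx
  obtain ⟨y₁, rfl⟩ := Polynomial.X_dvd_iff.2 hy
  have hX : (Polynomial.X : Polynomial ℂ) ≠ 0 := Polynomial.X_ne_zero
  have h1 : z * y₁ ^ 2 = Polynomial.X * x₁ ^ 3 := by
    have : (Polynomial.X : Polynomial ℂ) ^ 2 * (z * y₁ ^ 2) = Polynomial.X ^ 2 * (Polynomial.X * x₁ ^ 3) := by
      linear_combination h
    exact mul_left_cancel₀ (pow_ne_zero 2 hX) this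
  have hy1 : y₁.coeff 0 = 0 := by
    have := congrArg (fun p => Polynomial.coeff p 0) h1
    simp only [Polynomial.mul_coeff_zero, Polynomial.coeff_X_zero, zero_mul, pow_two] at this
    rcases mul_eq_zero.1 this with h0 | h0
    · exact absurd h0 hz
    · exact mul_self_eq_zero.1 h0
  obtain ⟨y₂, rfl⟩ := Polynomial.X_dvd_iff.2 hy1
  have h2 : Polynomial.X * (z * y₂ ^ 2) = x₁ ^ 3 := by
    have : (Polynomial.X : Polynomial ℂ) * (Polynomial.X * (z * y₂ ^ 2)) = Polynomial.X * x₁ ^ 3 := by
      linear_combination h1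
    exact mul_left_cancel₀ hX this
  have hx1 : x₁.coeff 0 = 0 := by
    have := congrArg (fun p => Polynomial.coeff p 0) h2
    simp only [Polynomial.mul_coeff_zero, Polynomial.coeff_X_zero, zero_mul] at this
    have h3 : (x₁ ^ 3).coeff 0 = x₁.coeff 0 ^ 3 := by
      simp [Polynomial.coeff_zero_eq_eval_zero]
    rw [h3] at this
    exact pow_eq_zero_iff (three_ne_zero) |>.1 this.symm
  obtain ⟨x₂, rfl⟩ := Polynomial.X_dvd_iff.2 hx1
  exact ⟨⟨x₂, by ring⟩, ⟨y₂, by ring⟩⟩

end Multiplicity


section NotIso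

open DualNumber in
/-- **The cuspidal cubic is not isomorphic to `ℙ¹`** in the sense of `AreIsomorphic`. -/
theorem cusp_not_areIsomorphic : ¬ AreIsomorphic cusp.points (Set.univ : Set (PN 1)) := by
  rintro ⟨φ, ψ, hφ, hψ, -, hψC, hψφ, hφψ⟩
  -- the cusp point
  have hv0 : (![1, 0, 0] : Fin 3 → ℂ) ≠ 0 := fun h => (one_ne_zero : (1 : ℂ) ≠ 0) (by simpa using congrFun h 0)
  obtain ⟨p₀, hp₀⟩ : ∃ p₀ : PN 2, p₀ = Projectivization.mk ℂ ![1, 0, 0] hv0 := ⟨_, rfl⟩
  have hp₀C : p₀ ∈ cusp.points := by rw [hp₀, mk_mem_cusp]; simp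
  have hq₀ : ψ (φ p₀) = p₀ := hψφ p₀ hp₀C
  obtain ⟨e, Q, hQ, hQ0, hQψ⟩ := hψ (φ p₀) trivial
  obtain ⟨D, G, hG, hG0, hGφ⟩ := hφ p₀ hp₀C
  obtain ⟨u, hu⟩ : ∃ u, u = (φ p₀).rep := ⟨_, rfl⟩
  rw [← hu] at hQ0
  have hu0 : u ≠ 0 := hu ▸ (φ p₀).rep_nonzero
  -- a second vector, independent of `u`
  obtain ⟨w, hδ⟩ : ∃ w : Fin 2 → ℂ, u 0 * w 1 - u 1 * w 0 ≠ 0 := by
    by_cases h0 : u 0 = 0
    · refine ⟨![1, 0], ?_⟩
      have h1 : u 1 ≠ 0 := by
        intro h1
        apply hu0
        funext k; fin_cases k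
        · exact h0
        · exact h1
      simpa [h0] using h1
    · exact ⟨![0, 1], by simpa using h0⟩
  -- the values of `G` at the cusp
  have hγ : ¬ (eval ![1, 0, 0] (G 0) = 0 ∧ eval ![1, 0, 0] (G 1) = 0) := by
    rintro ⟨h0, h1⟩
    apply hG0
    obtain ⟨a, ha⟩ := Projectivization.exists_smul_eq_mk_rep ℂ ![1, 0, 0] hv0
    rw [hp₀, ← ha, Units.smul_def]
    funext k
    rw [eval_smul_of_isHomogeneous (hG k)]
    fin_cases k
    · simp [h0]
    · simp [h1]
  -- the values of `Q` at `u`
  have hQu : ψ (φ p₀) = Projectivization.mk ℂ _ hQ0 := by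
    have := hQψ (φ p₀) trivial (hu ▸ hQ0)
    rw [this]
    exact mk_congr (by rw [hu]) _ _
  rw [hq₀, hp₀] at hQu
  obtain ⟨c, hc⟩ := (Projectivization.mk_eq_mk_iff' ℂ _ _ _ _).1 hQu
  have hc0 : c * eval u (Q 0) = 1 := by simpa using congrFun hc 0
  have hc1 : c * eval u (Q 1) = 0 := by simpa using congrFun hc 1
  have hc2 : c * eval u (Q 2) = 0 := by simpa using congrFun hc 2
  have hcne : c ≠ 0 := fun h => by simp [h] at hc0
  have hz0 : eval u (Q 0) ≠ 0 := fun h => by simp [h] at hc0
  have hy0 : eval u (Q 1) = 0 := (mul_eq_zero.1 hc1).resolve_left hcne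
  have hx0 : eval u (Q 2) = 0 := (mul_eq_zero.1 hc2).resolve_left hcne
  -- the line through `u` in the direction `w`
  let L : ℂ → Fin 2 → ℂ := fun τ i => u i + w i * τ
  have hL : ∀ τ, L τ ≠ 0 := by
    intro τ h
    apply hδ
    have h0 : u 0 + w 0 * τ = 0 := congrFun h 0
    have h1 : u 1 + w 1 * τ = 0 := congrFun h 1
    linear_combination w 1 * h0 - w 0 * h1
  let ℓ : Fin 2 → Polynomial ℂ := fun i => Polynomial.C (u i) + Polynomial.C (w i) * Polynomial.X
  let zyx : Fin 3 → Polynomial ℂ := fun k => aeval ℓ (Q k)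
  let g : Fin 2 → Polynomial ℂ := fun i => aeval zyx (G i)
  have hzyx : ∀ τ k, (zyx k).eval τ = eval (L τ) (Q k) := by
    intro τ k
    have := comp_aeval_apply (f := ℓ) (Polynomial.aeval τ : Polynomial ℂ →ₐ[ℂ] ℂ) (Q k)
    simp only [Polynomial.coe_aeval_eq_eval] at this
    rw [this]
    simp [ℓ, L, aeval_eq_eval]
  have hg : ∀ τ i, (g i).eval τ = eval (fun k => eval (L τ) (Q k)) (G i) := by
    intro τ i
    have := comp_aeval_apply (f := zyx) (Polynomial.aeval τ : Polynomial ℂ →ₐ[ℂ] ℂ) (G i)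
    simp only [Polynomial.coe_aeval_eq_eval] at this
    rw [this]
    simp [hzyx, aeval_eq_eval]
  have hψL : ∀ τ (h : (fun k => eval (L τ) (Q k)) ≠ 0),
      ψ (Projectivization.mk ℂ (L τ) (hL τ)) = Projectivization.mk ℂ _ h := fun τ h =>
    regular_apply_mk hQ hQψ (L τ) (hL τ) trivial h
  -- the arc lies on the cone over the cuspidal cubic
  have hcone : zyx 0 * zyx 1 ^ 2 = zyx 2 ^ 3 := by
    apply Polynomial.funext
    intro τ
    simp only [Polynomial.eval_mul, Polynomial.eval_pow, hzyx]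
    by_cases h : (fun k => eval (L τ) (Q k)) ≠ 0
    · have := hψC (Set.mem_univ (Projectivization.mk ℂ (L τ) (hL τ)))
      rw [hψL τ h, mk_mem_cusp] at this
      exact this
    · rw [not_not] at h
      have h0 := congrFun h 0
      have h2 := congrFun h 2
      simp only [Pi.zero_apply] at h0 h2
      rw [h0, h2]; simp
  have hL0 : L 0 = u := by funext i; simp [L]
  have hcoeff : ∀ k, (zyx k).coeff 0 = eval u (Q k) := by
    intro k
    rw [Polynomial.coeff_zero_eq_eval_zero, hzyx, hL0]
  obtain ⟨⟨x₂, hx₂⟩, ⟨y₂, hy₂⟩⟩ := cusp_arc hcone (by rw [hcoeff]; exact hz0)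
    (by rw [hcoeff]; exact hx0) (by rw [hcoeff]; exact hy0)
  -- `φ ∘ ψ = id` along the arc
  have hz_ne : zyx 0 ≠ 0 := by
    intro h
    have := hcoeff 0
    rw [h] at this
    exact hz0 (by simpa using this.symm)
  have hid : g 0 * ℓ 1 = g 1 * ℓ 0 := by
    have : zyx 0 * (g 0 * ℓ 1 - g 1 * ℓ 0) = 0 := by
      apply Polynomial.funext
      intro τ
      simp only [Polynomial.eval_mul, Polynomial.eval_sub, Polynomial.eval_zero, hzyx, hg]
      by_cases hz : eval (L τ) (Q 0) = 0
      · rw [hz, zero_mul]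
      · have hQL : (fun k => eval (L τ) (Q k)) ≠ 0 := fun h => hz (congrFun h 0)
        by_cases hGL : (fun i => eval (fun k => eval (L τ) (Q k)) (G i)) ≠ 0
        · have h1 := hφψ (Projectivization.mk ℂ (L τ) (hL τ)) trivial
          have h2 := hψC (Set.mem_univ (Projectivization.mk ℂ (L τ) (hL τ)))
          rw [hψL τ hQL] at h1 h2
          rw [regular_apply_mk hG hGφ _ hQL h2 hGL] at h1
          obtain ⟨b, hb⟩ := (Projectivization.mk_eq_mk_iff' ℂ _ _ _ _).1 h1
          have hb0 := congrFun hb 0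
          have hb1 := congrFun hb 1
          simp only [Pi.smul_apply, smul_eq_mul] at hb0 hb1
          rw [← hb0, ← hb1]
          simp [ℓ, L]
          right
          ring
        · rw [not_not] at hGL
          have h0 := congrFun hGL 0
          have h1 := congrFun hGL 1
          simp only [Pi.zero_apply] at h0 h1
          rw [h0, h1]; simp
    exact sub_eq_zero.1 ((mul_eq_zero.1 this).resolve_left hz_ne)
  -- first order expansion: evaluate in the dual numbers `ℂ[ε]`
  let E : Polynomial ℂ →ₐ[ℂ] ℂ[ε] := Polynomial.aeval (ε : ℂ[ε])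
  have hE1 : E (zyx 1) = 0 := by
    rw [hy₂, map_mul, map_pow]
    simp [E, DualNumber.eps_pow_two]
  have hE2 : E (zyx 2) = 0 := by
    rw [hx₂, map_mul, map_pow]
    simp [E, DualNumber.eps_pow_two]
  have hζ : IsUnit (E (zyx 0)) := by
    rw [TrivSqZeroExt.isUnit_iff_isUnit_fst]
    have : TrivSqZeroExt.fst (E (zyx 0)) = (zyx 0).coeff 0 := by
      have h1 := Polynomial.aeval_algHom_apply (TrivSqZeroExt.fstHom ℂ ℂ ℂ) (ε : ℂ[ε]) (zyx 0)
      simp only [TrivSqZeroExt.fstHom_apply, DualNumber.fst_eps] at h1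
      rw [← h1, Polynomial.coeff_zero_eq_aeval_zero]
    rw [this, hcoeff]
    exact isUnit_iff_ne_zero.2 hz0
  have hEg : ∀ i, E (g i) = E (zyx 0) ^ D * algebraMap ℂ ℂ[ε] (eval ![1, 0, 0] (G i)) := by
    intro i
    have h1 : E (g i) = aeval (fun k => E (zyx k)) (G i) := comp_aeval_apply (f := zyx) E (G i)
    have h2 : (fun k => E (zyx k)) = E (zyx 0) • (algebraMap ℂ ℂ[ε] ∘ ![1, 0, 0]) := by
      funext k; fin_cases k
      · simp
      · simpa using hE1
      · simpa using hE2
    rw [h1, h2, aeval_smul_of_isHomogeneous (hG i), aeval_algebraMap_apply]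
    rfl
  have hEℓ : ∀ i, E (ℓ i) = algebraMap ℂ ℂ[ε] (u i) + algebraMap ℂ ℂ[ε] (w i) * ε := by
    intro i
    simp [E, ℓ]
  have hfinal := congrArg E hid
  rw [map_mul, map_mul, hEg, hEg, hEℓ, hEℓ, mul_assoc, mul_assoc] at hfinal
  have hfinal' := (hζ.pow D).mul_left_cancel hfinal
  have hfst := congrArg TrivSqZeroExt.fst hfinal'
  have hsnd := congrArg TrivSqZeroExt.snd hfinal'
  simp [TrivSqZeroExt.algebraMap_eq_inl] at hfst hsnd
  apply hγ
  constructor
  · have : eval ![1, 0, 0] (G 0) * (u 0 * w 1 - u 1 * w 0) = 0 := by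
      linear_combination u 0 * hsnd - w 0 * hfst
    exact (mul_eq_zero.1 this).resolve_right hδ
  · have : eval ![1, 0, 0] (G 1) * (u 0 * w 1 - u 1 * w 0) = 0 := by
      linear_combination u 1 * hsnd - w 1 * hfst
    exact (mul_eq_zero.1 this).resolve_right hδ

end NotIso

end Claimed.Open.R041
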