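/-
Result 041, sanity: the lemmas behind the checked NON-examples for `ProjectiveSpaceBase`.  The headline theorems are in `Sanity.lean`.

1. **The normality hypothesis of `ProjectiveSpaceBase` cannot be dropped** (`Sanity.lean`: `projectiveSpaceBase_normal_cannot_be_dropped`,
   `not_projectiveSpaceBase_without_normal`).  Compose the elliptic fibration `ff : Kum → ℙ¹` of the Kummer surface with the
   bijective regular map `cuspParam : ℙ¹ → C` onto the cuspidal cubic `C ⊆ ℙ²` (`SanityCusp`).  The map
   `ffCusp = cuspParam ∘ ff : Kum → C` meets every hypothesis of `ProjectiveSpaceBase` except the normality of the base, and `C` is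
   not isomorphic to `ℙ¹`.  So `ProjectiveSpaceBase` is not true for formal reasons: `IsNormal` and `AreIsomorphic`
   carry weight.
2. **A NON-example of `HolLineBundle.IsRelativelyAmple` over a base of positive dimension** (`trivialBundle_not_isRelativelyAmple`): the
   trivial bundle is not relatively ample for `ff`.  The sections of its powers over a neighbourhood of the fibre `{1/4} × E` are holomorphic
   functions; along this compact curve they are constant (Liouville), so they cannot separate its points.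
   (A relatively ample bundle for `ff` exists: `projectiveSpaceBase_hypotheses_can_be_met`.)

Nothing here proves `Statement`.
-/
import Claimed.Open.R041.K3Example
import Claimed.Open.R041.K3Embed
import Claimed.Open.R041.K3Fibres
import Claimed.Open.R041.CorollaryProjective
import Claimed.Open.R041.SanityCusp

open scoped Manifold ContDiff Topology
open Set

namespace Claimed.Open.R041

namespace Kummer

/-! ### 1. The elliptic fibration with the cuspidal cubic as its base -/

/-- The elliptic fibration, with the cuspidal cubic as its base. -/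
noncomputable def ffCusp (x : Kum) : PN 2 := cuspParam (ff x)

theorem isHolomorphic_ffCusp : IsHolomorphicOnToPN 2 ffCusp Set.univ := by
  intro x _
  obtain ⟨U, F, hxU, hUo, hF, hlift⟩ := isHolomorphic_XX 0 x trivial
  have hFk : ∀ j, HolomorphicOn 2 (fun y => F y j) U := (holomorphicOn_pi_iff _ _).1 hF
  refine ⟨U, fun y k => MvPolynomial.eval (F y) (cuspParamForms k), hxU, hUo, ?_, ?_⟩
  · rw [holomorphicOn_pi_iff]
    intro k
    have e : ∀ y, MvPolynomial.eval (F y) (cuspParamForms k) =
        (![F y 0 ^ 3, F y 1 ^ 3, F y 0 * F y 1 ^ 2] : Fin 3 → ℂ) k := fun y =>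
      congrFun (eval_cuspParamForms (F y)) k
    simp only [e]
    fin_cases k
    · exact (hFk 0).pow 3
    · exact (hFk 1).pow 3
    · exact (hFk 0).mul ((hFk 1).pow 2)
  · intro y hy
    obtain ⟨h0, hy'⟩ := hlift y hy
    refine ⟨cuspParam_ne_zero h0, ?_⟩
    show cuspParam (ff y) = _
    rw [show ff y = _ from hy', cuspParam_mk]

theorem range_ffCusp : Set.range ffCusp = cusp.points := by
  have : ffCusp = cuspParam ∘ ff := rfl
  rw [this, Set.range_comp, ff_surjective.range_eq, bijOn_cuspParam.image_eq]

theorem ffCusp_fibre (p : PN 1) : ffCusp ⁻¹' {cuspParam p} = ff ⁻¹' {p} := by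
  ext x
  constructor
  · intro h
    exact bijOn_cuspParam.injOn trivial trivial h
  · intro h
    show cuspParam (ff x) = cuspParam p
    rw [show ff x = p from h]

theorem isConnected_ffCusp_fibre {b : PN 2} (hb : b ∈ cusp.points) : IsConnected (ffCusp ⁻¹' {b}) := by
  obtain ⟨p, -, rfl⟩ := bijOn_cuspParam.surjOn hb
  rw [ffCusp_fibre]
  exact isConnected_fibre p

theorem hasLagrangianFibres_ffCusp : HasLagrangianFibres (d := 2) sigma ffCusp 1 := by
  intro b Z hZ
  obtain ⟨x, hx⟩ := hZ.1.2.1
  have hb : ffCusp x = b := hZ.2.1 hx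
  have e : ffCusp ⁻¹' {b} = ff ⁻¹' {ff x} := by rw [← hb]; exact ffCusp_fibre (ff x)
  rw [e] at hZ
  exact hasLagrangianFibres_ff (ff x) Z hZ

/-! ### 2. The trivial bundle is not relatively ample for `ff` -/

/-- The parametrisation `w ↦ (1/4, w)` of the fibre of `ff` over `℘(1/4)`. -/
noncomputable def gam (w : ℂ) : Kum := regT (mk2 (1 / 4) w)

theorem mk2_quarter_notMem (w : ℂ) : mk2 (1 / 4) w ∉ HalfLat :=
  fun h => quarter_notMem_HalfLat1 (mem_HalfLat_iff.1 h 0)

theorem ff_gam (w : ℂ) : ff (gam w) = wpP (1 / 4) := by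
  rw [gam, regT_eq (mk2_quarter_notMem w)]
  exact XX_reg 0 _

theorem contMDiff_gam : ContMDiff 𝓘(ℂ, ℂ) 𝓘(ℂ, Cn 2) ω gam := fun w =>
  contMDiffAt_regT_comp (analyticAt_mk2 analyticAt_const analyticAt_id) (mk2_quarter_notMem w)

theorem gam_add {l : ℂ} (hl : l ∈ Lat1) (w : ℂ) : gam (w + l) = gam w := by
  rw [gam, gam, regT_eq_regT_iff (mk2_quarter_notMem _) (mk2_quarter_notMem _)]
  left
  rw [mem_Lat_iff]
  intro j
  fin_cases j
  · simp
  · simpa using hl

theorem gam_quarter_ne : gam (1 / 4) ≠ gam 0 := by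
  intro h
  rw [gam, gam, regT_eq_regT_iff (mk2_quarter_notMem _) (mk2_quarter_notMem _)] at h
  have hq : (1 / 4 : ℂ) ∉ Lat1 := fun h => quarter_notMem_HalfLat1 (Lat1_le_HalfLat1 h)
  rcases h with h | h
  · exact hq (by simpa using mem_Lat_iff.1 h 1)
  · exact hq (by simpa using mem_Lat_iff.1 h 1)

/-- **NON-example of relative ampleness**: the trivial bundle is not relatively ample for the elliptic fibration `ff`. -/
theorem trivialBundle_not_isRelativelyAmple : ¬ (trivialBundle 2 Kum).IsRelativelyAmple ff := by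
  intro hamp
  obtain ⟨V, hbV, hVo, m, N', g, -, ⟨s, hsec, hg⟩, hinj, -⟩ := hamp (wpP (1 / 4))
  have hW : ∀ w, gam w ∈ ff ⁻¹' V := fun w => by
    show ff (gam w) ∈ V
    rw [ff_gam]; exact hbV
  -- the sections are constant along the fibre
  have hconst : ∀ k w, s k () (gam w) = s k () (gam 0) := by
    intro k w
    have h1 : ContMDiffOn 𝓘(ℂ, Cn 2) 𝓘(ℂ, ℂ) ω (s k ()) (Set.univ ∩ ff ⁻¹' V) :=
      (hsec k).holomorphic ()
    rw [univ_inter] at h1
    have h2 : ContMDiff 𝓘(ℂ, ℂ) 𝓘(ℂ, ℂ) ω (fun w => s k () (gam w)) := fun w =>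
      ((h1 _ (hW w)).contMDiffAt (hVo.mem_nhds (hW w))).comp w (contMDiff_gam w)
    have h3 : Differentiable ℂ (fun w => s k () (gam w)) :=
      (contMDiff_iff_contDiff.1 h2).differentiable (by simp)
    exact eq_of_differentiable_of_periodic gaussPair h3
      (fun z l hl => by show s k () (gam (z + l)) = _; rw [gam_add hl]) w 0
  have hgc : g (gam (1 / 4)) = g (gam 0) := by
    obtain ⟨h1, e1⟩ := hg () (gam (1 / 4)) ⟨trivial, hW _⟩
    obtain ⟨h0, e0⟩ := hg () (gam 0) ⟨trivial, hW _⟩
    rw [e1, e0]
    congr 1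
    funext k
    exact hconst k _
  exact gam_quarter_ne (hinj (hW _) (hW _) (by
    show (ff (gam (1 / 4)), g (gam (1 / 4))) = (ff (gam 0), g (gam 0))
    rw [ff_gam, ff_gam, hgc]))

end Kummer

end Claimed.Open.R041
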