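/-
Sanity checks for the way `ProjectiveSpaceBase` and `StrongSYZ` speak about the base `B` (result 041): through its set of points `B.points ⊆ ℙ^N`, up to
`AreIsomorphic`.

* `ProjVariety.eq_of_points_eq`: **a `ProjVariety` is determined by `B.points`** (projective Nullstellensatz; `ProjVariety.mem_zeroLocus_iff`: the zero locus of the ideal is the
  affine cone over `B.points`).  So the clauses `Set.range f = B.points` and `AreIsomorphic B.points Set.univ` lose nothing of `B`;
* `IsRegularOn.comp_isHolomorphicOnToPN`: **a regular map after a holomorphic map is holomorphic**, so the algebraic notion `IsRegularOn` (in which the conclusion is written) and the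
  analytic notion `IsHolomorphicOnToPN` (in which the hypotheses are written) fit together;
* `fibration_transport`: the hypotheses of `ProjectiveSpaceBase` on `f` (holomorphic, onto, connected fibres, Lagrangian fibres) pass from `f : X → A` to `φ ∘ f : X → A'` for
  an isomorphism `φ : A → A'` in the sense of `AreIsomorphic`: they do not depend on the projective embedding of the base;
* `conic_isNormal`: the conic `x₀ x₂ = x₁²` (isomorphic to `ℙ¹` by `SanityProj`) is normal: two charts are affine lines, the third is the hyperbola with coordinate ring `ℂ[t, t⁻¹]`;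
* `projectiveSpaceBase_hypotheses_and_conclusion_hold_on_conic`: all hypotheses and the conclusion of `ProjectiveSpaceBase` hold for `Kum → ℙ¹ ≃ conic ⊆ ℙ²`: a checked example in which
  the base is not literally `ℙ¹` and the conclusion is not `areIsomorphic_refl`.
-/
import Claimed.Open.R041.SanityFermat
import Claimed.Open.R041.SanitySharp

open scoped Manifold ContDiff Topology
open MvPolynomial

namespace Claimed.Open.R041

section Points

variable {N : ℕ}

/-- The affine cone over a projective variety: the zero locus of its ideal is `{0}` together with the representatives of its points. -/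
theorem ProjVariety.mem_zeroLocus_iff (B : ProjVariety N) (v : Fin (N + 1) → ℂ) :
    v ∈ zeroLocus ℂ B.ideal ↔ v = 0 ∨ ∃ hv : v ≠ 0, Projectivization.mk ℂ v hv ∈ B.points := by
  constructor
  · intro h
    by_cases hv : v = 0
    · exact Or.inl hv
    · exact Or.inr ⟨hv, (B.mk_mem_points v hv).2 fun P hP => by simpa [aeval_eq_eval] using h P hP⟩
  · rintro (rfl | ⟨hv, h⟩) P hP
    · -- a homogeneous proper ideal contains no polynomial with nonzero constant term
      rw [aeval_eq_eval]
      by_contra hne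
      have h0 := B.isHomogeneous P hP 0
      rw [homogeneousComponent_zero, ← constantCoeff_eq, ← eval_zero] at h0
      have hu : IsUnit (C (eval 0 P) : MvPolynomial (Fin (N + 1)) ℂ) :=
        (isUnit_iff_ne_zero.2 hne).map C
      exact B.isPrime.ne_top (Ideal.eq_top_of_isUnit_mem _ h0 hu)
    · simpa [aeval_eq_eval] using (B.mk_mem_points v hv).1 h P hP

/-- **A `ProjVariety` is determined by its set of points** (projective Nullstellensatz).  So nothing is lost when the conclusion of
`ProjectiveSpaceBase`, and the clause `Set.range f = B.points`, speak of `B.points` only. -/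
theorem ProjVariety.eq_of_points_eq {B B' : ProjVariety N} (h : B.points = B'.points) : B = B' := by
  have hz : zeroLocus ℂ B.ideal = zeroLocus ℂ B'.ideal := by
    ext v
    rw [B.mem_zeroLocus_iff, B'.mem_zeroLocus_iff, h]
  have h1 := B.isPrime
  have h2 := B'.isPrime
  have e : B.ideal = B'.ideal := by
    rw [← IsPrime.vanishingIdeal_zeroLocus (K := ℂ) B.ideal, hz,
      IsPrime.vanishingIdeal_zeroLocus (K := ℂ) B'.ideal]
  cases B; cases B'
  simp only at e
  subst e
  rfl

end Points

section Transport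

variable {d : ℕ} {X : Type} [TopologicalSpace X] [ChartedSpace (Cn d) X] {M N : ℕ}

/-- A polynomial in holomorphic functions is holomorphic. -/
theorem holomorphicOn_eval {F : X → Fin (M + 1) → ℂ} {U : Set X} (hF : HolomorphicOn d F U)
    (Q : MvPolynomial (Fin (M + 1)) ℂ) : HolomorphicOn d (fun y => eval (F y) Q) U := by
  have hFk : ∀ j, HolomorphicOn d (fun y => F y j) U := (holomorphicOn_pi_iff _ _).1 hF
  induction Q using MvPolynomial.induction_on with
  | C r =>
    simp only [eval_C]
    exact (contMDiffOn_const : ContMDiffOn 𝓘(ℂ, Cn d) 𝓘(ℂ, ℂ) ω (fun _ : X => r) U)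
  | add p q hp hq =>
    simp only [map_add]
    exact ContMDiffOn.add hp hq
  | mul_X p k hp =>
    simp only [map_mul, eval_X]
    exact ContMDiffOn.mul hp (hFk k)

/-- **A regular map after a holomorphic map is holomorphic**: the algebraic notion `IsRegularOn` and the analytic notion
`IsHolomorphicOnToPN` fit together. -/
theorem IsRegularOn.comp_isHolomorphicOnToPN {A : Set (PN M)} {φ : PN M → PN N} {f : X → PN M}
    (hφ : IsRegularOn A φ) (hf : IsHolomorphicOnToPN d f Set.univ) (hfA : ∀ x, f x ∈ A) :
    IsHolomorphicOnToPN d (φ ∘ f) Set.univ := by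
  intro x _
  obtain ⟨U, F, hxU, hUo, hF, hlift⟩ := hf x trivial
  obtain ⟨D, P, hP, hne, hrep⟩ := hφ (f x) (hfA x)
  have hG : HolomorphicOn d (fun y k => eval (F y) (P k)) U :=
    (holomorphicOn_pi_iff _ _).2 fun k => holomorphicOn_eval hF (P k)
  have hopen : IsOpen (U ∩ (fun y k => eval (F y) (P k)) ⁻¹' {w | w ≠ 0}) :=
    hG.continuousOn.isOpen_inter_preimage hUo isOpen_ne
  refine ⟨U ∩ (fun y k => eval (F y) (P k)) ⁻¹' {w | w ≠ 0}, fun y k => eval (F y) (P k),
    ⟨hxU, ?_⟩, hopen, hG.mono Set.inter_subset_left, ?_⟩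
  · -- the forms do not vanish at `F x`
    obtain ⟨h0, hx'⟩ := hlift x hxU
    obtain ⟨a, ha⟩ := Projectivization.exists_smul_eq_mk_rep ℂ (F x) h0
    intro hz
    apply hne
    funext k
    rw [hx', ← ha, Units.smul_def, eval_smul_of_isHomogeneous (hP k)]
    have := congrFun hz k
    simp only [Pi.zero_apply] at this ⊢
    rw [this, mul_zero]
  · rintro y ⟨hyU, hy⟩
    obtain ⟨h0, hy'⟩ := hlift y hyU
    refine ⟨hy, ?_⟩
    have hmem : Projectivization.mk ℂ (F y) h0 ∈ A := hy' ▸ hfA y
    rw [Function.comp_apply, hy']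
    exact regular_apply_mk hP hrep (F y) h0 hmem hy

/-- **The hypotheses of `ProjectiveSpaceBase` on the map `f` do not depend on the embedding of the base**: they pass from `f : X → A` to `φ ∘ f : X → A'`
for an isomorphism `φ : A → A'` (in the sense of `AreIsomorphic`). -/
theorem fibration_transport {A : Set (PN M)} {A' : Set (PN N)} {φ : PN M → PN N} {ψ : PN N → PN M}
    {f : X → PN M} {σ : Form ℂ d X ℂ 2} {n : ℕ}
    (hφ : IsRegularOn A φ) (h1 : Set.MapsTo φ A A') (h2 : Set.MapsTo ψ A' A)
    (h3 : ∀ a ∈ A, ψ (φ a) = a) (h4 : ∀ a' ∈ A', φ (ψ a') = a')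
    (hf : IsHolomorphicOnToPN d f Set.univ) (hrange : Set.range f = A)
    (hconn : ∀ b ∈ A, IsConnected (f ⁻¹' {b})) (hL : HasLagrangianFibres σ f n) :
    IsHolomorphicOnToPN d (φ ∘ f) Set.univ ∧ Set.range (φ ∘ f) = A' ∧
      (∀ b ∈ A', IsConnected ((φ ∘ f) ⁻¹' {b})) ∧ HasLagrangianFibres σ (φ ∘ f) n := by
  have hfA : ∀ x, f x ∈ A := fun x => hrange ▸ Set.mem_range_self x
  have hfib : ∀ p ∈ A, (φ ∘ f) ⁻¹' {φ p} = f ⁻¹' {p} := by
    intro p hp
    ext x
    constructor
    · intro h
      have h' : φ (f x) = φ p := h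
      show f x = p
      rw [← h3 (f x) (hfA x), h', h3 p hp]
    · intro h
      show φ (f x) = φ p
      rw [show f x = p from h]
  refine ⟨hφ.comp_isHolomorphicOnToPN hf hfA, ?_, ?_, ?_⟩
  · rw [Set.range_comp, hrange]
    apply Set.Subset.antisymm
    · rintro _ ⟨a, ha, rfl⟩; exact h1 ha
    · intro b hb; exact ⟨ψ b, h2 hb, h4 b hb⟩
  · intro b hb
    rw [← h4 b hb, hfib _ (h2 hb)]
    exact hconn _ (h2 hb)
  · intro b Z hZ
    obtain ⟨x, hx⟩ := hZ.1.2.1
    have hb : φ (f x) = b := hZ.2.1 hx
    rw [← hb, hfib _ (hfA x)] at hZ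
    exact hL (f x) Z hZ

end Transport

section ConicNormal

/-- The charts `x₀ = 1` and `x₂ = 1` of the conic `x₀ x₂ = x₁²` are affine lines. -/
theorem conic_chart_isIntegrallyClosed (i i' : Fin 3) (hall : ∀ k : Fin 3, k = i ∨ k = i' ∨ k = 1)
    (f : Fin 3 → Polynomial ℂ) (hi : f i = 1) (hi' : f i' = Polynomial.X ^ 2) (h1 : f 1 = Polynomial.X)
    (hG : conicForm = X i * X i' - X 1 ^ 2) :
    IsIntegrallyClosed (MvPolynomial (Fin 3) ℂ ⧸ (Ideal.span {conicForm} ⊔ Ideal.span {X i - 1})) := by
  set J : Ideal (MvPolynomial (Fin 3) ℂ) := Ideal.span {conicForm} ⊔ Ideal.span {X i - 1} with hJ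
  let π : MvPolynomial (Fin 3) ℂ →ₐ[ℂ] Polynomial ℂ := aeval f
  let s : Polynomial ℂ →ₐ[ℂ] (MvPolynomial (Fin 3) ℂ ⧸ J) :=
    Polynomial.aeval (Ideal.Quotient.mk J (X 1))
  have hGJ : conicForm ∈ J := Ideal.mem_sup_left (Ideal.mem_span_singleton_self _)
  have hiJ : X i - 1 ∈ J := Ideal.mem_sup_right (Ideal.mem_span_singleton_self _)
  have hker : ∀ P ∈ J, (π : MvPolynomial (Fin 3) ℂ →+* Polynomial ℂ) P = 0 := by
    intro P hP
    have hle : J ≤ RingHom.ker (π : MvPolynomial (Fin 3) ℂ →+* Polynomial ℂ) := by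
      rw [hJ, sup_le_iff, Ideal.span_le, Ideal.span_le]
      constructor
      · rintro x rfl
        simp [RingHom.mem_ker, π, hG, hi, hi', h1]
      · rintro x rfl
        simp [RingHom.mem_ker, π, hi]
    exact hle hP
  have hsπ : s.comp π = Ideal.Quotient.mkₐ ℂ J := by
    apply MvPolynomial.algHom_ext
    intro k
    simp only [AlgHom.comp_apply, Ideal.Quotient.mkₐ_eq_mk]
    have hk : π (X k) = f k := by simp [π]
    rw [hk]
    rcases hall k with rfl | rfl | rfl
    · rw [hi, map_one, eq_comm, ← map_one (Ideal.Quotient.mk J), Ideal.Quotient.eq]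
      exact hiJ
    · rw [hi']
      simp only [s, map_pow, Polynomial.aeval_X]
      rw [← map_pow, Ideal.Quotient.eq]
      have e : (X 1 ^ 2 - X k : MvPolynomial (Fin 3) ℂ) = -conicForm + (X i - 1) * X k := by
        rw [hG]; ring
      rw [e]
      exact J.add_mem (J.neg_mem hGJ) (J.mul_mem_right _ hiJ)
    · rw [h1]; simp [s]
  have hπs : ∀ Q : Polynomial ℂ,
      Ideal.Quotient.lift J (π : MvPolynomial (Fin 3) ℂ →+* Polynomial ℂ) hker (s Q) = Q := by
    have hc : ((Ideal.Quotient.lift J (π : MvPolynomial (Fin 3) ℂ →+* Polynomial ℂ) hker).comp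
        (s : Polynomial ℂ →+* (MvPolynomial (Fin 3) ℂ ⧸ J))) = RingHom.id _ := by
      apply Polynomial.ringHom_ext
      · intro c
        have : s (Polynomial.C c) = Ideal.Quotient.mk J (C c) := by simp [s]; rfl
        simp only [RingHom.comp_apply, RingHom.coe_coe, this, Ideal.Quotient.lift_mk]
        simp [π]
      · have : s Polynomial.X = Ideal.Quotient.mk J (X 1) := by simp [s]
        simp only [RingHom.comp_apply, RingHom.coe_coe, this, Ideal.Quotient.lift_mk]
        simp [π, h1]
    intro Q
    exact DFunLike.congr_fun hc Q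
  let e : (MvPolynomial (Fin 3) ℂ ⧸ J) ≃+* Polynomial ℂ :=
    { toFun := Ideal.Quotient.lift J (π : MvPolynomial (Fin 3) ℂ →+* Polynomial ℂ) hker
      invFun := s
      left_inv := by
        intro x
        obtain ⟨P, rfl⟩ := Ideal.Quotient.mk_surjective x
        rw [Ideal.Quotient.lift_mk]
        exact DFunLike.congr_fun hsπ P
      right_inv := hπs
      map_mul' := map_mul _
      map_add' := map_add _ }
  exact IsIntegrallyClosed.of_equiv e.symm

/-- The chart `x₁ = 1` of the conic is the hyperbola `x₀ x₂ = 1`, with coordinate ring `ℂ[t, t⁻¹]`. -/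
theorem conic_chart_one_isIntegrallyClosed :
    IsIntegrallyClosed (MvPolynomial (Fin 3) ℂ ⧸ (Ideal.span {conicForm} ⊔ Ideal.span {X 1 - 1})) := by
  set J : Ideal (MvPolynomial (Fin 3) ℂ) := Ideal.span {conicForm} ⊔ Ideal.span {X 1 - 1} with hJ
  let L := Localization.Away (Polynomial.X : Polynomial ℂ)
  let t : L := algebraMap (Polynomial ℂ) L Polynomial.X
  let u : L := IsLocalization.Away.invSelf (Polynomial.X : Polynomial ℂ)
  have htu : t * u = 1 := IsLocalization.Away.mul_invSelf _
  let π : MvPolynomial (Fin 3) ℂ →ₐ[ℂ] L := aeval ![t, 1, u]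
  have hGJ : conicForm ∈ J := Ideal.mem_sup_left (Ideal.mem_span_singleton_self _)
  have hiJ : X 1 - 1 ∈ J := Ideal.mem_sup_right (Ideal.mem_span_singleton_self _)
  have hker : ∀ P ∈ J, (π : MvPolynomial (Fin 3) ℂ →+* L) P = 0 := by
    intro P hP
    have hle : J ≤ RingHom.ker (π : MvPolynomial (Fin 3) ℂ →+* L) := by
      rw [hJ, sup_le_iff, Ideal.span_le, Ideal.span_le]
      constructor
      · rintro x rfl
        simp [RingHom.mem_ker, π, conicForm, htu]
      · rintro x rfl
        simp [RingHom.mem_ker, π]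
    exact hle hP
  have h02 : Ideal.Quotient.mk J (X 0) * Ideal.Quotient.mk J (X 2) = 1 := by
    rw [← map_mul, ← map_one (Ideal.Quotient.mk J), Ideal.Quotient.eq]
    have e : (X 0 * X 2 - 1 : MvPolynomial (Fin 3) ℂ) = conicForm + (X 1 - 1) * (X 1 + 1) := by
      rw [conicForm]; ring
    rw [e]
    exact J.add_mem hGJ (J.mul_mem_right _ hiJ)
  let g : Polynomial ℂ →+* (MvPolynomial (Fin 3) ℂ ⧸ J) :=
    (Polynomial.aeval (Ideal.Quotient.mk J (X 0)) : Polynomial ℂ →ₐ[ℂ] _).toRingHom
  have hgX : g Polynomial.X = Ideal.Quotient.mk J (X 0) := by simp [g]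
  have hgC : ∀ c : ℂ, g (Polynomial.C c) = Ideal.Quotient.mk J (C c) := by
    intro c; simp [g]; rfl
  have hunit : IsUnit (g Polynomial.X) := by
    rw [hgX]; exact IsUnit.of_mul_eq_one _ h02
  let s : L →+* (MvPolynomial (Fin 3) ℂ ⧸ J) := IsLocalization.Away.lift Polynomial.X hunit
  have hs : ∀ a, s (algebraMap (Polynomial ℂ) L a) = g a := IsLocalization.Away.lift_eq _ hunit
  have hst : s t = Ideal.Quotient.mk J (X 0) := by rw [← hgX]; exact hs _
  have hsu : s u = Ideal.Quotient.mk J (X 2) := by
    have h1 : s t * s u = 1 := by rw [← map_mul, htu, map_one]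
    rw [hst] at h1
    calc s u = (Ideal.Quotient.mk J (X 0) * Ideal.Quotient.mk J (X 2)) * s u := by rw [h02, one_mul]
      _ = Ideal.Quotient.mk J (X 2) * (Ideal.Quotient.mk J (X 0) * s u) := by ring
      _ = Ideal.Quotient.mk J (X 2) := by rw [h1, mul_one]
  have hsπ : s.comp (π : MvPolynomial (Fin 3) ℂ →+* L) = Ideal.Quotient.mk J := by
    apply MvPolynomial.ringHom_ext
    · intro c
      have h1 : (π : MvPolynomial (Fin 3) ℂ →+* L) (C c) =
          algebraMap (Polynomial ℂ) L (Polynomial.C c) := by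
        simp [π]; rfl
      rw [RingHom.comp_apply, h1, hs, hgC]
    · intro k
      rw [RingHom.comp_apply]
      fin_cases k
      · have : (π : MvPolynomial (Fin 3) ℂ →+* L) (X 0) = t := by simp [π]
        exact (congrArg s this).trans hst
      · have : (π : MvPolynomial (Fin 3) ℂ →+* L) (X 1) = 1 := by simp [π]
        refine (congrArg s this).trans ?_
        rw [map_one, eq_comm, ← map_one (Ideal.Quotient.mk J), Ideal.Quotient.eq]
        exact hiJ
      · have : (π : MvPolynomial (Fin 3) ℂ →+* L) (X 2) = u := by simp [π]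
        exact (congrArg s this).trans hsu
  have hπs : ∀ r : L, Ideal.Quotient.lift J (π : MvPolynomial (Fin 3) ℂ →+* L) hker (s r) = r := by
    have hc : (Ideal.Quotient.lift J (π : MvPolynomial (Fin 3) ℂ →+* L) hker).comp s =
        RingHom.id L := by
      apply IsLocalization.ringHom_ext (Submonoid.powers (Polynomial.X : Polynomial ℂ))
      apply Polynomial.ringHom_ext
      · intro c
        simp only [RingHom.comp_apply, hs, hgC, Ideal.Quotient.lift_mk, RingHom.id_apply]
        simp [π]; rfl
      · simp only [RingHom.comp_apply, hs, hgX, Ideal.Quotient.lift_mk, RingHom.id_apply]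
        simp [π, t]
    intro r
    exact DFunLike.congr_fun hc r
  let e : (MvPolynomial (Fin 3) ℂ ⧸ J) ≃+* L :=
    { toFun := Ideal.Quotient.lift J (π : MvPolynomial (Fin 3) ℂ →+* L) hker
      invFun := s
      left_inv := by
        intro x
        obtain ⟨P, rfl⟩ := Ideal.Quotient.mk_surjective x
        rw [Ideal.Quotient.lift_mk]
        exact DFunLike.congr_fun hsπ P
      right_inv := hπs
      map_mul' := map_mul _
      map_add' := map_add _ }
  have hL : IsIntegrallyClosed L :=
    isIntegrallyClosed_of_isLocalization L (Submonoid.powers (Polynomial.X : Polynomial ℂ))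
      (powers_le_nonZeroDivisors_of_noZeroDivisors Polynomial.X_ne_zero)
  exact IsIntegrallyClosed.of_equiv e.symm

/-- **The conic is normal.** -/
theorem conic_isNormal : conic.IsNormal := by
  intro i _
  change IsIntegrallyClosed (MvPolynomial (Fin 3) ℂ ⧸
    (Ideal.span {conicForm} ⊔ Ideal.span {X i - 1}))
  fin_cases i
  · exact conic_chart_isIntegrallyClosed 0 2 (by decide) ![1, Polynomial.X, Polynomial.X ^ 2]
      rfl rfl rfl rfl
  · exact conic_chart_one_isIntegrallyClosed
  · exact conic_chart_isIntegrallyClosed 2 0 (by decide) ![Polynomial.X ^ 2, Polynomial.X, 1]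
      rfl rfl rfl (by rw [conicForm]; ring)

end ConicNormal

section ConicExample

/-- **Hypotheses and conclusion of `ProjectiveSpaceBase` hold on an example whose base is not literally `ℙ¹`**: the Kummer surface, the conic
`B = {x₀ x₂ = x₁²} ⊆ ℙ²` and the elliptic fibration `ff : Kum → ℙ¹` followed by an isomorphism `ℙ¹ → B`. -/
theorem projectiveSpaceBase_hypotheses_and_conclusion_hold_on_conic :
    ∃ f : Kum → PN 2,
      (IsIHS Kummer.sigma ∧ conic.IsNormal ∧ conic.HasDim 1 ∧
        IsHolomorphicOnToPN (2 * 1) f Set.univ ∧ Set.range f = conic.points ∧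
        (∀ b ∈ conic.points, IsConnected (f ⁻¹' {b})) ∧
        (∃ M : HolLineBundle (2 * 1) Kum, M.IsRelativelyAmple f) ∧
        HasLagrangianFibres Kummer.sigma f 1) ∧
      AreIsomorphic conic.points (Set.univ : Set (PN 1)) := by
  obtain ⟨φ, ψ, hφ, -, h1, h2, h3, h4⟩ := conic_areIsomorphic.symm
  obtain ⟨t1, t2, t3, t4⟩ := fibration_transport hφ h1 h2 h3 h4 (Kummer.isHolomorphic_XX 0)
    Kummer.ff_surjective.range_eq (fun b _ => Kummer.isConnected_fibre b) Kummer.hasLagrangianFibres_ff
  exact ⟨φ ∘ Kummer.ff, ⟨Kummer.isIHS_sigma, conic_isNormal, conic_hasDim, t1, t2, t3,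
    Kummer.isProjectiveManifold_Kum.exists_isRelativelyAmple _, t4⟩, conic_areIsomorphic⟩

end ConicExample

end Claimed.Open.R041
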