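/-
Result 041, sanity: `StrongSYZ` and `ProjectiveSpaceBase` are TRUE on the checked example.

`Sanity.lean` shows that the hypotheses of the two theorems can be met (Kummer surface `Kum` of `ℂ² / ℤ[i]²`).  This file goes
one step further and checks, on the same surface, that hypotheses AND conclusion hold at once:

* `strongSYZ_hypotheses_and_conclusion_hold_on_example`: for `X = Kum`, `σ = Kummer.sigma` and the line bundle
  `L = Kummer.LL = ff^* 𝒪_{ℙ¹}(1)` of the elliptic fibration `ff : z ↦ ℘(z₀)`, the class `c₁(L)` is nonzero, nef and `q`-isotropic, and the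
  whole conclusion of `StrongSYZ` holds with `m = 1`, `B = ℙ¹`, `f = ff`;
* `projectiveSpaceBase_hypotheses_and_conclusion_hold_on_example`: the same for `ProjectiveSpaceBase`.

So no clause of the conclusions is made false on the example by a junk value or by a clash of conventions.  In particular the sign
conventions fit together: the bundle whose SECTIONS give the map `ff` (`IsSection`, `IsPullbackOfO1`) is the one whose Chern class
(`HermitianMetric`, `IsChernForm`, `IsFirstChernClass`) lies in `nefCone`.  With the opposite sign in any one of these definitions `StrongSYZ`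
would be false on this example.

How `c₁(L)` is computed: `fsMetric` is the Fubini–Study metric on `f^* 𝒪(1)` (squared norm `1/‖F‖²` of the frame belonging to a
lift `F` of `f`); for `f : X → ℙ¹` its Chern form is `Θ(v,Jv) = |F₀ dF₁(v) - F₁ dF₀(v)|² / (π ‖F‖⁴)` (`chernForm_fs_apply`, from the Levi
form of `G(‖H‖²)` in `K3Levi` and Lagrange's identity), i.e. the pull-back of the Fubini–Study form of `ℙ¹`: semipositive, of rank one, and
positive across the fibres where `ff` is submersive.  Then `Θ ∧ Θ = 0` gives `q = 0`, `Θ + εκ > 0` gives nefness, `∫ Θ ∧ κ > 0` and Stokes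
give `c₁(L) ≠ 0`, as in `K3Class`.

Nothing here proves `Statement`.
-/
import Claimed.Open.R041.K3Example
import Claimed.Open.R041.K3Embed
import Claimed.Open.R041.K3Fibres
import Claimed.Open.R041.CorollaryProjective

open scoped Manifold ContDiff Topology
open Set

namespace Claimed.Open.R041

/-! ## 1. The Levi form of `-log ‖H‖²` for a holomorphic `H` with values in `ℂ² ∖ 0` -/

section FlatFS

variable {d : ℕ}

/-- Lagrange's identity in `ℂ²`. -/
theorem lagrange_Cn_two (H W : Cn 2) :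
    ‖H‖ ^ 2 * ‖W‖ ^ 2 - ‖inner ℂ H W‖ ^ 2 = ‖H 0 * W 1 - H 1 * W 0‖ ^ 2 := by
  rw [EuclideanSpace.norm_sq_eq, EuclideanSpace.norm_sq_eq, PiLp.inner_apply, Fin.sum_univ_two,
    Fin.sum_univ_two, Fin.sum_univ_two]
  simp only [RCLike.inner_apply, Complex.sq_norm, Complex.normSq_apply, Complex.add_re,
    Complex.add_im, Complex.sub_re, Complex.sub_im, Complex.mul_re, Complex.mul_im,
    Complex.conj_re, Complex.conj_im]
  ring

theorem deriv_neg_log : deriv (fun t : ℝ => - Real.log t) = fun t => - t⁻¹ := by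
  funext t
  rw [deriv.fun_neg, Real.deriv_log]

theorem deriv_deriv_neg_log (t : ℝ) :
    deriv (deriv fun t : ℝ => - Real.log t) t = (t ^ 2)⁻¹ := by
  rw [deriv_neg_log, deriv.fun_neg, deriv_inv]
  simp

/-- `i∂∂̄ log (1/‖H‖²) (w, Jw) = - 2 |H₀ dH₁(w) - H₁ dH₀(w)|² / ‖H‖⁴`. -/
theorem ddbar_log_inv_normSq {V : Set (Cn d)} (hV : IsOpen V) {H : Cn d → Cn 2}
    (hH : ContDiffOn ℂ ∞ H V) (h0 : ∀ y ∈ V, H y ≠ 0) {y : Cn d} (hy : y ∈ V) (w : Cn d) :
    ddbar (d := d) (fun z => Real.log ((‖H z‖ ^ 2)⁻¹)) y ![w, Complex.I • w] =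
      - (2 * ((‖H y‖ ^ 2) ^ 2)⁻¹ *
        ‖H y 0 * (fderiv ℂ H y w) 1 - H y 1 * (fderiv ℂ H y w) 0‖ ^ 2) := by
  have e : (fun z => Real.log ((‖H z‖ ^ 2)⁻¹)) = fun z => (fun t : ℝ => - Real.log t) (‖H z‖ ^ 2) := by
    funext z; exact Real.log_inv _
  have hG : ContDiffOn ℝ ∞ (fun t : ℝ => - Real.log t) (Ioi 0) :=
    (Real.contDiffOn_log.mono fun t ht => ne_of_gt ht).neg
  have hS : ∀ y ∈ V, ‖H y‖ ^ 2 ∈ Ioi (0 : ℝ) := fun y hy => by
    have := norm_pos_iff.2 (h0 y hy)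
    exact pow_pos this 2
  have hSy : ‖H y‖ ^ 2 ≠ 0 := ne_of_gt (hS y hy)
  rw [e, ddbar_comp_normSq hV hH isOpen_Ioi hG hS hy, deriv_deriv_neg_log, deriv_neg_log,
    ← lagrange_Cn_two]
  field_simp
  ring

end FlatFS

/-! ## 2. The Fubini–Study metric on `f^* 𝒪(1)` -/

section FSMetric

variable {d : ℕ} {X : Type} [TopologicalSpace X] [ChartedSpace (Cn d) X] {N : ℕ}

/-- A vector of `ℂ^{N+1}` (sup norm), viewed in the Hermitian space `ℂ^{N+1}`. -/
noncomputable def toCn (N : ℕ) : (Fin (N + 1) → ℂ) →L[ℂ] Cn (N + 1) :=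
  ((EuclideanSpace.equiv (Fin (N + 1)) ℂ).symm : (Fin (N + 1) → ℂ) →L[ℂ] Cn (N + 1))

theorem toCn_apply (a : Fin (N + 1) → ℂ) (k : Fin (N + 1)) : toCn N a k = a k := rfl

theorem toCn_ne_zero {a : Fin (N + 1) → ℂ} (h : a ≠ 0) : toCn N a ≠ 0 := by
  intro h0
  apply h
  funext k
  have := congrArg (fun v : Cn (N + 1) => v k) h0
  exact this

theorem contDiff_normSq_toCn : ContDiff ℝ ∞ fun a : Fin (N + 1) → ℂ => ‖toCn N a‖ ^ 2 :=
  ((toCn N).contDiff.restrict_scalars ℝ).norm_sq ℂ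

/-- The Fubini–Study metric on `f^* 𝒪(1)`: in the trivialisation given by the lift `F`, the local
frame has squared norm `1 / ‖F‖²`. -/
noncomputable def fsMetric (f : X → PN N) (hf : IsHolomorphicOnToPN d f Set.univ) :
    (pullbackO1 f hf).HermitianMetric where
  h := fun p x => (‖toCn N (p.1.2 x)‖ ^ 2)⁻¹
  pos := fun p x hx => by
    obtain ⟨h0, -⟩ := p.2.2.2 x hx
    have := norm_pos_iff.2 (toCn_ne_zero h0)
    positivity
  smooth := fun p => by
    have h1 : ContMDiffOn 𝓘(ℝ, Cn d) 𝓘(ℝ, Fin (N + 1) → ℂ) ∞ p.1.2 p.1.1 :=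
      (contMDiffOn_real_of_complex p.2.2.1).of_le le_top
    have h2 : ContMDiffOn 𝓘(ℝ, Cn d) 𝓘(ℝ, ℝ) ∞ (fun x => ‖toCn N (p.1.2 x)‖ ^ 2) p.1.1 :=
      contDiff_normSq_toCn.contMDiff.comp_contMDiffOn h1
    refine h2.inv₀ fun x hx => ?_
    obtain ⟨h0, -⟩ := p.2.2.2 x hx
    have := norm_pos_iff.2 (toCn_ne_zero h0)
    positivity
  compatible := fun p q x hx => by
    obtain ⟨c, hc0, hc⟩ := p.2.exists_smul q.2 hx.1 hx.2
    obtain ⟨h0, -⟩ := q.2.2.2 x hx.2
    have hn := norm_pos_iff.2 (toCn_ne_zero h0)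
    have hcn := norm_pos_iff.2 hc0
    show (‖toCn N (q.1.2 x)‖ ^ 2)⁻¹ =
      ‖vecRatio (p.1.2 x) (q.1.2 x)‖ ^ 2 * (‖toCn N (p.1.2 x)‖ ^ 2)⁻¹
    rw [hc, vecRatio_smul c h0, map_smul, norm_smul]
    field_simp

end FSMetric

/-! ## 3. Its Chern form, for a map to `ℙ¹` -/

section FSChern

variable {d : ℕ} {X : Type} [TopologicalSpace X] [ChartedSpace (Cn d) X]
  [IsManifold 𝓘(ℂ, Cn d) ω X]

/-- The Chern form of the Fubini–Study metric on `f^* 𝒪(1)`, `f : X → ℙ¹`, is the pull-back of the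
Fubini–Study form: with a lift `F` of `f` near `x`, read in a holomorphic chart `e`,
`Θ(v, Jv) = |F₀ dF₁(v) - F₁ dF₀(v)|² / (π ‖F‖⁴)`. -/
theorem chernForm_fs_apply {f : X → PN 1} {hf : IsHolomorphicOnToPN d f Set.univ}
    {Θ : Form ℝ d X ℝ 2} (hΘ : (fsMetric f hf).IsChernForm Θ) {U : Set X}
    {F : X → Fin (1 + 1) → ℂ} (hF : IsLocalLift d f U F) {x : X} (hx : x ∈ U)
    {e : OpenPartialHomeomorph X (Cn d)} (he : e ∈ IsManifold.maximalAtlas 𝓘(ℂ, Cn d) ω X)
    (hxe : x ∈ e.source) (v : Cn d) :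
    Θ x ![v, Complex.I • v] = (Real.pi * (‖toCn 1 (F x)‖ ^ 2) ^ 2)⁻¹ *
      ‖F x 0 * (fderiv ℂ (fun z => toCn 1 (F (e.symm z))) (e x) (diffAt ℂ (d := d) e x v)) 1 -
        F x 1 * (fderiv ℂ (fun z => toCn 1 (F (e.symm z))) (e x) (diffAt ℂ (d := d) e x v)) 0‖ ^ 2 := by
  set p : (pullbackO1 f hf).ι := ⟨(U, F), hF⟩ with hp
  have hxp : x ∈ (pullbackO1 f hf).U p := hx
  rw [hΘ p x hxp]
  simp only [ContinuousAlternatingMap.smul_apply, smul_eq_mul]
  rw [ddbar_apply_chart ((pullbackO1 f hf).isOpen_U p) ((fsMetric f hf).contMDiffOn_log p) hxp he hxe,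
    map_smul]
  set H : Cn d → Cn 2 := fun z => toCn 1 (F (e.symm z)) with hH
  have hV : IsOpen (e.target ∩ e.symm ⁻¹' U) := isOpen_chartDomain hF.1 e
  have hHs : ContDiffOn ℂ ∞ H (e.target ∩ e.symm ⁻¹' U) :=
    (toCn 1).contDiff.comp_contDiffOn ((contDiffOn_comp_symm hF.2.1 he).of_le le_top)
  have h0 : ∀ y ∈ e.target ∩ e.symm ⁻¹' U, H y ≠ 0 := fun y hy =>
    toCn_ne_zero (hF.2.2 _ hy.2).1
  have hy : e x ∈ e.target ∩ e.symm ⁻¹' U := ⟨e.map_source hxe, by
    show e.symm (e x) ∈ U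
    rwa [e.left_inv hxe]⟩
  have e1 : ((fun y => Real.log ((fsMetric f hf).h p y)) ∘ e.symm) =
      fun z => Real.log ((‖H z‖ ^ 2)⁻¹) := rfl
  rw [e1, ddbar_log_inv_normSq hV hHs h0 hy]
  have e2 : H (e x) = toCn 1 (F x) := by rw [hH]; simp only [e.left_inv hxe]
  rw [e2, toCn_apply, toCn_apply]
  have hpi := Real.pi_pos
  have hn : 0 < ‖toCn 1 (F x)‖ := norm_pos_iff.2 (toCn_ne_zero (hF.2.2 x hx).1)
  field_simp

/-- The Chern form of the Fubini–Study metric is of type `(1,1)`. -/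
theorem chernForm_fs_invariant {N : ℕ} {f : X → PN N} {hf : IsHolomorphicOnToPN d f Set.univ}
    {Θ : Form ℝ d X ℝ 2} (hΘ : (fsMetric f hf).IsChernForm Θ) (x : X) (u v : Cn d) :
    Θ x ![Complex.I • u, Complex.I • v] = Θ x ![u, v] := by
  set L := pullbackO1 f hf
  rw [hΘ (L.idx x) x (L.mem_idx x)]
  simp only [ContinuousAlternatingMap.smul_apply]
  rw [ddbar_invariant_mfd (L.isOpen_U _) ((fsMetric f hf).contMDiffOn_log _) (L.mem_idx x)]

/-- The Chern form of the Fubini–Study metric on `f^* 𝒪(1)`, `f : X → ℙ¹`, is semipositive of rank at most one. -/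
theorem chernForm_fs_rankOne {f : X → PN 1} {hf : IsHolomorphicOnToPN d f Set.univ}
    {Θ : Form ℝ d X ℝ 2} (hΘ : (fsMetric f hf).IsChernForm Θ) (x : X) :
    ∃ (g : ℝ) (ℓ : Cn d →L[ℂ] ℂ), 0 ≤ g ∧ ∀ v, Θ x ![v, Complex.I • v] = g * ‖ℓ v‖ ^ 2 := by
  obtain ⟨U, F, hx, hF⟩ := hf x trivial
  set e := chartAt (Cn d) x
  have he : e ∈ IsManifold.maximalAtlas 𝓘(ℂ, Cn d) ω X := IsManifold.chart_mem_maximalAtlas x
  set D : Cn d →L[ℂ] Cn 2 :=
    (fderiv ℂ (fun z => toCn 1 (F (e.symm z))) (e x)) ∘L (diffAt ℂ (d := d) e x) with hD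
  refine ⟨(Real.pi * (‖toCn 1 (F x)‖ ^ 2) ^ 2)⁻¹,
    F x 0 • ((EuclideanSpace.proj (𝕜 := ℂ) (1 : Fin 2)) ∘L D) -
      F x 1 • ((EuclideanSpace.proj (𝕜 := ℂ) (0 : Fin 2)) ∘L D), ?_, fun v => ?_⟩
  · have := Real.pi_pos
    positivity
  · rw [chernForm_fs_apply hΘ hF hx he (mem_chart_source _ x) v]
    rfl

end FSChern

/-! ## 4. The elliptic fibration of the Kummer surface -/

namespace Kummer

/-- `ff^* 𝒪_{ℙ¹}(1)`, the line bundle of the elliptic fibration `ff : Kum → ℙ¹`, `z ↦ ℘(z₀)`. -/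
noncomputable def LL : HolLineBundle 2 Kum := pullbackO1 ff (isHolomorphic_XX 0)

/-- The Chern form of the Fubini–Study metric on `ff^* 𝒪(1)` is positive in the direction transversal to the fibres. -/
theorem chernForm_fs_ff_pos {Θ : Form ℝ 2 Kum ℝ 2}
    (hΘ : (fsMetric ff (isHolomorphic_XX 0)).IsChernForm Θ) :
    ∃ x v, 0 < Θ x ![v, Complex.I • v] := by
  set μ : HalfLat := 0
  set e := chA μ 0 with he0
  have he : e ∈ IsManifold.maximalAtlas 𝓘(ℂ, Cn 2) ω Kum :=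
    atlas.chart_mem_maximalAtlas (.inl (μ, 0))
  set x : Kum := ptA μ 0 0 zero_mem_DA with hx0
  have hxe : x ∈ e.source := ptA_mem_chA_source μ 0 zero_mem_DA
  have hex : e x = 0 := chA_ptA μ 0 zero_mem_DA
  have hF : IsLocalLift 2 ff e.source (fun x => liftX 0 μ 0 (e x)) :=
    isLocalLift_of_chart he (analyticOnNhd_liftX 0 μ 0) (exists_mk_of_mem_chA_source (XX_eq_mk 0) μ 0)
  have hinj := diffAt_chart_injective (d := 2) he hxe
  have hsurj : Function.Surjective (diffAt ℂ (d := 2) e x) :=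
    (LinearMap.injective_iff_surjective (f := (diffAt ℂ (d := 2) e x).toLinearMap)).1 hinj
  obtain ⟨v, hv⟩ := hsurj (mk2 1 0)
  refine ⟨x, v, ?_⟩
  rw [chernForm_fs_apply hΘ hF hxe he hxe v, hv, hex]
  set ν : ℂ := (μ : Cn 2) 0 with hν0
  have hν : ν ∈ HalfLat1 := HalfLat.coord_mem μ 0
  -- the derivative of the lift
  have h1 : (fun z => toCn 1 (liftX 0 μ 0 (e (e.symm z)))) =ᶠ[𝓝 (0 : Cn 2)]
      fun z => toCn 1 (wpLoc ν (z 0)) := by
    filter_upwards [e.open_target.mem_nhds (show (0 : Cn 2) ∈ e.target from zero_mem_DA)] with z hz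
    rw [e.right_inv hz, liftX_self]
  have hd : DifferentiableAt ℂ (wpLoc ν) ((0 : Cn 2) 0) :=
    (analyticOnNhd_wpLoc hν _ zero_mem_Q2).differentiableAt
  have h2 : fderiv ℂ (fun z : Cn 2 => toCn 1 (wpLoc ν (z 0))) 0 (mk2 1 0) =
      toCn 1 (deriv (wpLoc ν) 0) := by
    have hA : DifferentiableAt ℂ (fun a => toCn 1 (wpLoc ν a)) ((0 : Cn 2) 0) :=
      (toCn 1).differentiableAt.comp _ hd
    rw [fderiv_comp_apply (A := fun a => toCn 1 (wpLoc ν a)) hA (hasFDerivAt_coord 0 0)]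
    have h3 : deriv (fun a => toCn 1 (wpLoc ν a)) ((0 : Cn 2) 0) = toCn 1 (deriv (wpLoc ν) 0) :=
      ((toCn 1).hasFDerivAt.comp_hasDerivAt _ hd.hasDerivAt).deriv
    rw [h3]
    simp
  rw [h1.fderiv_eq, h2, toCn_apply, toCn_apply, liftX_self]
  have hw0 : wpLoc ν 0 ≠ 0 := by
    obtain ⟨h, -⟩ := wpP_add hν zero_mem_Q
    simpa using h
  have hne : wpLoc ν ((0 : Cn 2) 0) 0 * deriv (wpLoc ν) 0 1 -
      wpLoc ν ((0 : Cn 2) 0) 1 * deriv (wpLoc ν) 0 0 ≠ 0 := by
    intro h0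
    have h0' : wpLoc ν 0 0 * deriv (wpLoc ν) 0 1 - wpLoc ν 0 1 * deriv (wpLoc ν) 0 0 = 0 := h0
    obtain ⟨a, ha⟩ := (exists_smul_eq_iff_minors (v := deriv (wpLoc ν) 0) hw0).2 (by
      intro i j
      fin_cases i <;> fin_cases j
      · exact sub_self _
      · show deriv (wpLoc ν) 0 0 * wpLoc ν 0 1 - deriv (wpLoc ν) 0 1 * wpLoc ν 0 0 = 0
        linear_combination -h0'
      · show deriv (wpLoc ν) 0 1 * wpLoc ν 0 0 - deriv (wpLoc ν) 0 0 * wpLoc ν 0 1 = 0
        linear_combination h0'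
      · exact sub_self _)
    exact deriv_wpLoc_ne hν zero_mem_Q2 a ha.symm
  have hpi := Real.pi_pos
  have hn : 0 < ‖toCn 1 (wpLoc ν ((0 : Cn 2) 0))‖ := norm_pos_iff.2 (toCn_ne_zero hw0)
  have := norm_pos_iff.2 hne
  positivity

/-- The Chern form of the Fubini–Study metric on `ff^* 𝒪(1)` has the properties used in `K3Class`: type `(1,1)`,
semipositive of rank one, not identically zero. -/
theorem isFibreForm_fs {Θ : Form ℝ 2 Kum ℝ 2}
    (hΘ : (fsMetric ff (isHolomorphic_XX 0)).IsChernForm Θ) : IsFibreForm Θ where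
  invariant := fun x u v => chernForm_fs_invariant hΘ x u v
  rankOne := fun x => chernForm_fs_rankOne hΘ x
  pos := chernForm_fs_ff_pos hΘ

/-- The class of a closed form with the properties `IsFibreForm` is nonzero, nef and isotropic (the argument of
`exists_nef_isotropic`, for an arbitrary such form). -/
theorem IsFibreForm.class_properties {Θ : closedForms 2 Kum 2} (hF : IsFibreForm Θ.1) :
    Claimed.Open.R041.H2.mk Θ ≠ 0 ∧ Claimed.Open.R041.H2.mk Θ ∈ nefCone 2 Kum ∧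
      ∀ σ : Form ℂ 2 Kum ℂ 2, bbf (n := 1) σ (Claimed.Open.R041.H2.mk Θ) = 0 := by
  obtain ⟨κ₀, hκ₀⟩ := exists_isKahlerForm
  set κ : closedForms 2 Kum 2 := ⟨κ₀, hκ₀.smooth, hκ₀.closed⟩ with hκdef
  have hκ : IsKahlerForm κ.1 := hκ₀
  refine ⟨?_, ?_, ?_⟩
  · -- nonzero: `∫ Θ ∧ κ > 0`
    apply H2mk_ne_zero_of_integralReal_ne_zero (β := κ)
    apply ne_of_gt
    apply integralReal_pos (Form.IsSmooth.wedge22 Θ.2.1 κ.2.1)
    · intro x f₀ f₁
      exact wedge22_nonneg (hF.invariant x) (hκ.invariant x) (hF.nonneg x)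
        (fun v => by
          by_cases hv : v = 0
          · subst hv
            have : (![0, Complex.I • 0] : Fin 2 → Cn 2) = ![0, 0] := by simp
            rw [this]
            exact le_of_eq ((κ.1 x).map_coord_zero 0 rfl).symm
          · exact (hκ.positive x v hv).le) f₀ f₁
    · obtain ⟨x, hx⟩ := hF.pos
      exact ⟨x, fun f₀ f₁ hf => wedge22_pos (hF.invariant x) (hκ.invariant x) (hF.nonneg x) hx
        (hκ.positive x) hf⟩
  · -- nef
    apply mem_nefCone_of_forall_pos (Claimed.Open.R041.H2.mk Θ) (Claimed.Open.R041.H2.mk κ)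
    intro ε hε
    exact ⟨Θ + ε • κ, isKahlerForm_add hF hκ hε, rfl⟩
  · -- isotropic
    intro σ
    apply bbf_mk_eq_zero
    intro x
    obtain ⟨g, ℓ, -, hv⟩ := hF.rankOne x
    exact wedge22_self_eq_zero (hF.invariant x) g ℓ hv

/-- `c₁(ff^* 𝒪(1))` is nonzero, nef and isotropic: `LL` meets all hypotheses of `StrongSYZ`. -/
theorem exists_class_LL : ∃ c : Claimed.Open.R041.H2 2 Kum,
    LL.IsFirstChernClass c ∧ c ≠ 0 ∧ c ∈ nefCone 2 Kum ∧ bbf (n := 1) sigma c = 0 := by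
  set h := fsMetric ff (isHolomorphic_XX 0)
  have hΘ : h.IsChernForm h.chernForm := h.isChernForm_chernForm
  set Θ : closedForms 2 Kum 2 := ⟨h.chernForm, hΘ.mem_closedForms⟩
  obtain ⟨h1, h2, h3⟩ := IsFibreForm.class_properties (Θ := Θ) (isFibreForm_fs hΘ)
  exact ⟨_, ⟨h, Θ, hΘ, rfl⟩, h1, h2, h3 sigma⟩

/-- The conclusion of `StrongSYZ` for `(Kum, sigma, LL)`: `m = 1`, `B = ℙ¹ ⊆ ℙ¹`, `f = ff`. -/
theorem conclusion_LL :
    LL.IsSemiample ∧
    ∃ (m N : ℕ) (B : ProjVariety N) (f : Kum → PN N),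
      0 < m ∧ B.IsNormal ∧ B.HasDim 1 ∧
      IsHolomorphicOnToPN 2 f Set.univ ∧ Set.range f = B.points ∧
      (∀ b ∈ B.points, IsConnected (f ⁻¹' {b})) ∧
      LL.IsPullbackOfO1 m Set.univ f ∧
      HasLagrangianFibres (d := 2) sigma f 1 := by
  have hp : LL.IsPullbackOfO1 1 Set.univ ff := pullbackO1_isPullbackOfO1 ff (isHolomorphic_XX 0)
  exact ⟨hp.isSemiample one_pos, 1, 1, projSpaceVariety 1, ff, one_pos, projSpaceVariety_isNormal 1,
    projSpaceVariety_hasDim 1, isHolomorphic_XX 0,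
    by rw [projSpaceVariety_points]; exact ff_surjective.range_eq,
    fun b _ => isConnected_fibre b, hp, hasLagrangianFibres_ff⟩

end Kummer

/-- **`StrongSYZ` is true on a checked example.**  For the Kummer surface `X = Kum` of `ℂ² / ℤ[i]²`, its symplectic form
and the line bundle `L = ff^* 𝒪_{ℙ¹}(1)` of the elliptic fibration `ff : z ↦ ℘(z₀)`, ALL hypotheses of `StrongSYZ` hold
(first bracket) AND its whole conclusion holds (second bracket, word for word the conclusion in `StrongSYZ`, `n = 1`).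
So no clause of the conclusion is made false by a junk value or a convention of the definitions, and the signs of
`IsFirstChernClass`, `nefCone`, `IsSection` and `IsPullbackOfO1` fit together. -/
theorem strongSYZ_hypotheses_and_conclusion_hold_on_example :
    ∃ (X : Type) (_ : TopologicalSpace X) (_ : T2Space X) (_ : CompactSpace X)
      (_ : ChartedSpace (Cn (2 * 1)) X) (_ : IsManifold 𝓘(ℂ, Cn (2 * 1)) ω X)
      (σ : Form ℂ (2 * 1) X ℂ 2) (L : HolLineBundle (2 * 1) X) (c : H2 (2 * 1) X),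
      (IsIHS σ ∧ L.IsFirstChernClass c ∧ c ≠ 0 ∧ c ∈ nefCone (2 * 1) X ∧ bbf σ c = 0) ∧
      (L.IsSemiample ∧
        ∃ (m N : ℕ) (B : ProjVariety N) (f : X → PN N),
          0 < m ∧ B.IsNormal ∧ B.HasDim 1 ∧
          IsHolomorphicOnToPN (2 * 1) f Set.univ ∧ Set.range f = B.points ∧
          (∀ b ∈ B.points, IsConnected (f ⁻¹' {b})) ∧
          L.IsPullbackOfO1 m Set.univ f ∧
          HasLagrangianFibres σ f 1) := by
  obtain ⟨c, h1, h2, h3, h4⟩ := Kummer.exists_class_LL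
  exact ⟨Kum, inferInstance, Kummer.instT2SpaceKum, Kummer.instCompactSpaceKum, inferInstance,
    inferInstance, Kummer.sigma, Kummer.LL, c, ⟨Kummer.isIHS_sigma, h1, h2, h3, h4⟩,
    Kummer.conclusion_LL⟩

/-- **`ProjectiveSpaceBase` is true on a checked example**: for the elliptic fibration `ff : Kum → ℙ¹` all hypotheses of
`ProjectiveSpaceBase` hold (first bracket) and so does its conclusion (second bracket). -/
theorem projectiveSpaceBase_hypotheses_and_conclusion_hold_on_example :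
    ∃ (X : Type) (_ : TopologicalSpace X) (_ : T2Space X) (_ : CompactSpace X)
      (_ : ChartedSpace (Cn (2 * 1)) X) (_ : IsManifold 𝓘(ℂ, Cn (2 * 1)) ω X)
      (σ : Form ℂ (2 * 1) X ℂ 2) (N : ℕ) (B : ProjVariety N) (f : X → PN N),
      (IsIHS σ ∧ B.IsNormal ∧ B.HasDim 1 ∧
        IsHolomorphicOnToPN (2 * 1) f Set.univ ∧ Set.range f = B.points ∧
        (∀ b ∈ B.points, IsConnected (f ⁻¹' {b})) ∧
        (∃ M : HolLineBundle (2 * 1) X, M.IsRelativelyAmple f) ∧
        HasLagrangianFibres σ f 1) ∧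
      (AreIsomorphic B.points (Set.univ : Set (PN 1))) :=
  ⟨Kum, inferInstance, Kummer.instT2SpaceKum, Kummer.instCompactSpaceKum, inferInstance,
    inferInstance, Kummer.sigma, 1, projSpaceVariety 1, Kummer.ff, ⟨Kummer.isIHS_sigma,
    projSpaceVariety_isNormal 1, projSpaceVariety_hasDim 1, Kummer.isHolomorphic_XX 0,
    by rw [projSpaceVariety_points]; exact Kummer.ff_surjective.range_eq,
    fun b _ => Kummer.isConnected_fibre b,
    Kummer.isProjectiveManifold_Kum.exists_isRelativelyAmple Kummer.ff,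
    Kummer.hasLagrangianFibres_ff⟩, by rw [projSpaceVariety_points]; exact areIsomorphic_refl 1 _⟩

end Claimed.Open.R041
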