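/-
Result 041, sanity file: the names `kahlerCone`, `nefCone` and the tensor powers in `IsSection` are deserved.

* `kahlerCone_add_mem`, `kahlerCone_smul_mem`: the Kähler cone is a convex cone: closed under sums and under multiplication by `t > 0`.
* `isClosed_nefCone`, `nefCone_add_mem`, `nefCone_smul_mem`: the nef cone is closed (for the topology used in its definition), closed under sums
  and under multiplication by `t > 0`, convex (`convex_kahlerCone`, `convex_nefCone`); `nefCone_add_mem_of_kahler`: nef + Kähler is nef.
  (These use that addition and scalar multiplication are continuous for `moduleTopology`.)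
* `HolLineBundle.IsSection.mul_section`, `.pow_section`: the product of a section of `L^{⊗ m}` and a section of `L^{⊗ m'}` is a section of
  `L^{⊗ (m + m')}`; the `k`-th power of a section of `L^{⊗ m}` is a section of `L^{⊗ (m k)}`: the exponent `m` in `IsSection` is a tensor power.
* `HolLineBundle.globallyGenerated_mul`: if `L^{⊗ m}` is generated by global sections, so is `L^{⊗ (m k)}`, `k ≥ 0`; so in `IsSemiample` the set of
  good exponents is closed under positive multiples ("some positive power" = "all sufficiently divisible powers").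
-/
import Claimed.Open.R041.SanityBasic

open scoped Manifold ContDiff Topology

namespace Claimed.Open.R041

section Cone

variable {d : ℕ} {X : Type} [TopologicalSpace X] [ChartedSpace (Cn d) X]

/-- The sum of two Kähler forms is a Kähler form. -/
theorem isKahlerForm_add {κ κ' : closedForms d X 2} (hκ : IsKahlerForm κ.1)
    (hκ' : IsKahlerForm κ'.1) : IsKahlerForm (κ + κ' : closedForms d X 2).1 where
  smooth := (κ + κ' : closedForms d X 2).2.1
  closed := (κ + κ' : closedForms d X 2).2.2
  invariant := by
    intro x u v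
    change κ.1 x _ + κ'.1 x _ = κ.1 x _ + κ'.1 x _
    rw [hκ.invariant x u v, hκ'.invariant x u v]
  positive := by
    intro x v hv
    change 0 < κ.1 x _ + κ'.1 x _
    exact add_pos (hκ.positive x v hv) (hκ'.positive x v hv)

/-- A positive multiple of a Kähler form is a Kähler form. -/
theorem isKahlerForm_pos_smul {κ : closedForms d X 2} (hκ : IsKahlerForm κ.1) {t : ℝ}
    (ht : 0 < t) : IsKahlerForm (t • κ : closedForms d X 2).1 where
  smooth := (t • κ : closedForms d X 2).2.1
  closed := (t • κ : closedForms d X 2).2.2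
  invariant := by
    intro x u v
    change t • κ.1 x _ = t • κ.1 x _
    rw [hκ.invariant x u v]
  positive := by
    intro x v hv
    change 0 < t • κ.1 x _
    exact smul_pos ht (hκ.positive x v hv)

/-- The Kähler cone is closed under sums. -/
theorem kahlerCone_add_mem {c c' : H2 d X} (hc : c ∈ kahlerCone d X) (hc' : c' ∈ kahlerCone d X) :
    c + c' ∈ kahlerCone d X := by
  obtain ⟨κ, hκ, rfl⟩ := hc
  obtain ⟨κ', hκ', rfl⟩ := hc'
  exact ⟨κ + κ', isKahlerForm_add hκ hκ', rfl⟩

/-- The Kähler cone is closed under multiplication by positive numbers. -/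
theorem kahlerCone_smul_mem {c : H2 d X} (hc : c ∈ kahlerCone d X) {t : ℝ} (ht : 0 < t) :
    t • c ∈ kahlerCone d X := by
  obtain ⟨κ, hκ, rfl⟩ := hc
  exact ⟨t • κ, isKahlerForm_pos_smul hκ ht, rfl⟩

/-- The Kähler cone is convex. -/
theorem convex_kahlerCone : Convex ℝ (kahlerCone d X) := by
  intro c hc c' hc' a b ha hb hab
  rcases ha.eq_or_lt with rfl | ha
  · rw [zero_add] at hab
    rw [hab, zero_smul, zero_add, one_smul]; exact hc'
  rcases hb.eq_or_lt with rfl | hb
  · rw [add_zero] at hab
    rw [hab, zero_smul, add_zero, one_smul]; exact hc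
  exact kahlerCone_add_mem (kahlerCone_smul_mem hc ha) (kahlerCone_smul_mem hc' hb)

/-- The nef cone is closed, for the topology used in its definition. -/
theorem isClosed_nefCone : @IsClosed (H2 d X) (moduleTopology ℝ (H2 d X)) (nefCone d X) :=
  @isClosed_closure _ (moduleTopology ℝ (H2 d X)) _

/-- The nef cone is closed under sums. -/
theorem nefCone_add_mem {c c' : H2 d X} (hc : c ∈ nefCone d X) (hc' : c' ∈ nefCone d X) :
    c + c' ∈ nefCone d X := by
  let _ : TopologicalSpace (H2 d X) := moduleTopology ℝ (H2 d X)
  have : IsModuleTopology ℝ (H2 d X) := ⟨rfl⟩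
  have : ContinuousAdd (H2 d X) := IsModuleTopology.toContinuousAdd ℝ _
  exact map_mem_closure₂ continuous_add hc hc' fun a ha b hb => kahlerCone_add_mem ha hb

/-- The nef cone is closed under multiplication by positive numbers. -/
theorem nefCone_smul_mem {c : H2 d X} (hc : c ∈ nefCone d X) {t : ℝ} (ht : 0 < t) :
    t • c ∈ nefCone d X := by
  let _ : TopologicalSpace (H2 d X) := moduleTopology ℝ (H2 d X)
  have : IsModuleTopology ℝ (H2 d X) := ⟨rfl⟩
  have : ContinuousSMul ℝ (H2 d X) := IsModuleTopology.toContinuousSMul ℝ _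
  exact map_mem_closure (continuous_const_smul t) hc fun a ha => kahlerCone_smul_mem ha ht

/-- The nef cone is convex. -/
theorem convex_nefCone : Convex ℝ (nefCone d X) := by
  intro c hc c' hc' a b ha hb hab
  rcases ha.eq_or_lt with rfl | ha
  · rw [zero_add] at hab
    rw [hab, zero_smul, zero_add, one_smul]; exact hc'
  rcases hb.eq_or_lt with rfl | hb
  · rw [add_zero] at hab
    rw [hab, zero_smul, add_zero, one_smul]; exact hc
  exact nefCone_add_mem (nefCone_smul_mem hc ha) (nefCone_smul_mem hc' hb)

/-- nef + Kähler is nef. -/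
theorem nefCone_add_mem_of_kahler {c c' : H2 d X} (hc : c ∈ nefCone d X)
    (hc' : c' ∈ kahlerCone d X) : c + c' ∈ nefCone d X :=
  nefCone_add_mem hc (kahlerCone_subset_nefCone hc')

end Cone

section Sections

variable {d : ℕ} {X : Type} [TopologicalSpace X] [ChartedSpace (Cn d) X]

/-- The product of a section of `L^{⊗ m}` and a section of `L^{⊗ m'}` is a section of `L^{⊗ (m + m')}`. -/
theorem HolLineBundle.IsSection.mul_section {L : HolLineBundle d X} {m m' : ℕ} {W : Set X}
    {s t : L.ι → X → ℂ} (hs : L.IsSection m W s) (ht : L.IsSection m' W t) :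
    L.IsSection (m + m') W fun i x => s i x * t i x where
  holomorphic := fun i => ContMDiffOn.mul (hs.holomorphic i) (ht.holomorphic i)
  compatible := by
    intro i j x hx
    rw [hs.compatible i j x hx, ht.compatible i j x hx, pow_add]
    ring

/-- The constant `1` is a section of `L^{⊗ 0}`. -/
theorem HolLineBundle.isSection_zero_one (L : HolLineBundle d X) (W : Set X) :
    L.IsSection 0 W fun _ _ => 1 where
  holomorphic := fun _ => contMDiffOn_const
  compatible := by
    intro i j x _
    simp

/-- The `k`-th power of a section of `L^{⊗ m}` is a section of `L^{⊗ (m k)}`. -/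
theorem HolLineBundle.IsSection.pow_section {L : HolLineBundle d X} {m : ℕ} {W : Set X}
    {s : L.ι → X → ℂ} (hs : L.IsSection m W s) (k : ℕ) :
    L.IsSection (m * k) W fun i x => s i x ^ k := by
  induction k with
  | zero => simpa using L.isSection_zero_one W
  | succ k ih =>
    have h := ih.mul_section hs
    have e : m * (k + 1) = m * k + m := by ring
    rw [e]
    simpa only [pow_succ] using h

/-- If `L^{⊗ m}` is generated by its global sections, so is `L^{⊗ (m k)}`. -/
theorem HolLineBundle.globallyGenerated_mul {L : HolLineBundle d X} {m : ℕ}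
    (h : ∀ x : X, ∃ s : L.ι → X → ℂ, L.IsSection m Set.univ s ∧ ∀ i, x ∈ L.U i → s i x ≠ 0)
    (k : ℕ) :
    ∀ x : X, ∃ s : L.ι → X → ℂ, L.IsSection (m * k) Set.univ s ∧ ∀ i, x ∈ L.U i → s i x ≠ 0 := by
  intro x
  obtain ⟨s, hs, hx⟩ := h x
  exact ⟨fun i y => s i y ^ k, hs.pow_section k, fun i hi => pow_ne_zero k (hx i hi)⟩

/-- In `IsSemiample` the exponent may be taken divisible by any given `k > 0`. -/
theorem HolLineBundle.IsSemiample.exists_dvd {L : HolLineBundle d X} (h : L.IsSemiample) {k : ℕ}
    (hk : 0 < k) :
    ∃ m : ℕ, 0 < m ∧ k ∣ m ∧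
      ∀ x : X, ∃ s : L.ι → X → ℂ, L.IsSection m Set.univ s ∧ ∀ i, x ∈ L.U i → s i x ≠ 0 := by
  obtain ⟨m, hm, hgen⟩ := h
  exact ⟨m * k, Nat.mul_pos hm hk, Dvd.intro_left m rfl, HolLineBundle.globallyGenerated_mul hgen k⟩

end Sections

end Claimed.Open.R041
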