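/-
Result 041, sanity file: the hypothesis `1 ≤ n` of `StrongSYZ` and `ProjectiveSpaceBase` only excludes a trivial case.

* `subsingleton_of_dim_zero`: a connected manifold modelled on `ℂ⁰` is a point.
* `strongSYZ_dim_zero`: the text of `StrongSYZ` for `n = 0` holds, vacuously: `H²(X,ℝ) = 0` (`subsingleton_H2_dim_zero`), so there is no
  class `c ≠ 0`.
* `projectiveSpaceBase_dim_zero`: the text of `ProjectiveSpaceBase` for `n = 0` holds: `X` is a point, so `B.points = range f` is a point, and a point is
  `AreIsomorphic` to `ℙ⁰` (`areIsomorphic_singleton_PN_zero`; `ℙ⁰` is a point: `subsingleton_PN_zero`).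
So nothing is hidden in the hypothesis `1 ≤ n`: the case it excludes is true for trivial reasons.
-/
import Claimed.Open.R041.SanityBasic
import Claimed.Open.R041.SanityProj

open scoped Manifold ContDiff Topology
open MvPolynomial

namespace Claimed.Open.R041

section Point

/-- A connected manifold modelled on `ℂ⁰` is a point. -/
theorem subsingleton_of_dim_zero {d : ℕ} (hd : d = 0) (X : Type) [TopologicalSpace X]
    [ChartedSpace (Cn d) X] [PreconnectedSpace X] : Subsingleton X := by
  subst hd
  have hopen : ∀ x : X, IsOpen ({x} : Set X) := by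
    intro x
    have h : ({x} : Set X) = (chartAt (Cn 0) x).source := by
      ext y
      constructor
      · rintro rfl
        exact mem_chart_source (Cn 0) y
      · intro hy
        exact (chartAt (Cn 0) x).injOn hy (mem_chart_source (Cn 0) x) (Subsingleton.elim _ _)
    rw [h]
    exact (chartAt (Cn 0) x).open_source
  have : DiscreteTopology X := discreteTopology_iff_isOpen_singleton.2 hopen
  exact PreconnectedSpace.trivial_of_discrete

/-- On a manifold modelled on `ℂ⁰` there are no nonzero forms of positive degree. -/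
theorem subsingleton_form_dim_zero {d : ℕ} (hd : d = 0) (X : Type) [TopologicalSpace X]
    [ChartedSpace (Cn d) X] (k : ℕ) : Subsingleton (Form ℝ d X ℝ (k + 1)) := by
  subst hd
  refine ⟨fun η ζ => ?_⟩
  funext x
  ext v
  have hv : v = 0 := Subsingleton.elim _ _
  rw [hv, (η x).map_zero, (ζ x).map_zero]

/-- `H²(X,ℝ) = 0` in dimension zero. -/
theorem subsingleton_H2_dim_zero {d : ℕ} (hd : d = 0) (X : Type) [TopologicalSpace X]
    [ChartedSpace (Cn d) X] : Subsingleton (H2 d X) := by
  have := subsingleton_form_dim_zero hd X 1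
  refine ⟨fun a b => ?_⟩
  induction a using Submodule.Quotient.induction_on with
  | _ a =>
    induction b using Submodule.Quotient.induction_on with
    | _ b => rw [Subsingleton.elim a b]

end Point

section PNZero

/-- `ℙ⁰` is a point. -/
theorem subsingleton_PN_zero : Subsingleton (PN 0) := by
  refine ⟨fun p q => ?_⟩
  induction p using Projectivization.ind with
  | _ v hv =>
    induction q using Projectivization.ind with
    | _ w hw =>
      have hi : ∀ i : Fin (0 + 1), i = 0 := fun i => Fin.eq_zero i
      have hw0 : w 0 ≠ 0 := by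
        intro h0
        apply hw
        funext i
        rw [hi i, h0]; rfl
      refine (Projectivization.mk_eq_mk_iff' ℂ _ _ _ _).2 ⟨v 0 / w 0, ?_⟩
      funext i
      rw [hi i]
      simp only [Pi.smul_apply, smul_eq_mul]
      field_simp

/-- A point of `ℙ^N` is isomorphic to `ℙ⁰`. -/
theorem areIsomorphic_singleton_PN_zero {N : ℕ} (b : PN N) :
    AreIsomorphic ({b} : Set (PN N)) (Set.univ : Set (PN 0)) := by
  have := subsingleton_PN_zero
  have h1 : (fun _ : Fin 1 => (1 : ℂ)) ≠ 0 := fun h0 => one_ne_zero (congrFun h0 0)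
  refine ⟨fun _ => Projectivization.mk ℂ _ h1, fun _ => b, ?_, ?_, fun _ _ => trivial,
    fun _ _ => rfl, ?_, fun _ _ => Subsingleton.elim _ _⟩
  · intro a _
    refine ⟨0, fun _ => 1, fun _ => isHomogeneous_one _ _, ?_, fun _ _ _ => Subsingleton.elim _ _⟩
    intro h0
    have := congrFun h0 0
    simp at this
  · intro a _
    have key : ∀ a' : PN 0, (fun k => eval a'.rep (C (b.rep k) : MvPolynomial (Fin 1) ℂ)) = b.rep := by
      intro a'; funext k; simp
    refine ⟨0, fun k => C (b.rep k), fun k => isHomogeneous_C _ _, ?_, fun a' _ h => ?_⟩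
    · rw [key]; exact b.rep_nonzero
    · exact (Projectivization.mk_rep b).symm.trans (mk_congr (key a').symm _ _)
  · rintro a rfl
    rfl

end PNZero

/-- **The text of `StrongSYZ` for `n = 0` holds (vacuously).** -/
theorem strongSYZ_dim_zero :
    ∀ (X : Type) [TopologicalSpace X] [T2Space X] [CompactSpace X] [ChartedSpace (Cn (2 * 0)) X]
      [IsManifold 𝓘(ℂ, Cn (2 * 0)) ω X] (σ : Form ℂ (2 * 0) X ℂ 2), IsIHS σ →
    ∀ (L : HolLineBundle (2 * 0) X) (c : H2 (2 * 0) X), L.IsFirstChernClass c →
      c ≠ 0 → c ∈ nefCone (2 * 0) X → bbf σ c = 0 →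
      L.IsSemiample ∧
      ∃ (m N : ℕ) (B : ProjVariety N) (f : X → PN N),
        0 < m ∧ B.IsNormal ∧ B.HasDim 0 ∧
        IsHolomorphicOnToPN (2 * 0) f Set.univ ∧ Set.range f = B.points ∧
        (∀ b ∈ B.points, IsConnected (f ⁻¹' {b})) ∧
        L.IsPullbackOfO1 m Set.univ f ∧
        HasLagrangianFibres σ f 0 := by
  intro X _ _ _ _ _ σ _ L c _ hc
  have := subsingleton_H2_dim_zero (d := 2 * 0) rfl X
  exact (hc (Subsingleton.elim _ _)).elim

/-- **The text of `ProjectiveSpaceBase` for `n = 0` holds.** -/
theorem projectiveSpaceBase_dim_zero :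
    ∀ (X : Type) [TopologicalSpace X] [T2Space X] [CompactSpace X] [ChartedSpace (Cn (2 * 0)) X]
      [IsManifold 𝓘(ℂ, Cn (2 * 0)) ω X] (σ : Form ℂ (2 * 0) X ℂ 2), IsIHS σ →
    ∀ (N : ℕ) (B : ProjVariety N) (f : X → PN N),
      B.IsNormal → B.HasDim 0 →
      IsHolomorphicOnToPN (2 * 0) f Set.univ → Set.range f = B.points →
      (∀ b ∈ B.points, IsConnected (f ⁻¹' {b})) →
      (∃ M : HolLineBundle (2 * 0) X, M.IsRelativelyAmple f) →
      HasLagrangianFibres σ f 0 →
      AreIsomorphic B.points (Set.univ : Set (PN 0)) := by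
  intro X _ _ _ _ _ σ hσ N B f _ _ _ hrange _ _ _
  have := hσ.simplyConnected
  have hsub : Subsingleton X := subsingleton_of_dim_zero (d := 2 * 0) rfl X
  obtain ⟨x⟩ : Nonempty X := inferInstance
  have h : B.points = {f x} := by
    rw [← hrange]
    ext b
    constructor
    · rintro ⟨y, rfl⟩
      rw [Subsingleton.elim y x]; rfl
    · rintro rfl
      exact ⟨x, rfl⟩
  rw [h]
  exact areIsomorphic_singleton_PN_zero (f x)

end Claimed.Open.R041
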