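/-
Result 041, sanity file: the dimension `2 * n` in `StrongSYZ` and `ProjectiveSpaceBase` is no restriction.

* `exists_ne_zero_forall_eq_zero_of_odd`: an alternating bilinear form on `ℂ^d`, `d` odd, is degenerate (a skew-symmetric matrix of odd
  size has determinant `0`).
* `IsIHS.even_dim`, `IsIHS.exists_dim_eq_two_mul`: if `IsIHS σ` holds on a manifold modelled on `ℂ^d`, then `d` is even.  So the theorems, which are
  stated for manifolds modelled on `ℂ^{2n}`, speak of ALL irreducible holomorphic symplectic manifolds in the sense of `IsIHS`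
  (this generalises `not_isIHS_dim_one` of `SanityNon` from `d = 1` to all odd `d`).
-/
import Claimed.Open.R041.SanityBasic

open scoped Manifold ContDiff Topology

namespace Claimed.Open.R041

/-- An alternating bilinear form on `ℂ^d`, `d` odd, is degenerate. -/
theorem exists_ne_zero_forall_eq_zero_of_odd {d : ℕ} (hd : Odd d) (τ : (Cn d) [⋀^Fin 2]→L[ℂ] ℂ) :
    ∃ v : Cn d, v ≠ 0 ∧ ∀ w : Cn d, τ ![v, w] = 0 := by
  classical
  have u0 : ∀ a b x : Cn d, Function.update ![a, b] 0 x = ![x, b] := by
    intro a b x; funext i; fin_cases i <;> simp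
  have u1 : ∀ a b x : Cn d, Function.update ![a, b] 1 x = ![a, x] := by
    intro a b x; funext i; fin_cases i <;> simp
  -- the bilinear map
  let L : Cn d →ₗ[ℂ] Cn d →ₗ[ℂ] ℂ :=
    LinearMap.mk₂ ℂ (fun a b => τ ![a, b])
      (fun a a' b => by
        have := τ.map_update_add ![a, b] 0 a a'
        rwa [u0, u0, u0] at this)
      (fun c a b => by
        have := τ.map_update_smul ![a, b] 0 c a
        rwa [u0, u0] at this)
      (fun a b b' => by
        have := τ.map_update_add ![a, b] 1 b b'
        rwa [u1, u1, u1] at this)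
      (fun c a b => by
        have := τ.map_update_smul ![a, b] 1 c b
        rwa [u1, u1] at this)
  have hL : ∀ a b, L a b = τ ![a, b] := fun a b => rfl
  have hself : ∀ a, L a a = 0 := fun a =>
    τ.map_eq_zero_of_eq ![a, a] (i := 0) (j := 1) (by simp) (by decide)
  have hswap : ∀ a b, L a b = -L b a := by
    intro a b
    have h := hself (a + b)
    simp only [map_add, LinearMap.add_apply, hself, zero_add, add_zero] at h
    exact eq_neg_of_add_eq_zero_right h
  let bs := (EuclideanSpace.basisFun (Fin d) ℂ).toBasis
  let A : Matrix (Fin d) (Fin d) ℂ := Matrix.of fun i j => L (bs i) (bs j)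
  have hA : A.transpose = -A := by
    ext i j
    simp only [A, Matrix.transpose_apply, Matrix.of_apply, Matrix.neg_apply]
    exact hswap _ _
  have hdet : A.det = 0 := by
    have h1 : A.det = -A.det := by
      conv_lhs => rw [← Matrix.det_transpose, hA, Matrix.det_neg, Fintype.card_fin, hd.neg_one_pow]
      ring
    exact self_eq_neg.1 h1
  obtain ⟨v, hv, hAv⟩ := Matrix.exists_vecMul_eq_zero_iff.2 hdet
  refine ⟨∑ i, v i • bs i, ?_, fun w => ?_⟩
  · intro h0
    apply hv
    funext i
    have := Fintype.linearIndependent_iff.1 bs.linearIndependent v h0 i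
    simpa using this
  · rw [← hL]
    have hz : L (∑ i, v i • bs i) = 0 := by
      refine bs.ext fun j => ?_
      have := congrFun hAv j
      simp only [Matrix.vecMul, dotProduct, A, Matrix.of_apply, Pi.zero_apply] at this
      simp only [map_sum, map_smul, LinearMap.sum_apply, LinearMap.smul_apply, smul_eq_mul,
        LinearMap.zero_apply]
      exact this
    rw [hz]; rfl

/-- **An irreducible holomorphic symplectic manifold has even complex dimension.** -/
theorem IsIHS.even_dim {d : ℕ} {X : Type} [TopologicalSpace X] [ChartedSpace (Cn d) X]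
    {σ : Form ℂ d X ℂ 2} (h : IsIHS σ) : Even d := by
  by_contra hodd
  rw [Nat.not_even_iff_odd] at hodd
  have := h.simplyConnected
  obtain ⟨x⟩ : Nonempty X := inferInstance
  obtain ⟨v, hv, hw⟩ := exists_ne_zero_forall_eq_zero_of_odd hodd (σ x)
  obtain ⟨w, hne⟩ := h.nondegenerate x v hv
  exact hne (hw w)

/-- The dimension of an irreducible holomorphic symplectic manifold is of the form `2 * n`, as in the statements. -/
theorem IsIHS.exists_dim_eq_two_mul {d : ℕ} {X : Type} [TopologicalSpace X] [ChartedSpace (Cn d) X]
    {σ : Form ℂ d X ℂ 2} (h : IsIHS σ) : ∃ n : ℕ, d = 2 * n := by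
  obtain ⟨n, hn⟩ := h.even_dim
  exact ⟨n, by omega⟩

end Claimed.Open.R041
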