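/-
Result 041, sanity: the form `bbf σ` of the Kummer surface is INDEFINITE: it takes a positive value (a Kähler class, `strongSYZ_isotropy_is_a_restriction`), the value `0` at a nonzero class
(the class of a fibre) and a negative value (`Kummer.exists_bbf_neg`).  So the hypothesis `bbf σ c = 0` of `StrongSYZ` cuts out a genuine quadric cone, as it should: the
Beauville–Bogomolov–Fujiki form has signature `(3, b₂ - 3)`.
-/
import Claimed.Open.R041.SanityNon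

open scoped Manifold ContDiff Topology
open Set

namespace Claimed.Open.R041

section Surface

variable {X : Type} [TopologicalSpace X] [ChartedSpace (Cn 2) X] [IsManifold 𝓘(ℂ, Cn 2) ω X]
  [T2Space X] [CompactSpace X]

theorem pairH_comm (α β : closedForms 2 X 2) : pairH α (H2.mk β) = pairH β (H2.mk α) := by
  rw [pairH_mk, pairH_mk, Form.wedge22_comm]

/-- `∫ (κ - tΘ)² = ∫ κ² - 2t ∫ Θ∧κ + t² ∫ Θ²`. -/
theorem pairH_sub_smul_self (κ Θ : closedForms 2 X 2) (t : ℝ) :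
    pairH (κ - t • Θ) (H2.mk (κ - t • Θ)) =
      pairH κ (H2.mk κ) - 2 * t * pairH κ (H2.mk Θ) + t ^ 2 * pairH Θ (H2.mk Θ) := by
  have e : H2.mk (κ - t • Θ) = H2.mk κ - t • H2.mk Θ := rfl
  have h1 : pairH (κ - t • Θ) (H2.mk κ) = pairH κ (H2.mk κ) - t * pairH κ (H2.mk Θ) := by
    rw [pairH_comm, e, map_sub, map_smul, smul_eq_mul]
  have h2 : pairH (κ - t • Θ) (H2.mk Θ) = pairH κ (H2.mk Θ) - t * pairH Θ (H2.mk Θ) := by
    rw [pairH_comm, e, map_sub, map_smul, smul_eq_mul, pairH_comm Θ κ]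
  rw [e, map_sub, map_smul, smul_eq_mul, h1, h2]
  ring

/-- On a compact surface with a holomorphic `2`-form `σ ≠ 0`: if `κ` is a Kähler form and `Θ` a closed form with `∫ Θ² = 0`, `∫ Θ∧κ > 0`, then `q(κ - tΘ) < 0` for `t = ∫κ² / ∫Θ∧κ`. -/
theorem exists_bbf_neg_of_isotropic [Nonempty X] {σ : Form ℂ 2 X ℂ 2} (hσ : σ.IsSmooth) (h : ∃ x, σ x ≠ 0)
    {κ Θ : closedForms 2 X 2} (hκ : IsKahlerForm κ.1) (h0 : pairH Θ (H2.mk Θ) = 0) (hpos : 0 < pairH κ (H2.mk Θ)) :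
    ∃ (c : H2 2 X) (r : ℝ), r < 0 ∧ bbf (n := 1) σ c = (r : ℂ) := by
  have hA := pairH_pos_of_isKahlerForm hκ hκ
  obtain ⟨A, hAe⟩ : ∃ A : ℝ, A = pairH κ (H2.mk κ) := ⟨_, rfl⟩
  obtain ⟨B, hBe⟩ : ∃ B : ℝ, B = pairH κ (H2.mk Θ) := ⟨_, rfl⟩
  rw [← hAe] at hA
  rw [← hBe] at hpos
  obtain ⟨r, hr, e⟩ := exists_integral_sigmaMonomial_one_one hσ h (κ - (A / B) • Θ : closedForms 2 X 2).1
  have hval : pairH (κ - (A / B) • Θ) (H2.mk (κ - (A / B) • Θ)) = -A := by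
    rw [pairH_sub_smul_self, h0, ← hAe, ← hBe]
    field_simp
    ring
  rw [pairH_mk] at hval
  refine ⟨H2.mk (κ - (A / B) • Θ), -(1 / 2 * r * A), ?_, ?_⟩
  · have : 0 < 1 / 2 * r * A := by positivity
    linarith
  · rw [bbf_mk, e, hval]
    push_cast
    ring

end Surface

namespace Kummer

/-- **The form `bbf σ` of the Kummer surface takes a negative value.** -/
theorem exists_bbf_neg : ∃ (c : Claimed.Open.R041.H2 2 Kum) (r : ℝ), r < 0 ∧ bbf (n := 1) sigma c = (r : ℂ) := by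
  obtain ⟨L, h, Θ, hΘ, hF⟩ := exists_fibre_bundle
  obtain ⟨κ₀, hκ₀⟩ := exists_isKahlerForm
  set κ : closedForms 2 Kum 2 := ⟨κ₀, hκ₀.smooth, hκ₀.closed⟩ with hκdef
  have hκ : IsKahlerForm κ.1 := hκ₀
  obtain ⟨x₀⟩ := instNonemptyKum
  have hpos : 0 < pairH κ (Claimed.Open.R041.H2.mk Θ) := by
    rw [pairH_mk]
    apply integralReal_pos (Form.IsSmooth.wedge22 Θ.2.1 κ.2.1)
    · intro x f₀ f₁
      exact wedge22_nonneg (hF.invariant x) (hκ.invariant x) (hF.nonneg x) (hκ.nonneg x) f₀ f₁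
    · obtain ⟨x, hx⟩ := hF.pos
      exact ⟨x, fun f₀ f₁ hf => wedge22_pos (hF.invariant x) (hκ.invariant x) (hF.nonneg x) hx
        (hκ.positive x) hf⟩
  have h0 : pairH Θ (Claimed.Open.R041.H2.mk Θ) = 0 := by
    rw [pairH_mk]
    have hz : Form.wedge22 Θ.1 Θ.1 = 0 := by
      funext x
      obtain ⟨g, ℓ, -, hv⟩ := hF.rankOne x
      exact wedge22_self_eq_zero (hF.invariant x) g ℓ hv
    rw [hz, integralReal_zero]
  exact exists_bbf_neg_of_isotropic sigma_isSmooth ⟨x₀, sigma_ne_zero x₀⟩ hκ h0 hpos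

end Kummer

end Claimed.Open.R041
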