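/-
Sanity checks for the conclusion of `ProjectiveSpaceBase` (result 041): the index `n` of `ℙ^n` matters.

The conclusion is `AreIsomorphic B.points (Set.univ : Set (PN n))`, where `2 n` is the dimension of `X`.  The files so far vary `B`
(cusp, quadric, Fermat cubic) and keep `n`.  Here `B` is kept and `n` varies:

* `isRegularOn_linearMap`: the map `ℙ^l → ℙ^m` of an injective linear map is regular in the sense of `IsRegularOn`;
* `IsRegularOn.const_of_space_to_line`: every regular map `ℙ^m → ℙ¹`, `m ≥ 2`, is constant (through two points of `ℙ^m` there is a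
  linearly embedded plane; on it the map is constant by `IsRegularOn.const_of_plane_to_line`);
* `line_areIsomorphic_iff`: `ℙ¹` is `AreIsomorphic` to `ℙ^n` if and only if `n = 1`;
* `conic_areIsomorphic_iff`, `areIsomorphic_index_unique_of_line`: for the conic, and for every set isomorphic to `ℙ¹`, the conclusion
  `AreIsomorphic · (Set.univ : Set (PN n))` holds for `n = 1` only;
* `not_injective_of_space_to_fermat`, `fermat_not_areIsomorphic_projSpace`: no regular map `ℙ^n → F`, `n ≥ 1`, to the Fermat cubic is injective, and `F` is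
  `AreIsomorphic` to `ℙ^n` for NO `n`: for this normal curve the conclusion fails whatever the index;
* `finite_ne_of_infinite_fibre`, `quadric_not_areIsomorphic_line`, `quadric_not_areIsomorphic_projSpace`: a regular map `ℙ¹ → ℙ¹` with an infinite fibre is constant
  off a finite set; hence the quadric surface is not `AreIsomorphic` to `ℙ¹`, and to `ℙ^n` for NO `n`.
-/
import Claimed.Open.R041.SanityFermat
import Claimed.Open.R041.SanityBasic

open MvPolynomial

namespace Claimed.Open.R041

section Index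

/-- The linear forms of a linear map `ℂ^{l+1} → ℂ^{m+1}` with columns `w j`. -/
noncomputable def linearForms {l m : ℕ} (w : Fin (l + 1) → (Fin (m + 1) → ℂ)) (k : Fin (m + 1)) :
    MvPolynomial (Fin (l + 1)) ℂ := ∑ j, C (w j k) * X j

theorem linearForms_isHomogeneous {l m : ℕ} (w : Fin (l + 1) → (Fin (m + 1) → ℂ)) (k : Fin (m + 1)) :
    (linearForms w k).IsHomogeneous 1 :=
  IsHomogeneous.sum _ _ _ fun _ _ => isHomogeneous_C_mul_X _ _

theorem eval_linearForms {l m : ℕ} (w : Fin (l + 1) → (Fin (m + 1) → ℂ)) (v : Fin (l + 1) → ℂ) :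
    (fun k => eval v (linearForms w k)) = Fintype.linearCombination ℂ w v := by
  funext k
  simp only [linearForms, map_sum, map_mul, eval_C, eval_X, Fintype.linearCombination_apply,
    Finset.sum_apply, Pi.smul_apply, smul_eq_mul]
  exact Finset.sum_congr rfl fun j _ => mul_comm _ _

/-- **Linear embeddings are regular**: the map `ℙ^l → ℙ^m` of an injective linear map is regular in the sense of `IsRegularOn`. -/
theorem isRegularOn_linearMap {l m : ℕ} (w : Fin (l + 1) → (Fin (m + 1) → ℂ))
    (hw : Function.Injective (Fintype.linearCombination ℂ w)) (A : Set (PN l)) :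
    IsRegularOn A (Projectivization.map (Fintype.linearCombination ℂ w) hw : PN l → PN m) := by
  intro a _
  refine ⟨1, linearForms w, linearForms_isHomogeneous w, ?_, fun a' _ h => ?_⟩
  · rw [eval_linearForms]
    exact fun h => a.rep_nonzero (hw (h.trans (map_zero _).symm))
  · conv_lhs => rw [← a'.mk_rep]
    rw [Projectivization.map_mk]
    exact mk_congr (eval_linearForms w a'.rep).symm _ _

/-- **Every regular map `ℙ^m → ℙ¹`, `m ≥ 2`, is constant.** -/
theorem IsRegularOn.const_of_space_to_line {m : ℕ} (hm : 2 ≤ m) {h : PN m → PN 1}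
    (hh : IsRegularOn Set.univ h) (a b : PN m) : h a = h b := by
  by_cases hab : a = b
  · rw [hab]
  have h2 : LinearIndependent ℂ ![a.rep, b.rep] := by
    rw [LinearIndependent.pair_iff' a.rep_nonzero]
    intro c hc
    apply hab
    rw [← a.mk_rep, ← b.mk_rep, Projectivization.mk_eq_mk_iff']
    have hc0 : c ≠ 0 := by
      rintro rfl
      rw [zero_smul] at hc
      exact b.rep_nonzero hc.symm
    exact ⟨c⁻¹, by rw [← hc, smul_smul, inv_mul_cancel₀ hc0, one_smul]⟩
  obtain ⟨c, hc⟩ : ∃ c : Fin (m + 1) → ℂ, c ∉ Submodule.span ℂ (Set.range ![a.rep, b.rep]) := by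
    by_contra hcon
    push Not at hcon
    have htop : Submodule.span ℂ (Set.range ![a.rep, b.rep]) = ⊤ := eq_top_iff.2 fun x _ => hcon x
    have hcard := finrank_span_eq_card h2
    rw [htop, finrank_top, Module.finrank_fin_fun, Fintype.card_fin] at hcard
    omega
  have h3 : LinearIndependent ℂ ![c, a.rep, b.rep] := linearIndependent_finCons.2 ⟨h2, hc⟩
  have hinj := h3.fintypeLinearCombination_injective
  obtain ⟨c0, hc0⟩ := (hh.comp (isRegularOn_linearMap _ hinj Set.univ)
    (Set.mapsTo_univ _ _)).const_of_plane_to_line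
  have he : ∀ i : Fin 3, (Pi.single i 1 : Fin 3 → ℂ) ≠ 0 := fun i hi => by
    have := congrFun hi i
    simp at this
  have hpt : ∀ (i : Fin 3) (p : PN m), ![c, a.rep, b.rep] i = p.rep →
      Projectivization.map (Fintype.linearCombination ℂ ![c, a.rep, b.rep]) hinj
        (Projectivization.mk ℂ _ (he i)) = p := by
    intro i p hp
    rw [Projectivization.map_mk]
    conv_rhs => rw [← p.mk_rep]
    refine mk_congr ?_ _ _
    rw [Fintype.linearCombination_apply_single, one_smul, hp]
  have ha := hc0 (Projectivization.mk ℂ _ (he 1))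
  have hb := hc0 (Projectivization.mk ℂ _ (he 2))
  rw [Function.comp_apply, hpt 1 a rfl] at ha
  rw [Function.comp_apply, hpt 2 b rfl] at hb
  rw [ha, hb]

/-- `ℙ¹` is not isomorphic to `ℙ^m` for `m ≥ 2`. -/
theorem line_not_areIsomorphic_space {m : ℕ} (hm : 2 ≤ m) :
    ¬ AreIsomorphic (Set.univ : Set (PN 1)) (Set.univ : Set (PN m)) := by
  rintro ⟨φ, ψ, -, hψ, -, -, h1, h2⟩
  have hsub : ∀ a b : PN m, a = b := fun a b => by
    rw [← h2 a trivial, ← h2 b trivial, hψ.const_of_space_to_line hm a b]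
  apply ruling_vecA_ne_vecB
  rw [← h1 (ruling (Projectivization.mk ℂ _ vecA_ne_zero)) trivial,
    ← h1 (ruling (Projectivization.mk ℂ _ vecB_ne_zero)) trivial, hsub (φ _) (φ _)]

/-- `ℙ⁰` is a point. -/
theorem PN_zero_subsingleton (p q : PN 0) : p = q := by
  rw [← p.mk_rep, ← q.mk_rep, Projectivization.mk_eq_mk_iff']
  have hi : ∀ i : Fin (0 + 1), i = 0 := fun i => Fin.fin_one_eq_zero i
  have hq : q.rep 0 ≠ 0 := fun h0 => q.rep_nonzero (funext fun i => by
    rw [hi i, h0]; rfl)
  refine ⟨p.rep 0 / q.rep 0, funext fun i => ?_⟩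
  rw [hi i, Pi.smul_apply, smul_eq_mul, div_mul_cancel₀ _ hq]

/-- `ℙ¹` is not isomorphic to the point `ℙ⁰`. -/
theorem line_not_areIsomorphic_point :
    ¬ AreIsomorphic (Set.univ : Set (PN 1)) (Set.univ : Set (PN 0)) := by
  rintro ⟨φ, ψ, -, -, -, -, h1, -⟩
  apply ruling_vecA_ne_vecB
  rw [← h1 (ruling (Projectivization.mk ℂ _ vecA_ne_zero)) trivial,
    ← h1 (ruling (Projectivization.mk ℂ _ vecB_ne_zero)) trivial, PN_zero_subsingleton (φ _) (φ _)]

/-- **`ℙ¹ ≅ ℙ^n` if and only if `n = 1`.** -/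
theorem line_areIsomorphic_iff (n : ℕ) :
    AreIsomorphic (Set.univ : Set (PN 1)) (Set.univ : Set (PN n)) ↔ n = 1 := by
  constructor
  · intro h
    rcases n with _ | _ | n
    · exact absurd h line_not_areIsomorphic_point
    · rfl
    · exact absurd h (line_not_areIsomorphic_space (by omega))
  · rintro rfl
    exact areIsomorphic_refl 1 _

/-- For a set isomorphic to `ℙ¹` the conclusion of `ProjectiveSpaceBase` holds for one index only. -/
theorem areIsomorphic_index_unique_of_line {N : ℕ} {A : Set (PN N)}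
    (hA : AreIsomorphic A (Set.univ : Set (PN 1))) (n : ℕ) :
    AreIsomorphic A (Set.univ : Set (PN n)) ↔ n = 1 :=
  ⟨fun h => (line_areIsomorphic_iff n).1 (hA.symm.trans h), fun h => h ▸ hA⟩

/-- **The index in the conclusion of `ProjectiveSpaceBase` matters**: the conic is isomorphic to `ℙ^n` for `n = 1` only. -/
theorem conic_areIsomorphic_iff (n : ℕ) :
    AreIsomorphic conic.points (Set.univ : Set (PN n)) ↔ n = 1 :=
  areIsomorphic_index_unique_of_line conic_areIsomorphic n

end Index

section FermatIndex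

/-- A linearly embedded line in `ℙ^n`, `n ≥ 1`. -/
theorem exists_line_embedding {n : ℕ} (hn : 1 ≤ n) :
    ∃ ι : PN 1 → PN n, IsRegularOn Set.univ ι ∧ Function.Injective ι := by
  have hle : 1 + 1 ≤ n + 1 := by omega
  have hli : LinearIndependent ℂ (⇑(Pi.basisFun ℂ (Fin (n + 1))) ∘ Fin.castLE hle) :=
    (Pi.basisFun ℂ (Fin (n + 1))).linearIndependent.comp _ (Fin.castLE_injective hle)
  have hinj := hli.fintypeLinearCombination_injective
  exact ⟨_, isRegularOn_linearMap _ hinj Set.univ, Projectivization.map_injective _ hinj⟩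

/-- **No regular map from `ℙ^n`, `n ≥ 1`, to the Fermat cubic is injective.** -/
theorem not_injective_of_space_to_fermat {n : ℕ} (hn : 1 ≤ n) {ψ : PN n → PN 2}
    (hψ : IsRegularOn Set.univ ψ) (hψF : Set.MapsTo ψ Set.univ fermat.points) :
    ¬ Function.Injective ψ := by
  intro hinj
  obtain ⟨ι, hι, hιinj⟩ := exists_line_embedding hn
  exact not_injective_of_line_to_fermat (hψ.comp hι (Set.mapsTo_univ _ _))
    (fun _ _ => hψF trivial) (hinj.comp hιinj)

theorem fermatA_ne_zero : (![1, -1, 0] : Fin 3 → ℂ) ≠ 0 := fun h =>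
  (one_ne_zero : (1 : ℂ) ≠ 0) (by simpa using congrFun h 0)

theorem fermatB_ne_zero : (![1, 0, -1] : Fin 3 → ℂ) ≠ 0 := fun h =>
  (one_ne_zero : (1 : ℂ) ≠ 0) (by simpa using congrFun h 0)

/-- **The Fermat cubic is not isomorphic to `ℙ^n`, for any `n`.** -/
theorem fermat_not_areIsomorphic_projSpace (n : ℕ) :
    ¬ AreIsomorphic fermat.points (Set.univ : Set (PN n)) := by
  rintro ⟨φ, ψ, -, hψ, -, hψF, hψφ, hφψ⟩
  rcases Nat.eq_zero_or_pos n with rfl | hn
  · have hA : Projectivization.mk ℂ _ fermatA_ne_zero ∈ fermat.points := by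
      rw [mk_mem_fermat]; simp; norm_num
    have hB : Projectivization.mk ℂ _ fermatB_ne_zero ∈ fermat.points := by
      rw [mk_mem_fermat]; simp; norm_num
    have e : Projectivization.mk ℂ _ fermatA_ne_zero = Projectivization.mk ℂ _ fermatB_ne_zero := by
      rw [← hψφ _ hA, ← hψφ _ hB, PN_zero_subsingleton (φ _) (φ _)]
    obtain ⟨c, hc⟩ := (Projectivization.mk_eq_mk_iff' ℂ _ _ _ _).1 e
    have e1 : c * 0 = -1 := by simpa using congrFun hc 1
    simp at e1
  · exact not_injective_of_space_to_fermat hn hψ hψF fun a b hab => by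
      rw [← hφψ a trivial, ← hφψ b trivial, hab]

end FermatIndex

section QuadricIndex

theorem vecInfty_ne_zero : (![0, 1] : Fin 2 → ℂ) ≠ 0 := pair_ne_zero_iff.2 (Or.inr one_ne_zero)

/-- Every point of `ℙ¹` is `[1 : t]` or `[0 : 1]`. -/
theorem exists_affine_or_infty (p : PN 1) :
    (∃ t : ℂ, p = Projectivization.mk ℂ _ (vec1_ne_zero t)) ∨
      p = Projectivization.mk ℂ _ vecInfty_ne_zero := by
  have hfun : p.rep = ![p.rep 0, p.rep 1] := by
    funext k; fin_cases k <;> rfl
  have hp : (![p.rep 0, p.rep 1] : Fin 2 → ℂ) ≠ 0 := by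
    rw [← hfun]; exact p.rep_nonzero
  have hpe : p = Projectivization.mk ℂ _ hp := by
    conv_lhs => rw [← p.mk_rep]
    exact mk_congr hfun _ _
  by_cases h0 : p.rep 0 = 0
  · right
    refine hpe.trans ?_
    rw [mk_pair_eq_iff, h0]
    ring
  · left
    refine ⟨p.rep 1 / p.rep 0, hpe.trans ?_⟩
    rw [mk_pair_eq_iff]
    field_simp

theorem infinite_affine_of_infinite {W : Set (PN 1)} (hW : W.Infinite) :
    {t : ℂ | Projectivization.mk ℂ _ (vec1_ne_zero t) ∈ W}.Infinite := by
  have h1 : (W \ {Projectivization.mk ℂ _ vecInfty_ne_zero}).Infinite :=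
    hW.sdiff (Set.finite_singleton _)
  have h2 := h1.preimage (f := fun t : ℂ => Projectivization.mk ℂ _ (vec1_ne_zero t)) (by
    rintro p ⟨-, hp'⟩
    rcases exists_affine_or_infty p with ⟨t, rfl⟩ | h
    · exact ⟨t, rfl⟩
    · exact absurd h hp')
  exact h2.mono fun t ht => ht.1

/-- **A regular map `ℙ¹ → ℙ¹` with an infinite fibre is constant off a finite set.** -/
theorem finite_ne_of_infinite_fibre {h : PN 1 → PN 1} (hh : IsRegularOn Set.univ h) (c : PN 1)
    (hinf : {t : ℂ | h (Projectivization.mk ℂ _ (vec1_ne_zero t)) = c}.Infinite) :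
    {t : ℂ | h (Projectivization.mk ℂ _ (vec1_ne_zero t)) ≠ c}.Finite := by
  obtain ⟨D, P, hP, hne, hrep⟩ := hh (Projectivization.mk ℂ _ (vec1_ne_zero 0)) trivial
  have hval : ∀ (w : Fin 2 → ℂ) (hw : w ≠ 0) (h' : (fun k => eval w (P k)) ≠ 0),
      h (Projectivization.mk ℂ w hw) = Projectivization.mk ℂ _ h' :=
    fun w hw h' => regular_apply_mk hP hrep w hw trivial h'
  have hP0 : (fun k => eval ![1, 0] (P k)) ≠ 0 := by
    obtain ⟨a, ha⟩ := Projectivization.exists_smul_eq_mk_rep ℂ _ (vec1_ne_zero 0)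
    intro h0
    apply hne
    funext k
    rw [← ha, Units.smul_def, eval_smul_of_isHomogeneous (hP k)]
    have := congrFun h0 k
    simp only [Pi.zero_apply] at this ⊢
    rw [this, mul_zero]
  have hfun : ∀ w : Fin 2 → ℂ, (fun k => eval w (P k)) = ![eval w (P 0), eval w (P 1)] := by
    intro w; funext k; fin_cases k <;> rfl
  have hcfun : c.rep = ![c.rep 0, c.rep 1] := by
    funext k; fin_cases k <;> rfl
  have hab : (![c.rep 0, c.rep 1] : Fin 2 → ℂ) ≠ 0 := by
    rw [← hcfun]; exact c.rep_nonzero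
  have hc : c = Projectivization.mk ℂ _ hab := by
    conv_lhs => rw [← c.mk_rep]
    exact mk_congr hcfun _ _
  have hroots : ∀ q : Polynomial ℂ, q ≠ 0 → {t : ℂ | q.eval t = 0}.Finite := by
    intro q hq
    refine (q.roots.toFinset.finite_toSet).subset fun t ht => ?_
    simp only [Finset.mem_coe, Multiset.mem_toFinset, Polynomial.mem_roots hq]
    exact ht
  have hZ : {t : ℂ | (dehom (P 0)).eval t = 0 ∧ (dehom (P 1)).eval t = 0}.Finite := by
    have hpair : (![eval ![1, 0] (P 0), eval ![1, 0] (P 1)] : Fin 2 → ℂ) ≠ 0 := by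
      rw [← hfun]; exact hP0
    rcases pair_ne_zero_iff.1 hpair with h0 | h1
    · have hnz : dehom (P 0) ≠ 0 := fun hz => h0 (by rw [← eval_dehom, hz, Polynomial.eval_zero])
      exact (hroots _ hnz).subset fun t ht => ht.1
    · have hnz : dehom (P 1) ≠ 0 := fun hz => h1 (by rw [← eval_dehom, hz, Polynomial.eval_zero])
      exact (hroots _ hnz).subset fun t ht => ht.2
  have hkey : ∀ t : ℂ, t ∉ {t : ℂ | (dehom (P 0)).eval t = 0 ∧ (dehom (P 1)).eval t = 0} →
      (h (Projectivization.mk ℂ _ (vec1_ne_zero t)) = c ↔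
        (dehom (P 0) * Polynomial.C (c.rep 1) - dehom (P 1) * Polynomial.C (c.rep 0)).eval t = 0) := by
    intro t ht
    have h' : (![eval ![1, t] (P 0), eval ![1, t] (P 1)] : Fin 2 → ℂ) ≠ 0 := by
      rw [pair_ne_zero_iff]
      by_contra hcon
      push Not at hcon
      exact ht ⟨by rw [eval_dehom]; exact hcon.1, by rw [eval_dehom]; exact hcon.2⟩
    have h'' : (fun k => eval ![1, t] (P k)) ≠ 0 := by rw [hfun]; exact h'
    rw [hval _ _ h'', mk_congr (hfun _) h'' h']
    conv_lhs => rw [hc]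
    rw [mk_pair_eq_iff]
    simp only [Polynomial.eval_sub, Polynomial.eval_mul, Polynomial.eval_C, eval_dehom, sub_eq_zero]
  have hg : dehom (P 0) * Polynomial.C (c.rep 1) - dehom (P 1) * Polynomial.C (c.rep 0) = 0 := by
    apply Polynomial.eq_zero_of_infinite_isRoot
    refine (hinf.sdiff hZ).mono ?_
    rintro t ⟨ht, htZ⟩
    exact (hkey t htZ).1 ht
  refine hZ.subset fun t ht => ?_
  by_contra htZ
  exact ht ((hkey t htZ).2 (by rw [hg, Polynomial.eval_zero]))

theorem vecAs_ne_zero (s : ℂ) : (![1, 0, 0, s] : Fin 4 → ℂ) ≠ 0 := fun h =>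
  (one_ne_zero : (1 : ℂ) ≠ 0) (by simpa using congrFun h 0)

theorem vecBs_ne_zero (s : ℂ) : (![s, 0, 1, 0] : Fin 4 → ℂ) ≠ 0 := fun h =>
  (one_ne_zero : (1 : ℂ) ≠ 0) (by simpa using congrFun h 2)

/-- **The quadric surface is not isomorphic to `ℙ¹`.** -/
theorem quadric_not_areIsomorphic_line : ¬ AreIsomorphic quadric.points (Set.univ : Set (PN 1)) := by
  rintro ⟨φ, ψ, -, hψ, -, hψQ, hψφ, -⟩
  have hh : IsRegularOn Set.univ (ruling ∘ ψ) := isRegularOn_ruling.comp hψ hψQ
  have hAmem : ∀ s, Projectivization.mk ℂ _ (vecAs_ne_zero s) ∈ quadric.points := by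
    intro s; rw [mk_mem_quadric]; simp
  have hBmem : ∀ s, Projectivization.mk ℂ _ (vecBs_ne_zero s) ∈ quadric.points := by
    intro s; rw [mk_mem_quadric]; simp
  have hrA : ∀ s, ruling (Projectivization.mk ℂ _ (vecAs_ne_zero s)) =
      Projectivization.mk ℂ _ (vec1_ne_zero 0) :=
    fun s => ruling_mk_left _ (vecAs_ne_zero s) (vec1_ne_zero 0)
  have hs1 : ∀ s : ℂ, (![s, 1] : Fin 2 → ℂ) ≠ 0 := fun s => pair_ne_zero_iff.2 (Or.inr one_ne_zero)
  have hrB : ∀ s, ruling (Projectivization.mk ℂ _ (vecBs_ne_zero s)) =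
      Projectivization.mk ℂ _ (hs1 s) :=
    fun s => ruling_mk_left _ (vecBs_ne_zero s) (hs1 s)
  have hAinj : Function.Injective fun s : ℂ => φ (Projectivization.mk ℂ _ (vecAs_ne_zero s)) := by
    intro s s' hss
    have e : Projectivization.mk ℂ _ (vecAs_ne_zero s) = Projectivization.mk ℂ _ (vecAs_ne_zero s') := by
      rw [← hψφ _ (hAmem s), ← hψφ _ (hAmem s')]
      exact congrArg ψ hss
    obtain ⟨c, hc⟩ := (Projectivization.mk_eq_mk_iff' ℂ _ _ _ _).1 e
    have e0 : c * 1 = 1 := by simpa using congrFun hc 0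
    have e3 : c * s' = s := by simpa using congrFun hc 3
    rw [← e3, (by simpa using e0 : c = 1), one_mul]
  have hBinj : Function.Injective fun s : ℂ => φ (Projectivization.mk ℂ _ (vecBs_ne_zero s)) := by
    intro s s' hss
    have e : Projectivization.mk ℂ _ (vecBs_ne_zero s) = Projectivization.mk ℂ _ (vecBs_ne_zero s') := by
      rw [← hψφ _ (hBmem s), ← hψφ _ (hBmem s')]
      exact congrArg ψ hss
    obtain ⟨c, hc⟩ := (Projectivization.mk_eq_mk_iff' ℂ _ _ _ _).1 e
    have e2 : c * 1 = 1 := by simpa using congrFun hc 2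
    have e0 : c * s' = s := by simpa using congrFun hc 0
    rw [← e0, (by simpa using e2 : c = 1), one_mul]
  have hWA : {p : PN 1 | (ruling ∘ ψ) p = Projectivization.mk ℂ _ (vec1_ne_zero 0)}.Infinite := by
    refine (Set.infinite_range_of_injective hAinj).mono ?_
    rintro _ ⟨s, rfl⟩
    show ruling (ψ (φ _)) = _
    rw [hψφ _ (hAmem s), hrA]
  have hWB : {p : PN 1 | (ruling ∘ ψ) p ≠ Projectivization.mk ℂ _ (vec1_ne_zero 0)}.Infinite := by
    refine (Set.infinite_range_of_injective hBinj).mono ?_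
    rintro _ ⟨s, rfl⟩
    show ruling (ψ (φ _)) ≠ _
    rw [hψφ _ (hBmem s), hrB, Ne, mk_pair_eq_iff]
    simp
  exact infinite_affine_of_infinite hWB
    (finite_ne_of_infinite_fibre hh _ (infinite_affine_of_infinite hWA))

/-- **The quadric surface is not isomorphic to `ℙ^n`, for any `n`.** -/
theorem quadric_not_areIsomorphic_projSpace (n : ℕ) :
    ¬ AreIsomorphic quadric.points (Set.univ : Set (PN n)) := by
  rcases n with _ | _ | n
  · rintro ⟨φ, ψ, -, -, -, -, hψφ, -⟩
    apply ruling_vecA_ne_vecB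
    rw [← hψφ _ vecA_mem, ← hψφ _ vecB_mem, PN_zero_subsingleton (φ _) (φ _)]
  · exact quadric_not_areIsomorphic_line
  · rintro ⟨φ, ψ, -, hψ, -, hψQ, hψφ, -⟩
    have hh : IsRegularOn Set.univ (ruling ∘ ψ) := isRegularOn_ruling.comp hψ hψQ
    have e := hh.const_of_space_to_line (by omega) (φ (Projectivization.mk ℂ _ vecA_ne_zero))
      (φ (Projectivization.mk ℂ _ vecB_ne_zero))
    rw [Function.comp_apply, Function.comp_apply, hψφ _ vecA_mem, hψφ _ vecB_mem] at e
    exact ruling_vecA_ne_vecB e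

end QuadricIndex

end Claimed.Open.R041
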