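/-
Sanity checks for the conclusion of `ProjectiveSpaceBase` (result 041): the index `n` of `ℙ^n` matters, second part (`n = 2`).

* `isRegularOn_projMap`: a linear projection `ℙ^l ⇢ ℙ^m` is regular (in the sense of `IsRegularOn`) where it is defined;
* `IsRegularOn.const_of_not_surjective_to_plane`: every regular map `ℙ^a → ℙ²`, `a ≥ 2`, which misses a point is constant (project from the missed point: the
  composite `ℙ^a → ℙ¹` is constant by `IsRegularOn.const_of_space_to_line`, so the image lies on a line; project once more from a point off that line);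
* `plane_not_areIsomorphic_space`, `plane_areIsomorphic_iff`: `ℙ²` is `AreIsomorphic` to `ℙ^n` if and only if `n = 2`.
-/
import Claimed.Open.R041.SanityIndex

open MvPolynomial

namespace Claimed.Open.R041

section IndexPlane

theorem single_zero_ne_zero (m : ℕ) : (Pi.single 0 1 : Fin (m + 1) → ℂ) ≠ 0 := fun h0 => by
  have := congrFun h0 0
  simp at this

/-- The partially defined map `ℙ^l ⇢ ℙ^m` of the linear map with columns `w j` (junk value where the linear map vanishes). -/
noncomputable def projMap {l m : ℕ} (w : Fin (l + 1) → (Fin (m + 1) → ℂ)) (p : PN l) : PN m :=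
  if h : Fintype.linearCombination ℂ w p.rep ≠ 0 then Projectivization.mk ℂ _ h
  else Projectivization.mk ℂ _ (single_zero_ne_zero m)

/-- **Linear projections are regular where they are defined.** -/
theorem isRegularOn_projMap {l m : ℕ} (w : Fin (l + 1) → (Fin (m + 1) → ℂ)) :
    IsRegularOn {p : PN l | Fintype.linearCombination ℂ w p.rep ≠ 0} (projMap w : PN l → PN m) := by
  intro a ha
  refine ⟨1, linearForms w, linearForms_isHomogeneous w, ?_, fun a' ha' h => ?_⟩
  · rw [eval_linearForms]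
    exact ha
  · have ha'' : Fintype.linearCombination ℂ w a'.rep ≠ 0 := ha'
    rw [projMap, dif_pos ha'']
    exact mk_congr (eval_linearForms w a'.rep).symm _ _

/-- If a linear projection to `ℙ¹` is defined on the image of a regular map `h : ℙ^a → ℙ²`, `a ≥ 2`, then the image lies in one fibre. -/
theorem exists_smul_sub_mem_ker {a : ℕ} (ha : 2 ≤ a) {h : PN a → PN 2} (hh : IsRegularOn Set.univ h)
    (w : Fin (2 + 1) → (Fin (1 + 1) → ℂ)) (hw : ∀ x, Fintype.linearCombination ℂ w (h x).rep ≠ 0)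
    (x y : PN a) : ∃ s : ℂ, Fintype.linearCombination ℂ w ((h y).rep - s • (h x).rep) = 0 := by
  have hreg : IsRegularOn Set.univ (projMap w ∘ h) :=
    (isRegularOn_projMap w).comp hh (fun x _ => hw x)
  have e := hreg.const_of_space_to_line ha y x
  rw [Function.comp_apply, Function.comp_apply, projMap, projMap, dif_pos (hw y), dif_pos (hw x),
    Projectivization.mk_eq_mk_iff'] at e
  obtain ⟨s, hs⟩ := e
  exact ⟨s, by rw [map_sub, map_smul, hs, sub_self]⟩

/-- A linear map `ℂ³ → ℂ²` with kernel the line `ℂ v`. -/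
theorem exists_columns_ker_eq_span {v : Fin (2 + 1) → ℂ} (hv : v ≠ 0) :
    ∃ w : Fin (2 + 1) → (Fin (1 + 1) → ℂ),
      ∀ u, Fintype.linearCombination ℂ w u = 0 ↔ ∃ t : ℂ, u = t • v := by
  have hfr : Module.finrank ℂ ((Fin (2 + 1) → ℂ) ⧸ Submodule.span ℂ {v}) = 2 := by
    have h := Submodule.finrank_quotient_add_finrank (Submodule.span ℂ {v})
    rw [finrank_span_singleton hv, Module.finrank_fin_fun] at h
    omega
  let e : ((Fin (2 + 1) → ℂ) ⧸ Submodule.span ℂ {v}) ≃ₗ[ℂ] (Fin (1 + 1) → ℂ) :=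
    LinearEquiv.ofFinrankEq _ _ (by rw [hfr, Module.finrank_fin_fun])
  let T : (Fin (2 + 1) → ℂ) →ₗ[ℂ] (Fin (1 + 1) → ℂ) := e.toLinearMap ∘ₗ (Submodule.span ℂ {v}).mkQ
  refine ⟨fun j => T (Pi.single j 1), fun u => ?_⟩
  have hT : Fintype.linearCombination ℂ (fun j => T (Pi.single j 1)) u = T u := by
    rw [Fintype.linearCombination_apply]
    conv_rhs => rw [← Finset.univ_sum_single u]
    rw [map_sum]
    refine Finset.sum_congr rfl fun j _ => ?_
    rw [← map_smul, ← Pi.single_smul, smul_eq_mul, mul_one]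
  rw [hT]
  show e ((Submodule.span ℂ {v}).mkQ u) = 0 ↔ _
  rw [LinearEquiv.map_eq_zero_iff, Submodule.mkQ_apply, Submodule.Quotient.mk_eq_zero,
    Submodule.mem_span_singleton]
  exact ⟨fun ⟨t, ht⟩ => ⟨t, ht.symm⟩, fun ⟨t, ht⟩ => ⟨t, ht.symm⟩⟩

/-- **Every regular map `ℙ^a → ℙ²`, `a ≥ 2`, which misses a point is constant.** -/
theorem IsRegularOn.const_of_not_surjective_to_plane {a : ℕ} (ha : 2 ≤ a) {h : PN a → PN 2}
    (hh : IsRegularOn Set.univ h) {c : PN 2} (hc : ∀ x, h x ≠ c) (x y : PN a) : h x = h y := by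
  have hpq : ∀ (p q : PN 2) (t : ℂ), p.rep = t • q.rep → p = q := by
    intro p q t hpq
    rw [← p.mk_rep, ← q.mk_rep, Projectivization.mk_eq_mk_iff']
    exact ⟨t, hpq.symm⟩
  obtain ⟨w, hw⟩ := exists_columns_ker_eq_span c.rep_nonzero
  have hw0 : ∀ x, Fintype.linearCombination ℂ w (h x).rep ≠ 0 := fun x h0 => by
    obtain ⟨t, ht⟩ := (hw _).1 h0
    exact hc x (hpq _ _ t ht)
  have h1 : ∀ y, ∃ s t : ℂ, (h y).rep = s • (h x).rep + t • c.rep := fun y => by
    obtain ⟨s, hs⟩ := exists_smul_sub_mem_ker ha hh w hw0 x y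
    obtain ⟨t, ht⟩ := (hw _).1 hs
    exact ⟨s, t, by rw [← ht]; abel⟩
  have h2 : LinearIndependent ℂ ![(h x).rep, c.rep] := by
    rw [LinearIndependent.pair_iff' (h x).rep_nonzero]
    intro t ht
    exact hc x (hpq c (h x) t ht.symm).symm
  obtain ⟨z, hz⟩ : ∃ z : Fin (2 + 1) → ℂ,
      z ∉ Submodule.span ℂ (Set.range ![(h x).rep, c.rep]) := by
    by_contra hcon
    push Not at hcon
    have htop : Submodule.span ℂ (Set.range ![(h x).rep, c.rep]) = ⊤ :=
      eq_top_iff.2 fun x _ => hcon x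
    have hcard := finrank_span_eq_card h2
    rw [htop, finrank_top, Module.finrank_fin_fun, Fintype.card_fin] at hcard
    omega
  have hmem : ∀ α β : ℂ, α • (h x).rep + β • c.rep ∈
      Submodule.span ℂ (Set.range ![(h x).rep, c.rep]) := fun α β =>
    Submodule.add_mem _ (Submodule.smul_mem _ _ (Submodule.subset_span ⟨0, rfl⟩))
      (Submodule.smul_mem _ _ (Submodule.subset_span ⟨1, rfl⟩))
  have hz0 : z ≠ 0 := fun h0 => hz (h0 ▸ Submodule.zero_mem _)
  obtain ⟨w', hw'⟩ := exists_columns_ker_eq_span hz0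
  have hw0' : ∀ y, Fintype.linearCombination ℂ w' (h y).rep ≠ 0 := fun y h0 => by
    obtain ⟨t, ht⟩ := (hw' _).1 h0
    obtain ⟨α, β, hαβ⟩ := h1 y
    have ht0 : t ≠ 0 := by
      rintro rfl
      rw [zero_smul] at ht
      exact (h y).rep_nonzero ht
    apply hz
    have hzz : z = t⁻¹ • (α • (h x).rep + β • c.rep) := by
      rw [← hαβ, ht, smul_smul, inv_mul_cancel₀ ht0, one_smul]
    rw [hzz]
    exact Submodule.smul_mem _ _ (hmem α β)
  obtain ⟨s, hs⟩ := exists_smul_sub_mem_ker ha hh w' hw0' x y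
  obtain ⟨t, ht⟩ := (hw' _).1 hs
  obtain ⟨α, β, hαβ⟩ := h1 y
  have ht0 : t = 0 := by
    by_contra ht0
    apply hz
    have htz : t • z = (α - s) • (h x).rep + β • c.rep := by
      rw [← ht, hαβ, sub_smul]; abel
    have hzz : z = t⁻¹ • ((α - s) • (h x).rep + β • c.rep) := by
      rw [← htz, smul_smul, inv_mul_cancel₀ ht0, one_smul]
    rw [hzz]
    exact Submodule.smul_mem _ _ (hmem _ _)
  rw [ht0, zero_smul, sub_eq_zero] at ht
  exact (hpq (h y) (h x) s ht).symm

/-- A linearly embedded plane in `ℙ^m`, `m ≥ 3`, and a point off it. -/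
theorem exists_plane_embedding_missing {m : ℕ} (hm : 3 ≤ m) :
    ∃ (ι : PN 2 → PN m) (q : PN m), IsRegularOn Set.univ ι ∧ Function.Injective ι ∧ ∀ p, ι p ≠ q := by
  have hle : 2 + 1 + 1 ≤ m + 1 := by omega
  have hli : LinearIndependent ℂ (⇑(Pi.basisFun ℂ (Fin (m + 1))) ∘ Fin.castLE hle) :=
    (Pi.basisFun ℂ (Fin (m + 1))).linearIndependent.comp _ (Fin.castLE_injective hle)
  rw [← Fin.cons_self_tail (⇑(Pi.basisFun ℂ (Fin (m + 1))) ∘ Fin.castLE hle),
    linearIndependent_finCons] at hli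
  obtain ⟨hli3, hx⟩ := hli
  have hinj := hli3.fintypeLinearCombination_injective
  have hx0 : (⇑(Pi.basisFun ℂ (Fin (m + 1))) ∘ Fin.castLE hle) 0 ≠ 0 :=
    fun h0 => hx (h0 ▸ Submodule.zero_mem _)
  refine ⟨_, Projectivization.mk ℂ _ hx0, isRegularOn_linearMap _ hinj Set.univ,
    Projectivization.map_injective _ hinj, fun p hp => ?_⟩
  rw [← p.mk_rep, Projectivization.map_mk, Projectivization.mk_eq_mk_iff'] at hp
  obtain ⟨s, hs⟩ := hp
  have hs0 : s ≠ 0 := by
    rintro rfl
    rw [zero_smul] at hs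
    exact p.rep_nonzero (hinj (hs.symm.trans (map_zero _).symm))
  apply hx
  have hxx : (⇑(Pi.basisFun ℂ (Fin (m + 1))) ∘ Fin.castLE hle) 0 =
      s⁻¹ • Fintype.linearCombination ℂ
        (Fin.tail (⇑(Pi.basisFun ℂ (Fin (m + 1))) ∘ Fin.castLE hle)) p.rep := by
    rw [← hs, smul_smul, inv_mul_cancel₀ hs0, one_smul]
  rw [hxx, ← Fintype.range_linearCombination]
  exact Submodule.smul_mem _ _ (LinearMap.mem_range_self _ _)

theorem fermatA_ne_fermatB : Projectivization.mk ℂ _ fermatA_ne_zero ≠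
    Projectivization.mk ℂ _ fermatB_ne_zero := by
  intro e
  obtain ⟨c, hc⟩ := (Projectivization.mk_eq_mk_iff' ℂ _ _ _ _).1 e
  have e1 : c * 0 = -1 := by simpa using congrFun hc 1
  simp at e1

/-- `ℙ²` is not isomorphic to `ℙ^m` for `m ≥ 3`. -/
theorem plane_not_areIsomorphic_space {m : ℕ} (hm : 3 ≤ m) :
    ¬ AreIsomorphic (Set.univ : Set (PN 2)) (Set.univ : Set (PN m)) := by
  rintro ⟨φ, ψ, -, hψ, -, -, -, h2⟩
  have hψinj : Function.Injective ψ := fun a b hab => by
    rw [← h2 a trivial, ← h2 b trivial, hab]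
  obtain ⟨ι, q, hι, hιinj, hq⟩ := exists_plane_embedding_missing hm
  have hreg : IsRegularOn Set.univ (ψ ∘ ι) := hψ.comp hι (Set.mapsTo_univ _ _)
  have hconst := hreg.const_of_not_surjective_to_plane le_rfl (c := ψ q)
    (fun x hx => hq x (hψinj hx))
  exact fermatA_ne_fermatB ((hψinj.comp hιinj) (hconst _ _))

/-- **`ℙ² ≅ ℙ^n` if and only if `n = 2`.** -/
theorem plane_areIsomorphic_iff (n : ℕ) :
    AreIsomorphic (Set.univ : Set (PN 2)) (Set.univ : Set (PN n)) ↔ n = 2 := by
  constructor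
  · intro h
    rcases n with _ | _ | _ | n
    · obtain ⟨φ, ψ, -, -, -, -, h1, -⟩ := h
      refine absurd ?_ fermatA_ne_fermatB
      rw [← h1 (Projectivization.mk ℂ _ fermatA_ne_zero) trivial,
        ← h1 (Projectivization.mk ℂ _ fermatB_ne_zero) trivial, PN_zero_subsingleton (φ _) (φ _)]
    · exact absurd h.symm (line_not_areIsomorphic_space le_rfl)
    · rfl
    · exact absurd h (plane_not_areIsomorphic_space (by omega))
  · rintro rfl
    exact areIsomorphic_refl 2 _

end IndexPlane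

end Claimed.Open.R041
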