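/-
Result 041, sanity: NON-EXAMPLES for the hypotheses of `StrongSYZ` (headline forms: end of `Sanity.lean`).

Each of the three numerical hypotheses on `c₁(L)` is a real restriction, already on the Kummer surface `Kum` of the checked example, and two of them
provably cannot be dropped:
* `Kummer.exists_isotropic_not_nef`: the dual `L^∨ = 𝒪(-F)` of the line bundle of a fibre `F` of the elliptic fibration has a nonzero, `q`-isotropic
  first Chern class which is NOT nef (`pairH_nonneg_of_mem_nefCone`: a nef class pairs nonnegatively with a Kähler class), and `𝒪(-F)` is NOT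
  semiample (`HolLineBundle.dual_not_isSemiample`: every section of a positive power of it vanishes off `F`): the conclusion of `StrongSYZ` fails for it;
* `Kummer.trivialBundle_no_fibration`: the trivial bundle has `c₁ = 0`, which is nef and isotropic; it is semiample, but the second half of the conclusion
  of `StrongSYZ` fails for it (a map `f` with `f^*𝒪(1)` trivial is constant, and the fibre `Kum` of a constant map has dimension `2`, not `1`);
* `Kummer.exists_nef_not_isotropic`: a Kähler class is nonzero and nef, but `q > 0` on it.  On the way: `∫ σ ∧ σ̄` is a positive real number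
  (`exists_integral_sigmaMonomial_one_one`), so that for `n = 1` the form `bbf σ` is a positive multiple of the intersection form.

Non-examples for `IsIHS`: `not_isIHS_zero` (the zero form), `not_isIHS_dim_one` (no Riemann surface), `not_isIHS_flat` with `flat_all_but_spans` (`ℂ²` meets all
clauses but the last one).
-/
import Claimed.Open.R041.K3Example
import Claimed.Open.R041.SanityAnalytic
import Claimed.Open.R041.SanityProj

open scoped Manifold ContDiff Topology
open Set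

namespace Claimed.Open.R041

/-! ## 1. The intersection pairing with a fixed class, as a linear functional on `H²(X,ℝ)` -/

section Pairing

variable {X : Type} [TopologicalSpace X] [ChartedSpace (Cn 2) X] [IsManifold 𝓘(ℂ, Cn 2) ω X]
  [T2Space X] [CompactSpace X]

omit [TopologicalSpace X] [ChartedSpace (Cn 2) X] [IsManifold 𝓘(ℂ, Cn 2) ω X] [T2Space X]
  [CompactSpace X] in
theorem Form.wedge22_smul_left (c : ℝ) (α β : Form ℝ 2 X ℝ 2) :
    Form.wedge22 (c • α) β = c • Form.wedge22 α β := by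
  funext x
  exact Claimed.Open.R041.wedge22_smul_left _ _ _

/-- `α ↦ ∫_X α ∧ κ` on closed forms. -/
noncomputable def pairL (κ : closedForms 2 X 2) : closedForms 2 X 2 →ₗ[ℝ] ℝ where
  toFun α := integralReal (d := 2) (Form.wedge22 α.1 κ.1)
  map_add' α β := by
    have hreal := isManifold_real 2 X
    change integralReal (d := 2) (Form.wedge22 (α.1 + β.1) κ.1) = _
    rw [Form.wedge22_add_left, integralReal_add (α.2.1.wedge22 κ.2.1) (β.2.1.wedge22 κ.2.1)]
  map_smul' c α := by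
    change integralReal (d := 2) (Form.wedge22 (c • α.1) κ.1) = _
    rw [Form.wedge22_smul_left, integralReal_smul]
    rfl

theorem pairL_eq_zero_of_exact (κ : closedForms 2 X 2) :
    (exactForms 2 X 1).submoduleOf (closedForms 2 X 2) ≤ LinearMap.ker (pairL κ) := by
  intro α hα
  have h1 : H2.mk α = H2.mk (0 : closedForms 2 X 2) :=
    (Submodule.Quotient.eq _).2 (by simpa using hα)
  rw [LinearMap.mem_ker]
  change integralReal (d := 2) (Form.wedge22 α.1 κ.1) = 0
  rw [integralReal_wedge22_congr_left κ h1]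
  exact (pairL κ).map_zero

/-- The linear functional `c ↦ c · [κ]` on `H²(X,ℝ)`. -/
noncomputable def pairH (κ : closedForms 2 X 2) : H2 2 X →ₗ[ℝ] ℝ :=
  Submodule.liftQ _ (pairL κ) (pairL_eq_zero_of_exact κ)

theorem pairH_mk (κ α : closedForms 2 X 2) :
    pairH κ (H2.mk α) = integralReal (d := 2) (Form.wedge22 α.1 κ.1) := rfl

omit [IsManifold 𝓘(ℂ, Cn 2) ω X] [T2Space X] [CompactSpace X] in
theorem IsKahlerForm.nonneg {κ : Form ℝ 2 X ℝ 2} (hκ : IsKahlerForm κ) (x : X) (v : Cn 2) :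
    0 ≤ κ x ![v, Complex.I • v] := by
  by_cases hv : v = 0
  · subst hv
    have : (![0, Complex.I • 0] : Fin 2 → Cn 2) = ![0, 0] := by simp
    rw [this]
    exact le_of_eq ((κ x).map_coord_zero 0 rfl).symm
  · exact (hκ.positive x v hv).le

/-- Two Kähler classes on a (nonempty) compact surface have positive intersection number. -/
theorem pairH_pos_of_isKahlerForm [Nonempty X] {κ κ' : closedForms 2 X 2} (hκ : IsKahlerForm κ.1)
    (hκ' : IsKahlerForm κ'.1) : 0 < pairH κ (H2.mk κ') := by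
  rw [pairH_mk]
  obtain ⟨x₀⟩ := ‹Nonempty X›
  refine integralReal_pos (Form.IsSmooth.wedge22 κ'.2.1 κ.2.1) (fun x f₀ f₁ => ?_) ⟨x₀, fun f₀ f₁ hf => ?_⟩
  · exact wedge22_nonneg (hκ'.invariant x) (hκ.invariant x) (hκ'.nonneg x) (hκ.nonneg x) f₀ f₁
  · exact wedge22_pos (hκ'.invariant x₀) (hκ.invariant x₀) (hκ'.nonneg x₀)
      ⟨f₀, hκ'.positive x₀ f₀ (hf.ne_zero 0)⟩ (hκ.positive x₀) hf

/-- **A nef class pairs nonnegatively with a Kähler class.** -/
theorem pairH_nonneg_of_mem_nefCone [Nonempty X] {κ : closedForms 2 X 2} (hκ : IsKahlerForm κ.1)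
    {c : H2 2 X} (hc : c ∈ nefCone 2 X) : 0 ≤ pairH κ c := by
  let _ : TopologicalSpace (H2 2 X) := moduleTopology ℝ (H2 2 X)
  have : IsModuleTopology ℝ (H2 2 X) := ⟨rfl⟩
  have hcont : Continuous (pairH κ) := IsModuleTopology.continuous_of_linearMap (pairH κ)
  have hclosed : IsClosed {c : H2 2 X | 0 ≤ pairH κ c} := isClosed_le continuous_const hcont
  refine closure_minimal ?_ hclosed hc
  rintro _ ⟨κ', hκ', rfl⟩
  exact (pairH_pos_of_isKahlerForm hκ hκ').le

end Pairing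

/-! ## 2. The dual line bundle -/

section Dual

variable {d : ℕ} {X : Type} [TopologicalSpace X] [ChartedSpace (Cn d) X]

/-- The dual line bundle `L^∨`: same cover, transition functions `g_{ij}⁻¹ = g_{ji}`. -/
def HolLineBundle.dual (L : HolLineBundle d X) : HolLineBundle d X where
  ι := L.ι
  U := L.U
  isOpen_U := L.isOpen_U
  cover := L.cover
  g i j := L.g j i
  holomorphic i j := by
    rw [inter_comm]
    exact L.holomorphic j i
  ne_zero i j x hx := L.ne_zero j i x ⟨hx.2, hx.1⟩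
  cocycle i j k x hx := by
    rw [mul_comm]
    exact L.cocycle k j i x ⟨⟨hx.2, hx.1.2⟩, hx.1.1⟩

/-- The dual Hermitian metric `h⁻¹`. -/
noncomputable def HolLineBundle.HermitianMetric.dual {L : HolLineBundle d X} (h : L.HermitianMetric) :
    L.dual.HermitianMetric where
  h i x := (h.h i x)⁻¹
  pos i x hx := inv_pos.2 (h.pos i x hx)
  smooth i := (h.smooth i).inv₀ fun x hx => (h.pos i x hx).ne'
  compatible i j x hx := by
    have h1 := h.compatible j i x ⟨hx.2, hx.1⟩
    have h2 := h.pos j x hx.2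
    have h3 : ‖L.g j i x‖ ^ 2 ≠ 0 := pow_ne_zero _ (norm_ne_zero_iff.2 (L.ne_zero j i x ⟨hx.2, hx.1⟩))
    change (h.h j x)⁻¹ = ‖L.g j i x‖ ^ 2 * (h.h i x)⁻¹
    rw [h1, mul_inv, ← mul_assoc, mul_inv_cancel₀ h3, one_mul]

variable [IsManifold 𝓘(ℂ, Cn d) ω X]

theorem HolLineBundle.HermitianMetric.IsChernForm.dual {L : HolLineBundle d X} {h : L.HermitianMetric}
    {Θ : Form ℝ d X ℝ 2} (hΘ : h.IsChernForm Θ) : h.dual.IsChernForm (-Θ) := by
  intro i x hx
  have hlog : ContMDiffOn 𝓘(ℝ, Cn d) 𝓘(ℝ, ℝ) ∞ (fun y => Real.log (h.h i y)) (L.U i) := by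
    intro y hy
    exact ((Real.contDiffAt_log.2 (h.pos i y hy).ne').contMDiffAt).comp_contMDiffWithinAt y (h.smooth i y hy)
  have e : (fun y => Real.log (h.dual.h i y)) = fun y => (-1 : ℝ) * Real.log (h.h i y) := by
    funext y
    change Real.log (h.h i y)⁻¹ = _
    rw [Real.log_inv]
    ring
  rw [e, ddbar_const_mul_mfd (-1) (L.isOpen_U i) hlog hx]
  change -(Θ x) = _
  rw [hΘ i x hx]
  simp

/-- `c₁(L^∨) = -c₁(L)`. -/
theorem HolLineBundle.IsFirstChernClass.dual {L : HolLineBundle d X} {c : H2 d X}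
    (hc : L.IsFirstChernClass c) : L.dual.IsFirstChernClass (-c) := by
  obtain ⟨h, Θ, hΘ, rfl⟩ := hc
  exact ⟨h.dual, -Θ, hΘ.dual, rfl⟩

omit [IsManifold 𝓘(ℂ, Cn d) ω X] in
theorem HolLineBundle.g_self (L : HolLineBundle d X) (i : L.ι) {x : X} (hx : x ∈ L.U i) :
    L.g i i x = 1 := by
  have h1 := L.cocycle i i i x ⟨⟨hx, hx⟩, hx⟩
  have h2 := L.ne_zero i i x ⟨hx, hx⟩
  exact mul_left_cancel₀ h2 (by rw [h1, mul_one])

omit [IsManifold 𝓘(ℂ, Cn d) ω X] in
theorem HolLineBundle.g_mul_g_symm (L : HolLineBundle d X) (i j : L.ι) {x : X} (hi : x ∈ L.U i)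
    (hj : x ∈ L.U j) : L.g i j x * L.g j i x = 1 := by
  rw [L.cocycle i j i x ⟨⟨hi, hj⟩, hi⟩, L.g_self i hi]

/-- **If `L` has a holomorphic section which vanishes somewhere but not everywhere, then the dual `L^∨` is not semiample** (`X` compact and connected):
the product of a section of `(L^∨)^m` with the `m`-th power of the section of `L` is a holomorphic function on `X`, hence constant, hence `0`. -/
theorem HolLineBundle.dual_not_isSemiample [CompactSpace X] [PreconnectedSpace X]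
    (L : HolLineBundle d X) {t : L.ι → X → ℂ} (ht : L.IsSection 1 univ t) {x₀ x₁ : X}
    (h₀ : ∀ i, x₀ ∈ L.U i → t i x₀ ≠ 0) (h₁ : ∀ i, x₁ ∈ L.U i → t i x₁ = 0) :
    ¬ L.dual.IsSemiample := by
  rintro ⟨m, hm, hs⟩
  obtain ⟨s, hsec, hne⟩ := hs x₀
  choose idx hidx using L.cover
  set F : X → ℂ := fun x => s (idx x) x * t (idx x) x ^ m with hFdef
  have hloc : ∀ i, ∀ y ∈ L.U i, F y = s i y * t i y ^ m := by
    intro i y hy
    have h1 : s (idx y) y = L.g i (idx y) y ^ m * s i y :=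
      hsec.compatible (idx y) i y ⟨⟨hidx y, hy⟩, trivial⟩
    have h2 : t (idx y) y = L.g (idx y) i y ^ 1 * t i y :=
      ht.compatible (idx y) i y ⟨⟨hidx y, hy⟩, trivial⟩
    have h3 := L.g_mul_g_symm i (idx y) hy (hidx y)
    change s (idx y) y * t (idx y) y ^ m = _
    rw [h1, h2, pow_one, mul_pow]
    calc L.g i (idx y) y ^ m * s i y * (L.g (idx y) i y ^ m * t i y ^ m)
        = (L.g i (idx y) y * L.g (idx y) i y) ^ m * (s i y * t i y ^ m) := by ring
      _ = s i y * t i y ^ m := by rw [h3, one_pow, one_mul]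
  have hF : MDifferentiable 𝓘(ℂ, Cn d) 𝓘(ℂ, ℂ) F := by
    intro x
    have h1 : ContMDiffOn 𝓘(ℂ, Cn d) 𝓘(ℂ, ℂ) ω (fun y => s (idx x) y * t (idx x) y ^ m)
        (L.U (idx x) ∩ univ) := (hsec.holomorphic (idx x)).mul ((ht.holomorphic (idx x)).pow m)
    rw [inter_univ] at h1
    have h2 : ContMDiffOn 𝓘(ℂ, Cn d) 𝓘(ℂ, ℂ) ω F (L.U (idx x)) := h1.congr (hloc (idx x))
    exact (h2.contMDiffAt ((L.isOpen_U _).mem_nhds (hidx x))).mdifferentiableAt (by simp)
  have hman : IsManifold 𝓘(ℂ, Cn d) 1 X := IsManifold.of_le (n := ω) le_top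
  have e := hF.apply_eq_of_compactSpace x₀ x₁
  rw [hloc _ _ (hidx x₀), hloc _ _ (hidx x₁), h₁ _ (hidx x₁), zero_pow hm.ne', mul_zero] at e
  exact (mul_ne_zero (hne _ (hidx x₀)) (pow_ne_zero m (h₀ _ (hidx x₀)))) e

end Dual

/-! ## 3. `∫ σ ∧ σ̄ > 0`, and `q > 0` on Kähler classes -/

section SigmaBar

/-- `η ↦ ℓ ∘ η` from complex-bilinear alternating forms to real forms (`ℓ = Re` or `Im`). -/
noncomputable def partCLM (ℓ : ℂ →L[ℝ] ℝ) :
    ((Cn 2) [⋀^Fin 2]→L[ℂ] ℂ) →L[ℝ] ((Cn 2) [⋀^Fin 2]→L[ℝ] ℝ) :=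
  (ContinuousLinearMap.compContinuousAlternatingMapCLM ℝ (Cn 2) ℂ ℝ (Fin 2) ℓ) ∘L
    ContinuousAlternatingMap.restrictScalarsCLM ℝ

theorem partCLM_apply (ℓ : ℂ →L[ℝ] ℝ) (η : (Cn 2) [⋀^Fin 2]→L[ℂ] ℂ) (v : Fin 2 → Cn 2) :
    partCLM ℓ η v = ℓ (η v) := rfl

variable {X : Type} [TopologicalSpace X] [ChartedSpace (Cn 2) X]

/-- The real form `ℓ ∘ σ`. -/
noncomputable def Form.part (ℓ : ℂ →L[ℝ] ℝ) (σ : Form ℂ 2 X ℂ 2) : Form ℝ 2 X ℝ 2 :=
  fun x => partCLM ℓ (σ x)

theorem Form.IsSmooth.part [IsManifold 𝓘(ℂ, Cn 2) ω X] (ℓ : ℂ →L[ℝ] ℝ) {σ : Form ℂ 2 X ℂ 2}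
    (hσ : σ.IsSmooth) : (Form.part ℓ σ).IsSmooth := by
  intro e he
  have he1 : e ∈ IsManifold.maximalAtlas 𝓘(ℂ, Cn 2) 1 X :=
    IsManifold.maximalAtlas_subset_of_le (by simp) (IsManifold.subset_maximalAtlas (n := ω) he)
  have h := (partCLM ℓ).contDiff.comp_contDiffOn ((hσ e he).restrict_scalars ℝ)
  refine h.congr fun y hy => ?_
  rw [inChart_eq, symmDeriv_real he1 hy]
  rfl

omit [TopologicalSpace X] [ChartedSpace (Cn 2) X] in
theorem sigmaMonomial_one_one_eq (σ : Form ℂ 2 X ℂ 2) (α : Form ℝ 2 X ℝ 2) (x : X) :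
    sigmaMonomial (n := 1) σ α 1 1 x =
      wedgeFam 2 ![(σ x).restrictScalars ℝ,
        (Complex.conjCLE : ℂ →L[ℝ] ℂ).compContinuousAlternatingMap ((σ x).restrictScalars ℝ)] := by
  change wedgeFam 2 _ = _
  congr 1
  funext j
  fin_cases j <;> simp

omit [TopologicalSpace X] [ChartedSpace (Cn 2) X] in
/-- `Re (σ ∧ σ̄) = Re σ ∧ Re σ + Im σ ∧ Im σ`. -/
theorem re_sigmaMonomial_one_one (σ : Form ℂ 2 X ℂ 2) (α : Form ℝ 2 X ℝ 2) :
    (fun x => Complex.reCLM.compContinuousAlternatingMap (sigmaMonomial (n := 1) σ α 1 1 x)) =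
      Form.wedge22 (Form.part Complex.reCLM σ) (Form.part Complex.reCLM σ) +
        Form.wedge22 (Form.part Complex.imCLM σ) (Form.part Complex.imCLM σ) := by
  funext x
  ext v
  rw [sigmaMonomial_one_one_eq]
  change (wedgeFam 2 _ v).re = Claimed.Open.R041.wedge22 _ _ v + Claimed.Open.R041.wedge22 _ _ v
  rw [wedgeFam_two_apply, wedge22_apply, wedge22_apply]
  simp [Form.part, partCLM_apply]
  ring

omit [TopologicalSpace X] [ChartedSpace (Cn 2) X] in
/-- `Im (σ ∧ σ̄) = 0`. -/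
theorem im_sigmaMonomial_one_one (σ : Form ℂ 2 X ℂ 2) (α : Form ℝ 2 X ℝ 2) :
    (fun x => Complex.imCLM.compContinuousAlternatingMap (sigmaMonomial (n := 1) σ α 1 1 x)) =
      (0 : Form ℝ 2 X ℝ (2 * 2)) := by
  funext x
  ext v
  rw [sigmaMonomial_one_one_eq]
  change (wedgeFam 2 _ v).im = 0
  rw [wedgeFam_two_apply]
  simp
  ring

/-- On the standard oriented frame, `σ ∧ σ̄ = 4 |σ(e₀,e₁)|²`. -/
theorem wedge22_part_realFrame (η : (Cn 2) [⋀^Fin 2]→L[ℂ] ℂ) :
    Claimed.Open.R041.wedge22 (partCLM Complex.reCLM η) (partCLM Complex.reCLM η) (realFrame 2) +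
      Claimed.Open.R041.wedge22 (partCLM Complex.imCLM η) (partCLM Complex.imCLM η) (realFrame 2) =
      4 * Complex.normSq (η Kummer.frame2) := by
  have e : η Kummer.frame2 = η ![EuclideanSpace.single (0 : Fin 2) (1 : ℂ),
      EuclideanSpace.single (1 : Fin 2) (1 : ℂ)] := by
    congr 1
    funext j
    fin_cases j <;> rfl
  rw [e, realFrame_two, wedge22_apply, wedge22_apply]
  simp only [partCLM_apply, Matrix.cons_val_zero, Matrix.cons_val_one, Matrix.cons_val]
  simp only [alt2_smul_left, alt2_smul_right, alt2_self]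
  simp [Complex.normSq_apply]
  ring

variable [IsManifold 𝓘(ℂ, Cn 2) ω X] [T2Space X] [CompactSpace X]

omit [T2Space X] in
/-- **`∫_X σ ∧ σ̄` is a positive real number** for every holomorphic `2`-form `σ ≠ 0` on a compact surface.  So for `n = 1` the form `bbf σ` is
a positive multiple of the intersection form. -/
theorem exists_integral_sigmaMonomial_one_one {σ : Form ℂ 2 X ℂ 2} (hσ : σ.IsSmooth)
    (h : ∃ x, σ x ≠ 0) (α : Form ℝ 2 X ℝ 2) :
    ∃ r : ℝ, 0 < r ∧ integral (d := 2) (sigmaMonomial (n := 1) σ α 1 1) = (r : ℂ) := by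
  have hreal := isManifold_real 2 X
  have e : integral (d := 2) (sigmaMonomial (n := 1) σ α 1 1) =
      ((integralReal (d := 2) fun x =>
        Complex.reCLM.compContinuousAlternatingMap (sigmaMonomial (n := 1) σ α 1 1 x) : ℝ) : ℂ) +
      Complex.I * ((integralReal (d := 2) fun x =>
        Complex.imCLM.compContinuousAlternatingMap (sigmaMonomial (n := 1) σ α 1 1 x) : ℝ) : ℂ) := rfl
  rw [e, im_sigmaMonomial_one_one, re_sigmaMonomial_one_one, integralReal_zero (d := 2) (X := X)]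
  refine ⟨integralReal (d := 2) (Form.wedge22 (Form.part Complex.reCLM σ) (Form.part Complex.reCLM σ) +
      Form.wedge22 (Form.part Complex.imCLM σ) (Form.part Complex.imCLM σ)), ?_, by simp⟩
  have hs : (Form.wedge22 (Form.part Complex.reCLM σ) (Form.part Complex.reCLM σ) +
      Form.wedge22 (Form.part Complex.imCLM σ) (Form.part Complex.imCLM σ)).IsSmooth :=
    ((hσ.part _).wedge22 (hσ.part _)).add ((hσ.part _).wedge22 (hσ.part _))
  have hv : ∀ x, (Form.wedge22 (Form.part Complex.reCLM σ) (Form.part Complex.reCLM σ) +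
      Form.wedge22 (Form.part Complex.imCLM σ) (Form.part Complex.imCLM σ)) x (realFrame 2) =
      4 * Complex.normSq (σ x Kummer.frame2) := fun x => wedge22_part_realFrame (σ x)
  refine integralReal_pos_of_realFrame hs (fun x => ?_) ?_
  · rw [hv]
    exact mul_nonneg (by norm_num) (Complex.normSq_nonneg _)
  · obtain ⟨x, hx⟩ := h
    refine ⟨x, ?_⟩
    rw [hv]
    exact mul_pos (by norm_num) (Complex.normSq_pos.2 fun h0 => hx (Kummer.eq_zero_of_frame2 h0))

/-- **A Kähler class on a compact surface with a holomorphic `2`-form `σ ≠ 0` is not isotropic**: `q(κ) > 0`. -/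
theorem exists_bbf_eq_of_isKahlerForm [Nonempty X] {σ : Form ℂ 2 X ℂ 2} (hσ : σ.IsSmooth)
    (h : ∃ x, σ x ≠ 0) {κ : closedForms 2 X 2} (hκ : IsKahlerForm κ.1) :
    ∃ r : ℝ, 0 < r ∧ bbf (n := 1) σ (H2.mk κ) = (r : ℂ) := by
  obtain ⟨r, hr, e⟩ := exists_integral_sigmaMonomial_one_one hσ h κ.1
  have hp := pairH_pos_of_isKahlerForm hκ hκ
  rw [pairH_mk] at hp
  refine ⟨1 / 2 * r * _, mul_pos (mul_pos (by norm_num) hr) hp, ?_⟩
  rw [bbf_mk, e]
  push_cast
  ring

end SigmaBar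

/-! ## 4. The trivial bundle; non-examples for `IsIHS` -/

section Trivial

variable {d : ℕ} {X : Type} [TopologicalSpace X] [ChartedSpace (Cn d) X] [IsManifold 𝓘(ℂ, Cn d) ω X]

/-- **NON-EXAMPLE for `c ≠ 0`.**  The trivial bundle has `c₁ = 0`. -/
theorem trivialBundle_isFirstChernClass_zero : (trivialBundle d X).IsFirstChernClass 0 := by
  refine ⟨⟨fun _ _ => 1, fun _ _ _ => one_pos, fun _ => contMDiffOn_const, fun _ _ _ _ => ?_⟩, 0, ?_, rfl⟩
  · simp [trivialBundle]
  · intro i x _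
    simp only [Real.log_one]
    rw [ddbar_const_mfd, smul_zero]
    rfl

end Trivial

section TrivialFibration

variable {d : ℕ} {X : Type} [TopologicalSpace X] [ChartedSpace (Cn d) X] [IsManifold 𝓘(ℂ, Cn d) ω X]

/-- A constant map does not have Lagrangian fibres: its only fibre is `X`, which is irreducible of dimension `d`. -/
theorem not_hasLagrangianFibres_of_const [ConnectedSpace X] {N n : ℕ} (hn : n ≠ d) (σ : Form ℂ d X ℂ 2)
    {f : X → PN N} (hf : ∀ x y, f x = f y) : ¬ HasLagrangianFibres σ f n := by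
  intro h
  obtain ⟨x₀⟩ : Nonempty X := inferInstance
  have hfib : f ⁻¹' {f x₀} = univ := eq_univ_of_forall fun x => hf x x₀
  have hcomp : IsIrreducibleComponent d (univ : Set X) (f ⁻¹' {f x₀}) := by
    rw [hfib]
    exact ⟨isIrreducibleAnalytic_univ, subset_rfl, fun Z' _ _ hZ => univ_subset_iff.1 hZ⟩
  exact hn ((h (f x₀) univ hcomp).1.unique hasDimension_univ)

/-- On a compact connected manifold, a map `f` with `f^* 𝒪(1)` trivial is constant. -/
theorem trivialBundle_isPullbackOfO1_const [CompactSpace X] [PreconnectedSpace X] {m N : ℕ} {f : X → PN N}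
    (h : (trivialBundle d X).IsPullbackOfO1 m univ f) (x y : X) : f x = f y := by
  obtain ⟨s, hs, hf⟩ := h
  have hman : IsManifold 𝓘(ℂ, Cn d) 1 X := IsManifold.of_le (n := ω) le_top
  have hconst : ∀ k, s k () x = s k () y := by
    intro k
    have h1 : ContMDiffOn 𝓘(ℂ, Cn d) 𝓘(ℂ, ℂ) ω (s k ()) (univ ∩ univ) := (hs k).holomorphic ()
    rw [inter_univ, contMDiffOn_univ] at h1
    exact (h1.mdifferentiable (by simp)).apply_eq_of_compactSpace x y
  obtain ⟨hx, ex⟩ := hf () x ⟨trivial, trivial⟩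
  obtain ⟨hy, ey⟩ := hf () y ⟨trivial, trivial⟩
  rw [ex, ey]
  exact mk_congr (funext hconst) hx hy

omit [IsManifold 𝓘(ℂ, Cn d) ω X] in
theorem IsKahlerForm.smul {κ : closedForms d X 2} (hκ : IsKahlerForm κ.1) {ε : ℝ} (hε : 0 < ε) :
    IsKahlerForm (ε • κ : closedForms d X 2).1 where
  smooth := (ε • κ : closedForms d X 2).2.1
  closed := (ε • κ : closedForms d X 2).2.2
  invariant := by
    intro x u v
    change ε • κ.1 x _ = ε • κ.1 x _
    rw [hκ.invariant x u v]
  positive := by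
    intro x v hv
    change 0 < ε • κ.1 x _
    exact smul_pos hε (hκ.positive x v hv)

omit [IsManifold 𝓘(ℂ, Cn d) ω X] in
/-- On a Kähler manifold the class `0` is nef. -/
theorem zero_mem_nefCone {κ : closedForms d X 2} (hκ : IsKahlerForm κ.1) : (0 : H2 d X) ∈ nefCone d X := by
  refine mem_nefCone_of_forall_pos 0 (H2.mk κ) fun ε hε => ⟨ε • κ, hκ.smul hε, ?_⟩
  rw [zero_add]
  rfl

end TrivialFibration

section NotIHS

/-- **NON-EXAMPLE for `IsIHS`.**  The zero form is not a symplectic form (in positive dimension). -/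
theorem not_isIHS_zero {d : ℕ} {X : Type} [TopologicalSpace X] [ChartedSpace (Cn (d + 1)) X] :
    ¬ IsIHS (0 : Form ℂ (d + 1) X ℂ 2) := by
  intro h
  have := h.simplyConnected
  obtain ⟨x⟩ : Nonempty X := inferInstance
  obtain ⟨w, hw⟩ := h.nondegenerate x (EuclideanSpace.single 0 1) (by simp)
  exact hw rfl

/-- **NON-EXAMPLE for `IsIHS`.**  No Riemann surface is irreducible holomorphic symplectic: there is no nondegenerate alternating form on `ℂ¹`. -/
theorem not_isIHS_dim_one {X : Type} [TopologicalSpace X] [ChartedSpace (Cn 1) X] (σ : Form ℂ 1 X ℂ 2) :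
    ¬ IsIHS σ := by
  intro h
  have := h.simplyConnected
  obtain ⟨x⟩ : Nonempty X := inferInstance
  obtain ⟨w, hw⟩ := h.nondegenerate x (EuclideanSpace.single 0 1) (by simp)
  apply hw
  have e : w = w 0 • EuclideanSpace.single (0 : Fin 1) (1 : ℂ) := by
    ext j
    fin_cases j
    simp
  rw [e, alt2_smul_right, alt2_self, smul_zero]

/-- **NON-EXAMPLE for `IsIHS`.**  `ℂ²` is simply connected and Kähler and `dz₀ ∧ dz₁` is holomorphic and nowhere degenerate, but no `σ` makes `ℂ²`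
irreducible holomorphic symplectic: the space of holomorphic `2`-forms is not of dimension one (`dz₀∧dz₁` and `z₀ dz₀∧dz₁`). -/
theorem not_isIHS_flat (σ : Form ℂ 2 (Cn 2) ℂ 2) : ¬ IsIHS σ := by
  intro h
  obtain ⟨c₁, h₁⟩ := h.spans (fun _ => Kummer.detForm) ((isSmooth_flat _).2 contDiff_const)
  obtain ⟨c₂, h₂⟩ := h.spans (fun z => z 0 • Kummer.detForm)
    ((isSmooth_flat _).2 (by fun_prop))
  have a0 : (0 : Cn 2) 0 • Kummer.detForm = c₂ • σ 0 := congrFun h₂ 0
  have a1 : (EuclideanSpace.single (0 : Fin 2) (1 : ℂ) : Cn 2) 0 • Kummer.detForm =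
      c₂ • σ (EuclideanSpace.single 0 1) := congrFun h₂ (EuclideanSpace.single 0 1)
  have b0 : Kummer.detForm = c₁ • σ 0 := congrFun h₁ 0
  have hc₂ : c₂ ≠ 0 := by
    rintro rfl
    apply Kummer.detForm_ne_zero
    simpa using a1
  have hσ0 : σ 0 = 0 := by
    have : c₂ • σ 0 = 0 := by
      rw [← a0]
      simp
    exact (smul_eq_zero.1 this).resolve_left hc₂
  apply Kummer.detForm_ne_zero
  rw [b0, hσ0, smul_zero]

/-- ... although all the other clauses of `IsIHS` hold for `dz₀ ∧ dz₁` on `ℂ²`. -/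
theorem flat_all_but_spans : SimplyConnectedSpace (Cn 2) ∧ (∃ κ : Form ℝ 2 (Cn 2) ℝ 2, IsKahlerForm κ) ∧
    Form.IsSmooth (fun _ => Kummer.detForm : Form ℂ 2 (Cn 2) ℂ 2) ∧
    ∀ (_ : Cn 2) (v : Cn 2), v ≠ 0 → ∃ w : Cn 2, Kummer.detForm ![v, w] ≠ 0 := by
  refine ⟨inferInstance, ⟨_, isKahlerForm_ddbar_normSq⟩, (isSmooth_flat _).2 contDiff_const, fun _ v hv => ?_⟩
  by_cases h0 : v 0 = 0
  · have h1 : v 1 ≠ 0 := by
      intro h1
      apply hv
      ext j
      fin_cases j
      · exact h0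
      · exact h1
    exact ⟨EuclideanSpace.single 0 1, by simpa [Kummer.detForm_apply] using h1⟩
  · exact ⟨EuclideanSpace.single 1 1, by simpa [Kummer.detForm_apply] using h0⟩

end NotIHS

/-! ## 5. The line bundle of a tube, with its canonical section -/

section Tube

variable {d : ℕ} {X : Type} [TopologicalSpace X] [ChartedSpace (Cn d) X] [IsManifold 𝓘(ℂ, Cn d) ω X]

/-- The line bundle `𝒪(div ζ)` of a "tube" `(U₁, ζ)`, with the Hermitian metric `h₁ = exp(-K(|ζ|²))` on `U₁`, `h₀ = exp(-C)` outside: this is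
`exists_lineBundle_of_tube` of `K3Potential` (same bundle, same metric, same proof), which in addition records the canonical section `t = (ζ, 1)` of
`𝒪(div ζ)`, with zero set `{ζ = 0}`. -/
theorem exists_lineBundle_of_tube_section {U₁ : Set X} (hU₁ : IsOpen U₁) {ζ : X → ℂ}
    (hζ : HolomorphicOn d ζ U₁) {u₁ : ℝ} (hu₁ : 0 < u₁)
    (hcl : IsClosed {x | x ∈ U₁ ∧ ‖ζ x‖ ^ 2 ≤ u₁}) {K : ℝ → ℝ} {C : ℝ} (hK : ContDiff ℝ ∞ K)
    (hK1 : ∀ u, u₁ ≤ u → K u = Real.log u + C) :
    ∃ (L : HolLineBundle d X) (h : L.HermitianMetric) (Θ : closedForms d X 2) (t : L.ι → X → ℂ),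
      h.IsChernForm Θ.1 ∧
      (∀ x ∈ U₁, Θ.1 x = (1 / (2 * Real.pi) : ℝ) • ddbar (d := d) (fun y => K (‖ζ y‖ ^ 2)) x) ∧
      (∀ x, x ∉ U₁ → Θ.1 x = 0) ∧
      L.IsSection 1 univ t ∧
      (∀ x ∈ U₁, ζ x = 0 → ∀ i, x ∈ L.U i → t i x = 0) ∧
      (∀ x, (x ∈ U₁ → ζ x ≠ 0) → ∀ i, x ∈ L.U i → t i x ≠ 0) := by
  set U₀ : Set X := {x | x ∈ U₁ ∧ ‖ζ x‖ ^ 2 ≤ u₁}ᶜ with hU₀
  have hlt : ∀ x, x ∈ U₁ → x ∈ U₀ → u₁ < ‖ζ x‖ ^ 2 := by
    intro x h1 h0
    by_contra hcon
    exact h0 ⟨h1, not_lt.1 hcon⟩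
  have hne : ∀ x, x ∈ U₁ → x ∈ U₀ → ζ x ≠ 0 := by
    intro x h1 h0 hz
    have := hlt x h1 h0
    rw [hz] at this
    simp at this
    linarith
  let L : HolLineBundle d X :=
    { ι := Bool
      U := fun b => if b then U₁ else U₀
      isOpen_U := by
        intro b
        cases b
        · exact hcl.isOpen_compl
        · exact hU₁
      cover := by
        intro x
        by_cases hx : x ∈ U₁
        · exact ⟨true, hx⟩
        · exact ⟨false, fun h => hx h.1⟩
      g := fun a b => if a = b then fun _ => 1 else if a then ζ else fun x => (ζ x)⁻¹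
      holomorphic := by
        intro a b
        cases a <;> cases b
        · exact contMDiffOn_const
        · exact ContMDiffOn.inv₀ (hζ.mono inter_subset_right) (fun x hx => hne x hx.2 hx.1)
        · exact hζ.mono inter_subset_left
        · exact contMDiffOn_const
      ne_zero := by
        intro a b x hx
        cases a <;> cases b
        · simp
        · exact inv_ne_zero (hne x hx.2 hx.1)
        · exact hne x hx.1 hx.2
        · simp
      cocycle := by
        intro a b c x hx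
        cases a <;> cases b <;> cases c <;> simp
        · exact inv_mul_cancel₀ (hne x hx.1.2 hx.1.1)
        · exact mul_inv_cancel₀ (hne x hx.1.1 hx.1.2) }
  have hζr : ContMDiffOn 𝓘(ℝ, Cn d) 𝓘(ℝ, ℝ) ∞ (fun y => ‖ζ y‖ ^ 2) U₁ := by
    have h1 : ContMDiffOn 𝓘(ℝ, Cn d) 𝓘(ℝ, ℂ) ∞ ζ U₁ :=
      (contMDiffOn_real_of_complex hζ).of_le le_top
    exact (contDiff_norm_sq ℝ (E := ℂ) (n := ∞)).contMDiff.comp_contMDiffOn h1
  have hKζ : ContMDiffOn 𝓘(ℝ, Cn d) 𝓘(ℝ, ℝ) ∞ (fun y => K (‖ζ y‖ ^ 2)) U₁ :=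
    hK.contMDiff.comp_contMDiffOn hζr
  let h : L.HermitianMetric :=
    { h := fun b => if b then fun x => Real.exp (-K (‖ζ x‖ ^ 2)) else fun _ => Real.exp (-C)
      pos := by
        intro b x _
        cases b
        · exact Real.exp_pos _
        · exact Real.exp_pos _
      smooth := by
        intro b
        cases b
        · exact contMDiffOn_const
        · exact Real.contDiff_exp.contMDiff.comp_contMDiffOn hKζ.neg
      compatible := by
        intro a b x hx
        have key : ∀ x, x ∈ U₁ → x ∈ U₀ →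
            Real.exp (-C) = ‖ζ x‖ ^ 2 * Real.exp (-K (‖ζ x‖ ^ 2)) := by
          intro x h1 h0
          have hpos : 0 < ‖ζ x‖ ^ 2 := hu₁.trans (hlt x h1 h0)
          rw [hK1 _ (hlt x h1 h0).le, neg_add, Real.exp_add, Real.exp_neg (Real.log _),
            Real.exp_log hpos, ← mul_assoc, mul_inv_cancel₀ hpos.ne', one_mul]
        cases a <;> cases b
        · simp [L]
        · have := key x hx.2 hx.1
          have hpos : 0 < ‖ζ x‖ ^ 2 := hu₁.trans (hlt x hx.2 hx.1)
          show Real.exp (-K (‖ζ x‖ ^ 2)) = ‖(ζ x)⁻¹‖ ^ 2 * Real.exp (-C)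
          rw [this, norm_inv, inv_pow, ← mul_assoc, inv_mul_cancel₀ hpos.ne', one_mul]
        · exact key x hx.1 hx.2
        · simp [L] }
  refine ⟨L, h, ⟨h.chernForm, h.isChernForm_chernForm.mem_closedForms⟩,
    fun b => if b then ζ else fun _ => 1, h.isChernForm_chernForm, ?_, ?_, ⟨?_, ?_⟩, ?_, ?_⟩
  · intro x hx
    have h1 := h.isChernForm_chernForm true x hx
    have h2 : (fun y => Real.log (h.h true y)) = fun y => (-1) * K (‖ζ y‖ ^ 2) := by
      funext y
      simp [h]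
    show h.chernForm x = _
    rw [h1, h2, ddbar_const_mul_mfd (-1) hU₁ hKζ hx, smul_smul]
    congr 1
    ring
  · intro x hx
    have h1 := h.isChernForm_chernForm false x (fun hh => hx hh.1)
    have h2 : (fun y => Real.log (h.h false y)) = fun _ => -C := by
      funext y
      simp [h]
    show h.chernForm x = _
    rw [h1, h2, ddbar_const_mfd, smul_zero]
  · intro b
    cases b
    · exact contMDiffOn_const
    · exact hζ.mono inter_subset_left
  · intro a b x hx
    cases a <;> cases b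
    · simp [L]
    · have := hne x hx.1.2 hx.1.1
      simp [L, this]
    · simp [L]
    · simp [L]
  · intro x hx hz b hb
    cases b
    · exact absurd ⟨hx, by rw [hz]; simpa using hu₁.le⟩ hb
    · exact hz
  · intro x hx b hb
    cases b
    · exact one_ne_zero
    · exact hx hb

end Tube

/-! ## 6. On the Kummer surface -/

namespace Kummer

instance instNonemptyKum : Nonempty Kum := by
  have := simplyConnectedSpace_Kum
  infer_instance

/-- `exists_fibre_bundle` of `K3Class` (same bundle `𝒪(F)`, same metric, same proof), recording in addition the canonical section of `𝒪(F)`: it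
vanishes at the points of the fibre `F = {z₁ = w0}` and only there. -/
theorem exists_fibre_bundle_section : ∃ (L : HolLineBundle 2 Kum) (h : L.HermitianMetric)
    (Θ : closedForms 2 Kum 2) (t : L.ι → Kum → ℂ) (x₀ x₁ : Kum), h.IsChernForm Θ.1 ∧ IsFibreForm Θ.1 ∧
      L.IsSection 1 univ t ∧ (∀ i, x₀ ∈ L.U i → t i x₀ ≠ 0) ∧ (∀ i, x₁ ∈ L.U i → t i x₁ = 0) := by
  obtain ⟨C, K, hK, -, hK1, hKs, u, hu, hKp⟩ :=
    exists_bump_profile (u₀ := 1 / 100) (u₁ := 1 / 25) (by norm_num) (by norm_num)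
  obtain ⟨L, h, Θ, t, hΘ, hΘ1, hΘ0, ht, ht0, ht1⟩ := exists_lineBundle_of_tube_section isOpen_U1 holomorphicOn_zeta
    (u₁ := 1 / 25) (by norm_num) (isClosed_tube (by norm_num)) hK hK1
  have hpi : (0 : ℝ) < 1 / (2 * Real.pi) := by positivity
  have hz₀ : mk2 0 (w0 + 1 / 8) ∈ OO := by
    change ‖mk2 0 (w0 + 1 / 8) 1 - w0‖ < 1 / 4
    rw [mk2_one, add_sub_cancel_left]
    norm_num
  have hz₁ : mk2 0 w0 ∈ OO := by
    change ‖mk2 0 w0 1 - w0‖ < 1 / 4
    rw [mk2_one, sub_self]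
    norm_num
  refine ⟨L, h, Θ, t, regT (mk2 0 (w0 + 1 / 8)), regT (mk2 0 w0), hΘ, ⟨?_, ?_, ?_⟩, ht,
    ht1 _ (fun _ => by rw [zeta_regT hz₀, mk2_one, add_sub_cancel_left]; norm_num),
    ht0 _ ⟨_, hz₁, rfl⟩ (by rw [zeta_regT hz₁, mk2_one, sub_self])⟩
  · intro x a b
    by_cases hx : x ∈ U1
    · rw [hΘ1 x hx]
      simp only [ContinuousAlternatingMap.smul_apply]
      rw [ddbar_invariant_mfd isOpen_U1 (contMDiffOn_K_zeta hK) hx]
    · rw [hΘ0 x hx]; simp
  · intro x
    by_cases hx : x ∈ U1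
    · obtain ⟨z, hz, rfl⟩ := hx
      refine ⟨1 / (2 * Real.pi) * (2 * (deriv K (‖z 1 - w0‖ ^ 2) +
          ‖z 1 - w0‖ ^ 2 * deriv (deriv K) (‖z 1 - w0‖ ^ 2))),
        (EuclideanSpace.proj (𝕜 := ℂ) (1 : Fin 2)) ∘L
          diffAt ℂ (d := 2) (chZ z (notMem_HalfLat_of_mem_OO hz)) (regT z), ?_, ?_⟩
      · have := hKs (‖z 1 - w0‖ ^ 2) (by positivity)
        positivity
      · intro v
        rw [hΘ1 _ ⟨z, hz, rfl⟩]
        simp only [ContinuousAlternatingMap.smul_apply, smul_eq_mul]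
        rw [ddbar_K_zeta_apply hK hz]
        have e : ∀ w : Cn 2, (EuclideanSpace.proj (𝕜 := ℂ) (1 : Fin 2)) w = w 1 := fun _ => rfl
        simp only [ContinuousLinearMap.comp_apply, e]
        ring
    · refine ⟨0, 0, le_rfl, fun v => ?_⟩
      rw [hΘ0 x hx]; simp
  · -- a point where the form is positive
    have hu0 : 0 < u := lt_trans (by norm_num) hu.1
    set z : Cn 2 := mk2 0 (w0 + (Real.sqrt u : ℂ)) with hzdef
    have hz1 : ‖z 1 - w0‖ ^ 2 = u := by
      simp only [hzdef, mk2_one, add_sub_cancel_left, Complex.norm_real, Real.norm_eq_abs, sq_abs]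
      exact Real.sq_sqrt hu0.le
    have hz : z ∈ OO := by
      have : ‖z 1 - w0‖ ^ 2 < (1 / 4) ^ 2 := by rw [hz1]; have := hu.2; norm_num at this ⊢; linarith
      exact lt_of_pow_lt_pow_left₀ 2 (by norm_num) this
    have hzH := notMem_HalfLat_of_mem_OO hz
    have hinj := diffAt_chart_injective (atlas.chart_mem_maximalAtlas (.inr ⟨z, hzH⟩))
      (regT_mem_chZ_source hzH)
    have hsurj : Function.Surjective (diffAt ℂ (d := 2) (chZ z hzH) (regT z)) :=
      (LinearMap.injective_iff_surjective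
        (f := (diffAt ℂ (d := 2) (chZ z hzH) (regT z)).toLinearMap)).1 hinj
    obtain ⟨v, hv⟩ := hsurj (mk2 0 1)
    refine ⟨regT z, v, ?_⟩
    rw [hΘ1 _ ⟨z, hz, rfl⟩]
    simp only [ContinuousAlternatingMap.smul_apply, smul_eq_mul]
    rw [ddbar_K_zeta_apply hK hz, hv, hz1]
    simp only [mk2_one, norm_one, one_pow, mul_one]
    positivity

/-- **NON-EXAMPLE for nefness.**  The dual `𝒪(-F)` of the line bundle of a fibre of the elliptic fibration of the Kummer surface: its first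
Chern class is nonzero and isotropic, but it is NOT nef.  So all hypotheses of `StrongSYZ` but nefness are met; and the conclusion fails: `𝒪(-F)` is
not semiample. -/
theorem exists_isotropic_not_nef : ∃ (L : HolLineBundle 2 Kum) (c : Claimed.Open.R041.H2 2 Kum),
    L.IsFirstChernClass c ∧ c ≠ 0 ∧ (∀ σ : Form ℂ 2 Kum ℂ 2, bbf (n := 1) σ c = 0) ∧
      c ∉ nefCone 2 Kum ∧ ¬ L.IsSemiample := by
  obtain ⟨L, h, Θ, t, x₀, x₁, hΘ, hF, ht, h₀, h₁⟩ := exists_fibre_bundle_section
  obtain ⟨κ₀, hκ₀⟩ := exists_isKahlerForm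
  set κ : closedForms 2 Kum 2 := ⟨κ₀, hκ₀.smooth, hκ₀.closed⟩ with hκdef
  have hκ : IsKahlerForm κ.1 := hκ₀
  have hpos : 0 < pairH κ (Claimed.Open.R041.H2.mk Θ) := by
    rw [pairH_mk]
    apply integralReal_pos (Form.IsSmooth.wedge22 Θ.2.1 κ.2.1)
    · intro x f₀ f₁
      exact wedge22_nonneg (hF.invariant x) (hκ.invariant x) (hF.nonneg x) (hκ.nonneg x) f₀ f₁
    · obtain ⟨x, hx⟩ := hF.pos
      exact ⟨x, fun f₀ f₁ hf => wedge22_pos (hF.invariant x) (hκ.invariant x) (hF.nonneg x) hx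
        (hκ.positive x) hf⟩
  have hneg : pairH κ (-Claimed.Open.R041.H2.mk Θ) < 0 := by
    rw [map_neg]
    linarith
  refine ⟨L.dual, -Claimed.Open.R041.H2.mk Θ, HolLineBundle.IsFirstChernClass.dual ⟨h, Θ, hΘ, rfl⟩, ?_, ?_, ?_, ?_⟩
  · intro h0
    rw [h0, map_zero] at hneg
    exact lt_irrefl _ hneg
  · intro σ
    have e : -Claimed.Open.R041.H2.mk Θ = Claimed.Open.R041.H2.mk (-Θ) := rfl
    rw [e]
    apply bbf_mk_eq_zero
    intro x
    obtain ⟨g, ℓ, -, hv⟩ := hF.rankOne x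
    refine wedge22_self_eq_zero (A := (-Θ : closedForms 2 Kum 2).1 x) ?_ (-g) ℓ ?_
    · intro u v
      change -(Θ.1 x _) = -(Θ.1 x _)
      rw [hF.invariant x u v]
    · intro v
      change -(Θ.1 x _) = _
      rw [hv]
      ring
  · intro hnef
    exact absurd (pairH_nonneg_of_mem_nefCone hκ hnef) (not_le.2 hneg)
  · have := simplyConnectedSpace_Kum
    exact L.dual_not_isSemiample ht h₀ h₁

/-- **NON-EXAMPLE for `c ≠ 0`.**  The trivial bundle of the Kummer surface: `c₁ = 0` is nef and isotropic, so all hypotheses of `StrongSYZ` but `c ≠ 0` are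
met; the bundle is semiample, but no power of it is the pull-back of `𝒪(1)` under a map with Lagrangian fibres. -/
theorem trivialBundle_no_fibration : (trivialBundle 2 Kum).IsFirstChernClass 0 ∧
    (0 : Claimed.Open.R041.H2 2 Kum) ∈ nefCone 2 Kum ∧
    (∀ σ : Form ℂ 2 Kum ℂ 2, bbf (n := 1) σ (0 : Claimed.Open.R041.H2 2 Kum) = 0) ∧
    (trivialBundle 2 Kum).IsSemiample ∧
    ∀ (σ : Form ℂ 2 Kum ℂ 2) (m N : ℕ) (f : Kum → PN N),
      (trivialBundle 2 Kum).IsPullbackOfO1 m univ f → ¬ HasLagrangianFibres σ f 1 := by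
  have := simplyConnectedSpace_Kum
  obtain ⟨κ₀, hκ₀⟩ := exists_isKahlerForm
  refine ⟨trivialBundle_isFirstChernClass_zero,
    zero_mem_nefCone (κ := ⟨κ₀, hκ₀.smooth, hκ₀.closed⟩) hκ₀, fun σ => ?_, trivialBundle_isSemiample 2 Kum,
    fun σ m N f hf => not_hasLagrangianFibres_of_const (by norm_num) σ (trivialBundle_isPullbackOfO1_const hf)⟩
  apply bbf_mk_eq_zero σ (0 : closedForms 2 Kum 2)
  intro x
  ext v
  change Claimed.Open.R041.wedge22 0 0 v = 0
  rw [wedge22_apply]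
  simp

/-- **NON-EXAMPLE for isotropy.**  A Kähler class of the Kummer surface is nonzero and nef, but `q > 0` on it. -/
theorem exists_nef_not_isotropic : ∃ c : Claimed.Open.R041.H2 2 Kum, c ≠ 0 ∧ c ∈ nefCone 2 Kum ∧
    ∃ r : ℝ, 0 < r ∧ bbf (n := 1) sigma c = (r : ℂ) := by
  obtain ⟨κ₀, hκ₀⟩ := exists_isKahlerForm
  set κ : closedForms 2 Kum 2 := ⟨κ₀, hκ₀.smooth, hκ₀.closed⟩ with hκdef
  have hκ : IsKahlerForm κ.1 := hκ₀
  obtain ⟨x₀⟩ := instNonemptyKum
  refine ⟨Claimed.Open.R041.H2.mk κ, ?_, kahlerCone_subset_nefCone ⟨κ, hκ, rfl⟩,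
    exists_bbf_eq_of_isKahlerForm sigma_isSmooth ⟨x₀, sigma_ne_zero x₀⟩ hκ⟩
  have hp := pairH_pos_of_isKahlerForm hκ hκ
  rw [pairH_mk] at hp
  exact H2mk_ne_zero_of_integralReal_ne_zero hp.ne'

end Kummer

end Claimed.Open.R041
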