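/-
Result 041, sanity: the hypothesis `bbf σ c = 0` of `StrongSYZ` is NECESSARY for its conclusion (`n = 1`), and cannot be dropped.

* `bbf_eq_zero_of_fibration`: on a compact complex surface `X`, if `L^{⊗ m} ≃ f^* 𝒪(1)` (`m > 0`) for a map `f : X → ℙ^N` all of whose
  fibre components are curves (`HasLagrangianFibres σ f 1`), i.e. if the second conclusion of `StrongSYZ` holds, then `bbf σ c₁(L) = 0`;
* `exists_isKahlerForm_of_immersion`: if `L^{⊗ m} ≃ f^* 𝒪(1)` for an immersion `f`, then `c₁(L)` is a Kähler class;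
* `Kummer.exists_nef_lineBundle_no_fibration`: the very ample line bundle of the projective embedding of the Kummer surface has `c₁ ≠ 0` nef,
  `bbf σ c₁ > 0`, and no fibration as in `StrongSYZ`;
* `not_strongSYZ_without_isotropy`: the text of `StrongSYZ` with the hypothesis `bbf σ c = 0` deleted is FALSE.

Together with `not_strongSYZ_without_nef` and `not_strongSYZ_without_ne_zero` (`Sanity.lean`): none of the three hypotheses on `c₁(L)` can be dropped.

Proofs.  `HolLineBundle.IsGenerating.metric` is the metric `(∑ |s_k|²)^{-1/m}` on `L` given by sections `s_k` of `L^{⊗ m}` without common zero; its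
Chern form is `Θ(v,Jv) = (‖H‖²‖dH(v)‖² - |⟨H,dH(v)⟩|²)/(π m ‖H‖⁴)`, `H = (s_k)` (`chernForm_apply`), i.e. `1/m` times the pull-back of the
Fubini–Study form.  If the differential of `f` were injective at `x`, then `x` would be an isolated point of its fibre
(`exists_isOpen_fibre_eq_singleton`), hence an irreducible component of dimension `0` (`isIrreducibleComponent_singleton`); so for a fibration in
curves `Θ` has rank at most one at every point, `Θ ∧ Θ = 0`, and `bbf σ [Θ] = 0`; `c₁(L) = [Θ]` by `isFirstChernClass_unique`.  For an immersion,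
equality in the Cauchy–Schwarz inequality shows `Θ(v,Jv) > 0` (`inKerDifferential_of_lift`: the kernel of the differential can be tested on one lift).

Nothing here proves `Statement`.
-/
import Claimed.Open.R041.SanityNon
import Claimed.Open.R041.SanityConclusion

open scoped Manifold ContDiff Topology
open Set

namespace Claimed.Open.R041

/-! ## 1. The Levi form of `r log ‖H‖²` -/

section FlatGeneral

variable {d N : ℕ}

/-- The Hermitian form `‖H‖² ‖W‖² - |⟨H, W⟩|²` (the squared area of the parallelogram spanned by `H` and `W`). -/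
noncomputable def gram (H W : Cn (N + 1)) : ℝ := ‖H‖ ^ 2 * ‖W‖ ^ 2 - ‖inner ℂ H W‖ ^ 2

theorem deriv_const_mul_log (r : ℝ) : deriv (fun t : ℝ => r * Real.log t) = fun t => r * t⁻¹ := by
  funext t
  rw [deriv_const_mul_field, Real.deriv_log]

theorem deriv_deriv_const_mul_log (r t : ℝ) :
    deriv (deriv fun t : ℝ => r * Real.log t) t = - (r * (t ^ 2)⁻¹) := by
  rw [deriv_const_mul_log, deriv_const_mul_field, deriv_inv]
  ring

/-- `i∂∂̄ (r log ‖H‖²) (w, Jw) = 2 r (‖H‖² ‖dH(w)‖² - |⟨H, dH(w)⟩|²) / ‖H‖⁴`. -/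
theorem ddbar_const_mul_log_normSq {V : Set (Cn d)} (hV : IsOpen V) {H : Cn d → Cn (N + 1)}
    (hH : ContDiffOn ℂ ∞ H V) (h0 : ∀ y ∈ V, H y ≠ 0) {y : Cn d} (hy : y ∈ V) (w : Cn d) (r : ℝ) :
    ddbar (d := d) (fun z => r * Real.log (‖H z‖ ^ 2)) y ![w, Complex.I • w] =
      2 * r * ((‖H y‖ ^ 2) ^ 2)⁻¹ * gram (H y) (fderiv ℂ H y w) := by
  have hG : ContDiffOn ℝ ∞ (fun t : ℝ => r * Real.log t) (Ioi 0) :=
    contDiffOn_const.mul (Real.contDiffOn_log.mono fun t ht => ne_of_gt ht)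
  have hS : ∀ y ∈ V, ‖H y‖ ^ 2 ∈ Ioi (0 : ℝ) := fun y hy => by
    have := norm_pos_iff.2 (h0 y hy)
    exact pow_pos this 2
  have hSy : ‖H y‖ ^ 2 ≠ 0 := ne_of_gt (hS y hy)
  rw [ddbar_comp_normSq (G := fun t : ℝ => r * Real.log t) hV hH isOpen_Ioi hG hS hy,
    deriv_deriv_const_mul_log, deriv_const_mul_log, gram]
  field_simp
  ring

/-- `w ↦ ‖H‖² w - ⟨H, w⟩ H`: up to the factor `‖H‖²`, the orthogonal projection along `H`. -/
noncomputable def projAlong (H : Cn (N + 1)) : Cn (N + 1) →L[ℂ] Cn (N + 1) :=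
  ((‖H‖ ^ 2 : ℝ) : ℂ) • ContinuousLinearMap.id ℂ (Cn (N + 1)) - (innerSL ℂ H).smulRight H

theorem projAlong_apply (H w : Cn (N + 1)) :
    projAlong H w = ((‖H‖ ^ 2 : ℝ) : ℂ) • w - inner ℂ H w • H := by
  simp [projAlong]

theorem projAlong_self (H : Cn (N + 1)) : projAlong H H = 0 := by
  rw [projAlong_apply, inner_self_eq_norm_sq_to_K]
  simp

theorem norm_projAlong_sq (H w : Cn (N + 1)) : ‖projAlong H w‖ ^ 2 = ‖H‖ ^ 2 * gram H w := by
  rw [projAlong_apply, norm_sub_sq (𝕜 := ℂ), norm_smul, norm_smul, inner_smul_left, inner_smul_right,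
    ← inner_conj_symm w H, gram]
  have h1 : ‖((‖H‖ ^ 2 : ℝ) : ℂ)‖ = ‖H‖ ^ 2 := by
    rw [Complex.norm_real, Real.norm_eq_abs, abs_of_nonneg (by positivity)]
  rw [h1]
  set p : ℂ := inner ℂ H w with hp
  have h2 : RCLike.re ((starRingEnd ℂ) ((‖H‖ ^ 2 : ℝ) : ℂ) * (p * (starRingEnd ℂ) p)) =
      ‖H‖ ^ 2 * ‖p‖ ^ 2 := by
    rw [Complex.conj_ofReal, Complex.mul_conj, Complex.sq_norm, ← Complex.ofReal_mul]
    exact Complex.ofReal_re _
  rw [h2]
  ring

theorem gram_nonneg {H : Cn (N + 1)} (hH : H ≠ 0) (w : Cn (N + 1)) : 0 ≤ gram H w := by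
  have h1 := norm_projAlong_sq H w
  have h2 : 0 < ‖H‖ ^ 2 := pow_pos (norm_pos_iff.2 hH) 2
  by_contra h
  push Not at h
  have : ‖H‖ ^ 2 * gram H w < 0 := mul_neg_of_pos_of_neg h2 h
  have h3 : 0 ≤ ‖projAlong H w‖ ^ 2 := by positivity
  linarith

/-- Equality in the Cauchy–Schwarz inequality. -/
theorem exists_smul_of_gram_eq_zero {H : Cn (N + 1)} (hH : H ≠ 0) {w : Cn (N + 1)}
    (h : gram H w = 0) : ∃ a : ℂ, w = a • H := by
  have h1 := norm_projAlong_sq H w
  rw [h, mul_zero] at h1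
  have h2 : projAlong H w = 0 := by
    have := pow_eq_zero_iff (two_ne_zero) |>.1 h1
    exact norm_eq_zero.1 this
  rw [projAlong_apply, sub_eq_zero] at h2
  have h3 : ((‖H‖ ^ 2 : ℝ) : ℂ) ≠ 0 := by
    have : 0 < ‖H‖ ^ 2 := pow_pos (norm_pos_iff.2 hH) 2
    exact_mod_cast this.ne'
  refine ⟨(((‖H‖ ^ 2 : ℝ) : ℂ))⁻¹ * inner ℂ H w, ?_⟩
  rw [mul_smul, ← h2, smul_smul, inv_mul_cancel₀ h3, one_smul]

end FlatGeneral

/-! ## 2. The metric on `L` defined by sections of `L^{⊗ m}` without common zero -/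

section SecMetric

variable {d : ℕ} {X : Type} [TopologicalSpace X] [ChartedSpace (Cn d) X] {N : ℕ}

/-- Sections `s₀, …, s_N` of `L^{⊗ m}` (`m > 0`) over `X` without common zero. -/
structure HolLineBundle.IsGenerating (L : HolLineBundle d X) (m : ℕ)
    (s : Fin (N + 1) → L.ι → X → ℂ) : Prop where
  pos : 0 < m
  isSection : ∀ k, L.IsSection m Set.univ (s k)
  ne_zero : ∀ i, ∀ x ∈ L.U i, (fun k => s k i x) ≠ 0

variable {L : HolLineBundle d X} {m : ℕ} {s : Fin (N + 1) → L.ι → X → ℂ}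

theorem HolLineBundle.IsGenerating.holomorphicOn (hs : L.IsGenerating m s) (i : L.ι) :
    HolomorphicOn d (fun x k => s k i x) (L.U i) :=
  (holomorphicOn_pi_iff _ _).2 fun k => by
    have := (hs.isSection k).holomorphic i
    rwa [Set.inter_univ] at this

theorem HolLineBundle.IsGenerating.normSq_pos (hs : L.IsGenerating m s) {i : L.ι} {x : X}
    (hx : x ∈ L.U i) : 0 < ‖toCn N (fun k => s k i x)‖ ^ 2 :=
  pow_pos (norm_pos_iff.2 (toCn_ne_zero (hs.ne_zero i x hx))) 2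

/-- The Hermitian metric `(∑ |s_k|²)^{-1/m}` on `L`. -/
noncomputable def HolLineBundle.IsGenerating.metric (hs : L.IsGenerating m s) :
    L.HermitianMetric where
  h := fun i x => Real.exp (-(1 / (m : ℝ)) * Real.log (‖toCn N (fun k => s k i x)‖ ^ 2))
  pos := fun _ _ _ => Real.exp_pos _
  smooth := fun i => by
    have h1 : ContMDiffOn 𝓘(ℝ, Cn d) 𝓘(ℝ, Fin (N + 1) → ℂ) ∞ (fun x k => s k i x) (L.U i) :=
      (contMDiffOn_real_of_complex (hs.holomorphicOn i)).of_le le_top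
    have h2 : ContMDiffOn 𝓘(ℝ, Cn d) 𝓘(ℝ, ℝ) ∞ (fun x => ‖toCn N (fun k => s k i x)‖ ^ 2) (L.U i) :=
      contDiff_normSq_toCn.contMDiff.comp_contMDiffOn h1
    have h3 : ContMDiffOn 𝓘(ℝ, Cn d) 𝓘(ℝ, ℝ) ∞
        (fun x => Real.log (‖toCn N (fun k => s k i x)‖ ^ 2)) (L.U i) := fun x hx =>
      ((Real.contDiffAt_log.2 (hs.normSq_pos hx).ne').contMDiffAt).comp_contMDiffWithinAt x (h2 x hx)
    exact Real.contDiff_exp.contMDiff.comp_contMDiffOn (contMDiffOn_const.mul h3)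
  compatible := fun i j x hx => by
    have hg : L.g i j x ≠ 0 := L.ne_zero i j x hx
    have hgn : 0 < ‖L.g i j x‖ := norm_pos_iff.2 hg
    have hm : (m : ℝ) ≠ 0 := Nat.cast_ne_zero.2 hs.pos.ne'
    have e : (fun k => s k i x) = (L.g i j x ^ m) • fun k => s k j x := by
      funext k
      exact (hs.isSection k).compatible i j x ⟨hx, trivial⟩
    have hj := hs.normSq_pos hx.2
    have hA : 0 < ‖L.g i j x‖ ^ 2 := by positivity
    have hi : ‖toCn N (fun k => s k i x)‖ ^ 2 =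
        (‖L.g i j x‖ ^ 2) ^ m * ‖toCn N (fun k => s k j x)‖ ^ 2 := by
      rw [e, map_smul, norm_smul, norm_pow]; ring
    have hlog : Real.log ((‖L.g i j x‖ ^ 2) ^ m * ‖toCn N (fun k => s k j x)‖ ^ 2) =
        m * Real.log (‖L.g i j x‖ ^ 2) + Real.log (‖toCn N (fun k => s k j x)‖ ^ 2) := by
      rw [Real.log_mul (by positivity) hj.ne', Real.log_pow]
    have e2 : -(1 / (m : ℝ)) * (m * Real.log (‖L.g i j x‖ ^ 2) +
        Real.log (‖toCn N (fun k => s k j x)‖ ^ 2)) = - Real.log (‖L.g i j x‖ ^ 2) +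
        -(1 / (m : ℝ)) * Real.log (‖toCn N (fun k => s k j x)‖ ^ 2) := by
      field_simp
      ring
    show Real.exp _ = _ * Real.exp _
    rw [hi, hlog, e2, Real.exp_add, Real.exp_neg, Real.exp_log hA, ← mul_assoc,
      mul_inv_cancel₀ hA.ne', one_mul]

theorem HolLineBundle.IsGenerating.log_metric (hs : L.IsGenerating m s) (i : L.ι) (x : X) :
    Real.log (hs.metric.h i x) = -(1 / (m : ℝ)) * Real.log (‖toCn N (fun k => s k i x)‖ ^ 2) :=
  Real.log_exp _

variable [IsManifold 𝓘(ℂ, Cn d) ω X]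

/-- The Chern form of the metric `(∑ |s_k|²)^{-1/m}`: with `H = (s_k)` in the `i`-th trivialisation, read in a chart `e`,
`Θ(v, Jv) = (‖H‖² ‖dH(v)‖² - |⟨H, dH(v)⟩|²) / (π m ‖H‖⁴)`. -/
theorem HolLineBundle.IsGenerating.chernForm_apply (hs : L.IsGenerating m s) {Θ : Form ℝ d X ℝ 2}
    (hΘ : hs.metric.IsChernForm Θ) {i : L.ι} {x : X} (hx : x ∈ L.U i)
    {e : OpenPartialHomeomorph X (Cn d)} (he : e ∈ IsManifold.maximalAtlas 𝓘(ℂ, Cn d) ω X)
    (hxe : x ∈ e.source) (v : Cn d) :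
    Θ x ![v, Complex.I • v] = (Real.pi * m * (‖toCn N (fun k => s k i x)‖ ^ 2) ^ 2)⁻¹ *
      gram (toCn N (fun k => s k i x))
        (fderiv ℂ (fun z => toCn N (fun k => s k i (e.symm z))) (e x) (diffAt ℂ (d := d) e x v)) := by
  rw [hΘ i x hx]
  simp only [ContinuousAlternatingMap.smul_apply, smul_eq_mul]
  rw [ddbar_apply_chart (L.isOpen_U i) (hs.metric.contMDiffOn_log i) hx he hxe, map_smul]
  set H : Cn d → Cn (N + 1) := fun z => toCn N (fun k => s k i (e.symm z)) with hH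
  have hV : IsOpen (e.target ∩ e.symm ⁻¹' L.U i) := isOpen_chartDomain (L.isOpen_U i) e
  have hHs : ContDiffOn ℂ ∞ H (e.target ∩ e.symm ⁻¹' L.U i) :=
    (toCn N).contDiff.comp_contDiffOn ((contDiffOn_comp_symm (hs.holomorphicOn i) he).of_le le_top)
  have h0 : ∀ y ∈ e.target ∩ e.symm ⁻¹' L.U i, H y ≠ 0 := fun y hy =>
    toCn_ne_zero (hs.ne_zero i _ hy.2)
  have hy : e x ∈ e.target ∩ e.symm ⁻¹' L.U i := ⟨e.map_source hxe, by
    show e.symm (e x) ∈ L.U i
    rwa [e.left_inv hxe]⟩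
  have e1 : ((fun y => Real.log (hs.metric.h i y)) ∘ e.symm) =
      fun z => -(1 / (m : ℝ)) * Real.log (‖H z‖ ^ 2) := by
    funext z
    exact hs.log_metric i _
  rw [e1, ddbar_const_mul_log_normSq hV hHs h0 hy]
  have e2 : H (e x) = toCn N (fun k => s k i x) := by rw [hH]; simp only [e.left_inv hxe]
  rw [e2]
  have hpi := Real.pi_pos
  have hn := hs.normSq_pos hx
  have hm : (0 : ℝ) < m := Nat.cast_pos.2 hs.pos
  field_simp

theorem HolLineBundle.IsGenerating.chernForm_invariant (hs : L.IsGenerating m s)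
    {Θ : Form ℝ d X ℝ 2} (hΘ : hs.metric.IsChernForm Θ) (x : X) (u v : Cn d) :
    Θ x ![Complex.I • u, Complex.I • v] = Θ x ![u, v] := by
  rw [hΘ (L.idx x) x (L.mem_idx x)]
  simp only [ContinuousAlternatingMap.smul_apply]
  rw [ddbar_invariant_mfd (L.isOpen_U _) (hs.metric.contMDiffOn_log _) (L.mem_idx x)]

end SecMetric

/-! ## 3. A map all of whose fibre components have positive dimension is nowhere immersive -/

section Isolated

variable {d : ℕ} {X : Type} [TopologicalSpace X] [ChartedSpace (Cn d) X]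
  [IsManifold 𝓘(ℂ, Cn d) ω X] {N : ℕ}

omit [IsManifold 𝓘(ℂ, Cn d) ω X] in
/-- If the differential of `f : X → ℙ^N` is injective at `x`, then `x` is an isolated point of its fibre.  (The differential is
`v ↦ dF(v) mod F`, here written with the projection along `F(x)`.) -/
theorem exists_isOpen_fibre_eq_singleton {f : X → PN N} {U : Set X} {F : X → Fin (N + 1) → ℂ}
    (hF : IsLocalLift d f U F) {x : X} (hx : x ∈ U) {e : OpenPartialHomeomorph X (Cn d)}
    (he : e ∈ IsManifold.maximalAtlas 𝓘(ℂ, Cn d) ω X) (hxe : x ∈ e.source)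
    (hinj : Function.Injective (projAlong (toCn N (F x)) ∘L
      fderiv ℂ (fun z => toCn N (F (e.symm z))) (e x))) :
    ∃ O : Set X, IsOpen O ∧ x ∈ O ∧ ∀ y ∈ O, f y = f x → y = x := by
  set H : Cn d → Cn (N + 1) := fun z => toCn N (F (e.symm z)) with hH
  have hV : IsOpen (e.target ∩ e.symm ⁻¹' U) := isOpen_chartDomain hF.1 e
  have hHs : ContDiffOn ℂ ∞ H (e.target ∩ e.symm ⁻¹' U) :=
    (toCn N).contDiff.comp_contDiffOn ((contDiffOn_comp_symm hF.2.1 he).of_le le_top)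
  have hy : e x ∈ e.target ∩ e.symm ⁻¹' U := ⟨e.map_source hxe, by
    show e.symm (e x) ∈ U
    rwa [e.left_inv hxe]⟩
  have hd : HasFDerivAt H (fderiv ℂ H (e x)) (e x) :=
    ((hHs.contDiffAt (hV.mem_nhds hy)).differentiableAt (by simp)).hasFDerivAt
  have hM : HasFDerivAt (fun z => projAlong (toCn N (F x)) (H z))
      (projAlong (toCn N (F x)) ∘L fderiv ℂ H (e x)) (e x) :=
    (projAlong (toCn N (F x))).hasFDerivAt.comp (e x) hd
  have hanti : ∃ C, AntilipschitzWith C (projAlong (toCn N (F x)) ∘L fderiv ℂ H (e x)) := by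
    obtain ⟨K, -, hK⟩ := LinearMap.exists_antilipschitzWith
      (projAlong (toCn N (F x)) ∘L fderiv ℂ H (e x)).toLinearMap (LinearMap.ker_eq_bot.2 hinj)
    exact ⟨K, hK⟩
  have hev := hM.eventually_ne (c := 0) hanti
  rw [eventually_nhdsWithin_iff, eventually_nhds_iff] at hev
  obtain ⟨V', hV', hV'o, hyV'⟩ := hev
  refine ⟨(e.source ∩ e ⁻¹' V') ∩ U, (e.isOpen_inter_preimage hV'o).inter hF.1,
    ⟨⟨hxe, hyV'⟩, hx⟩, ?_⟩
  rintro y ⟨⟨hye, hyV⟩, hyU⟩ hfy
  by_contra hne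
  have hne' : e y ≠ e x := fun h => hne (e.injOn hye hxe h)
  apply hV' (e y) hyV hne'
  -- `F y` is proportional to `F x`
  obtain ⟨h0y, ey⟩ := hF.2.2 y hyU
  obtain ⟨h0x, ex⟩ := hF.2.2 x hx
  obtain ⟨c, hc⟩ := (Projectivization.mk_eq_mk_iff' ℂ _ _ h0y h0x).1 (ey.symm.trans (hfy.trans ex))
  show projAlong (toCn N (F x)) (toCn N (F (e.symm (e y)))) = 0
  rw [e.left_inv hye, ← hc, map_smul, map_smul, projAlong_self, smul_zero]

/-- An isolated point of an analytic set `W` is an irreducible component of `W`. -/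
theorem isIrreducibleComponent_singleton [T1Space X] {W : Set X} {x : X} (hxW : x ∈ W) {O : Set X}
    (hO : IsOpen O) (hxO : x ∈ O) (hiso : ∀ y ∈ O, y ∈ W → y = x) :
    IsIrreducibleComponent d ({x} : Set X) W := by
  refine ⟨isIrreducibleAnalytic_singleton x, Set.singleton_subset_iff.2 hxW, ?_⟩
  intro Z' hZ' hZ'W hxZ'
  have hxZ : x ∈ Z' := hxZ' rfl
  -- `Z' ∖ {x}` is analytic
  have han : IsAnalyticSubset d (Z' \ {x}) := by
    intro y
    by_cases hy : y = x
    · subst hy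
      refine ⟨O, hO, hxO, 1, fun _ _ => 1, fun _ => contMDiffOn_const, ?_⟩
      ext z
      simp only [Set.mem_inter_iff, Set.mem_sdiff, Set.mem_singleton_iff, Set.mem_ofPred_eq,
        one_ne_zero, forall_const, and_false, iff_false, not_and]
      rintro ⟨hz, hzy⟩ hzO
      exact hzy (hiso z hzO (hZ'W hz))
    · obtain ⟨U, hU, hyU, r, g, hg, hZg⟩ := hZ'.1 y
      refine ⟨U ∩ {x}ᶜ, hU.inter isOpen_compl_singleton, ⟨hyU, hy⟩, r, g,
        fun i => (hg i).mono Set.inter_subset_left, ?_⟩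
      ext z
      constructor
      · rintro ⟨⟨hz, hzx⟩, hzU, -⟩
        have : z ∈ Z' ∩ U := ⟨hz, hzU⟩
        rw [hZg] at this
        exact ⟨⟨hzU, hzx⟩, this.2⟩
      · rintro ⟨⟨hzU, hzx⟩, hz0⟩
        have : z ∈ Z' ∩ U := by rw [hZg]; exact ⟨hzU, hz0⟩
        exact ⟨⟨this.1, hzx⟩, hzU, hzx⟩
  have hunion : Z' = {x} ∪ (Z' \ {x}) := by
    rw [Set.union_sdiff_self, Set.union_eq_self_of_subset_left hxZ']
  rcases hZ'.2.2 _ _ (isAnalyticSubset_singleton x) han hunion with h | h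
  · exact h
  · exact absurd (h ▸ hxZ : x ∈ Z' \ {x}) (fun h => h.2 rfl)

/-- If all irreducible components of all fibres of `f` have dimension `n > 0`, the differential of `f` is nowhere injective. -/
theorem HasLagrangianFibres.not_injective [T1Space X] {σ : Form ℂ d X ℂ 2} {f : X → PN N} {n : ℕ}
    (hn : n ≠ 0) (hlag : HasLagrangianFibres σ f n) {U : Set X} {F : X → Fin (N + 1) → ℂ}
    (hF : IsLocalLift d f U F) {x : X} (hx : x ∈ U) {e : OpenPartialHomeomorph X (Cn d)}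
    (he : e ∈ IsManifold.maximalAtlas 𝓘(ℂ, Cn d) ω X) (hxe : x ∈ e.source) :
    ¬ Function.Injective (projAlong (toCn N (F x)) ∘L
      fderiv ℂ (fun z => toCn N (F (e.symm z))) (e x)) := by
  intro hinj
  obtain ⟨O, hO, hxO, hiso⟩ := exists_isOpen_fibre_eq_singleton hF hx he hxe hinj
  have hcomp : IsIrreducibleComponent d ({x} : Set X) (f ⁻¹' {f x}) :=
    isIrreducibleComponent_singleton (W := f ⁻¹' {f x}) rfl hO hxO fun y hy hyW => hiso y hy hyW
  exact hn ((hlag (f x) {x} hcomp).1.unique (hasDimension_singleton x))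

end Isolated

/-! ## 3b. The kernel of the differential can be tested on one lift -/

section OneLift

variable {d : ℕ} {X : Type} [TopologicalSpace X] [ChartedSpace (Cn d) X]
  [IsManifold 𝓘(ℂ, Cn d) ω X] {N : ℕ}

omit [IsManifold 𝓘(ℂ, Cn d) ω X] in
/-- The differential of a holomorphic map, computed in a holomorphic chart. -/
theorem diffAt_eq_fderiv_comp {V : Type} [NormedAddCommGroup V] [NormedSpace ℂ V] {G : X → V}
    {U : Set X} (hU : IsOpen U) (hG : HolomorphicOn d G U) {x : X} (hx : x ∈ U)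
    {e : OpenPartialHomeomorph X (Cn d)} (he : e ∈ IsManifold.maximalAtlas 𝓘(ℂ, Cn d) ω X)
    (hxe : x ∈ e.source) (v : Cn d) :
    diffAt ℂ (d := d) G x v = fderiv ℂ (G ∘ e.symm) (e x) (diffAt ℂ (d := d) e x v) := by
  have hV : IsOpen (e.target ∩ e.symm ⁻¹' U) := isOpen_chartDomain hU e
  have hy : e x ∈ e.target ∩ e.symm ⁻¹' U := ⟨e.map_source hxe, by
    show e.symm (e x) ∈ U
    rwa [e.left_inv hxe]⟩
  have h1 : MDifferentiableAt 𝓘(ℂ, Cn d) 𝓘(ℂ, Cn d) e x :=
    (contMDiffAt_of_mem_maximalAtlas he hxe).mdifferentiableAt (by simp)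
  have h2 : MDifferentiableAt 𝓘(ℂ, Cn d) 𝓘(ℂ, V) (G ∘ e.symm) (e x) :=
    (((contDiffOn_comp_symm hG he).contDiffAt (hV.mem_nhds hy)).differentiableAt
      (by simp)).mdifferentiableAt
  have h3 := mfderiv_comp x h2 h1
  have h4 : G =ᶠ[𝓝 x] (G ∘ e.symm) ∘ e := by
    filter_upwards [e.open_source.mem_nhds hxe] with y hy
    simp only [Function.comp, e.left_inv hy]
  unfold diffAt
  rw [h4.mfderiv_eq, h3, mfderiv_eq_fderiv]
  rfl

omit [IsManifold 𝓘(ℂ, Cn d) ω X] in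
/-- If `dF(v) ∈ ℂ F(x)` for ONE lift `F` of `f` near `x`, then `v` is in the kernel of the differential of `f` at `x`. -/
theorem inKerDifferential_of_lift {f : X → PN N} {U : Set X} {F : X → Fin (N + 1) → ℂ}
    (hF : IsLocalLift d f U F) {x : X} (hx : x ∈ U) {e : OpenPartialHomeomorph X (Cn d)}
    (he : e ∈ IsManifold.maximalAtlas 𝓘(ℂ, Cn d) ω X) (hxe : x ∈ e.source) {v : Cn d} {a : ℂ}
    (h : fderiv ℂ (fun z => toCn N (F (e.symm z))) (e x) (diffAt ℂ (d := d) e x v) =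
      a • toCn N (F x)) : InKerDifferential d f x v := by
  intro U' F' hx' hF'
  set w := diffAt ℂ (d := d) e x v with hw
  have hUU : IsOpen (U' ∩ U) := hF'.1.inter hF.1
  have hV : IsOpen (e.target ∩ e.symm ⁻¹' (U' ∩ U)) := isOpen_chartDomain hUU e
  have hy : e x ∈ e.target ∩ e.symm ⁻¹' (U' ∩ U) := ⟨e.map_source hxe, by
    show e.symm (e x) ∈ U' ∩ U
    rw [e.left_inv hxe]; exact ⟨hx', hx⟩⟩
  -- the three local expressions
  have hΦ : DifferentiableAt ℂ (F ∘ e.symm) (e x) :=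
    ((contDiffOn_comp_symm (hF.2.1.mono Set.inter_subset_right) he).contDiffAt
      (hV.mem_nhds hy)).differentiableAt (by simp)
  have hΛ : DifferentiableAt ℂ ((fun y => vecRatio (F' y) (F y)) ∘ e.symm) (e x) :=
    ((contDiffOn_comp_symm (hF'.holomorphicOn_vecRatio hF) he).contDiffAt
      (hV.mem_nhds hy)).differentiableAt (by simp)
  have hprod : (F' ∘ e.symm) =ᶠ[𝓝 (e x)]
      fun z => ((fun y => vecRatio (F' y) (F y)) ∘ e.symm) z • (F ∘ e.symm) z := by
    filter_upwards [hV.mem_nhds hy] with z hz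
    obtain ⟨c, -, hc⟩ := hF'.exists_smul hF hz.2.1 hz.2.2
    obtain ⟨h0, -⟩ := hF.2.2 _ hz.2.2
    simp only [Function.comp]
    rw [hc, vecRatio_smul c h0]
  have hder : fderiv ℂ (fun z => ((fun y => vecRatio (F' y) (F y)) ∘ e.symm) z • (F ∘ e.symm) z) (e x) =
      ((fun y => vecRatio (F' y) (F y)) ∘ e.symm) (e x) • fderiv ℂ (F ∘ e.symm) (e x) +
      (fderiv ℂ ((fun y => vecRatio (F' y) (F y)) ∘ e.symm) (e x)).smulRight ((F ∘ e.symm) (e x)) :=
    (hΛ.hasFDerivAt.smul hΦ.hasFDerivAt).fderiv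
  -- `dF(v) = a F(x)`
  have hFv : fderiv ℂ (F ∘ e.symm) (e x) w = a • F x := by
    have h1 : fderiv ℂ (fun z => toCn N (F (e.symm z))) (e x) = (toCn N) ∘L fderiv ℂ (F ∘ e.symm) (e x) :=
      ((toCn N).hasFDerivAt.comp (e x) hΦ.hasFDerivAt).fderiv
    rw [h1, ContinuousLinearMap.comp_apply, ← map_smul] at h
    funext k
    have := congrArg (fun u : Cn (N + 1) => u k) h
    exact this
  obtain ⟨c, hc0, hc⟩ := hF'.exists_smul hF hx' hx
  obtain ⟨h0, -⟩ := hF.2.2 x hx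
  rw [diffAt_eq_fderiv_comp hF'.1 hF'.2.1 hx' he hxe, hprod.fderiv_eq, hder]
  simp only [add_apply, smul_apply, ContinuousLinearMap.smulRight_apply, Function.comp,
    e.left_inv hxe]
  rw [← hw, hFv, hc, vecRatio_smul c h0]
  refine ⟨(c * a + fderiv ℂ ((fun y => vecRatio (F' y) (F y)) ∘ e.symm) (e x) w) / c, ?_⟩
  rw [smul_smul, smul_smul, ← add_smul]
  congr 1
  field_simp

end OneLift

/-! ## 4. On a surface: the conclusion of `StrongSYZ` forces `q(c₁(L)) = 0` -/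

section Surface

/-- A linear map on `ℂ²` with a nonzero kernel has rank at most one. -/
theorem exists_eq_smul_of_ker {E : Type} [NormedAddCommGroup E] [NormedSpace ℂ E]
    (B : Cn 2 →L[ℂ] E) {w₀ : Cn 2} (h0 : w₀ ≠ 0) (hB : B w₀ = 0) :
    ∃ (ℓ : Cn 2 →L[ℂ] ℂ) (w₁ : E), ∀ w, B w = ℓ w • w₁ := by
  have hdec : ∀ w : Cn 2, w = w 0 • Kummer.mk2 1 0 + w 1 • Kummer.mk2 0 1 := by
    intro w
    ext j
    fin_cases j <;> simp
  have hBw : ∀ w : Cn 2, B w = w 0 • B (Kummer.mk2 1 0) + w 1 • B (Kummer.mk2 0 1) := by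
    intro w
    conv_lhs => rw [hdec w]
    rw [map_add, map_smul, map_smul]
  have hp : ∀ (j : Fin 2) (w : Cn 2), (EuclideanSpace.proj (𝕜 := ℂ) j) w = w j := fun _ _ => rfl
  by_cases ha : w₀ 0 = 0
  · have ha1 : w₀ 1 ≠ 0 := by
      intro h1
      apply h0
      ext j
      fin_cases j
      · exact ha
      · exact h1
    have h1 := hBw w₀
    rw [hB, ha, zero_smul, zero_add] at h1
    have hE1 : B (Kummer.mk2 0 1) = 0 := (smul_eq_zero.1 h1.symm).resolve_left ha1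
    refine ⟨EuclideanSpace.proj (𝕜 := ℂ) (0 : Fin 2), B (Kummer.mk2 1 0), fun w => ?_⟩
    rw [hBw w, hE1, smul_zero, add_zero, hp]
  · have h1 := hBw w₀
    rw [hB] at h1
    have hE0 : B (Kummer.mk2 1 0) = (-(w₀ 1 / w₀ 0)) • B (Kummer.mk2 0 1) := by
      have h2 : w₀ 0 • B (Kummer.mk2 1 0) = -(w₀ 1 • B (Kummer.mk2 0 1)) :=
        eq_neg_of_add_eq_zero_left h1.symm
      have h3 : B (Kummer.mk2 1 0) = (w₀ 0)⁻¹ • (w₀ 0 • B (Kummer.mk2 1 0)) := by
        rw [smul_smul, inv_mul_cancel₀ ha, one_smul]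
      rw [h3, h2, smul_neg, smul_smul, neg_smul]
      congr 2
      field_simp
    refine ⟨w₀ 0 • EuclideanSpace.proj (𝕜 := ℂ) (1 : Fin 2) -
      w₀ 1 • EuclideanSpace.proj (𝕜 := ℂ) (0 : Fin 2), (w₀ 0)⁻¹ • B (Kummer.mk2 0 1), fun w => ?_⟩
    rw [hBw w, hE0]
    simp only [sub_apply, smul_apply, hp, smul_eq_mul,
      smul_smul, ← add_smul]
    congr 1
    field_simp
    ring

variable {X : Type} [TopologicalSpace X] [ChartedSpace (Cn 2) X] [IsManifold 𝓘(ℂ, Cn 2) ω X]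
  [T2Space X] [CompactSpace X]

/-- **Isotropy is necessary** (`n = 1`).  If a positive power of `L` is the pull-back of `𝒪(1)` under a map `f : X → ℙ^N` all of whose
fibre components are curves, as in the conclusion of `StrongSYZ`, then `q(c₁(L)) = 0`. -/
theorem bbf_eq_zero_of_fibration (σ : Form ℂ 2 X ℂ 2) {L : HolLineBundle 2 X} {c : H2 2 X}
    (hc : L.IsFirstChernClass c) {m N : ℕ} {f : X → PN N} (hm : 0 < m)
    (hp : L.IsPullbackOfO1 m Set.univ f) (hlag : HasLagrangianFibres (d := 2) σ f 1) :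
    bbf (n := 1) σ c = 0 := by
  obtain ⟨s, hs, hf⟩ := hp
  have hgen : L.IsGenerating m s := ⟨hm, hs, fun i x hx => (hf i x ⟨hx, trivial⟩).1⟩
  have hΘ : hgen.metric.IsChernForm hgen.metric.chernForm := hgen.metric.isChernForm_chernForm
  set Θ : closedForms 2 X 2 := ⟨hgen.metric.chernForm, hΘ.mem_closedForms⟩ with hΘdef
  have hc' : L.IsFirstChernClass (H2.mk Θ) := ⟨hgen.metric, Θ, hΘ, rfl⟩
  rw [L.isFirstChernClass_unique hc hc']
  apply bbf_mk_eq_zero
  intro x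
  set i := L.idx x
  have hx : x ∈ L.U i := L.mem_idx x
  set e := chartAt (Cn 2) x
  have he : e ∈ IsManifold.maximalAtlas 𝓘(ℂ, Cn 2) ω X := IsManifold.chart_mem_maximalAtlas x
  have hxe : x ∈ e.source := mem_chart_source _ x
  have hF : IsLocalLift 2 f (L.U i) (fun y k => s k i y) :=
    ⟨L.isOpen_U i, hgen.holomorphicOn i, fun y hy => hf i y ⟨hy, trivial⟩⟩
  have hni := hlag.not_injective one_ne_zero hF hx he hxe
  set B : Cn 2 →L[ℂ] Cn (N + 1) := projAlong (toCn N (fun k => s k i x)) ∘L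
      fderiv ℂ (fun z => toCn N (fun k => s k i (e.symm z))) (e x) with hB
  obtain ⟨w₀, hw₀, hw₀0⟩ : ∃ w₀, B w₀ = 0 ∧ w₀ ≠ 0 := by
    by_contra hcon
    push Not at hcon
    exact hni ((injective_iff_map_eq_zero B).2 hcon)
  obtain ⟨ℓ, w₁, hℓ⟩ := exists_eq_smul_of_ker B hw₀0 hw₀
  have hS := hgen.normSq_pos hx
  refine wedge22_self_eq_zero (fun u v => hgen.chernForm_invariant hΘ x u v)
    ((Real.pi * m * (‖toCn N (fun k => s k i x)‖ ^ 2) ^ 2)⁻¹ *
      (‖toCn N (fun k => s k i x)‖ ^ 2)⁻¹ * ‖w₁‖ ^ 2) (ℓ ∘L diffAt ℂ (d := 2) e x) fun v => ?_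
  have h1 := hgen.chernForm_apply hΘ hx he hxe v
  have h2 := norm_projAlong_sq (toCn N (fun k => s k i x))
    (fderiv ℂ (fun z => toCn N (fun k => s k i (e.symm z))) (e x) (diffAt ℂ (d := 2) e x v))
  have h3 : projAlong (toCn N (fun k => s k i x))
      (fderiv ℂ (fun z => toCn N (fun k => s k i (e.symm z))) (e x) (diffAt ℂ (d := 2) e x v)) =
      ℓ (diffAt ℂ (d := 2) e x v) • w₁ := hℓ _
  rw [h3, norm_smul, mul_pow] at h2
  show hgen.metric.chernForm x ![v, Complex.I • v] = _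
  rw [h1, ContinuousLinearMap.comp_apply]
  have h4 : gram (toCn N (fun k => s k i x))
      (fderiv ℂ (fun z => toCn N (fun k => s k i (e.symm z))) (e x) (diffAt ℂ (d := 2) e x v)) =
      (‖toCn N (fun k => s k i x)‖ ^ 2)⁻¹ * (‖ℓ (diffAt ℂ (d := 2) e x v)‖ ^ 2 * ‖w₁‖ ^ 2) := by
    rw [h2, ← mul_assoc, inv_mul_cancel₀ hS.ne', one_mul]
  rw [h4]
  ring

end Surface

/-! ## 5. A very ample line bundle: its Chern class is a Kähler class -/

section VeryAmple

variable {d : ℕ} {X : Type} [TopologicalSpace X] [ChartedSpace (Cn d) X]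
  [IsManifold 𝓘(ℂ, Cn d) ω X] {N : ℕ}

/-- If `L^{⊗ m} ≃ f^* 𝒪(1)` for an immersion `f : X → ℙ^N`, then `c₁(L)` is a Kähler class: the Chern form of the metric
`(∑ |s_k|²)^{-1/m}` (`1/m` times the pull-back of the Fubini–Study form) is a Kähler form. -/
theorem exists_isKahlerForm_of_immersion {L : HolLineBundle d X} {m : ℕ} {f : X → PN N} (hm : 0 < m)
    (hp : L.IsPullbackOfO1 m Set.univ f) (himm : ∀ (x : X) (v : Cn d), InKerDifferential d f x v → v = 0) :
    ∃ Θ : closedForms d X 2, IsKahlerForm Θ.1 ∧ L.IsFirstChernClass (H2.mk Θ) := by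
  obtain ⟨s, hs, hf⟩ := hp
  have hgen : L.IsGenerating m s := ⟨hm, hs, fun i x hx => (hf i x ⟨hx, trivial⟩).1⟩
  have hΘ : hgen.metric.IsChernForm hgen.metric.chernForm := hgen.metric.isChernForm_chernForm
  refine ⟨⟨hgen.metric.chernForm, hΘ.mem_closedForms⟩,
    ⟨hΘ.mem_closedForms.1, hΘ.mem_closedForms.2, fun x u v => hgen.chernForm_invariant hΘ x u v,
      fun x v hv => ?_⟩, ⟨hgen.metric, _, hΘ, rfl⟩⟩
  set i := L.idx x
  have hx : x ∈ L.U i := L.mem_idx x
  set e := chartAt (Cn d) x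
  have he : e ∈ IsManifold.maximalAtlas 𝓘(ℂ, Cn d) ω X := IsManifold.chart_mem_maximalAtlas x
  have hxe : x ∈ e.source := mem_chart_source _ x
  have hF : IsLocalLift d f (L.U i) (fun y k => s k i y) :=
    ⟨L.isOpen_U i, hgen.holomorphicOn i, fun y hy => hf i y ⟨hy, trivial⟩⟩
  show 0 < hgen.metric.chernForm x ![v, Complex.I • v]
  rw [hgen.chernForm_apply hΘ hx he hxe v]
  have hS := hgen.normSq_pos hx
  have hH : toCn N (fun k => s k i x) ≠ 0 := toCn_ne_zero (hgen.ne_zero i x hx)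
  have hpi := Real.pi_pos
  have hm' : (0 : ℝ) < m := Nat.cast_pos.2 hm
  refine mul_pos (by positivity) (lt_of_le_of_ne (gram_nonneg hH _) fun h0 => hv ?_)
  obtain ⟨a, ha⟩ := exists_smul_of_gram_eq_zero hH h0.symm
  exact himm x v (inKerDifferential_of_lift hF hx he hxe ha)

end VeryAmple

namespace Kummer

/-- **A line bundle on the Kummer surface which is nef with `c₁ ≠ 0` and `q(c₁) > 0`** (the very ample bundle of the projective embedding of
`K3Embed`), and for which the second conclusion of `StrongSYZ` fails. -/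
theorem exists_nef_lineBundle_no_fibration :
    ∃ (L : HolLineBundle 2 Kum) (c : Claimed.Open.R041.H2 2 Kum), L.IsFirstChernClass c ∧ c ≠ 0 ∧
      c ∈ nefCone 2 Kum ∧ (∃ r : ℝ, 0 < r ∧ bbf (n := 1) sigma c = (r : ℂ)) ∧
      ¬ ∃ (m N : ℕ) (f : Kum → PN N), 0 < m ∧ L.IsPullbackOfO1 m Set.univ f ∧
        HasLagrangianFibres (d := 2) sigma f 1 := by
  obtain ⟨K, ι, hι, -, himm⟩ := isProjectiveManifold_Kum
  obtain ⟨Θ, hK, hc⟩ := exists_isKahlerForm_of_immersion one_pos (pullbackO1_isPullbackOfO1 ι hι) himm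
  obtain ⟨x₀⟩ := instNonemptyKum
  obtain ⟨r, hr, hq⟩ := exists_bbf_eq_of_isKahlerForm sigma_isSmooth ⟨x₀, sigma_ne_zero x₀⟩ hK
  have hp := pairH_pos_of_isKahlerForm hK hK
  rw [pairH_mk] at hp
  refine ⟨pullbackO1 ι hι, _, hc, H2mk_ne_zero_of_integralReal_ne_zero hp.ne',
    kahlerCone_subset_nefCone ⟨Θ, hK, rfl⟩, ⟨r, hr, hq⟩, ?_⟩
  rintro ⟨m, N, f, hm, hf, hlag⟩
  have h0 := bbf_eq_zero_of_fibration sigma hc hm hf hlag
  rw [hq] at h0
  exact hr.ne' (by exact_mod_cast h0)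

end Kummer

/-- **Isotropy cannot be dropped from `StrongSYZ`**: the text of `StrongSYZ` with the hypothesis `bbf σ c = 0` deleted is FALSE. -/
theorem not_strongSYZ_without_isotropy : ¬
    ∀ (n : ℕ), 1 ≤ n →
    ∀ (X : Type) [TopologicalSpace X] [T2Space X] [CompactSpace X] [ChartedSpace (Cn (2 * n)) X]
      [IsManifold 𝓘(ℂ, Cn (2 * n)) ω X] (σ : Form ℂ (2 * n) X ℂ 2), IsIHS σ →
    ∀ (L : HolLineBundle (2 * n) X) (c : H2 (2 * n) X), L.IsFirstChernClass c →
      c ≠ 0 → c ∈ nefCone (2 * n) X →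
      L.IsSemiample ∧
      ∃ (m N : ℕ) (B : ProjVariety N) (f : X → PN N),
        0 < m ∧ B.IsNormal ∧ B.HasDim n ∧
        IsHolomorphicOnToPN (2 * n) f Set.univ ∧ Set.range f = B.points ∧
        (∀ b ∈ B.points, IsConnected (f ⁻¹' {b})) ∧
        L.IsPullbackOfO1 m Set.univ f ∧
        HasLagrangianFibres σ f n := by
  intro h
  obtain ⟨L, c, hL, hc0, hnef, -, hno⟩ := Kummer.exists_nef_lineBundle_no_fibration
  obtain ⟨-, m, N, B, f, hm, -, -, -, -, -, hf, hl⟩ :=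
    h 1 le_rfl Kum Kummer.sigma Kummer.isIHS_sigma L c hL hc0 hnef
  exact hno ⟨m, N, f, hm, hf, hl⟩

end Claimed.Open.R041
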