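/-
Result 041, sanity: **nondegeneracy of `σ` cannot be dropped from `IsIHS`** (checked NON-example).

The projective plane `Pl = ℙ²` is a compact, Hausdorff, simply connected Kähler surface without nonzero holomorphic `2`-forms.  So `σ = 0` meets every clause of `IsIHS` but `nondegenerate`
(`spans` holds because `H⁰(Ω²) = 0 = ℂσ`).  For `σ = 0` every class is isotropic (`bbf 0 c = 0`), the class of `𝒪(1)` is a Kähler class, in particular nonzero and nef, and
a line bundle whose first Chern class is a Kähler class never induces a fibration in curves (`no_fibration_of_isKahlerForm`, whatever `σ`).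
So the text of `StrongSYZ` with the clause `nondegenerate` of `IsIHS` deleted is FALSE.

Files: `PlaneDefs` (manifold), `PlaneTop` (Hausdorff, compact, simply connected), `PlaneMap` (the identity `Pl → PN 2` is a holomorphic immersion), `PlaneForms` (`H⁰(Ω²) = 0`).
-/
import Claimed.Open.R041.PlaneTop
import Claimed.Open.R041.PlaneMap
import Claimed.Open.R041.PlaneForms
import Claimed.Open.R041.SanityIsotropy

open scoped Manifold ContDiff Topology
open Set

namespace Claimed.Open.R041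

/-- All clauses of `IsIHS` but `nondegenerate`. -/
structure IsIHSButNondegenerate {d : ℕ} {X : Type} [TopologicalSpace X] [ChartedSpace (Cn d) X] (σ : Form ℂ d X ℂ 2) : Prop where
  simplyConnected : SimplyConnectedSpace X
  kahler : ∃ κ : Form ℝ d X ℝ 2, IsKahlerForm κ
  holomorphic : σ.IsSmooth
  spans : ∀ τ : Form ℂ d X ℂ 2, τ.IsSmooth → ∃ c : ℂ, τ = c • σ

/-- `IsIHS` is `IsIHSButNondegenerate` plus nondegeneracy. -/
theorem isIHS_iff_nondegenerate {d : ℕ} {X : Type} [TopologicalSpace X] [ChartedSpace (Cn d) X] (σ : Form ℂ d X ℂ 2) :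
    IsIHS σ ↔ IsIHSButNondegenerate σ ∧ ∀ (x : X) (v : Cn d), v ≠ 0 → ∃ w : Cn d, σ x ![v, w] ≠ 0 :=
  ⟨fun h => ⟨⟨h.simplyConnected, h.kahler, h.holomorphic, h.spans⟩, h.nondegenerate⟩,
    fun h => ⟨h.1.simplyConnected, h.1.kahler, h.1.holomorphic, h.2, h.1.spans⟩⟩

section Surface

variable {X : Type} [TopologicalSpace X] [ChartedSpace (Cn 2) X] [IsManifold 𝓘(ℂ, Cn 2) ω X]
  [T2Space X] [CompactSpace X]

omit [CompactSpace X] in
/-- The proof of `bbf_eq_zero_of_fibration`, stopped one step earlier: under the conclusion of `StrongSYZ` (`n = 1`), `c₁(L)` is represented by a closed form `Θ` with `Θ ∧ Θ = 0`. -/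
theorem exists_chernForm_wedge_self_eq_zero_of_fibration (σ : Form ℂ 2 X ℂ 2) {L : HolLineBundle 2 X} {m N : ℕ} {f : X → PN N} (hm : 0 < m)
    (hp : L.IsPullbackOfO1 m Set.univ f) (hlag : HasLagrangianFibres (d := 2) σ f 1) :
    ∃ Θ : closedForms 2 X 2, L.IsFirstChernClass (H2.mk Θ) ∧ ∀ x, Claimed.Open.R041.wedge22 (Θ.1 x) (Θ.1 x) = 0 := by
  obtain ⟨s, hs, hf⟩ := hp
  have hgen : L.IsGenerating m s := ⟨hm, hs, fun i x hx => (hf i x ⟨hx, trivial⟩).1⟩
  have hΘ : hgen.metric.IsChernForm hgen.metric.chernForm := hgen.metric.isChernForm_chernForm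
  set Θ : closedForms 2 X 2 := ⟨hgen.metric.chernForm, hΘ.mem_closedForms⟩ with hΘdef
  refine ⟨Θ, ⟨hgen.metric, Θ, hΘ, rfl⟩, ?_⟩
  intro x
  set i := L.idx x
  have hx : x ∈ L.U i := L.mem_idx x
  set e := chartAt (Cn 2) x
  have he : e ∈ IsManifold.maximalAtlas 𝓘(ℂ, Cn 2) ω X := IsManifold.chart_mem_maximalAtlas x
  have hxe : x ∈ e.source := mem_chart_source _ x
  have hF : IsLocalLift 2 f (L.U i) (fun y k => s k i y) :=
    ⟨L.isOpen_U i, hgen.holomorphicOn i, fun y hy => hf i y ⟨hy, trivial⟩⟩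
  have hni := hlag.not_injective one_ne_zero hF hx he hxe
  set B : Cn 2 →L[ℂ] Cn (N + 1) := projAlong (toCn N (fun k => s k i x)) ∘L
      fderiv ℂ (fun z => toCn N (fun k => s k i (e.symm z))) (e x) with hB
  obtain ⟨w₀, hw₀, hw₀0⟩ : ∃ w₀, B w₀ = 0 ∧ w₀ ≠ 0 := by
    by_contra hcon
    push Not at hcon
    exact hni ((injective_iff_map_eq_zero B).2 hcon)
  obtain ⟨ℓ, w₁, hℓ⟩ := exists_eq_smul_of_ker B hw₀0 hw₀
  have hS := hgen.normSq_pos hx
  refine wedge22_self_eq_zero (fun u v => hgen.chernForm_invariant hΘ x u v)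
    ((Real.pi * m * (‖toCn N (fun k => s k i x)‖ ^ 2) ^ 2)⁻¹ *
      (‖toCn N (fun k => s k i x)‖ ^ 2)⁻¹ * ‖w₁‖ ^ 2) (ℓ ∘L diffAt ℂ (d := 2) e x) fun v => ?_
  have h1 := hgen.chernForm_apply hΘ hx he hxe v
  have h2 := norm_projAlong_sq (toCn N (fun k => s k i x))
    (fderiv ℂ (fun z => toCn N (fun k => s k i (e.symm z))) (e x) (diffAt ℂ (d := 2) e x v))
  have h3 : projAlong (toCn N (fun k => s k i x))
      (fderiv ℂ (fun z => toCn N (fun k => s k i (e.symm z))) (e x) (diffAt ℂ (d := 2) e x v)) =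
      ℓ (diffAt ℂ (d := 2) e x v) • w₁ := hℓ _
  rw [h3, norm_smul, mul_pow] at h2
  show hgen.metric.chernForm x ![v, Complex.I • v] = _
  rw [h1, ContinuousLinearMap.comp_apply]
  have h4 : gram (toCn N (fun k => s k i x))
      (fderiv ℂ (fun z => toCn N (fun k => s k i (e.symm z))) (e x) (diffAt ℂ (d := 2) e x v)) =
      (‖toCn N (fun k => s k i x)‖ ^ 2)⁻¹ * (‖ℓ (diffAt ℂ (d := 2) e x v)‖ ^ 2 * ‖w₁‖ ^ 2) := by
    rw [h2, ← mul_assoc, inv_mul_cancel₀ hS.ne', one_mul]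
  rw [h4]
  ring

/-- On a compact complex surface, a line bundle whose first Chern class is a Kähler class does not satisfy the conclusion of `StrongSYZ`, whatever the form `σ`:
`∫ c₁² > 0`, while a fibration in curves forces `∫ c₁² = 0`. -/
theorem no_fibration_of_isKahlerForm [Nonempty X] (σ : Form ℂ 2 X ℂ 2) {L : HolLineBundle 2 X} {κ : closedForms 2 X 2} (hκ : IsKahlerForm κ.1)
    (hc : L.IsFirstChernClass (H2.mk κ)) :
    ¬ ∃ (m N : ℕ) (f : X → PN N), 0 < m ∧ L.IsPullbackOfO1 m Set.univ f ∧ HasLagrangianFibres (d := 2) σ f 1 := by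
  rintro ⟨m, N, f, hm, hp, hlag⟩
  obtain ⟨Θ, hΘ, h0⟩ := exists_chernForm_wedge_self_eq_zero_of_fibration σ hm hp hlag
  have he : H2.mk κ = H2.mk Θ := L.isFirstChernClass_unique hc hΘ
  have hpos := pairH_pos_of_isKahlerForm hκ hκ
  rw [pairH_mk, integralReal_wedge22_congr he he] at hpos
  have hz : Form.wedge22 Θ.1 Θ.1 = 0 := funext h0
  rw [hz, integralReal_zero] at hpos
  exact lt_irrefl _ hpos

/-- For `σ = 0` every class is isotropic. -/
theorem bbf_zero_mk (α : closedForms 2 X 2) : bbf (n := 1) (0 : Form ℂ 2 X ℂ 2) (H2.mk α) = 0 := by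
  have e : integral (d := 2) (sigmaMonomial (n := 1) (0 : Form ℂ 2 X ℂ 2) α.1 1 1) =
      ((integralReal (d := 2) fun x =>
        Complex.reCLM.compContinuousAlternatingMap (sigmaMonomial (n := 1) (0 : Form ℂ 2 X ℂ 2) α.1 1 1 x) : ℝ) : ℂ) +
      Complex.I * ((integralReal (d := 2) fun x =>
        Complex.imCLM.compContinuousAlternatingMap (sigmaMonomial (n := 1) (0 : Form ℂ 2 X ℂ 2) α.1 1 1 x) : ℝ) : ℂ) := rfl
  have h0 : Form.wedge22 (Form.part Complex.reCLM (0 : Form ℂ 2 X ℂ 2)) (Form.part Complex.reCLM (0 : Form ℂ 2 X ℂ 2)) +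
      Form.wedge22 (Form.part Complex.imCLM (0 : Form ℂ 2 X ℂ 2)) (Form.part Complex.imCLM (0 : Form ℂ 2 X ℂ 2)) = 0 := by
    funext x
    ext v
    change Claimed.Open.R041.wedge22 _ _ v + Claimed.Open.R041.wedge22 _ _ v = 0
    rw [wedge22_apply, wedge22_apply]
    simp [Form.part]
  rw [bbf_mk, e, im_sigmaMonomial_one_one, re_sigmaMonomial_one_one, h0, integralReal_zero (d := 2) (X := X)]
  simp

end Surface

namespace Plane

instance : Nonempty Pl := ⟨pt 0 0⟩

/-- The zero form is holomorphic. -/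
theorem isSmooth_zero : (0 : Form ℂ 2 Pl ℂ 2).IsSmooth := by
  intro e _
  have : (0 : Form ℂ 2 Pl ℂ 2).inChart e = fun _ => 0 := by
    funext y
    rfl
  rw [this]
  exact contDiffOn_const

/-- The line bundle `𝒪(1)` of the projective plane. -/
noncomputable def O1 : HolLineBundle 2 Pl := pullbackO1 inc isHolomorphicOnToPN_inc

/-- The first Chern class of `𝒪(1)` is a Kähler class (the class of the Fubini–Study form). -/
theorem exists_isKahlerForm_O1 : ∃ Θ : closedForms 2 Pl 2, IsKahlerForm Θ.1 ∧ O1.IsFirstChernClass (H2.mk Θ) :=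
  exists_isKahlerForm_of_immersion one_pos (pullbackO1_isPullbackOfO1 inc isHolomorphicOnToPN_inc) inc_immersion

/-- The projective plane with `σ = 0` meets every clause of `IsIHS` but nondegeneracy. -/
theorem isIHSButNondegenerate_zero : IsIHSButNondegenerate (d := 2) (X := Pl) 0 where
  simplyConnected := inferInstance
  kahler := let ⟨Θ, h, _⟩ := exists_isKahlerForm_O1; ⟨Θ.1, h⟩
  holomorphic := isSmooth_zero
  spans := fun τ hτ => ⟨0, by rw [eq_zero_of_isSmooth hτ, zero_smul]⟩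

/-- No form on the projective plane is `IsIHS`: a holomorphic `2`-form vanishes. -/
theorem not_isIHS (σ : Form ℂ 2 Pl ℂ 2) : ¬ IsIHS σ := by
  intro h
  obtain ⟨w, hw⟩ := h.nondegenerate (pt 0 0) (Kummer.mk2 1 0) (fun h0 => by simpa using congrArg (fun v : Cn 2 => v 0) h0)
  rw [eq_zero_of_isSmooth h.holomorphic] at hw
  exact hw rfl

/-- `𝒪(1)` on the projective plane: `c₁` is nonzero, nef and isotropic for `σ = 0`, and there is no fibration as in `StrongSYZ`. -/
theorem exists_nef_isotropic_no_fibration : ∃ c : Claimed.Open.R041.H2 2 Pl,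
    O1.IsFirstChernClass c ∧ c ≠ 0 ∧ c ∈ nefCone 2 Pl ∧ bbf (n := 1) (0 : Form ℂ 2 Pl ℂ 2) c = 0 ∧
      ¬ ∃ (m N : ℕ) (f : Pl → PN N), 0 < m ∧ O1.IsPullbackOfO1 m Set.univ f ∧ HasLagrangianFibres (d := 2) (0 : Form ℂ 2 Pl ℂ 2) f 1 := by
  obtain ⟨Θ, hK, hc⟩ := exists_isKahlerForm_O1
  have hp := pairH_pos_of_isKahlerForm hK hK
  rw [pairH_mk] at hp
  refine ⟨_, hc, H2mk_ne_zero_of_integralReal_ne_zero hp.ne', kahlerCone_subset_nefCone ⟨Θ, hK, rfl⟩, ?_,
    no_fibration_of_isKahlerForm 0 hK hc⟩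
  exact bbf_zero_mk Θ

end Plane

/-- **Nondegeneracy of `σ` cannot be dropped from `StrongSYZ`**: the text of `StrongSYZ` with `IsIHS σ` weakened to `IsIHSButNondegenerate σ` is false. -/
theorem not_strongSYZ_without_nondegenerate : ¬
    ∀ (n : ℕ), 1 ≤ n →
    ∀ (X : Type) [TopologicalSpace X] [T2Space X] [CompactSpace X] [ChartedSpace (Cn (2 * n)) X]
      [IsManifold 𝓘(ℂ, Cn (2 * n)) ω X] (σ : Form ℂ (2 * n) X ℂ 2), IsIHSButNondegenerate σ →
    ∀ (L : HolLineBundle (2 * n) X) (c : H2 (2 * n) X), L.IsFirstChernClass c →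
      c ≠ 0 → c ∈ nefCone (2 * n) X → bbf σ c = 0 →
      L.IsSemiample ∧
      ∃ (m N : ℕ) (B : ProjVariety N) (f : X → PN N),
        0 < m ∧ B.IsNormal ∧ B.HasDim n ∧
        IsHolomorphicOnToPN (2 * n) f Set.univ ∧ Set.range f = B.points ∧
        (∀ b ∈ B.points, IsConnected (f ⁻¹' {b})) ∧
        L.IsPullbackOfO1 m Set.univ f ∧
        HasLagrangianFibres σ f n := by
  intro h
  obtain ⟨c, hL, hc0, hnef, hq, hno⟩ := Plane.exists_nef_isotropic_no_fibration
  obtain ⟨-, m, N, B, f, hm, -, -, -, -, -, hf, hl⟩ :=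
    h 1 le_rfl Pl 0 Plane.isIHSButNondegenerate_zero Plane.O1 c hL hc0 hnef hq
  exact hno ⟨m, N, f, hm, hf, hl⟩

end Claimed.Open.R041
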