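/-
Sanity checks for the conclusion of `ProjectiveSpaceBase` and for `ProjVariety.IsNormal` (result 041): a NORMAL
projective variety of dimension `n` need not be `ℙⁿ`.

`ProjectiveSpaceBase` concludes `AreIsomorphic B.points (Set.univ : Set (PN n))` for a base `B` with `B.IsNormal` and
`B.HasDim n`.  The only `B` of the other files for which this conclusion fails is the cuspidal cubic (`SanityCusp`), which
is not normal, and the only `B` shown to be normal is `ℙⁿ` itself (`SanityBasic`).  Here:

* `quadric`: the smooth quadric surface `Q = {x₀ x₁ = x₂ x₃} ⊆ ℙ³` (that is `ℙ¹ × ℙ¹` in its Segre embedding);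
* `quadric_isNormal`: `Q` is normal in the sense of `ProjVariety.IsNormal` (each of the four rings
  `ℂ[x₀..x₃]/(x₀x₁ - x₂x₃, x_i - 1)` is a polynomial ring in two variables, `chart_isIntegrallyClosed`): the first
  positive example of `IsNormal` with a nonzero ideal;
* `quadric_hasDim`: `Q.HasDim 2`;
* `IsRegularOn.const_of_plane_to_line`: **every regular map `ℙ² → ℙ¹` is constant**.  Proof: divide a local expression `[p : q]` by
  the common factor (`ℂ[x,y,z]` is factorial); any other local expression is a multiple of the reduced pair `[a : b]`, so `a`, `b` have no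
  common zero in `ℂ³ ∖ 0` and compute the map everywhere; if `a(0) = b(0) = 0`, the origin would be an isolated common zero of two
  polynomials in three variables, against Krull's height theorem and the Nullstellensatz (`exists_common_zero_ne_zero`); so
  `(a(0), b(0)) ≠ 0`, and letting `t → 0` in `[a(tv) : b(tv)] = [a(v) : b(v)]` shows that the map is constantly `[a(0) : b(0)]`;
* `ruling`, `isRegularOn_ruling`, `ruling_vecA_ne_vecB`: `Q` has a non-constant regular map to `ℙ¹`, `[x₀ : x₂] = [x₃ : x₁]`;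
* `quadric_not_areIsomorphic`: **`Q` is not `AreIsomorphic` to `ℙ²`**; there is not even a regular surjection `ℙ² → Q`
  (`not_surjOn_plane_quadric`);
* `exists_normal_surface_not_plane`: so `B.IsNormal ∧ B.HasDim 2` does not imply the conclusion of `ProjectiveSpaceBase` (`n = 2`): what the
  theorem asserts about the base comes from the Lagrangian fibration, not from the hypotheses on `B` alone.

Two further checks of the notions in which the conclusion and the hypotheses on `B` are written:

* `IsRegularOn.comp`, `AreIsomorphic.symm`, `AreIsomorphic.trans`: regular maps compose, so `AreIsomorphic` (reflexive by `SanityBasic`) is an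
  equivalence relation; e.g. the cuspidal cubic is not isomorphic to the conic (`cusp_not_areIsomorphic_conic`);
* `ProjVariety.HasDim.points_nonempty`, `irrelevantVariety`, `irrelevantVariety_points`, `irrelevantVariety_not_hasDim`: Deviation 10 (a) of `CLAIM.md`.  The
  irrelevant ideal `(x₀, …, x_N)` is a `ProjVariety` without points, it is the only one (projective Nullstellensatz), and `HasDim n` excludes it for
  every `n`: a `B` with `B.HasDim n` has a point.
-/
import Claimed.Open.R041.SanityCusp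

open MvPolynomial

namespace Claimed.Open.R041

section CommonZero

/-- Two polynomials in three variables which vanish at the origin have a common zero `≠ 0`
(Krull's height theorem and the Nullstellensatz). -/
theorem exists_common_zero_ne_zero {a b : MvPolynomial (Fin 3) ℂ} (ha : eval 0 a = 0)
    (hb : eval 0 b = 0) : ∃ v : Fin 3 → ℂ, v ≠ 0 ∧ eval v a = 0 ∧ eval v b = 0 := by
  by_contra hcon
  push Not at hcon
  have hmax : (vanishingIdeal ℂ {(0 : Fin 3 → ℂ)} : Ideal (MvPolynomial (Fin 3) ℂ)).IsMaximal :=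
    inferInstance
  have hI : Ideal.span ({a, b} : Set (MvPolynomial (Fin 3) ℂ)) ≤
      vanishingIdeal ℂ {(0 : Fin 3 → ℂ)} := by
    rw [Ideal.span_le]
    rintro x (rfl | rfl)
    · exact (mem_vanishingIdeal_singleton_iff _ _).2 (by simpa [aeval_eq_eval] using ha)
    · exact (mem_vanishingIdeal_singleton_iff _ _).2 (by simpa [aeval_eq_eval] using hb)
  have hmin : (vanishingIdeal ℂ {(0 : Fin 3 → ℂ)} : Ideal (MvPolynomial (Fin 3) ℂ)) ∈
      (Ideal.span ({a, b} : Set (MvPolynomial (Fin 3) ℂ))).minimalPrimes := by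
    refine ⟨⟨hmax.isPrime, hI⟩, ?_⟩
    rintro p ⟨hp, hIp⟩ -
    have hz : zeroLocus ℂ p ⊆ {(0 : Fin 3 → ℂ)} := by
      intro v hv
      by_contra hv0
      have h1 : eval v a = 0 := by
        simpa [aeval_eq_eval] using hv a (hIp (Ideal.subset_span (by simp)))
      have h2 : eval v b = 0 := by
        simpa [aeval_eq_eval] using hv b (hIp (Ideal.subset_span (by simp)))
      exact hcon v hv0 h1 h2
    have h3 : vanishingIdeal ℂ (zeroLocus ℂ p) = p := IsPrime.vanishingIdeal_zeroLocus p
    rw [← h3]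
    exact vanishingIdeal_anti_mono hz
  have h1 := Ideal.height_le_card_of_mem_minimalPrimes_span (Set.toFinite _) hmin
  rw [height_of_isMaximal] at h1
  have h2 : ({a, b} : Set (MvPolynomial (Fin 3) ℂ)).ncard ≤ 2 := by
    refine (Set.ncard_insert_le a {b}).trans ?_
    simp
  have h3 : ((3 : ℕ) : ℕ∞) ≤ ((2 : ℕ) : ℕ∞) := h1.trans (by exact_mod_cast h2)
  have h4 : (3 : ℕ) ≤ 2 := by exact_mod_cast h3
  omega

end CommonZero


section Constant

/-- The pair of polynomials `(p, q)` computes `h : ℙ² → ℙ¹` wherever it does not vanish. -/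
def RepPair (h : PN 2 → PN 1) (p q : MvPolynomial (Fin 3) ℂ) : Prop :=
  ∀ (v : Fin 3 → ℂ) (hv : v ≠ 0) (hne : (![eval v p, eval v q] : Fin 2 → ℂ) ≠ 0),
    h (Projectivization.mk ℂ v hv) = Projectivization.mk ℂ _ hne

theorem pair_ne_zero_iff {x y : ℂ} : (![x, y] : Fin 2 → ℂ) ≠ 0 ↔ x ≠ 0 ∨ y ≠ 0 := by
  constructor
  · intro h
    by_contra hcon
    push Not at hcon
    apply h
    funext k
    fin_cases k
    · exact hcon.1
    · exact hcon.2
  · rintro (h | h) h0
    · exact h (by simpa using congrFun h0 0)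
    · exact h (by simpa using congrFun h0 1)

theorem mk_pair_eq_iff {x y x' y' : ℂ} (h : (![x, y] : Fin 2 → ℂ) ≠ 0)
    (h' : (![x', y'] : Fin 2 → ℂ) ≠ 0) :
    Projectivization.mk ℂ _ h = Projectivization.mk ℂ _ h' ↔ x * y' = y * x' := by
  rw [Projectivization.mk_eq_mk_iff']
  constructor
  · rintro ⟨c, hc⟩
    have h0 : c * x' = x := by simpa using congrFun hc 0
    have h1 : c * y' = y := by simpa using congrFun hc 1
    rw [← h0, ← h1]; ring
  · intro hxy
    rcases pair_ne_zero_iff.1 h' with hx | hy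
    · refine ⟨x / x', ?_⟩
      funext k
      fin_cases k
      · simp; field_simp
      · simp; field_simp; linear_combination hxy
    · refine ⟨y / y', ?_⟩
      funext k
      fin_cases k
      · simp; field_simp; linear_combination -hxy
      · simp; field_simp

/-- Two pairs which compute the same map are proportional. -/
theorem RepPair.cross {h : PN 2 → PN 1} {p q p' q' : MvPolynomial (Fin 3) ℂ}
    (H : RepPair h p q) (H' : RepPair h p' q') : p * q' = q * p' := by
  have key : (X 0 : MvPolynomial (Fin 3) ℂ) * (p * q' - q * p') = 0 := by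
    apply MvPolynomial.funext
    intro v
    simp only [map_mul, map_sub, eval_X, map_zero]
    by_cases hv : v = 0
    · simp [hv]
    by_cases h1 : (![eval v p, eval v q] : Fin 2 → ℂ) ≠ 0
    · by_cases h2 : (![eval v p', eval v q'] : Fin 2 → ℂ) ≠ 0
      · have e := (H v hv h1).symm.trans (H' v hv h2)
        rw [mk_pair_eq_iff] at e
        rw [e]; ring
      · rw [pair_ne_zero_iff] at h2
        push Not at h2
        rw [h2.1, h2.2]; ring
    · rw [pair_ne_zero_iff] at h1
      push Not at h1
      rw [h1.1, h1.2]; ring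
  rcases mul_eq_zero.1 key with h0 | h0
  · exact absurd h0 (X_ne_zero _)
  · exact sub_eq_zero.1 h0

/-- A map `ℙ² → ℙ¹` which near every point is computed by a pair of polynomials is constant. -/
theorem const_of_repPair {h : PN 2 → PN 1}
    (H : ∀ v : Fin 3 → ℂ, v ≠ 0 → ∃ p q : MvPolynomial (Fin 3) ℂ, RepPair h p q ∧
      (![eval v p, eval v q] : Fin 2 → ℂ) ≠ 0) : ∃ c : PN 1, ∀ a, h a = c := by
  have he : (Pi.single 0 1 : Fin 3 → ℂ) ≠ 0 := by simp
  obtain ⟨p, q, hpq, hne⟩ := H _ he
  by_cases hp : p = 0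
  · -- the first coordinate vanishes identically
    have hq : q ≠ 0 := by
      rintro rfl
      apply hne
      simp [hp]
    have h01 : (![0, 1] : Fin 2 → ℂ) ≠ 0 := pair_ne_zero_iff.2 (Or.inr one_ne_zero)
    refine ⟨Projectivization.mk ℂ _ h01, fun a => ?_⟩
    obtain ⟨p', q', hpq', hne'⟩ := H a.rep a.rep_nonzero
    have hc := hpq.cross hpq'
    rw [hp, zero_mul] at hc
    have hp' : p' = 0 := (mul_eq_zero.1 hc.symm).resolve_left hq
    have e := hpq' a.rep a.rep_nonzero hne'
    rw [a.mk_rep] at e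
    rw [e, mk_pair_eq_iff, hp']
    simp
  · obtain ⟨a', b', c', hrel, hca, hcb⟩ := UniqueFactorizationMonoid.exists_reduced_factors p hp q
    have hc' : c' ≠ 0 := by rintro rfl; exact hp (by rw [← hca, zero_mul])
    have ha' : a' ≠ 0 := by rintro rfl; exact hp (by rw [← hca, mul_zero])
    -- the reduced pair computes `h` everywhere
    have star : ∀ (v : Fin 3 → ℂ) (hv : v ≠ 0), ∃ hne : (![eval v a', eval v b'] : Fin 2 → ℂ) ≠ 0,
        h (Projectivization.mk ℂ v hv) = Projectivization.mk ℂ _ hne := by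
      intro v hv
      obtain ⟨p', q', hpq', hne'⟩ := H v hv
      have hc := hpq.cross hpq'
      rw [← hca, ← hcb, mul_assoc, mul_assoc] at hc
      have hc2 : a' * q' = b' * p' := mul_left_cancel₀ hc' hc
      have hdvd : a' ∣ p' := hrel.dvd_of_dvd_mul_left ⟨q', hc2.symm⟩
      obtain ⟨S, rfl⟩ := hdvd
      have hq' : q' = b' * S := by
        apply mul_left_cancel₀ ha'
        rw [hc2]; ring
      subst hq'
      have hS : eval v S ≠ 0 := by
        intro hS
        apply hne'
        simp [hS]
      have hne2 : (![eval v a', eval v b'] : Fin 2 → ℂ) ≠ 0 := by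
        intro h0
        apply hne'
        have h1 : eval v a' = 0 := by simpa using congrFun h0 0
        have h2 : eval v b' = 0 := by simpa using congrFun h0 1
        simp [h1, h2]
      refine ⟨hne2, ?_⟩
      rw [hpq' v hv hne', mk_pair_eq_iff]
      simp only [map_mul]
      ring
    -- not both vanish at the origin
    have h00 : (![eval 0 a', eval 0 b'] : Fin 2 → ℂ) ≠ 0 := by
      intro h0
      have h1 : eval 0 a' = 0 := by simpa using congrFun h0 0
      have h2 : eval 0 b' = 0 := by simpa using congrFun h0 1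
      obtain ⟨v, hv, hva, hvb⟩ := exists_common_zero_ne_zero h1 h2
      obtain ⟨hne2, -⟩ := star v hv
      apply hne2
      simp [hva, hvb]
    refine ⟨Projectivization.mk ℂ _ h00, fun a => ?_⟩
    obtain ⟨hne1, e1⟩ := star a.rep a.rep_nonzero
    rw [a.mk_rep] at e1
    rw [e1, mk_pair_eq_iff]
    -- scaling
    have hscale : ∀ t : ℂ, t ≠ 0 →
        eval a.rep a' * eval (t • a.rep) b' = eval a.rep b' * eval (t • a.rep) a' := by
      intro t ht
      obtain ⟨hne2, e2⟩ := star (t • a.rep) (smul_ne_zero ht a.rep_nonzero)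
      rw [mk_smul_eq t ht a.rep a.rep_nonzero, a.mk_rep, e1, mk_pair_eq_iff] at e2
      exact e2
    have hcont : ∀ P : MvPolynomial (Fin 3) ℂ, Continuous fun t : ℂ => eval (t • a.rep) P :=
      fun P => (MvPolynomial.continuous_eval P).comp (continuous_id.smul continuous_const)
    have hall := Continuous.ext_on (dense_compl_singleton (0 : ℂ))
      (continuous_const.mul (hcont b')) (continuous_const.mul (hcont a'))
      (fun t ht => hscale t ht)
    simpa using congrFun hall 0

/-- **Every regular map `ℙ² → ℙ¹` is constant.** -/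
theorem IsRegularOn.const_of_plane_to_line {h : PN 2 → PN 1} (hh : IsRegularOn Set.univ h) :
    ∃ c : PN 1, ∀ a, h a = c := by
  refine const_of_repPair fun v hv => ?_
  obtain ⟨D, P, hP, hne, hrep⟩ := hh (Projectivization.mk ℂ v hv) trivial
  have hfun : ∀ w : Fin 3 → ℂ, (fun k => eval w (P k)) = ![eval w (P 0), eval w (P 1)] := by
    intro w
    funext k
    fin_cases k <;> rfl
  refine ⟨P 0, P 1, fun w hw hne' => ?_, ?_⟩
  · rw [regular_apply_mk hP hrep w hw trivial (by rw [hfun]; exact hne')]
    exact mk_congr (hfun w) _ _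
  · obtain ⟨a, ha⟩ := Projectivization.exists_smul_eq_mk_rep ℂ v hv
    intro h0
    apply hne
    funext k
    rw [← ha, Units.smul_def, eval_smul_of_isHomogeneous (hP k)]
    have := congrFun ((hfun v).trans h0) k
    simp only [Pi.zero_apply] at this ⊢
    rw [this, mul_zero]

end Constant

section Quadric

/-- The form `x₀ x₁ - x₂ x₃`. -/
noncomputable def quadricForm : MvPolynomial (Fin 4) ℂ := X 0 * X 1 - X 2 * X 3

theorem quadricForm_isHomogeneous : quadricForm.IsHomogeneous 2 :=
  ((isHomogeneous_X ℂ 0).mul (isHomogeneous_X ℂ 1)).sub ((isHomogeneous_X ℂ 2).mul (isHomogeneous_X ℂ 3))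

theorem quadricForm_prime : Prime quadricForm := by
  have hrel : IsRelPrime (X 0 : MvPolynomial (Fin 3) ℂ) (-(X 1 * X 2)) := by
    refine IsRelPrime.neg_right ?_
    rw [(X_prime (R := ℂ) (i := (0 : Fin 3))).irreducible.isRelPrime_iff_not_dvd]
    intro hd
    rcases (X_prime (R := ℂ) (i := (0 : Fin 3))).dvd_or_dvd hd with h | h
    · rw [X_dvd_X] at h
      revert h; decide
    · rw [X_dvd_X] at h
      revert h; decide
  have h := prime_linear_in_X0 (n := 3) (a := X 0) (b := -(X 1 * X 2)) (X_ne_zero _) hrel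
  have e : (X 0 * rename Fin.succ (X 0) + rename Fin.succ (-(X 1 * X 2)) :
      MvPolynomial (Fin 4) ℂ) = quadricForm := by
    simp only [rename_X, map_neg, map_mul, quadricForm]
    rw [sub_eq_add_neg]
    rfl
  rwa [e] at h

/-- The smooth quadric surface `x₀ x₁ = x₂ x₃` in `ℙ³` (it is `ℙ¹ × ℙ¹` in its Segre embedding). -/
noncomputable def quadric : ProjVariety 3 :=
  hypersurface quadricForm quadricForm_isHomogeneous quadricForm_prime

theorem mk_mem_quadric (v : Fin 4 → ℂ) (hv : v ≠ 0) :
    Projectivization.mk ℂ v hv ∈ quadric.points ↔ v 0 * v 1 = v 2 * v 3 := by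
  rw [quadric, mk_mem_hypersurface_points]
  simp [quadricForm, sub_eq_zero]

/-- The quadric is a surface. -/
theorem quadric_hasDim : quadric.HasDim 2 := hypersurface_hasDim _ _ _

/-- The coordinate ring of the chart `x_i = 1` of the quadric `x_i x_{i'} = x_j x_{j'}` is the
polynomial ring in `x_j`, `x_{j'}`. -/
theorem chart_isIntegrallyClosed (G : MvPolynomial (Fin 4) ℂ) (i i' j j' : Fin 4)
    (hall : ∀ k : Fin 4, k = i ∨ k = i' ∨ k = j ∨ k = j')
    (f : Fin 4 → MvPolynomial (Fin 2) ℂ) (hi : f i = 1) (hi' : f i' = X 0 * X 1) (hj : f j = X 0)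
    (hj' : f j' = X 1) (ε : MvPolynomial (Fin 4) ℂ) (hG : G = ε * (X i * X i' - X j * X j'))
    (hε : ε * ε = 1) :
    IsIntegrallyClosed (MvPolynomial (Fin 4) ℂ ⧸ (Ideal.span {G} ⊔ Ideal.span {X i - 1})) := by
  set J : Ideal (MvPolynomial (Fin 4) ℂ) := Ideal.span {G} ⊔ Ideal.span {X i - 1} with hJ
  let π : MvPolynomial (Fin 4) ℂ →ₐ[ℂ] MvPolynomial (Fin 2) ℂ := aeval f
  let s : MvPolynomial (Fin 2) ℂ →ₐ[ℂ] MvPolynomial (Fin 4) ℂ := aeval ![X j, X j']
  have hGJ : G ∈ J := Ideal.mem_sup_left (Ideal.mem_span_singleton_self G)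
  have hiJ : X i - 1 ∈ J := Ideal.mem_sup_right (Ideal.mem_span_singleton_self _)
  have hker : ∀ P ∈ J, (π : MvPolynomial (Fin 4) ℂ →+* MvPolynomial (Fin 2) ℂ) P = 0 := by
    intro P hP
    have hle : J ≤ RingHom.ker (π : MvPolynomial (Fin 4) ℂ →+* MvPolynomial (Fin 2) ℂ) := by
      rw [hJ, sup_le_iff, Ideal.span_le, Ideal.span_le]
      constructor
      · rintro x rfl
        simp [RingHom.mem_ker, π, hG, hi, hi', hj, hj']
      · rintro x rfl
        simp [RingHom.mem_ker, π, hi]
    exact hle hP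
  have hsπ : (Ideal.Quotient.mkₐ ℂ J).comp (s.comp π) = Ideal.Quotient.mkₐ ℂ J := by
    apply MvPolynomial.algHom_ext
    intro k
    simp only [AlgHom.comp_apply, Ideal.Quotient.mkₐ_eq_mk]
    rw [Ideal.Quotient.eq]
    rcases hall k with rfl | rfl | rfl | rfl
    · have : s (π (X k)) - X k = -(X k - 1) := by simp [π, s, hi]
      rw [this]; exact J.neg_mem hiJ
    · have : s (π (X k)) - X k = -(ε * G) + (X i - 1) * X k := by
        have e1 : ε * G = X i * X k - X j * X j' := by
          rw [hG, ← mul_assoc, hε, one_mul]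
        rw [e1]
        simp [π, s, hi']
        ring
      rw [this]
      exact J.add_mem (J.neg_mem (J.mul_mem_left _ hGJ)) (J.mul_mem_right _ hiJ)
    · have : s (π (X k)) - X k = 0 := by simp [π, s, hj]
      rw [this]; exact J.zero_mem
    · have : s (π (X k)) - X k = 0 := by simp [π, s, hj']
      rw [this]; exact J.zero_mem
  have hπs : π.comp s = AlgHom.id ℂ _ := by
    apply MvPolynomial.algHom_ext
    intro k
    fin_cases k
    · simp [π, s, hj]
    · simp [π, s, hj']
  let e : (MvPolynomial (Fin 4) ℂ ⧸ J) ≃+* MvPolynomial (Fin 2) ℂ :=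
    { toFun := Ideal.Quotient.lift J (π : MvPolynomial (Fin 4) ℂ →+* MvPolynomial (Fin 2) ℂ) hker
      invFun := fun Q => Ideal.Quotient.mk J (s Q)
      left_inv := by
        intro x
        obtain ⟨P, rfl⟩ := Ideal.Quotient.mk_surjective x
        rw [Ideal.Quotient.lift_mk]
        exact DFunLike.congr_fun hsπ P
      right_inv := by
        intro Q
        rw [Ideal.Quotient.lift_mk]
        exact DFunLike.congr_fun hπs Q
      map_mul' := map_mul _
      map_add' := map_add _ }
  exact IsIntegrallyClosed.of_equiv e.symm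

/-- **The quadric is normal** in the sense of `ProjVariety.IsNormal`: each of its four standard affine
charts is an affine plane. -/
theorem quadric_isNormal : quadric.IsNormal := by
  intro i _
  change IsIntegrallyClosed (MvPolynomial (Fin 4) ℂ ⧸
    (Ideal.span {quadricForm} ⊔ Ideal.span {X i - 1}))
  fin_cases i
  · exact chart_isIntegrallyClosed quadricForm 0 1 2 3 (by decide) ![1, X 0 * X 1, X 0, X 1]
      rfl rfl rfl rfl 1 (by simp [quadricForm]) (by simp)
  · exact chart_isIntegrallyClosed quadricForm 1 0 2 3 (by decide) ![X 0 * X 1, 1, X 0, X 1]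
      rfl rfl rfl rfl 1 (by simp [quadricForm]; ring) (by simp)
  · exact chart_isIntegrallyClosed quadricForm 2 3 0 1 (by decide) ![X 0, X 1, 1, X 0 * X 1]
      rfl rfl rfl rfl (-1) (by simp [quadricForm]) (by simp)
  · exact chart_isIntegrallyClosed quadricForm 3 2 0 1 (by decide) ![X 0, X 1, X 0 * X 1, 1]
      rfl rfl rfl rfl (-1) (by simp [quadricForm]; ring) (by simp)

end Quadric

section Ruling

/-- The first ruling `Q → ℙ¹` of the quadric, `[x₀ : x₁ : x₂ : x₃] ↦ [x₀ : x₂] = [x₃ : x₁]`
(with a junk value off the quadric, where both pairs may vanish). -/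
noncomputable def ruling (p : PN 3) : PN 1 :=
  if h : (![p.rep 0, p.rep 2] : Fin 2 → ℂ) ≠ 0 then Projectivization.mk ℂ _ h
  else if h' : (![p.rep 3, p.rep 1] : Fin 2 → ℂ) ≠ 0 then Projectivization.mk ℂ _ h'
  else Projectivization.mk ℂ (![1, 0] : Fin 2 → ℂ) (pair_ne_zero_iff.2 (Or.inl one_ne_zero))

theorem smul_pair_ne_zero {a x y : ℂ} (ha : a ≠ 0) (h : (![x, y] : Fin 2 → ℂ) ≠ 0) :
    (![a * x, a * y] : Fin 2 → ℂ) ≠ 0 := by
  rw [pair_ne_zero_iff] at h ⊢
  exact h.imp (mul_ne_zero ha) (mul_ne_zero ha)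

theorem ruling_mk_left (w : Fin 4 → ℂ) (hw : w ≠ 0) (h : (![w 0, w 2] : Fin 2 → ℂ) ≠ 0) :
    ruling (Projectivization.mk ℂ w hw) = Projectivization.mk ℂ _ h := by
  obtain ⟨a, ha⟩ := Projectivization.exists_smul_eq_mk_rep ℂ w hw
  have hk : ∀ k, (Projectivization.mk ℂ w hw).rep k = (a : ℂ) * w k := by
    intro k; rw [← ha]; rfl
  have hne : (![(Projectivization.mk ℂ w hw).rep 0, (Projectivization.mk ℂ w hw).rep 2] :
      Fin 2 → ℂ) ≠ 0 := by
    rw [hk, hk]; exact smul_pair_ne_zero a.ne_zero h
  rw [ruling, dif_pos hne, mk_pair_eq_iff, hk, hk]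
  ring

theorem ruling_mk_right (w : Fin 4 → ℂ) (hw : w ≠ 0) (hQ : w 0 * w 1 = w 2 * w 3)
    (h : (![w 3, w 1] : Fin 2 → ℂ) ≠ 0) :
    ruling (Projectivization.mk ℂ w hw) = Projectivization.mk ℂ _ h := by
  by_cases h' : (![w 0, w 2] : Fin 2 → ℂ) ≠ 0
  · rw [ruling_mk_left w hw h', mk_pair_eq_iff]
    exact hQ
  · obtain ⟨a, ha⟩ := Projectivization.exists_smul_eq_mk_rep ℂ w hw
    have hk : ∀ k, (Projectivization.mk ℂ w hw).rep k = (a : ℂ) * w k := by
      intro k; rw [← ha]; rfl
    rw [pair_ne_zero_iff] at h'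
    push Not at h'
    have hn : ¬ (![(Projectivization.mk ℂ w hw).rep 0, (Projectivization.mk ℂ w hw).rep 2] :
        Fin 2 → ℂ) ≠ 0 := by
      rw [hk, hk, h'.1, h'.2, pair_ne_zero_iff]
      simp
    have hne : (![(Projectivization.mk ℂ w hw).rep 3, (Projectivization.mk ℂ w hw).rep 1] :
        Fin 2 → ℂ) ≠ 0 := by
      rw [hk, hk]; exact smul_pair_ne_zero a.ne_zero h
    rw [ruling, dif_neg hn, dif_pos hne, mk_pair_eq_iff, hk, hk]
    ring

theorem vec4_ne_zero_iff {w : Fin 4 → ℂ} :
    w ≠ 0 ↔ (![w 0, w 2] : Fin 2 → ℂ) ≠ 0 ∨ (![w 3, w 1] : Fin 2 → ℂ) ≠ 0 := by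
  rw [pair_ne_zero_iff, pair_ne_zero_iff]
  constructor
  · intro h
    by_contra hcon
    push Not at hcon
    apply h
    funext k
    fin_cases k
    · exact hcon.1.1
    · exact hcon.2.2
    · exact hcon.1.2
    · exact hcon.2.1
  · rintro ((h | h) | (h | h)) rfl <;> exact h rfl

/-- The ruling is a regular map on the quadric.  It is not given by a single pair of forms. -/
theorem isRegularOn_ruling : IsRegularOn quadric.points ruling := by
  intro a _
  have hA : ∀ r : Fin 4 → ℂ, (fun k => eval r ((![X 0, X 2] : Fin 2 → MvPolynomial (Fin 4) ℂ) k)) =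
      ![r 0, r 2] := by
    intro r; funext k; fin_cases k <;> simp
  have hB : ∀ r : Fin 4 → ℂ, (fun k => eval r ((![X 3, X 1] : Fin 2 → MvPolynomial (Fin 4) ℂ) k)) =
      ![r 3, r 1] := by
    intro r; funext k; fin_cases k <;> simp
  rcases vec4_ne_zero_iff.1 a.rep_nonzero with h | h
  · refine ⟨1, ![X 0, X 2], ?_, by rw [hA]; exact h, fun a' _ h' => ?_⟩
    · intro k; fin_cases k <;> exact isHomogeneous_X ℂ _
    · have h2 : (![a'.rep 0, a'.rep 2] : Fin 2 → ℂ) ≠ 0 := by rw [← hA]; exact h'
      have e := ruling_mk_left a'.rep a'.rep_nonzero h2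
      rw [a'.mk_rep] at e
      rw [e]
      exact mk_congr (hA _).symm _ _
  · refine ⟨1, ![X 3, X 1], ?_, by rw [hB]; exact h, fun a' ha' h' => ?_⟩
    · intro k; fin_cases k <;> exact isHomogeneous_X ℂ _
    · have h2 : (![a'.rep 3, a'.rep 1] : Fin 2 → ℂ) ≠ 0 := by rw [← hB]; exact h'
      have hQ : a'.rep 0 * a'.rep 1 = a'.rep 2 * a'.rep 3 := by
        rw [← mk_mem_quadric a'.rep a'.rep_nonzero, a'.mk_rep]; exact ha'
      have e := ruling_mk_right a'.rep a'.rep_nonzero hQ h2
      rw [a'.mk_rep] at e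
      rw [e]
      exact mk_congr (hB _).symm _ _

theorem vecA_ne_zero : (![1, 0, 0, 0] : Fin 4 → ℂ) ≠ 0 := fun h =>
  (one_ne_zero : (1 : ℂ) ≠ 0) (by simpa using congrFun h 0)

theorem vecB_ne_zero : (![0, 0, 1, 0] : Fin 4 → ℂ) ≠ 0 := fun h =>
  (one_ne_zero : (1 : ℂ) ≠ 0) (by simpa using congrFun h 2)

theorem vecA_mem : Projectivization.mk ℂ _ vecA_ne_zero ∈ quadric.points := by
  rw [mk_mem_quadric]; simp

theorem vecB_mem : Projectivization.mk ℂ _ vecB_ne_zero ∈ quadric.points := by
  rw [mk_mem_quadric]; simp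

/-- The ruling takes different values at `[1 : 0 : 0 : 0]` and `[0 : 0 : 1 : 0]`. -/
theorem ruling_vecA_ne_vecB : ruling (Projectivization.mk ℂ _ vecA_ne_zero) ≠
    ruling (Projectivization.mk ℂ _ vecB_ne_zero) := by
  rw [ruling_mk_left _ vecA_ne_zero (pair_ne_zero_iff.2 (Or.inl (by simp))),
    ruling_mk_left _ vecB_ne_zero (pair_ne_zero_iff.2 (Or.inr (by simp))), Ne, mk_pair_eq_iff]
  simp

/-- The composite of a regular map `ℙ² → Q` with the ruling is constant. -/
theorem ruling_comp_const {ψ : PN 2 → PN 3} (hψ : IsRegularOn Set.univ ψ)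
    (hψQ : Set.MapsTo ψ Set.univ quadric.points) : ∃ c : PN 1, ∀ a, ruling (ψ a) = c := by
  refine const_of_repPair (h := fun a => ruling (ψ a)) fun v hv => ?_
  obtain ⟨D, P, hP, hne, hrep⟩ := hψ (Projectivization.mk ℂ v hv) trivial
  have hval : ∀ (w : Fin 3 → ℂ) (hw : w ≠ 0) (h' : (fun k => eval w (P k)) ≠ 0),
      ψ (Projectivization.mk ℂ w hw) = Projectivization.mk ℂ _ h' :=
    fun w hw h' => regular_apply_mk hP hrep w hw trivial h'
  have hPv : (fun k => eval v (P k)) ≠ 0 := by
    obtain ⟨a, ha⟩ := Projectivization.exists_smul_eq_mk_rep ℂ v hv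
    intro h0
    apply hne
    funext k
    rw [← ha, Units.smul_def, eval_smul_of_isHomogeneous (hP k)]
    have := congrFun h0 k
    simp only [Pi.zero_apply] at this ⊢
    rw [this, mul_zero]
  rcases vec4_ne_zero_iff.1 hPv with h02 | h31
  · refine ⟨P 0, P 2, fun w hw hne' => ?_, h02⟩
    have h' : (fun k => eval w (P k)) ≠ 0 := vec4_ne_zero_iff.2 (Or.inl hne')
    change ruling (ψ _) = _
    rw [hval w hw h']
    exact ruling_mk_left _ _ hne'
  · refine ⟨P 3, P 1, fun w hw hne' => ?_, h31⟩
    have h' : (fun k => eval w (P k)) ≠ 0 := vec4_ne_zero_iff.2 (Or.inr hne')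
    have hQ := hψQ (Set.mem_univ (Projectivization.mk ℂ w hw))
    rw [hval w hw h', mk_mem_quadric] at hQ
    change ruling (ψ _) = _
    rw [hval w hw h']
    exact ruling_mk_right _ _ hQ hne'

/-- **The quadric surface is not isomorphic to `ℙ²`** in the sense of `AreIsomorphic`: it has a
non-constant regular map to `ℙ¹`, and `ℙ²` has none. -/
theorem quadric_not_areIsomorphic : ¬ AreIsomorphic quadric.points (Set.univ : Set (PN 2)) := by
  rintro ⟨φ, ψ, -, hψ, -, hψQ, hψφ, -⟩
  obtain ⟨c, hc⟩ := ruling_comp_const hψ hψQ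
  have e1 := hc (φ (Projectivization.mk ℂ _ vecA_ne_zero))
  have e2 := hc (φ (Projectivization.mk ℂ _ vecB_ne_zero))
  rw [hψφ _ vecA_mem] at e1
  rw [hψφ _ vecB_mem] at e2
  exact ruling_vecA_ne_vecB (e1.trans e2.symm)

/-- There is not even a regular surjection `ℙ² → Q`. -/
theorem not_surjOn_plane_quadric {ψ : PN 2 → PN 3} (hψ : IsRegularOn Set.univ ψ)
    (hψQ : Set.MapsTo ψ Set.univ quadric.points) : ¬ Set.SurjOn ψ Set.univ quadric.points := by
  intro hs
  obtain ⟨c, hc⟩ := ruling_comp_const hψ hψQ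
  obtain ⟨a, -, ha⟩ := hs vecA_mem
  obtain ⟨b, -, hb⟩ := hs vecB_mem
  have e1 := hc a
  have e2 := hc b
  rw [ha] at e1
  rw [hb] at e2
  exact ruling_vecA_ne_vecB (e1.trans e2.symm)

/-- **Normality and the dimension of the base do not give the conclusion of `ProjectiveSpaceBase`**: there is
a normal projective variety of dimension `2` which is not isomorphic to `ℙ²`. -/
theorem exists_normal_surface_not_plane : ∃ (N : ℕ) (B : ProjVariety N),
    B.IsNormal ∧ B.HasDim 2 ∧ ¬ AreIsomorphic B.points (Set.univ : Set (PN 2)) :=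
  ⟨3, quadric, quadric_isNormal, quadric_hasDim, quadric_not_areIsomorphic⟩

end Ruling

section Equivalence

theorem eval_bind₁' {σ τ : Type} (v : τ → ℂ) (P : σ → MvPolynomial τ ℂ) (q : MvPolynomial σ ℂ) :
    eval v (bind₁ P q) = eval (fun i => eval v (P i)) q := by
  have h := aeval_bind₁ (R := ℂ) (S := ℂ) v P q
  simpa only [aeval_eq_eval, RingHom.coe_coe] using h

/-- **Regular maps compose.** -/
theorem IsRegularOn.comp {L M N : ℕ} {A : Set (PN L)} {A' : Set (PN M)} {φ : PN L → PN M}
    {ψ : PN M → PN N} (hψ : IsRegularOn A' ψ) (hφ : IsRegularOn A φ) (hmaps : Set.MapsTo φ A A') :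
    IsRegularOn A (ψ ∘ φ) := by
  intro a ha
  obtain ⟨D, P, hP, hPa, hPφ⟩ := hφ a ha
  obtain ⟨E, Q, hQ, hQb, hQψ⟩ := hψ (φ a) (hmaps ha)
  have hev : ∀ v : Fin (L + 1) → ℂ, (fun k => eval v (bind₁ P (Q k))) =
      fun k => eval (fun i => eval v (P i)) (Q k) := by
    intro v; funext k; exact eval_bind₁' v P (Q k)
  refine ⟨D * E, fun k => bind₁ P (Q k), fun k => (hQ k).aeval P hP, ?_, ?_⟩
  · rw [hev]
    intro h0
    apply hQb
    rw [hPφ a ha hPa]
    obtain ⟨c, hc⟩ := Projectivization.exists_smul_eq_mk_rep ℂ _ hPa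
    funext k
    rw [← hc, Units.smul_def, eval_smul_of_isHomogeneous (hQ k)]
    have := congrFun h0 k
    simp only [Pi.zero_apply] at this ⊢
    rw [this, mul_zero]
  · intro a' ha' h'
    have h2 : (fun k => eval (fun i => eval a'.rep (P i)) (Q k)) ≠ 0 := by rw [← hev]; exact h'
    have goal2 : ψ (φ a') = Projectivization.mk ℂ _ h2 := by
      by_cases hw : (fun i => eval a'.rep (P i)) ≠ 0
      · rw [hPφ a' ha' hw]
        refine regular_apply_mk hQ hQψ _ hw ?_ h2
        rw [← hPφ a' ha' hw]; exact hmaps ha'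
      · push Not at hw
        -- the forms `Q` have degree `0`
        have hE : E = 0 := by
          by_contra hE
          apply h2
          funext k
          have := eval_smul_of_isHomogeneous (hQ k) 0 (0 : Fin (M + 1) → ℂ)
          rw [zero_smul, zero_pow hE, zero_mul] at this
          rw [hw]; exact this
        have hconst : ∀ u : Fin (M + 1) → ℂ, (fun k => eval u (Q k)) =
            fun k => eval (fun i => eval a'.rep (P i)) (Q k) := by
          intro u
          funext k
          have := eval_smul_of_isHomogeneous (hQ k) 0 u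
          rw [zero_smul, hE, pow_zero, one_mul] at this
          rw [hw]; exact this.symm
        have h3 : (fun k => eval (φ a').rep (Q k)) ≠ 0 := by rw [hconst]; exact h2
        rw [hQψ (φ a') (hmaps ha') h3]
        exact mk_congr (hconst _) _ _
    rw [Function.comp_apply, goal2]
    exact mk_congr (hev _).symm _ _

theorem AreIsomorphic.symm {M N : ℕ} {A : Set (PN M)} {A' : Set (PN N)} (h : AreIsomorphic A A') :
    AreIsomorphic A' A := by
  obtain ⟨φ, ψ, hφ, hψ, h1, h2, h3, h4⟩ := h
  exact ⟨ψ, φ, hψ, hφ, h2, h1, h4, h3⟩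

theorem AreIsomorphic.trans {L M N : ℕ} {A : Set (PN L)} {A' : Set (PN M)} {A'' : Set (PN N)}
    (h : AreIsomorphic A A') (h' : AreIsomorphic A' A'') : AreIsomorphic A A'' := by
  obtain ⟨φ, ψ, hφ, hψ, h1, h2, h3, h4⟩ := h
  obtain ⟨φ', ψ', hφ', hψ', h1', h2', h3', h4'⟩ := h'
  refine ⟨φ' ∘ φ, ψ ∘ ψ', hφ'.comp hφ h1, hψ.comp hψ' h2', h1'.comp h1, h2.comp h2', ?_, ?_⟩
  · intro a ha
    simp only [Function.comp_apply]
    rw [h3' _ (h1 ha), h3 a ha]
  · intro a ha
    simp only [Function.comp_apply]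
    rw [h4 _ (h2' ha), h4' a ha]

/-- The cuspidal cubic is not isomorphic to the conic. -/
theorem cusp_not_areIsomorphic_conic : ¬ AreIsomorphic cusp.points conic.points :=
  fun h => cusp_not_areIsomorphic (h.trans conic_areIsomorphic)

/-- The quadric is not isomorphic to any set isomorphic to `ℙ²`. -/
theorem quadric_not_areIsomorphic_of {N : ℕ} {A : Set (PN N)}
    (hA : AreIsomorphic A (Set.univ : Set (PN 2))) : ¬ AreIsomorphic quadric.points A :=
  fun h => quadric_not_areIsomorphic (h.trans hA)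

end Equivalence

section Irrelevant

/-- **A projective variety with `HasDim n` has a point** (projective Nullstellensatz): if `B.points = ∅`, the ideal of `B`
is the irrelevant ideal, and its quotient has Krull dimension `0 ≠ n + 1`. -/
theorem ProjVariety.HasDim.points_nonempty {N n : ℕ} {B : ProjVariety N} (h : B.HasDim n) :
    B.points.Nonempty := by
  by_contra hne
  rw [Set.not_nonempty_iff_eq_empty] at hne
  have hprime := B.isPrime
  have hz : zeroLocus ℂ B.ideal ⊆ {(0 : Fin (N + 1) → ℂ)} := by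
    intro v hv
    by_contra hv0
    have hm : Projectivization.mk ℂ v hv0 ∈ B.points :=
      (B.mk_mem_points v hv0).2 (fun P hP => by simpa [aeval_eq_eval] using hv P hP)
    rw [hne] at hm
    exact hm
  have h3 : vanishingIdeal ℂ (zeroLocus ℂ B.ideal) = B.ideal :=
    IsPrime.vanishingIdeal_zeroLocus B.ideal
  have hle : vanishingIdeal ℂ {(0 : Fin (N + 1) → ℂ)} ≤ B.ideal := by
    rw [← h3]; exact vanishingIdeal_anti_mono hz
  have hmax : (vanishingIdeal ℂ {(0 : Fin (N + 1) → ℂ)} :
      Ideal (MvPolynomial (Fin (N + 1)) ℂ)).IsMaximal := inferInstance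
  have heq := hmax.eq_of_le hprime.ne_top hle
  have hM : B.ideal.IsMaximal := heq ▸ hmax
  have h0 : ringKrullDim (MvPolynomial (Fin (N + 1)) ℂ ⧸ B.ideal) = 0 :=
    ringKrullDim_eq_zero_of_isField ((Ideal.Quotient.maximal_ideal_iff_isField_quotient _).1 hM)
  unfold ProjVariety.HasDim at h
  rw [h0] at h
  have h1 : ((0 : ℕ) : WithBot ℕ∞) = ((n + 1 : ℕ) : WithBot ℕ∞) := by exact_mod_cast h
  have h2 : (0 : ℕ) = n + 1 := by exact_mod_cast h1
  omega

/-- The irrelevant ideal `(x₀, …, x_N)` is a homogeneous prime ideal, so it is a `ProjVariety`. -/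
noncomputable def irrelevantVariety (N : ℕ) : ProjVariety N where
  ideal := vanishingIdeal ℂ {(0 : Fin (N + 1) → ℂ)}
  isHomogeneous := by
    intro P hP k
    rw [mem_vanishingIdeal_singleton_iff, aeval_eq_eval] at hP ⊢
    rcases Nat.eq_zero_or_pos k with rfl | hk
    · rw [homogeneousComponent_zero, eval_C, ← constantCoeff_eq, ← eval_zero]
      exact hP
    · have := eval_smul_of_isHomogeneous (homogeneousComponent_isHomogeneous k P) 0
        (0 : Fin (N + 1) → ℂ)
      rw [zero_smul, zero_pow hk.ne', zero_mul] at this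
      exact this
  isPrime := inferInstance

theorem irrelevantVariety_points (N : ℕ) : (irrelevantVariety N).points = ∅ := by
  rw [Set.eq_empty_iff_forall_notMem]
  intro p hp
  apply p.rep_nonzero
  funext i
  have hX : (X i : MvPolynomial (Fin (N + 1)) ℂ) ∈ (irrelevantVariety N).ideal := by
    change X i ∈ vanishingIdeal ℂ {(0 : Fin (N + 1) → ℂ)}
    rw [mem_vanishingIdeal_singleton_iff]
    simp
  simpa using hp (X i) hX

/-- Deviation 10 (a) of `CLAIM.md`: `ProjVariety` admits the irrelevant ideal, whose zero set is empty, and `HasDim n`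
excludes it for every `n`. -/
theorem irrelevantVariety_not_hasDim (N n : ℕ) : ¬ (irrelevantVariety N).HasDim n := by
  intro h
  have := h.points_nonempty
  rw [irrelevantVariety_points] at this
  exact Set.not_nonempty_empty this

end Irrelevant

end Claimed.Open.R041
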