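/-
Result 041, sanity file: three remarks of `CLAIM.md` on the quantifiers of the definitions, as theorems.

* `isRegularOn_iff_locally`: for EVERY set `A ⊆ ℙ^M`, `IsRegularOn A φ` is EQUIVALENT to the textbook definition
  `IsRegularOnLocally A φ`: every point `a ∈ A` has a principal Zariski-open neighbourhood `A ∩ {h ≠ 0}` on which
  `φ = [P₀ : ⋯ : P_N]`, the forms `P_k` having no common zero there.  (`IsRegularOn` asks `φ = [P]` at ALL points of `A` where the `P_k`
  have no common zero.)  From the textbook data `(P, h)` pass to the forms `h P_k`: they have a common zero wherever `h` vanishes.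
  So irreducibility of `A`, which the remark of `CLAIM.md` uses, is not needed for the equivalence.
  `areIsomorphic_iff_locally`: hence `AreIsomorphic`, the conclusion of `ProjectiveSpaceBase`, is the textbook notion of isomorphism.
* `ProjVariety.eq_mk_of_locally`: the identity principle quoted in that remark.  On a projective variety `B` (a homogeneous PRIME
  ideal) let `φ` be regular and `φ = [P]` on a nonempty principal open subset `B ∩ {h ≠ 0}`; then `φ = [P]` at all points of `B` where the
  `P_k` have no common zero.  So on `B` EVERY local expression of `φ` is a witness for `IsRegularOn`.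
  Proof: two expressions `[P]`, `[P']` of `φ` agree on `{h h' ≠ 0}`, so the forms `x_k h h' (P_i P'_j - P_j P'_i)` vanish on `B`, so they lie
  in the ideal (`ProjVariety.mem_ideal_of_forall_points`, from Mathlib's affine Nullstellensatz), which is prime and contains none of
  `x_k`, `h`, `h'`.
  `identity_principle_fails_on_two_points`: NON-example, the principle fails on the reducible set `{[1:0], [0:1]} ⊆ ℙ¹`.
* `HolLineBundle.isRelativelyAmple_iff_forall_mem_range` (Deviation 10 (b)): in `IsRelativelyAmple` only the points `b` of the image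
  of `f` matter.
* `hasLagrangianFibres_iff_forall_mem_range` (Deviation 10 (d), last remark of `CLAIM.md`): in `HasLagrangianFibres` only the points `b`
  of the image of `f` matter.
-/
import Claimed.Open.R041.SanityBasic
import Claimed.Open.R041.SanityProj

open scoped Manifold ContDiff Topology
open MvPolynomial

namespace Claimed.Open.R041

/-! ## 1. `IsRegularOn` and the textbook definition -/

section Regular

variable {M N : ℕ}

/-- The textbook definition of a regular map on `A ⊆ ℙ^M` with values in `ℙ^N` (Shafarevich, *Basic algebraic geometry 1*,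
Ch. 1, §4.2): every point `a ∈ A` has a Zariski-open neighbourhood in `A`, which may be taken principal, `A ∩ {h ≠ 0}` with `h` a form,
on which `φ` is given by forms `P₀, …, P_N` of the same degree without common zero. -/
def IsRegularOnLocally (A : Set (PN M)) (φ : PN M → PN N) : Prop :=
  ∀ a ∈ A, ∃ (D E : ℕ) (P : Fin (N + 1) → MvPolynomial (Fin (M + 1)) ℂ)
    (h : MvPolynomial (Fin (M + 1)) ℂ),
    (∀ k, (P k).IsHomogeneous D) ∧ h.IsHomogeneous E ∧ eval a.rep h ≠ 0 ∧
    ∀ a' ∈ A, eval a'.rep h ≠ 0 →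
      ∃ hne : (fun k => eval a'.rep (P k)) ≠ 0, φ a' = Projectivization.mk ℂ _ hne

/-- `IsRegularOn` implies the textbook definition, for every set `A`: take for `h` one of the forms `P_k`. -/
theorem IsRegularOn.locally {A : Set (PN M)} {φ : PN M → PN N} (hφ : IsRegularOn A φ) :
    IsRegularOnLocally A φ := by
  intro a ha
  obtain ⟨D, P, hP, hne, h⟩ := hφ a ha
  obtain ⟨k, hk⟩ := Function.ne_iff.1 hne
  refine ⟨D, D, P, P k, hP, hP k, hk, fun a' ha' hk' => ?_⟩
  have hne' : (fun k => eval a'.rep (P k)) ≠ 0 := fun h0 => hk' (congrFun h0 k)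
  exact ⟨hne', h a' ha' hne'⟩

/-- Projective Nullstellensatz for a prime ideal: a form without constant term which vanishes at all points of `B` lies in the
ideal of `B`. -/
theorem ProjVariety.mem_ideal_of_forall_points (B : ProjVariety M) {G : MvPolynomial (Fin (M + 1)) ℂ}
    {m : ℕ} (hG : G.IsHomogeneous m) (h0 : eval 0 G = 0) (h : ∀ a ∈ B.points, eval a.rep G = 0) :
    G ∈ B.ideal := by
  have hp := B.isPrime
  rw [← IsPrime.vanishingIdeal_zeroLocus (K := ℂ) B.ideal, mem_vanishingIdeal_iff]
  intro v hv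
  rw [aeval_eq_eval]
  by_cases hv0 : v = 0
  · rw [hv0]; exact h0
  · have hmem : Projectivization.mk ℂ v hv0 ∈ B.points :=
      (B.mk_mem_points v hv0).2 fun P hP => by simpa [aeval_eq_eval] using hv P hP
    obtain ⟨a, ha⟩ := Projectivization.exists_smul_eq_mk_rep ℂ v hv0
    have h1 := h _ hmem
    rw [← ha, Units.smul_def, eval_smul_of_isHomogeneous hG] at h1
    exact (mul_eq_zero.1 h1).resolve_left (pow_ne_zero _ a.ne_zero)

/-- A polynomial which does not vanish at a point of `B` is not in the ideal of `B`. -/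
theorem ProjVariety.notMem_ideal_of_eval_ne_zero (B : ProjVariety M) {a : PN M} (ha : a ∈ B.points)
    {G : MvPolynomial (Fin (M + 1)) ℂ} (h : eval a.rep G ≠ 0) : G ∉ B.ideal :=
  fun hG => h (ha G hG)

/-- Two nonzero vectors all of whose `2 × 2` minors vanish define the same point of projective space. -/
theorem mk_eq_mk_of_minors {n : ℕ} {v w : Fin (n + 1) → ℂ} (hv : v ≠ 0) (hw : w ≠ 0)
    (h : ∀ i j, w i * v j = w j * v i) :
    Projectivization.mk ℂ v hv = Projectivization.mk ℂ w hw := by
  obtain ⟨j, hj⟩ := Function.ne_iff.1 hw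
  have hj' : w j ≠ 0 := hj
  refine (Projectivization.mk_eq_mk_iff' ℂ _ _ _ _).2 ⟨v j / w j, ?_⟩
  funext i
  have := h i j
  simp only [Pi.smul_apply, smul_eq_mul]
  field_simp
  linear_combination this

/-- If two nonzero vectors define the same point of projective space, their `2 × 2` minors vanish. -/
theorem minors_of_mk_eq_mk {n : ℕ} {v w : Fin (n + 1) → ℂ} (hv : v ≠ 0) (hw : w ≠ 0)
    (h : Projectivization.mk ℂ v hv = Projectivization.mk ℂ w hw) (i j : Fin (n + 1)) :
    w i * v j = w j * v i := by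
  obtain ⟨c, hc⟩ := (Projectivization.mk_eq_mk_iff' ℂ _ _ _ _).1 h
  rw [← hc]
  simp only [Pi.smul_apply, smul_eq_mul]
  ring

/-- **The identity principle for regular maps on a projective variety.**  If the regular map `φ` is given by the forms `P` on a nonempty
principal open subset `B ∩ {h ≠ 0}`, it is given by them at all points of `B` where they have no common zero. -/
theorem ProjVariety.eq_mk_of_locally (B : ProjVariety M) {φ : PN M → PN N}
    (hloc : IsRegularOnLocally B.points φ) {D E : ℕ}
    {P : Fin (N + 1) → MvPolynomial (Fin (M + 1)) ℂ} {h : MvPolynomial (Fin (M + 1)) ℂ}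
    (hP : ∀ k, (P k).IsHomogeneous D) (hh : h.IsHomogeneous E)
    {a : PN M} (ha : a ∈ B.points) (hha : eval a.rep h ≠ 0)
    (hφ : ∀ a' ∈ B.points, eval a'.rep h ≠ 0 →
      ∃ hne : (fun k => eval a'.rep (P k)) ≠ 0, φ a' = Projectivization.mk ℂ _ hne)
    {a' : PN M} (ha' : a' ∈ B.points) (hne' : (fun k => eval a'.rep (P k)) ≠ 0) :
    φ a' = Projectivization.mk ℂ _ hne' := by
  obtain ⟨D', E', P', h', hP', hh', hha', hφ'⟩ := hloc a' ha'
  obtain ⟨hne'', hφa'⟩ := hφ' a' ha' hha'
  rw [hφa']
  obtain ⟨k₀, hk₀⟩ := Function.ne_iff.1 a.rep_nonzero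
  have hk₀' : eval a.rep (X k₀ : MvPolynomial (Fin (M + 1)) ℂ) ≠ 0 := by
    rw [eval_X]; exact hk₀
  refine mk_eq_mk_of_minors hne'' hne' fun i j => ?_
  -- the form `x_k h h' (P_i P'_j - P_j P'_i)` vanishes on `B`
  have hmem : X k₀ * (h * h' * (P i * P' j - P j * P' i)) ∈ B.ideal := by
    refine B.mem_ideal_of_forall_points (m := 1 + (E + E' + (D + D'))) ?_ ?_ ?_
    · exact (isHomogeneous_X ℂ k₀).mul ((hh.mul hh').mul
        (((hP i).mul (hP' j)).sub ((hP j).mul (hP' i))))
    · simp
    · intro b hb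
      simp only [map_mul, map_sub]
      by_cases h1 : eval b.rep h = 0
      · rw [h1]; ring
      by_cases h2 : eval b.rep h' = 0
      · rw [h2]; ring
      obtain ⟨n1, e1⟩ := hφ b hb h1
      obtain ⟨n2, e2⟩ := hφ' b hb h2
      have h3 := minors_of_mk_eq_mk n2 n1 (e2.symm.trans e1) i j
      have h4 : eval b.rep (P i) * eval b.rep (P' j) - eval b.rep (P j) * eval b.rep (P' i) = 0 :=
        sub_eq_zero.2 h3
      rw [h4]; ring
  have hp := B.isPrime
  have h5 : P i * P' j - P j * P' i ∈ B.ideal := by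
    have h6 := (hp.mem_or_mem hmem).resolve_left (B.notMem_ideal_of_eval_ne_zero ha hk₀')
    have h7 : h * h' ∉ B.ideal := fun h8 =>
      (hp.mem_or_mem h8).elim (B.notMem_ideal_of_eval_ne_zero ha hha)
        (B.notMem_ideal_of_eval_ne_zero ha' hha')
    exact (hp.mem_or_mem h6).resolve_left h7
  have h9 := ha' _ h5
  simp only [map_mul, map_sub] at h9
  exact sub_eq_zero.1 h9

/-- The textbook definition implies `IsRegularOn`, for every set `A`: replace the forms `P_k` by `h P_k`. -/
theorem IsRegularOnLocally.isRegularOn {A : Set (PN M)} {φ : PN M → PN N}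
    (hφ : IsRegularOnLocally A φ) : IsRegularOn A φ := by
  intro a ha
  obtain ⟨D, E, P, h, hP, hh, hha, hloc⟩ := hφ a ha
  have key : ∀ b : PN M, (fun k => eval b.rep (h * P k)) =
      eval b.rep h • fun k => eval b.rep (P k) := by
    intro b; funext k; simp
  obtain ⟨hne, -⟩ := hloc a ha hha
  refine ⟨E + D, fun k => h * P k, fun k => hh.mul (hP k), ?_, fun a' ha' hne' => ?_⟩
  · rw [key]; exact smul_ne_zero hha hne
  · have hh' : eval a'.rep h ≠ 0 := by
      intro h0
      apply hne'
      rw [key, h0, zero_smul]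
    obtain ⟨hne'', e⟩ := hloc a' ha' hh'
    rw [e]
    exact (Projectivization.mk_eq_mk_iff' ℂ _ _ _ _).2 ⟨(eval a'.rep h)⁻¹, by
      rw [key, smul_smul, inv_mul_cancel₀ hh', one_smul]⟩

/-- **`IsRegularOn` is the textbook notion of a regular map**, on every subset of projective space. -/
theorem isRegularOn_iff_locally (A : Set (PN M)) (φ : PN M → PN N) :
    IsRegularOn A φ ↔ IsRegularOnLocally A φ :=
  ⟨IsRegularOn.locally, IsRegularOnLocally.isRegularOn⟩

/-- **`AreIsomorphic` is the textbook notion of isomorphism**: mutually inverse maps which are regular in the textbook sense. -/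
theorem areIsomorphic_iff_locally (A : Set (PN M)) (A' : Set (PN N)) :
    AreIsomorphic A A' ↔
      ∃ (φ : PN M → PN N) (ψ : PN N → PN M), IsRegularOnLocally A φ ∧ IsRegularOnLocally A' ψ ∧
        Set.MapsTo φ A A' ∧ Set.MapsTo ψ A' A ∧ (∀ a ∈ A, ψ (φ a) = a) ∧
        (∀ a' ∈ A', φ (ψ a') = a') := by
  simp only [AreIsomorphic, isRegularOn_iff_locally]

/-- On a projective variety every local expression of a regular map is a witness for the clause of `IsRegularOn`. -/
theorem ProjVariety.isRegularOn_witness (B : ProjVariety M) {φ : PN M → PN N}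
    (hreg : IsRegularOn B.points φ) {D E : ℕ}
    {P : Fin (N + 1) → MvPolynomial (Fin (M + 1)) ℂ} {h : MvPolynomial (Fin (M + 1)) ℂ}
    (hP : ∀ k, (P k).IsHomogeneous D) (hh : h.IsHomogeneous E)
    {a : PN M} (ha : a ∈ B.points) (hha : eval a.rep h ≠ 0)
    (hφ : ∀ a' ∈ B.points, eval a'.rep h ≠ 0 →
      ∃ hne : (fun k => eval a'.rep (P k)) ≠ 0, φ a' = Projectivization.mk ℂ _ hne) :
    ∀ a' ∈ B.points, ∀ hne' : (fun k => eval a'.rep (P k)) ≠ 0,
      φ a' = Projectivization.mk ℂ _ hne' :=
  fun _ ha' hne' => B.eq_mk_of_locally hreg.locally hP hh ha hha hφ ha' hne'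

/-- The same on `ℙ^n` itself (the variety of the zero ideal). -/
theorem isRegularOn_univ_witness {φ : PN M → PN N}
    (hreg : IsRegularOn (Set.univ : Set (PN M)) φ) {D E : ℕ}
    {P : Fin (N + 1) → MvPolynomial (Fin (M + 1)) ℂ} {h : MvPolynomial (Fin (M + 1)) ℂ}
    (hP : ∀ k, (P k).IsHomogeneous D) (hh : h.IsHomogeneous E)
    {a : PN M} (hha : eval a.rep h ≠ 0)
    (hφ : ∀ a' : PN M, eval a'.rep h ≠ 0 →
      ∃ hne : (fun k => eval a'.rep (P k)) ≠ 0, φ a' = Projectivization.mk ℂ _ hne) :
    ∀ (a' : PN M) (hne' : (fun k => eval a'.rep (P k)) ≠ 0),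
      φ a' = Projectivization.mk ℂ _ hne' := by
  intro a' hne'
  have hu := projSpaceVariety_points M
  exact (projSpaceVariety M).isRegularOn_witness (by rw [hu]; exact hreg) hP hh
    (a := a) (by rw [hu]; trivial) hha (fun b _ hb => hφ b hb) a' (by rw [hu]; trivial) hne'

/-- NON-example: primality of the ideal is needed in the identity principle.  On the reducible set `A = {[1:0], [0:1]} ⊆ ℙ¹`
(the zero set of `x₀ x₁`) the identity map is regular and is given by the constant forms `P = (1, 0)` on the nonempty open subset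
`A ∩ {x₀ ≠ 0} = {[1:0]}`; these forms have no common zero at `[0:1]`, and do not give the identity there. -/
theorem identity_principle_fails_on_two_points :
    ∃ (A : Set (PN 1)) (P : Fin 2 → MvPolynomial (Fin 2) ℂ) (h : MvPolynomial (Fin 2) ℂ) (a : PN 1),
      IsRegularOn A (id : PN 1 → PN 1) ∧ (∀ k, (P k).IsHomogeneous 0) ∧ h.IsHomogeneous 1 ∧
      a ∈ A ∧ eval a.rep h ≠ 0 ∧
      (∀ a' ∈ A, eval a'.rep h ≠ 0 →
        ∃ hne : (fun k => eval a'.rep (P k)) ≠ 0, id a' = Projectivization.mk ℂ _ hne) ∧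
      ¬ ∀ a' ∈ A, ∀ hne' : (fun k => eval a'.rep (P k)) ≠ 0,
        id a' = Projectivization.mk ℂ _ hne' := by
  have hv : (![1, 0] : Fin 2 → ℂ) ≠ 0 := fun h0 => one_ne_zero (congrFun h0 0)
  have hw : (![0, 1] : Fin 2 → ℂ) ≠ 0 := fun h0 => one_ne_zero (congrFun h0 1)
  have hP : ∀ b : PN 1, (fun k => eval b.rep ((![1, 0] : Fin 2 → MvPolynomial (Fin 2) ℂ) k)) =
      (![1, 0] : Fin 2 → ℂ) := by
    intro b; funext k; fin_cases k <;> simp
  have hne : ∀ b : PN 1,
      (fun k => eval b.rep ((![1, 0] : Fin 2 → MvPolynomial (Fin 2) ℂ) k)) ≠ 0 := by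
    intro b; rw [hP]; exact hv
  refine ⟨{Projectivization.mk ℂ _ hv, Projectivization.mk ℂ _ hw}, ![1, 0], X 0,
    Projectivization.mk ℂ _ hv, ?_, ?_, isHomogeneous_X ℂ 0, Or.inl rfl, ?_, ?_, ?_⟩
  · -- the identity is given by the forms `x₀, x₁`
    intro a _
    have hX : ∀ b : PN 1, (fun k => eval b.rep (X k : MvPolynomial (Fin 2) ℂ)) = b.rep := by
      intro b; funext k; simp
    refine ⟨1, fun k => X k, fun k => isHomogeneous_X ℂ k, ?_, fun a' _ h' => ?_⟩
    · rw [hX]; exact a.rep_nonzero
    · exact (Projectivization.mk_rep a').symm.trans (mk_congr (hX a').symm _ _)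
  · intro k
    fin_cases k
    · exact isHomogeneous_one _ _
    · exact isHomogeneous_zero _ _ _
  · rw [eval_X]
    exact fun h0 => one_ne_zero ((rep_apply_eq_zero_iff _ hv 0).1 h0)
  · rintro a' (rfl | rfl) h'
    · exact ⟨hne _, mk_congr (hP _).symm _ _⟩
    · rw [eval_X] at h'
      exact (h' ((rep_apply_eq_zero_iff _ hw 0).2 rfl)).elim
  · intro hall
    have h1 := hall _ (Or.inr rfl) (hne _)
    obtain ⟨c, hc⟩ := (Projectivization.mk_eq_mk_iff' ℂ _ _ _ _).1 h1
    rw [hP] at hc
    have h2 := congrFun hc 1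
    simp at h2

end Regular

/-! ## 2. Only the points of the image of `f` matter -/

section Range

variable {d : ℕ} {X : Type} [TopologicalSpace X] [ChartedSpace (Cn d) X] {N : ℕ}

/-- Deviation 10 (b) of `CLAIM.md`: `IsRelativelyAmple` asks for a neighbourhood `V` of every `b : ℙ^N`; the condition is
empty for the `b` outside the image of `f` (take `V = {b}`). -/
theorem HolLineBundle.isRelativelyAmple_iff_forall_mem_range (M : HolLineBundle d X) (f : X → PN N) :
    M.IsRelativelyAmple f ↔
      ∀ b ∈ Set.range f, ∃ V : Set (PN N), b ∈ V ∧ IsOpen (f ⁻¹' V) ∧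
        ∃ (m N' : ℕ) (g : X → PN N'), 0 < m ∧ M.IsPullbackOfO1 m (f ⁻¹' V) g ∧
          Set.InjOn (fun x => (f x, g x)) (f ⁻¹' V) ∧
          ∀ x ∈ f ⁻¹' V, ∀ v : Cn d,
            InKerDifferential d f x v → InKerDifferential d g x v → v = 0 := by
  refine ⟨fun h b _ => h b, fun h b => ?_⟩
  by_cases hb : b ∈ Set.range f
  · exact h b hb
  have he : f ⁻¹' {b} = ∅ := Set.preimage_singleton_eq_empty.2 hb
  refine ⟨{b}, rfl, ?_, 1, 0,
    fun _ => Projectivization.mk ℂ (fun _ => (1 : ℂ)) (fun h0 => one_ne_zero (congrFun h0 0)),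
    one_pos, ?_, ?_, ?_⟩
  · rw [he]; exact isOpen_empty
  · rw [he]
    refine ⟨fun _ _ _ => 0, fun k => ⟨fun i => ?_, fun i j x hx => hx.2.elim⟩,
      fun i x hx => hx.2.elim⟩
    exact contMDiffOn_const
  · rw [he]; exact Set.injOn_empty _
  · rw [he]; intro x hx; exact hx.elim

/-- Deviation 10 (d) and the last remark of `CLAIM.md`: `HasLagrangianFibres` quantifies over all `b : ℙ^N`; an empty fibre has no
irreducible component, so only the `b` in the image of `f` matter. -/
theorem hasLagrangianFibres_iff_forall_mem_range (σ : Form ℂ d X ℂ 2) (f : X → PN N) (n : ℕ) :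
    HasLagrangianFibres σ f n ↔
      ∀ b ∈ Set.range f, ∀ Z : Set X, IsIrreducibleComponent d Z (f ⁻¹' {b}) →
        HasDimension d Z n ∧ VanishesOnSmoothLocus σ Z := by
  refine ⟨fun h b _ => h b, fun h b Z hZ => ?_⟩
  obtain ⟨x, hx⟩ := hZ.1.2.1
  exact h b ⟨x, hZ.2.1 hx⟩ Z hZ

/-- The empty set has no irreducible component. -/
theorem not_isIrreducibleComponent_empty (Z : Set X) : ¬ IsIrreducibleComponent d Z (∅ : Set X) := by
  intro hZ
  obtain ⟨x, hx⟩ := hZ.1.2.1
  exact hZ.2.1 hx

end Range

end Claimed.Open.R041
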