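/-
Result 041, sanity: a NON-example for `HolLineBundle.IsRelativelyAmple`.

On a compact connected complex manifold `X` with at least two points the trivial line bundle is not relatively ample for a
constant map `X → ℙ^N` (relative ampleness over a point is ampleness, and all sections of `𝒪_X^{⊗ m}` are constant).  In particular this
holds on the Kummer surface `Kum`, where `IsProjectiveManifold.exists_isRelativelyAmple` gives a relatively ample bundle for the same
map: so `IsRelativelyAmple` really depends on the bundle.

Nothing here proves `Statement`.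
-/
import Claimed.Open.R041.K3Example
import Claimed.Open.R041.K3Embed

open scoped Manifold ContDiff Topology
open Set

namespace Claimed.Open.R041

section RelAmple

variable {d : ℕ} {X : Type} [TopologicalSpace X] [ChartedSpace (Cn d) X]
  [IsManifold 𝓘(ℂ, Cn d) ω X]

/-- A holomorphic function on a compact connected complex manifold is constant. -/
theorem HolomorphicOn.exists_eq_const_of_compact [CompactSpace X] [PreconnectedSpace X] {u : X → ℂ}
    (hu : HolomorphicOn d u Set.univ) : ∃ c : ℂ, ∀ x, u x = c := by
  have : IsManifold 𝓘(ℂ, Cn d) 1 X := IsManifold.of_le (n := ω) le_top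
  have h1 : MDifferentiable 𝓘(ℂ, Cn d) 𝓘(ℂ, ℂ) u := fun x =>
    ((hu x trivial).contMDiffAt Filter.univ_mem).mdifferentiableAt (by simp)
  obtain ⟨c, hc⟩ := h1.exists_eq_const_of_compactSpace
  exact ⟨c, fun x => by rw [hc]; rfl⟩

/-- **Non-example.**  The trivial line bundle is not relatively ample for a constant map. -/
theorem trivialBundle_not_isRelativelyAmple_const [CompactSpace X] [PreconnectedSpace X]
    [Nontrivial X] {N : ℕ} (b₀ : PN N) :
    ¬ (trivialBundle d X).IsRelativelyAmple (fun _ : X => b₀) := by
  intro h
  obtain ⟨V, hb, -, m, N', g, -, ⟨s, hs, hg⟩, hinj, -⟩ := h b₀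
  have hpre : (fun _ : X => b₀) ⁻¹' V = Set.univ := by
    ext x; simp [hb]
  rw [hpre] at hs hg hinj
  have hconst : ∀ k, ∃ c : ℂ, ∀ x, s k () x = c := fun k => by
    have h1 := (hs k).holomorphic ()
    have h2 : (trivialBundle d X).U () ∩ Set.univ = Set.univ := by simp [trivialBundle]
    rw [h2] at h1
    exact h1.exists_eq_const_of_compact
  choose c hc using hconst
  obtain ⟨x, y, hxy⟩ := exists_pair_ne X
  apply hxy
  apply hinj (mem_univ x) (mem_univ y)
  obtain ⟨hx0, hx⟩ := hg () x ⟨trivial, trivial⟩
  obtain ⟨hy0, hy⟩ := hg () y ⟨trivial, trivial⟩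
  have e : (fun k => s k () x) = fun k => s k () y := by
    funext k; rw [hc k x, hc k y]
  simp only [Prod.mk.injEq, true_and]
  rw [hx, hy]
  congr 1

end RelAmple

namespace Kummer

/-- On the Kummer surface, for one and the same (constant) map to `ℙ^N`: some line bundle is relatively ample, the trivial one is not. -/
theorem isRelativelyAmple_depends_on_bundle {N : ℕ} (b₀ : PN N) :
    (∃ M : HolLineBundle 2 Kum, M.IsRelativelyAmple (fun _ : Kum => b₀)) ∧
      ¬ (trivialBundle 2 Kum).IsRelativelyAmple (fun _ : Kum => b₀) := by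
  have : SimplyConnectedSpace Kum := simplyConnectedSpace_Kum
  have : PreconnectedSpace Kum := inferInstance
  have : CompactSpace Kum := instCompactSpaceKum
  have : Nontrivial Kum := by
    refine ⟨ptA 0 0 (mk2 0 0) (mk2_zero_mem_DA 0), ptA 0 0 (mk2 0 1) (mk2_zero_mem_DA 1), fun h => ?_⟩
    have h1 := congrArg (chA 0 0) h
    rw [chA_ptA, chA_ptA] at h1
    have h2 := congrArg (fun y : Cn 2 => y 1) h1
    simp at h2
  exact ⟨isProjectiveManifold_Kum.exists_isRelativelyAmple _,
    trivialBundle_not_isRelativelyAmple_const b₀⟩

end Kummer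

end Claimed.Open.R041
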