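/-
Result 041, sanity: **for `n = 1`, `IsIHS` is the textbook definition of a (Kähler) K3 surface.**

On a compact complex surface `X`, `IsIHS σ` holds iff `X` is simply connected and Kähler and `σ` is a nowhere vanishing holomorphic `2`-form, i.e. a trivialisation of the canonical bundle
(`isIHS_surface_iff`).  Two clauses of `IsIHS` simplify: on `ℂ²` an alternating form is nondegenerate iff it is not `0` (`nondegenerate_iff_ne_zero`), and the clause `spans`
(`H⁰(Ω²) = ℂσ`) is automatic, because the quotient of two holomorphic `2`-forms is a holomorphic function on a compact connected manifold (`exists_eq_smul_of_nowhere_vanishing`, `K3Sigma`).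
So for `n = 1` there is no "all clauses but `spans`" non-example among compact surfaces; `flat_all_but_spans` (`SanityNon`) is not compact.

Likewise, for `n = 1` a "Lagrangian fibration" is a fibration in curves: `HasLagrangianFibres σ f 1` says that all irreducible components of all fibres have dimension `1`, whatever `σ`
(`hasLagrangianFibres_surface_iff`); a `2`-form vanishes on every line.  And `bbf σ c = 0` means `∫ c² = 0` (`bbf_eq_zero_iff_surface`).

`StrongSYZ.k3` puts the three together: for `n = 1`, `StrongSYZ` is the classical theorem that a nef line bundle `L` with `c₁(L) ≠ 0`, `c₁(L)² = 0` on a K3 surface is semiample and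
induces a fibration in curves (an elliptic fibration) over a normal projective curve.  `ProjectiveSpaceBase.k3`: for `n = 1`, `ProjectiveSpaceBase` says that the base of a projective fibration in curves of a
K3 surface, with connected fibres, over a normal projective curve is `ℙ¹`.
-/
import Claimed.Open.R041.K3Sigma
import Claimed.Open.R041.K3Curves
import Claimed.Open.R041.SanityNon

open scoped Manifold ContDiff Topology
open Set

namespace Claimed.Open.R041

/-- On `ℂ²` an alternating `2`-form is nondegenerate iff it is not zero. -/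
theorem nondegenerate_iff_ne_zero (η : (Cn 2) [⋀^Fin 2]→L[ℂ] ℂ) :
    (∀ v : Cn 2, v ≠ 0 → ∃ w : Cn 2, η ![v, w] ≠ 0) ↔ η ≠ 0 := by
  constructor
  · intro h h0
    obtain ⟨w, hw⟩ := h (Kummer.mk2 1 0) (fun h1 => by simpa using congrArg (fun v : Cn 2 => v 0) h1)
    rw [h0] at hw
    exact hw rfl
  · intro h v hv
    have ha : η Kummer.frame2 ≠ 0 := fun h0 => h (Kummer.eq_zero_of_frame2 h0)
    rw [Kummer.eq_smul_detForm η]
    by_cases h0 : v 0 = 0
    · have h1 : v 1 ≠ 0 := fun h1 => hv (Kummer.ext2 h0 h1)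
      refine ⟨Kummer.mk2 1 0, ?_⟩
      rw [ContinuousAlternatingMap.smul_apply, Kummer.detForm_apply]
      exact smul_ne_zero ha (by simpa using h1)
    · refine ⟨Kummer.mk2 0 1, ?_⟩
      rw [ContinuousAlternatingMap.smul_apply, Kummer.detForm_apply]
      exact smul_ne_zero ha (by simpa using h0)

/-- **For `n = 1`, `IsIHS` is the definition of a Kähler K3 surface**: simply connected, Kähler, with a nowhere vanishing holomorphic `2`-form. -/
theorem isIHS_surface_iff {X : Type} [TopologicalSpace X] [ChartedSpace (Cn 2) X] [IsManifold 𝓘(ℂ, Cn 2) ω X] [CompactSpace X]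
    (σ : Form ℂ 2 X ℂ 2) :
    IsIHS σ ↔ SimplyConnectedSpace X ∧ (∃ κ : Form ℝ 2 X ℝ 2, IsKahlerForm κ) ∧ σ.IsSmooth ∧ ∀ x, σ x ≠ 0 := by
  constructor
  · intro h
    exact ⟨h.simplyConnected, h.kahler, h.holomorphic, fun x => (nondegenerate_iff_ne_zero (σ x)).1 (h.nondegenerate x)⟩
  · rintro ⟨h1, h2, h3, h4⟩
    exact ⟨h1, h2, h3, fun x => (nondegenerate_iff_ne_zero (σ x)).2 (h4 x),
      fun τ hτ => exists_eq_smul_of_nowhere_vanishing h3 hτ h4⟩

/-- On a surface every `2`-form vanishes on the smooth locus of a set of dimension `1`: a `2`-form vanishes on a line. -/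
theorem vanishesOnSmoothLocus_of_hasDimension_one {X : Type} [TopologicalSpace X]
    [ChartedSpace (Cn 2) X] [IsManifold 𝓘(ℂ, Cn 2) ω X] (σ : Form ℂ 2 X ℂ 2) {Z : Set X}
    (hdim : HasDimension 2 Z 1) : VanishesOnSmoothLocus σ Z := by
  intro k e he x hx u v hu hv
  have hk : k ≤ 1 := hdim.2 k e he ⟨x, hx⟩
  have hu1 : diffAt ℂ (d := 2) e x u 1 = 0 := hu 1 (by simpa using hk)
  have hv1 : diffAt ℂ (d := 2) e x v 1 = 0 := hv 1 (by simpa using hk)
  have hinj := diffAt_chart_injective (d := 2) he.2.1 hx.2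
  apply (σ x).toAlternatingMap.map_linearDependent
  rw [LinearIndependent.pair_iff]
  intro h
  set a := diffAt ℂ (d := 2) e x u 0 with ha
  set b := diffAt ℂ (d := 2) e x v 0 with hb
  have h0 : b • u + (-a) • v = 0 := by
    apply hinj
    rw [map_zero, map_add, map_smul, map_smul]
    ext j
    fin_cases j
    · simp only [Fin.zero_eta, PiLp.add_apply, PiLp.smul_apply, smul_eq_mul, PiLp.zero_apply, ← ha,
        ← hb]
      ring
    · simp only [Fin.mk_one, PiLp.add_apply, PiLp.smul_apply, smul_eq_mul, PiLp.zero_apply, hu1, hv1]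
      ring
  obtain ⟨hb0, ha0⟩ := h _ _ h0
  have hu0 : u = 0 := by
    apply hinj
    rw [map_zero]
    ext j
    fin_cases j
    · simpa [← ha] using ha0
    · exact hu1
  have := h 1 0 (by rw [hu0]; simp)
  exact one_ne_zero this.1

/-- **For `n = 1`, a Lagrangian fibration is a fibration in curves**, whatever the form `σ`. -/
theorem hasLagrangianFibres_surface_iff {X : Type} [TopologicalSpace X] [ChartedSpace (Cn 2) X] [IsManifold 𝓘(ℂ, Cn 2) ω X]
    (σ : Form ℂ 2 X ℂ 2) {N : ℕ} (f : X → PN N) :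
    HasLagrangianFibres (d := 2) σ f 1 ↔
      ∀ (b : PN N) (Z : Set X), IsIrreducibleComponent 2 Z (f ⁻¹' {b}) → HasDimension 2 Z 1 :=
  ⟨fun h b Z hZ => (h b Z hZ).1, fun h b Z hZ => ⟨h b Z hZ, vanishesOnSmoothLocus_of_hasDimension_one σ (h b Z hZ)⟩⟩

/-- **For `n = 1`, `q(c) = 0` means `∫ c² = 0`**: `bbf σ` is a positive multiple of the intersection form. -/
theorem bbf_eq_zero_iff_surface {X : Type} [TopologicalSpace X] [ChartedSpace (Cn 2) X] [IsManifold 𝓘(ℂ, Cn 2) ω X] [T2Space X] [CompactSpace X]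
    {σ : Form ℂ 2 X ℂ 2} (hσ : σ.IsSmooth) (h : ∃ x, σ x ≠ 0) (α : closedForms 2 X 2) :
    bbf (n := 1) σ (H2.mk α) = 0 ↔ integralReal (d := 2) (Form.wedge22 α.1 α.1) = 0 := by
  obtain ⟨r, hr, e⟩ := exists_integral_sigmaMonomial_one_one hσ h α.1
  rw [bbf_mk, e]
  constructor
  · intro h0
    have h1 : ((1 / 2 * r * integralReal (d := 2) (Form.wedge22 α.1 α.1) : ℝ) : ℂ) = 0 := by
      push_cast
      exact h0
    have h2 : 1 / 2 * r * integralReal (d := 2) (Form.wedge22 α.1 α.1) = 0 := by exact_mod_cast h1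
    have h3 : (1 / 2 * r : ℝ) ≠ 0 := by positivity
    exact (mul_eq_zero.1 h2).resolve_left h3
  · intro h0
    rw [h0]
    simp

/-- **What `StrongSYZ` says for `n = 1`, in classical terms**: on a K3 surface (compact, simply connected, Kähler, with a nowhere vanishing holomorphic `2`-form), a line bundle `L` whose first Chern class
`[α]` is nonzero and nef with `∫ α ∧ α = 0` is semiample, and a power of it is pulled back from a normal projective curve by a fibration in curves with connected fibres. -/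
theorem StrongSYZ.k3 (h : StrongSYZ) (X : Type) [TopologicalSpace X] [T2Space X] [CompactSpace X] [ChartedSpace (Cn 2) X]
    [IsManifold 𝓘(ℂ, Cn 2) ω X] [SimplyConnectedSpace X] (hK : ∃ κ : Form ℝ 2 X ℝ 2, IsKahlerForm κ)
    (σ : Form ℂ 2 X ℂ 2) (hσ : σ.IsSmooth) (hσ0 : ∀ x, σ x ≠ 0)
    (L : HolLineBundle 2 X) (α : closedForms 2 X 2) (hL : L.IsFirstChernClass (H2.mk α)) (h0 : H2.mk α ≠ 0)
    (hnef : H2.mk α ∈ nefCone 2 X) (hq : integralReal (d := 2) (Form.wedge22 α.1 α.1) = 0) :
    L.IsSemiample ∧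
      ∃ (m N : ℕ) (B : ProjVariety N) (f : X → PN N),
        0 < m ∧ B.IsNormal ∧ B.HasDim 1 ∧
        IsHolomorphicOnToPN 2 f Set.univ ∧ Set.range f = B.points ∧
        (∀ b ∈ B.points, IsConnected (f ⁻¹' {b})) ∧
        L.IsPullbackOfO1 m Set.univ f ∧
        ∀ (b : PN N) (Z : Set X), IsIrreducibleComponent 2 Z (f ⁻¹' {b}) → HasDimension 2 Z 1 := by
  have hI : IsIHS σ := (isIHS_surface_iff σ).2 ⟨inferInstance, hK, hσ, hσ0⟩
  obtain ⟨x₀⟩ : Nonempty X := inferInstance
  obtain ⟨h1, m, N, B, f, hm, hB1, hB2, hf1, hf2, hf3, hf4, hf5⟩ :=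
    h 1 le_rfl X σ hI L (H2.mk α) hL h0 hnef ((bbf_eq_zero_iff_surface hσ ⟨x₀, hσ0 x₀⟩ α).2 hq)
  exact ⟨h1, m, N, B, f, hm, hB1, hB2, hf1, hf2, hf3, hf4, (hasLagrangianFibres_surface_iff σ f).1 hf5⟩

/-- **What `ProjectiveSpaceBase` says for `n = 1`, in classical terms**: the base of a (projective) fibration in curves with connected fibres of a K3 surface over a normal projective curve is `ℙ¹`. -/
theorem ProjectiveSpaceBase.k3 (h : ProjectiveSpaceBase) (X : Type) [TopologicalSpace X] [T2Space X] [CompactSpace X] [ChartedSpace (Cn 2) X]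
    [IsManifold 𝓘(ℂ, Cn 2) ω X] [SimplyConnectedSpace X] (hK : ∃ κ : Form ℝ 2 X ℝ 2, IsKahlerForm κ)
    (σ : Form ℂ 2 X ℂ 2) (hσ : σ.IsSmooth) (hσ0 : ∀ x, σ x ≠ 0)
    (N : ℕ) (B : ProjVariety N) (f : X → PN N) (hB1 : B.IsNormal) (hB2 : B.HasDim 1)
    (hf1 : IsHolomorphicOnToPN 2 f Set.univ) (hf2 : Set.range f = B.points)
    (hf3 : ∀ b ∈ B.points, IsConnected (f ⁻¹' {b}))
    (hf4 : ∃ M : HolLineBundle 2 X, M.IsRelativelyAmple f)
    (hf5 : ∀ (b : PN N) (Z : Set X), IsIrreducibleComponent 2 Z (f ⁻¹' {b}) → HasDimension 2 Z 1) :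
    AreIsomorphic B.points (Set.univ : Set (PN 1)) :=
  h 1 le_rfl X σ ((isIHS_surface_iff σ).2 ⟨inferInstance, hK, hσ, hσ0⟩) N B f hB1 hB2 hf1 hf2 hf3 hf4
    ((hasLagrangianFibres_surface_iff σ f).2 hf5)

end Claimed.Open.R041
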