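/-
Result 041, sanity: the complex torus `Tor = ℂ²/ℤ[i]²` as a complex manifold (definitions and basic API).

Part of the checked NON-example `not_strongSYZ_without_simplyConnected` (file `SanityTorus`): the torus meets every clause of
`IsIHS` but simple connectivity, and carries a line bundle with nonzero, nef, isotropic first Chern class which is not semiample.
-/
import Claimed.Open.R041.K3Kummer

open scoped Manifold ContDiff Topology
open Set

namespace Claimed.Open.R041

namespace Torus


/-- The open unit cube centred at `c`. -/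
def DD (c : Cn 2) : Set (Cn 2) := {y | y - c ∈ Kummer.Cube}

theorem isOpen_Cube : IsOpen Kummer.Cube := by
  have : Kummer.Cube = ⋂ j : Fin 2, {c : Cn 2 | |(c j).re| < 1 / 2 ∧ |(c j).im| < 1 / 2} := by
    ext c; simp [Kummer.Cube]
  rw [this]
  refine isOpen_iInter_of_finite fun j => ?_
  have h1 : Continuous fun c : Cn 2 => |(c j).re| := by fun_prop
  have h2 : Continuous fun c : Cn 2 => |(c j).im| := by fun_prop
  exact (isOpen_lt h1 continuous_const).inter (isOpen_lt h2 continuous_const)

theorem isOpen_DD (c : Cn 2) : IsOpen (DD c) :=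
  isOpen_Cube.preimage (continuous_id.sub continuous_const)

theorem zero_mem_Cube : (0 : Cn 2) ∈ Kummer.Cube := fun j => by simp

theorem self_mem_DD (c : Cn 2) : c ∈ DD c := by
  change c - c ∈ Kummer.Cube
  rw [sub_self]; exact zero_mem_Cube

/-- Two points of one cube which are congruent modulo the lattice are equal. -/
theorem eq_of_mem_DD {c y y' : Cn 2} (hy : y ∈ DD c) (hy' : y' ∈ DD c) (h : y - y' ∈ Kummer.Lat) : y = y' := by
  have h1 : (y - c) - (y' - c) ∈ Kummer.Lat := by
    have : (y - c) - (y' - c) = y - y' := by abel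
    rw [this]; exact h
  have := Kummer.eq_of_sub_mem_Lat hy hy' h1
  exact sub_left_injective this

/-- The atlas of the torus: the restrictions of the quotient map to the unit cubes. -/
noncomputable def atlas : ParamAtlas 2 (Cn 2 ⧸ Kummer.Lat) where
  I := Cn 2
  D := DD
  φ := fun _ y => (y : Cn 2 ⧸ Kummer.Lat)
  isOpen_D := isOpen_DD
  injOn := by
    intro c y hy y' hy' h
    have h1 : -y + y' ∈ Kummer.Lat := (QuotientAddGroup.eq).1 h
    have h2 : y - y' ∈ Kummer.Lat := by
      have : y - y' = -(-y + y') := by abel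
      rw [this]; exact Kummer.Lat.neg_mem h1
    exact eq_of_mem_DD hy hy' h2
  trans := by
    intro i j y y' _ _ h
    have h1 : -y + y' ∈ Kummer.Lat := (QuotientAddGroup.eq).1 h
    refine ⟨fun w => w + (-y + y'), analyticAt_id.add analyticAt_const, by simp, Filter.Eventually.of_forall fun w => ?_⟩
    refine ((QuotientAddGroup.eq).2 ?_).symm
    have : -w + (w + (-y + y')) = -y + y' := by abel
    rw [this]; exact h1
  i₀ := 0
  y₀ := 0
  hy₀ := self_mem_DD 0

end Torus

/-- The complex torus `ℂ²/ℤ[i]²`. -/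
abbrev Tor : Type := Torus.atlas.Carrier

namespace Torus


/-- The quotient map `ℂ² → Tor`. -/
noncomputable def pr (z : Cn 2) : Tor := atlas.pt z z (self_mem_DD z)

/-- The chart of `Tor` with values in the unit cube centred at `c`. -/
noncomputable def ch (c : Cn 2) : OpenPartialHomeomorph Tor (Cn 2) := atlas.chart c

theorem pr_eq_pr_iff {z z' : Cn 2} : pr z = pr z' ↔ z - z' ∈ Kummer.Lat := by
  refine (atlas.pt_eq_pt (i := z) (j := z')).trans ?_
  change ((z : Cn 2 ⧸ Kummer.Lat) = (z' : Cn 2 ⧸ Kummer.Lat)) ↔ _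
  rw [QuotientAddGroup.eq]
  constructor
  · intro h
    have : z - z' = -(-z + z') := by abel
    rw [this]; exact Kummer.Lat.neg_mem h
  · intro h
    have : -z + z' = -(z - z') := by abel
    rw [this]; exact Kummer.Lat.neg_mem h

theorem pr_add {z l : Cn 2} (hl : l ∈ Kummer.Lat) : pr (z + l) = pr z := by
  rw [pr_eq_pr_iff]
  have : z + l - z = l := by abel
  rw [this]; exact hl

theorem pt_eq_pr {c y : Cn 2} (hy : y ∈ DD c) : atlas.pt c y hy = pr y :=
  atlas.pt_eq_pt.2 rfl

theorem exists_pr (x : Tor) : ∃ z, x = pr z := by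
  obtain ⟨c, y, hy, rfl⟩ := atlas.exists_pt x
  exact ⟨y, pt_eq_pr hy⟩

theorem ch_target (c : Cn 2) : (ch c).target = DD c := rfl

theorem ch_symm_apply {c y : Cn 2} (hy : y ∈ DD c) : (ch c).symm y = pr y :=
  (atlas.chart_symm_apply (i := c) hy).trans (pt_eq_pr hy)

theorem pr_mem_ch_source {c y : Cn 2} (hy : y ∈ DD c) : pr y ∈ (ch c).source := by
  rw [← pt_eq_pr hy]; exact atlas.pt_mem_chart_source (i := c) hy

theorem ch_pr {c y : Cn 2} (hy : y ∈ DD c) : ch c (pr y) = y := by
  rw [← pt_eq_pr hy]; exact atlas.chart_pt (i := c) hy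

theorem mem_ch_source_iff {c : Cn 2} {x : Tor} : x ∈ (ch c).source ↔ ∃ y ∈ DD c, x = pr y := by
  constructor
  · intro hx
    refine ⟨ch c x, (ch c).map_source hx, ?_⟩
    rw [← ch_symm_apply ((ch c).map_source hx), (ch c).left_inv hx]
  · rintro ⟨y, hy, rfl⟩
    exact pr_mem_ch_source hy

theorem ch_mem_maximalAtlas (c : Cn 2) : ch c ∈ IsManifold.maximalAtlas 𝓘(ℂ, Cn 2) ω Tor :=
  atlas.chart_mem_maximalAtlas c

theorem mem_atlas_iff {e : OpenPartialHomeomorph Tor (Cn 2)} :
    e ∈ _root_.atlas (Cn 2) Tor ↔ ∃ c, e = ch c := atlas.mem_atlas_iff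

/-- `pr (ch c x) = x` on the domain of the chart. -/
theorem pr_ch {c : Cn 2} {x : Tor} (hx : x ∈ (ch c).source) : pr (ch c x) = x := by
  rw [← ch_symm_apply ((ch c).map_source hx), (ch c).left_inv hx]

/-- Two charts differ by a lattice vector. -/
theorem ch_sub_ch_mem_Lat {c c' : Cn 2} {x : Tor} (hx : x ∈ (ch c).source) (hx' : x ∈ (ch c').source) :
    ch c x - ch c' x ∈ Kummer.Lat := by
  rw [← pr_eq_pr_iff, pr_ch hx, pr_ch hx']

/-- The quotient map is continuous. -/
theorem continuous_pr : Continuous pr := by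
  rw [continuous_iff_continuousAt]
  intro z
  have h1 : ContinuousAt (ch z).symm z :=
    (ch z).continuousAt_symm (by rw [ch_target]; exact self_mem_DD z)
  refine h1.congr ?_
  filter_upwards [(isOpen_DD z).mem_nhds (self_mem_DD z)] with w hw
  exact ch_symm_apply hw

/-- The change of charts is locally a translation by a lattice vector. -/
theorem ch_comp_symm_eventuallyEq {c c' y : Cn 2} (hy : y ∈ DD c) (hy' : pr y ∈ (ch c').source) :
    (ch c' ∘ (ch c).symm) =ᶠ[𝓝 y] fun w => w + (ch c' (pr y) - y) := by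
  have h0 : ch c' (pr y) ∈ DD c' := (ch c').map_source hy'
  have hl : ch c' (pr y) - y ∈ Kummer.Lat := by rw [← pr_eq_pr_iff, pr_ch hy']
  have h1 : ∀ᶠ w in 𝓝 y, w + (ch c' (pr y) - y) ∈ DD c' := by
    have hc : ContinuousAt (fun w : Cn 2 => w + (ch c' (pr y) - y)) y := by fun_prop
    refine hc.eventually_mem ((isOpen_DD c').mem_nhds ?_)
    have : y + (ch c' (pr y) - y) = ch c' (pr y) := by abel
    rw [this]; exact h0
  filter_upwards [h1, (isOpen_DD c).mem_nhds hy] with w hw1 hw2
  simp only [Function.comp]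
  rw [ch_symm_apply hw2, ← pr_add hl, ch_pr hw1]

end Torus

end Claimed.Open.R041
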