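/-
Result 041, sanity: the torus `Tor = ℂ²/ℤ[i]²` is Hausdorff, compact and path connected.
-/
import Claimed.Open.R041.TorusDefs

open scoped Manifold ContDiff Topology
open Set

namespace Claimed.Open.R041

namespace Torus

/-! ### Hausdorff: four characters separate the points -/

/-- The four characters of `ℂ²/ℤ[i]²` which separate its points, read on `ℂ²`. -/
private noncomputable def t1a_G (z : Cn 2) : Fin 2 → ℂ × ℂ := fun j =>
  (Complex.exp (2 * Real.pi * Complex.I * ((z j).re : ℂ)),
    Complex.exp (2 * Real.pi * Complex.I * ((z j).im : ℂ)))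

private theorem t1a_exp_eq_iff (a b : ℝ) :
    Complex.exp (2 * Real.pi * Complex.I * (a : ℂ)) = Complex.exp (2 * Real.pi * Complex.I * (b : ℂ)) ↔
      ∃ m : ℤ, a - b = m := by
  rw [Complex.exp_eq_exp_iff_exists_int]
  constructor
  · rintro ⟨n, hn⟩
    refine ⟨n, ?_⟩
    have h2 : (2 * Real.pi * Complex.I : ℂ) ≠ 0 := Complex.two_pi_I_ne_zero
    have h1 : (a : ℂ) = b + n := by
      apply mul_left_cancel₀ h2
      rw [hn]; ring
    have h3 : ((a - b : ℝ) : ℂ) = ((n : ℝ) : ℂ) := by push_cast; rw [h1]; ring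
    exact_mod_cast h3
  · rintro ⟨m, hm⟩
    refine ⟨m, ?_⟩
    have h0 : a = b + m := by linarith
    have h1 : (a : ℂ) = b + m := by rw [h0]; push_cast; ring
    rw [h1]; ring

private theorem t1a_G_eq_iff {z z' : Cn 2} : t1a_G z = t1a_G z' ↔ z - z' ∈ Kummer.Lat := by
  rw [Kummer.mem_Lat, funext_iff]
  refine forall_congr' fun j => ?_
  simp only [t1a_G, Prod.mk.injEq, t1a_exp_eq_iff, PiLp.sub_apply, Complex.sub_re, Complex.sub_im]

private theorem t1a_continuous_G : Continuous t1a_G := by
  unfold t1a_G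
  fun_prop

/-- Idea: `x ↦ (exp (2πi Re z_j), exp (2πi Im z_j))_j` is well defined on `Tor`, continuous (`= (F ∘ pr) ∘ ch c` on `(ch c).source`)
and injective; `T2Space.of_injective_continuous`. -/
instance instT2SpaceTor : T2Space Tor := by
  classical
  have hF : ∀ z : Cn 2, t1a_G (exists_pr (pr z)).choose = t1a_G z := fun z =>
    t1a_G_eq_iff.2 (pr_eq_pr_iff.1 (exists_pr (pr z)).choose_spec.symm)
  refine T2Space.of_injective_continuous (f := fun x : Tor => t1a_G (exists_pr x).choose) ?_ ?_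
  · intro x y hxy
    obtain ⟨z, rfl⟩ := exists_pr x
    obtain ⟨z', rfl⟩ := exists_pr y
    simp only [hF] at hxy
    exact pr_eq_pr_iff.2 (t1a_G_eq_iff.1 hxy)
  · rw [continuous_iff_continuousAt]
    intro x
    obtain ⟨z, rfl⟩ := exists_pr x
    have hz : pr z ∈ (ch z).source := pr_mem_ch_source (self_mem_DD z)
    have h1 : ContinuousAt (fun x : Tor => t1a_G (ch z x)) (pr z) :=
      t1a_continuous_G.continuousAt.comp ((ch z).continuousAt hz)
    refine h1.congr ?_
    filter_upwards [(ch z).open_source.mem_nhds hz] with x hx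
    rw [← hF (ch z x), pr_ch hx]

/-! ### Compact and path connected: `pr` is a continuous surjection, already from the closed unit cube -/

/-- The closed unit cube centred at the origin. -/
def t1b_KC : Set (Cn 2) := {z | ∀ j, |(z j).re| ≤ 1 / 2 ∧ |(z j).im| ≤ 1 / 2}

theorem t1b_isCompact_KC : IsCompact t1b_KC := by
  have hcl : IsClosed t1b_KC := by
    have : t1b_KC = ⋂ j : Fin 2, {c : Cn 2 | |(c j).re| ≤ 1 / 2 ∧ |(c j).im| ≤ 1 / 2} := by
      ext c; simp [t1b_KC]
    rw [this]
    refine isClosed_iInter fun j => ?_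
    have h1 : Continuous fun c : Cn 2 => |(c j).re| := by fun_prop
    have h2 : Continuous fun c : Cn 2 => |(c j).im| := by fun_prop
    exact (isClosed_le h1 continuous_const).inter (isClosed_le h2 continuous_const)
  refine Metric.isCompact_of_isClosed_isBounded hcl ?_
  refine (Metric.isBounded_closedBall (x := (0 : Cn 2)) (r := 1)).subset ?_
  intro y hy
  rw [mem_closedBall_zero_iff]
  have h2 : ‖y‖ ^ 2 = ‖y 0‖ ^ 2 + ‖y 1‖ ^ 2 := by
    rw [EuclideanSpace.norm_sq_eq, Fin.sum_univ_two]
  have hj : ∀ j : Fin 2, ‖y j‖ ^ 2 ≤ 1 / 2 := by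
    intro j
    rw [Complex.sq_norm, Complex.normSq_apply]
    have h3 := abs_le.1 (hy j).1
    have h4 := abs_le.1 (hy j).2
    nlinarith [h3.1, h3.2, h4.1, h4.2]
  have h7 := norm_nonneg y
  nlinarith [hj 0, hj 1]

/-- Every point of `ℂ²` is congruent modulo the lattice to a point of the closed unit cube: round the coordinates. -/
theorem t1b_exists_mem_KC (z : Cn 2) : ∃ w ∈ t1b_KC, pr w = pr z := by
  let l : Cn 2 := WithLp.toLp 2 fun j => ((round (z j).re : ℝ) : ℂ) + ((round (z j).im : ℝ) : ℂ) * Complex.I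
  have hl : l ∈ Kummer.Lat := fun j => ⟨⟨round (z j).re, by simp [l]⟩, ⟨round (z j).im, by simp [l]⟩⟩
  refine ⟨z - l, fun j => ⟨?_, ?_⟩, ?_⟩
  · have := abs_sub_round (z j).re
    simpa [l] using this
  · have := abs_sub_round (z j).im
    simpa [l] using this
  · rw [pr_eq_pr_iff]
    have : z - l - z = -l := by abel
    rw [this]
    exact Kummer.Lat.neg_mem hl

theorem t1b_surjective_pr : Function.Surjective pr := fun x => by
  obtain ⟨z, rfl⟩ := exists_pr x
  exact ⟨z, rfl⟩

/-- `Tor = pr '' {z | ∀ j, |Re z_j| ≤ 1/2 ∧ |Im z_j| ≤ 1/2}` (round the coordinates), `continuous_pr`. -/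
instance instCompactSpaceTor : CompactSpace Tor := by
  refine ⟨?_⟩
  have : (univ : Set Tor) = pr '' t1b_KC := by
    refine (eq_univ_of_forall fun x => ?_).symm
    obtain ⟨z, rfl⟩ := exists_pr x
    obtain ⟨w, hw, hwz⟩ := t1b_exists_mem_KC z
    exact ⟨w, hw, hwz⟩
  rw [this]
  exact t1b_isCompact_KC.image continuous_pr

/-- `pr` is a continuous surjection from `ℂ²`. -/
instance instPathConnectedSpaceTor : PathConnectedSpace Tor :=
  t1b_surjective_pr.pathConnectedSpace continuous_pr

end Torus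

end Claimed.Open.R041
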