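/-
Result 041, sanity: the torus `Tor = ℂ²/ℤ[i]²` is not simply connected.
-/
import Claimed.Open.R041.TorusTop

open scoped Manifold ContDiff Topology unitInterval
open Set

namespace Claimed.Open.R041

namespace Torus

/-- The character `z ↦ Re z₀ mod 1`, read on `ℂ²`. -/
noncomputable def e1_G (z : Cn 2) : AddCircle (1 : ℝ) := ((z 0).re : AddCircle (1 : ℝ))

theorem e1_continuous_G : Continuous e1_G := by
  unfold e1_G
  exact (AddCircle.continuous_mk' (1 : ℝ)).comp (by fun_prop)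

theorem e1_G_eq {z z' : Cn 2} (h : z - z' ∈ Kummer.Lat) : e1_G z = e1_G z' := by
  obtain ⟨⟨m, hm⟩, -⟩ := Kummer.mem_Lat.1 h 0
  unfold e1_G
  rw [PiLp.sub_apply, Complex.sub_re] at hm
  have h1 : (z 0).re = (z' 0).re + m • (1 : ℝ) := by
    rw [zsmul_eq_mul, mul_one]; linarith
  rw [h1, AddCircle.coe_add, AddCircle.coe_zsmul, AddCircle.coe_period, smul_zero, add_zero]

/-- The character `q : Tor → ℝ/ℤ`, `q (pr z) = Re z₀ mod 1`. -/
noncomputable def e1_q (x : Tor) : AddCircle (1 : ℝ) := e1_G (exists_pr x).choose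

theorem e1_q_pr (z : Cn 2) : e1_q (pr z) = e1_G z :=
  e1_G_eq (pr_eq_pr_iff.1 (exists_pr (pr z)).choose_spec.symm)

theorem e1_continuous_q : Continuous e1_q := by
  rw [continuous_iff_continuousAt]
  intro x
  obtain ⟨z, rfl⟩ := exists_pr x
  have hz : pr z ∈ (ch z).source := pr_mem_ch_source (self_mem_DD z)
  have h1 : ContinuousAt (fun x : Tor => e1_G (ch z x)) (pr z) :=
    e1_continuous_G.continuousAt.comp ((ch z).continuousAt hz)
  refine h1.congr ?_
  filter_upwards [(ch z).open_source.mem_nhds hz] with x hx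
  rw [← e1_q_pr (ch z x), pr_ch hx]

/-- The segment `t ↦ (t, 0)` of `ℂ²`. -/
noncomputable def e1_line (t : ℝ) : Cn 2 := WithLp.toLp 2 fun j => if j = 0 then (t : ℂ) else 0

theorem e1_continuous_line : Continuous e1_line := by
  unfold e1_line
  refine (PiLp.continuous_toLp 2 _).comp (continuous_pi fun j => ?_)
  by_cases hj : j = 0
  · simp only [hj, if_true]; exact Complex.continuous_ofReal
  · simp only [hj, if_false]; exact continuous_const

theorem e1_G_line (t : ℝ) : e1_G (e1_line t) = (t : AddCircle (1 : ℝ)) := by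
  simp [e1_G, e1_line]

theorem e1_line_zero : e1_line 0 = 0 := by
  ext j
  simp [e1_line]

theorem e1_pr_line_one : pr (e1_line 1) = pr 0 := by
  rw [pr_eq_pr_iff, sub_zero]
  intro j
  by_cases hj : j = 0
  · exact ⟨⟨1, by simp [e1_line, hj]⟩, ⟨0, by simp [e1_line, hj]⟩⟩
  · exact ⟨⟨0, by simp [e1_line, hj]⟩, ⟨0, by simp [e1_line, hj]⟩⟩

/-- The loop `t ↦ pr (t, 0)` of `Tor`. -/
noncomputable def e1_loop : Path (pr 0) (pr 0) where
  toFun t := pr (e1_line t)
  continuous_toFun := continuous_pr.comp (e1_continuous_line.comp continuous_subtype_val)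
  source' := by
    show pr (e1_line ((0 : I) : ℝ)) = pr 0
    rw [Set.Icc.coe_zero, e1_line_zero]
  target' := by
    show pr (e1_line ((1 : I) : ℝ)) = pr 0
    rw [Set.Icc.coe_one, e1_pr_line_one]

/-- `q : Tor → ℝ/ℤ`, `q (pr z) = Re z₀ mod 1`, is well defined and continuous; `γ t = pr (t, 0)` is a loop at `pr 0`.
If `Tor` were simply connected, `γ` would be homotopic to the constant path, so `q ∘ γ = (t ↦ t mod 1)` would be homotopic rel
endpoints to a constant; lifting the homotopy through the covering `ℝ → ℝ/ℤ` (`IsCoveringMap.homotopicRel_iff_comp`) gives `1 = 0`. -/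
theorem not_simplyConnectedSpace_Tor : ¬ SimplyConnectedSpace Tor := by
  intro hsc
  have cov : IsCoveringMap ((↑) : ℝ → AddCircle (1 : ℝ)) := AddCircle.isCoveringMap_coe (1 : ℝ)
  have h : e1_loop.Homotopic (Path.refl (pr 0)) := SimplyConnectedSpace.paths_homotopic _ _
  have h' := h.map ⟨e1_q, e1_continuous_q⟩
  let f₀ : C(I, ℝ) := ⟨fun t => (t : ℝ), continuous_subtype_val⟩
  let f₁ : C(I, ℝ) := ContinuousMap.const I 0
  have e0 : (ContinuousMap.comp ⟨((↑) : ℝ → AddCircle (1 : ℝ)), cov.continuous⟩ f₀) =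
      (e1_loop.map e1_continuous_q).toContinuousMap := by
    ext t
    show ((t : ℝ) : AddCircle (1 : ℝ)) = e1_q (pr (e1_line t))
    rw [e1_q_pr, e1_G_line]
  have e1 : (ContinuousMap.comp ⟨((↑) : ℝ → AddCircle (1 : ℝ)), cov.continuous⟩ f₁) =
      ((Path.refl (pr 0)).map e1_continuous_q).toContinuousMap := by
    ext t
    show ((0 : ℝ) : AddCircle (1 : ℝ)) = e1_q (pr 0)
    rw [← e1_line_zero, e1_q_pr, e1_G_line]
  have key : f₀.HomotopicRel f₁ {0, 1} := by
    have he : ∃ a ∈ ({0, 1} : Set I), f₀ a = f₁ a := ⟨0, Or.inl rfl, rfl⟩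
    rw [cov.homotopicRel_iff_comp he, e0, e1]
    exact h'
  obtain ⟨F⟩ := key
  have h1 : F (0, 1) = f₀ 1 := F.eq_fst 0 (Or.inr rfl)
  have h2 : F (0, 1) = f₁ 1 := F.eq_snd 0 (Or.inr rfl)
  have h3 : (1 : ℝ) = 0 := h1.symm.trans h2
  exact one_ne_zero h3

end Torus

end Claimed.Open.R041
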