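/-
Result 041, sanity: a line bundle `LT` on the torus `Tor = E × E`, `E = ℂ/ℤ[i]`: the pull-back of `𝒪_E(point)` from the first factor (Jacobi's factor of automorphy)
tensor the pull-back from the second factor of the flat unitary bundle with multipliers `1, exp(2πi√2)` (not a torsion point of `Pic⁰ E`); and its Hermitian metric
`exp(-2π (Im z₀)²)`.
-/
import Claimed.Open.R041.TorusDefs
import Claimed.Open.R041.K3Tube

open scoped Manifold ContDiff Topology
open Set

namespace Claimed.Open.R041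

namespace Torus

/-- The factor of automorphy `e_l(z) = exp(-2πi n₀ z₀ + π n₀² + 2πi √2 n₁)`, `n_j = Im l_j`. -/
noncomputable def aut (l z : Cn 2) : ℂ :=
  Complex.exp (-(2 * Real.pi * Complex.I) * ((l 0).im : ℂ) * z 0 + Real.pi * ((l 0).im : ℂ) ^ 2 +
    2 * Real.pi * Complex.I * (Real.sqrt 2 : ℂ) * ((l 1).im : ℂ))

theorem aut_ne_zero (l z : Cn 2) : aut l z ≠ 0 := Complex.exp_ne_zero _

/-- Pure arithmetic: the two exponents differ by `-2πi · (Im l₀) · (Re m₀)`, an integer multiple of `2πi`. -/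
theorem aut_add {l m : Cn 2} (hl : l ∈ Kummer.Lat) (hm : m ∈ Kummer.Lat) (z : Cn 2) :
    aut (l + m) z = aut l (z + m) * aut m z := by
  obtain ⟨a, ha⟩ := (hl 0).2
  obtain ⟨b, hb⟩ := (hm 0).1
  have hm0 : m 0 = ((b : ℝ) : ℂ) + ((m 0).im : ℂ) * Complex.I := by
    rw [← hb]; exact (Complex.re_add_im _).symm
  unfold aut
  rw [← Complex.exp_add, Complex.exp_eq_exp_iff_exists_int]
  refine ⟨a * b, ?_⟩
  simp only [PiLp.add_apply, Complex.add_im, Complex.ofReal_add, ha]
  generalize m 0 = x at hm0 ⊢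
  generalize (x.im : ℂ) = q at hm0 ⊢
  subst hm0
  push_cast
  linear_combination (2 * Real.pi * a * q) * Complex.I_sq

/-- The weight of the metric. -/
noncomputable def wt (z : Cn 2) : ℝ := Real.exp (-(2 * Real.pi) * (z 0).im ^ 2)

/-- Pure arithmetic: `‖exp w‖ = exp (Re w)`. -/
theorem wt_eq (l z : Cn 2) : wt z = ‖aut l z‖ ^ 2 * wt (z + l) := by
  unfold wt aut
  rw [Complex.norm_exp, ← Real.exp_nat_mul, ← Real.exp_add]
  congr 1
  have h1 : (-(2 * (Real.pi : ℂ) * Complex.I) * ((l 0).im : ℂ) * z 0 + Real.pi * ((l 0).im : ℂ) ^ 2 +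
      2 * Real.pi * Complex.I * (Real.sqrt 2 : ℂ) * ((l 1).im : ℂ)).re
      = 2 * Real.pi * (l 0).im * (z 0).im + Real.pi * (l 0).im ^ 2 := by
    have e1 : (-(2 * (Real.pi : ℂ) * Complex.I) * ((l 0).im : ℂ) * z 0 + Real.pi * ((l 0).im : ℂ) ^ 2 +
      2 * Real.pi * Complex.I * (Real.sqrt 2 : ℂ) * ((l 1).im : ℂ))
      = ((-(2 * Real.pi * (l 0).im) : ℝ) : ℂ) * (Complex.I * z 0) + ((Real.pi * (l 0).im ^ 2 : ℝ) : ℂ)
        + ((2 * Real.pi * Real.sqrt 2 * (l 1).im : ℝ) : ℂ) * Complex.I := by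
      push_cast; ring
    rw [e1]
    simp only [Complex.add_re, Complex.ofReal_re, Complex.ofReal_im, Complex.I_re, mul_zero,
      Complex.mul_re, Complex.I_im, zero_mul, one_mul, zero_sub, sub_zero, add_zero]
    ring
  rw [h1]
  simp only [PiLp.add_apply, Complex.add_im]
  push_cast
  ring

/-- The transition functions. -/
noncomputable def gT (c c' : Cn 2) (x : Tor) : ℂ := aut (ch c x - ch c' x) (ch c' x)

/-- `holomorphicOn_of_chart` (K3Tube) with the chart `ch c'`: near `y = ch c' x`, `gT c c' ∘ (ch c').symm = fun w => aut l w` with the CONSTANT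
`l = ch c x - ch c' x` (`ch_comp_symm_eventuallyEq`), and `aut l` is analytic. -/
theorem holomorphicOn_gT (c c' : Cn 2) : HolomorphicOn 2 (gT c c') ((ch c).source ∩ (ch c').source) := by
  apply holomorphicOn_of_chart
  rintro x ⟨hx, hx'⟩
  refine ⟨ch c', ch_mem_maximalAtlas c', hx', ?_⟩
  have hyD : ch c' x ∈ DD c' := (ch c').map_source hx'
  have hpr : pr (ch c' x) = x := pr_ch hx'
  have hsrc : pr (ch c' x) ∈ (ch c).source := by rw [hpr]; exact hx
  have h1 := ch_comp_symm_eventuallyEq (c := c') (c' := c) hyD hsrc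
  have h2 : (gT c c' ∘ (ch c').symm) =ᶠ[𝓝 (ch c' x)] fun w => aut (ch c (pr (ch c' x)) - ch c' x) w := by
    filter_upwards [h1, (isOpen_DD c').mem_nhds hyD] with w hw hwD
    simp only [Function.comp, gT] at hw ⊢
    have hr : ch c' ((ch c').symm w) = w := (ch c').right_inv (by rw [ch_target]; exact hwD)
    rw [hw, hr]
    congr 1
    abel
  refine ContDiffAt.congr_of_eventuallyEq ?_ h2
  have h0 : ContDiff ℂ ω (fun w : Cn 2 => w 0) := (EuclideanSpace.proj (𝕜 := ℂ) (0 : Fin 2)).contDiff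
  unfold aut
  exact (((contDiff_const.mul h0).add contDiff_const).add contDiff_const).cexp.contDiffAt

/-- `wt` is smooth on `ℂ²` and `ch c` is smooth on its source (`contMDiffOn_of_mem_maximalAtlas`, `contMDiffOn_real_of_complex`). -/
theorem contMDiffOn_wt_ch (c : Cn 2) : ContMDiffOn 𝓘(ℝ, Cn 2) 𝓘(ℝ, ℝ) ∞ (fun x => wt (ch c x)) (ch c).source := by
  have h1 : ContMDiffOn 𝓘(ℂ, Cn 2) 𝓘(ℂ, Cn 2) ω (ch c) (ch c).source :=
    contMDiffOn_of_mem_maximalAtlas (ch_mem_maximalAtlas c)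
  have h2 : ContMDiffOn 𝓘(ℝ, Cn 2) 𝓘(ℝ, Cn 2) ∞ (ch c) (ch c).source :=
    (contMDiffOn_real_of_complex h1).of_le (by exact_mod_cast le_top)
  have h0 : ContDiff ℝ ∞ (fun w : Cn 2 => (w 0).im) :=
    (Complex.imCLM.comp ((EuclideanSpace.proj (𝕜 := ℂ) (0 : Fin 2)).restrictScalars ℝ)).contDiff
  have h3 : ContDiff ℝ ∞ wt := by
    unfold wt
    exact (contDiff_const.mul (h0.pow 2)).exp
  exact h3.contMDiff.comp_contMDiffOn h2

/-- The line bundle. -/
noncomputable def LT : HolLineBundle 2 Tor where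
  ι := Cn 2
  U := fun c => (ch c).source
  isOpen_U := fun c => (ch c).open_source
  cover := fun x => by
    obtain ⟨z, rfl⟩ := exists_pr x
    exact ⟨z, pr_mem_ch_source (self_mem_DD z)⟩
  g := gT
  holomorphic := holomorphicOn_gT
  ne_zero := fun _ _ _ _ => aut_ne_zero _ _
  cocycle := by
    intro i j k x hx
    have h1 := ch_sub_ch_mem_Lat hx.1.1 hx.1.2
    have h2 := ch_sub_ch_mem_Lat hx.1.2 hx.2
    have h3 := aut_add h1 h2 (ch k x)
    have e1 : ch i x - ch j x + (ch j x - ch k x) = ch i x - ch k x := by abel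
    have e2 : ch k x + (ch j x - ch k x) = ch j x := by abel
    rw [e1, e2] at h3
    exact h3.symm

/-- The Hermitian metric `exp(-2π (Im z₀)²)`. -/
noncomputable def hT : LT.HermitianMetric where
  h := fun c x => wt (ch c x)
  pos := fun _ _ _ => Real.exp_pos _
  smooth := contMDiffOn_wt_ch
  compatible := by
    intro i j x _
    have h := wt_eq (ch i x - ch j x) (ch j x)
    have e : ch j x + (ch i x - ch j x) = ch i x := by abel
    rw [e] at h
    exact h

end Torus

end Claimed.Open.R041
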