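/-
Result 041, sanity: no positive power of the line bundle `LT` of the torus has a nonzero holomorphic section.
-/
import Claimed.Open.R041.TorusBundle

open scoped Manifold ContDiff Topology
open Set

namespace Claimed.Open.R041

namespace Torus

/-- The section read on `ℂ²`: `G z = s z (pr z)` (the index of the trivialisation is the point itself).  Near `z₀`: `G z = s z₀ (pr z)`, because
`gT z z₀ (pr z) = aut 0 z = 1` for `z ∈ DD z₀`; and `s z₀ ∘ (ch z₀).symm` is holomorphic on `DD z₀`. -/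
theorem differentiable_lift {m : ℕ} {s : LT.ι → Tor → ℂ} (hs : LT.IsSection m univ s) :
    Differentiable ℂ fun z : Cn 2 => s z (pr z) := by
  intro z₀
  -- the section in the trivialisation `z₀`, read in the chart `ch z₀`
  have h1 : ContMDiffOn 𝓘(ℂ, Cn 2) 𝓘(ℂ, ℂ) ω (s z₀) ((ch z₀).source ∩ univ) := hs.holomorphic z₀
  have h2 : ContMDiffOn 𝓘(ℂ, Cn 2) 𝓘(ℂ, Cn 2) ω (ch z₀).symm (ch z₀).target :=
    contMDiffOn_symm_of_mem_maximalAtlas (ch_mem_maximalAtlas z₀)
  have h3 : ContMDiffOn 𝓘(ℂ, Cn 2) 𝓘(ℂ, ℂ) ω (s z₀ ∘ (ch z₀).symm) (ch z₀).target :=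
    h1.comp h2 fun y hy => ⟨(ch z₀).map_target hy, mem_univ _⟩
  have h4 : ContDiffOn ℂ ω (s z₀ ∘ (ch z₀).symm) (ch z₀).target := contMDiffOn_iff_contDiffOn.1 h3
  have hmem : (ch z₀).target ∈ 𝓝 z₀ := by
    rw [ch_target]; exact (isOpen_DD z₀).mem_nhds (self_mem_DD z₀)
  have h5 : DifferentiableAt ℂ (s z₀ ∘ (ch z₀).symm) z₀ :=
    ((h4.contDiffAt hmem).differentiableAt (by simp))
  refine h5.congr_of_eventuallyEq ?_
  filter_upwards [(isOpen_DD z₀).mem_nhds (self_mem_DD z₀)] with z hz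
  have hc := hs.compatible z z₀ (pr z)
    ⟨⟨pr_mem_ch_source (self_mem_DD z), pr_mem_ch_source hz⟩, mem_univ _⟩
  have hg : LT.g z z₀ (pr z) = 1 := by
    show aut (ch z (pr z) - ch z₀ (pr z)) (ch z₀ (pr z)) = 1
    rw [ch_pr (self_mem_DD z), ch_pr hz, sub_self]
    simp [aut]
  rw [hg, one_pow, one_mul] at hc
  rw [hc]
  simp only [Function.comp]
  rw [ch_symm_apply hz]

/-- `pr (z + l) = pr z`, `ch (z + l) (pr z) = z + l`, `ch z (pr z) = z`, `IsSection.compatible`. -/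
theorem lift_add {m : ℕ} {s : LT.ι → Tor → ℂ} (hs : LT.IsSection m univ s) {l : Cn 2} (hl : l ∈ Kummer.Lat) (z : Cn 2) :
    s (z + l) (pr (z + l)) = aut l z ^ m * s z (pr z) := by
  have hp : pr (z + l) = pr z := pr_add hl
  have hsrc : pr z ∈ (ch (z + l)).source := by
    rw [← hp]; exact pr_mem_ch_source (self_mem_DD (z + l))
  have hc := hs.compatible (z + l) z (pr z) ⟨⟨hsrc, pr_mem_ch_source (self_mem_DD z)⟩, mem_univ _⟩
  have hg : LT.g (z + l) z (pr z) = aut l z := by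
    show aut (ch (z + l) (pr z) - ch z (pr z)) (ch z (pr z)) = aut l z
    have e1 : ch (z + l) (pr z) = z + l := by
      rw [← hp]; exact ch_pr (self_mem_DD (z + l))
    rw [e1, ch_pr (self_mem_DD z), add_sub_cancel_left]
  rw [hp, hc, hg]

/-- an entire function whose norm is `1`- and `i`-periodic is constant (Liouville) -/
theorem t7b_const {g : ℂ → ℂ} (hg : Differentiable ℂ g)
    (h1 : ∀ w, ‖g (w + 1)‖ = ‖g w‖) (hI : ∀ w, ‖g (w + Complex.I)‖ = ‖g w‖) (w w' : ℂ) : g w = g w' := by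
  have p1 : Function.Periodic (fun w => ‖g w‖) (1 : ℂ) := h1
  have pI : Function.Periodic (fun w => ‖g w‖) Complex.I := hI
  have hK : IsCompact (Icc (0 : ℝ) 1 ×ℂ Icc (0 : ℝ) 1) := isCompact_Icc.reProdIm isCompact_Icc
  obtain ⟨C, hC⟩ := hK.exists_bound_of_continuousOn hg.continuous.continuousOn
  refine hg.apply_eq_apply_of_bounded ?_ w w'
  rw [isBounded_iff_forall_norm_le]
  refine ⟨C, ?_⟩
  rintro _ ⟨x, rfl⟩
  have e1 : ‖g (x - ⌊x.re⌋ • (1 : ℂ) - ⌊x.im⌋ • Complex.I)‖ = ‖g x‖ := by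
    have a := pI.sub_zsmul_eq (x := x - ⌊x.re⌋ • (1 : ℂ)) ⌊x.im⌋
    have b := p1.sub_zsmul_eq (x := x) ⌊x.re⌋
    exact a.trans b
  rw [← e1]
  apply hC
  rw [Complex.mem_reProdIm]
  simp only [zsmul_eq_mul, mul_one, Complex.sub_re, Complex.intCast_re, Complex.mul_re, Complex.I_re, mul_zero,
    Complex.intCast_im, Complex.I_im, sub_zero, Complex.sub_im, Complex.mul_im, add_zero, mem_Icc]
  refine ⟨⟨?_, ?_⟩, ⟨?_, ?_⟩⟩
  · linarith [Int.floor_le x.re]
  · linarith [Int.lt_floor_add_one x.re]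
  · linarith [Int.floor_le x.im]
  · linarith [Int.lt_floor_add_one x.im]

/-- `exp(2πi√2)^m ≠ 1` for `m > 0`: `√2 m` is not an integer -/
theorem t7b_ne_one {m : ℕ} (hm : 0 < m) :
    Complex.exp (2 * Real.pi * Complex.I * (Real.sqrt 2 : ℂ)) ^ m ≠ 1 := by
  rw [← Complex.exp_nat_mul, Ne, Complex.exp_eq_one_iff]
  rintro ⟨n, hn⟩
  have h2 : (2 * (Real.pi : ℂ) * Complex.I) ≠ 0 := by
    simp [Real.pi_ne_zero, Complex.I_ne_zero]
  have h3 : (m : ℂ) * (Real.sqrt 2 : ℂ) = n := by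
    apply mul_right_cancel₀ h2
    rw [← hn]; ring
  have h4 : (m : ℝ) * Real.sqrt 2 = n := by exact_mod_cast h3
  have h5 : Irrational ((m : ℝ) * Real.sqrt 2) := irrational_sqrt_two.natCast_mul (Nat.pos_iff_ne_zero.1 hm)
  rw [h4] at h5
  exact h5 ⟨n, by simp⟩

/-- the lattice vector `(0, μ)`, `μ ∈ ℤ[i]` -/
theorem t7b_single_mem_Lat {μ : ℂ} (h1 : ∃ a : ℤ, μ.re = a) (h2 : ∃ b : ℤ, μ.im = b) :
    (EuclideanSpace.single (1 : Fin 2) μ : Cn 2) ∈ Kummer.Lat := by
  intro j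
  fin_cases j
  · exact ⟨⟨0, by simp⟩, ⟨0, by simp⟩⟩
  · simpa using ⟨h1, h2⟩

theorem t7b_aut_single (μ : ℂ) (z : Cn 2) :
    aut (EuclideanSpace.single (1 : Fin 2) μ : Cn 2) z =
      Complex.exp (2 * Real.pi * Complex.I * (Real.sqrt 2 : ℂ) * (μ.im : ℂ)) := by
  simp [aut]

/-- An entire function on `ℂ²` with the quasi-periodicity of a section of `LT^m`, `m > 0`, vanishes: for fixed `a`, `w ↦ G (a, w)` is entire and
`‖G (a, w + μ)‖ = ‖G (a, w)‖` for `μ ∈ ℤ[i]` (`aut (0, μ) z = exp(2πi√2 Im μ)` has norm one), so it is bounded (compact unit square), so constant (Liouville: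
`Differentiable.apply_eq_apply_of_bounded`); `G (a, w + i) = exp(2πi√2 m) G (a, w)` and `exp(2πi√2 m) ≠ 1` because `√2 m` is not an integer (`irrational_sqrt_two`,
`Complex.exp_eq_one_iff`). -/
theorem eq_zero_of_quasiPeriodic {m : ℕ} (hm : 0 < m) {G : Cn 2 → ℂ} (hG : Differentiable ℂ G)
    (hq : ∀ l ∈ Kummer.Lat, ∀ z, G (z + l) = aut l z ^ m * G z) (z : Cn 2) : G z = 0 := by
  set g : ℂ → ℂ := fun w => G (z + EuclideanSpace.single (1 : Fin 2) w) with hg
  have hlin : Differentiable ℂ fun w : ℂ => (EuclideanSpace.single (1 : Fin 2) w : Cn 2) := by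
    have : (fun w : ℂ => (EuclideanSpace.single (1 : Fin 2) w : Cn 2)) =
        fun w : ℂ => w • (EuclideanSpace.single (1 : Fin 2) (1 : ℂ) : Cn 2) := by
      funext w
      ext j
      fin_cases j <;> simp
    rw [this]
    exact differentiable_id.smul_const _
  have hgd : Differentiable ℂ g := hG.comp ((differentiable_const z).add hlin)
  have hstep : ∀ (μ : ℂ), (∃ a : ℤ, μ.re = a) → (∃ b : ℤ, μ.im = b) → ∀ w,
      g (w + μ) = Complex.exp (2 * Real.pi * Complex.I * (Real.sqrt 2 : ℂ) * (μ.im : ℂ)) ^ m * g w := by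
    intro μ h1 h2 w
    have h := hq _ (t7b_single_mem_Lat h1 h2) (z + EuclideanSpace.single (1 : Fin 2) w)
    rw [t7b_aut_single] at h
    rw [hg]
    simp only
    rw [← h, add_assoc]
    congr 2
    ext j
    fin_cases j <;> simp
  have s1 : ∀ w, g (w + 1) = g w := by
    intro w
    have := hstep 1 ⟨1, by simp⟩ ⟨0, by simp⟩ w
    simpa using this
  have sI : ∀ w, g (w + Complex.I) = Complex.exp (2 * Real.pi * Complex.I * (Real.sqrt 2 : ℂ)) ^ m * g w := by
    intro w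
    have := hstep Complex.I ⟨0, by simp⟩ ⟨1, by simp⟩ w
    simpa using this
  have hnorm : ‖Complex.exp (2 * Real.pi * Complex.I * (Real.sqrt 2 : ℂ)) ^ m‖ = 1 := by
    rw [norm_pow, Complex.norm_exp]
    simp
  have hc := t7b_const hgd (fun w => by rw [s1]) (fun w => by rw [sI, norm_mul, hnorm, one_mul]) Complex.I 0
  have h0 := sI 0
  rw [zero_add, hc] at h0
  have h1 : (Complex.exp (2 * Real.pi * Complex.I * (Real.sqrt 2 : ℂ)) ^ m - 1) * g 0 = 0 := by
    rw [sub_mul, one_mul, ← h0, sub_self]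
  have h2 : g 0 = 0 := (mul_eq_zero.1 h1).resolve_left (sub_ne_zero.2 (t7b_ne_one hm))
  have h3 : g 0 = G z := by
    have e : (EuclideanSpace.single (1 : Fin 2) (0 : ℂ) : Cn 2) = 0 := by
      ext j
      fin_cases j <;> simp
    rw [hg]
    simp only
    rw [e, add_zero]
  rw [← h3, h2]

/-- **`LT` is not semiample**: all sections of all positive powers vanish identically. -/
theorem not_isSemiample_LT : ¬ LT.IsSemiample := by
  rintro ⟨m, hm, h⟩
  obtain ⟨s, hs, h0⟩ := h (pr 0)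
  exact h0 (0 : Cn 2) (pr_mem_ch_source (self_mem_DD 0))
    (eq_zero_of_quasiPeriodic hm (differentiable_lift hs) (fun l hl z => lift_add hs hl z) 0)

end Torus

end Claimed.Open.R041
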