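/-
Result 041, sanity: the holomorphic symplectic form `dz₀ ∧ dz₁` of the torus `Tor = ℂ²/ℤ[i]²`.
-/
import Claimed.Open.R041.TorusDefs
import Claimed.Open.R041.K3Sigma

open scoped Manifold ContDiff Topology
open Set

namespace Claimed.Open.R041

namespace Torus

/-- The holomorphic symplectic form `dz₀ ∧ dz₁` of the torus. -/
noncomputable def sigma : Form ℂ 2 Tor ℂ 2 := fun _ => Kummer.detForm

/-- The change of charts of the torus is a translation: its Jacobian is `1`. -/
theorem hasJac_transition (c c' : Cn 2) {y : Cn 2} (hy : y ∈ DD c) (hy' : (ch c).symm y ∈ (ch c').source) :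
    Kummer.HasJac (ch c' ∘ (ch c).symm) y 1 := by
  rw [ch_symm_apply hy] at hy'
  have h1 : Kummer.HasJac (fun w : Cn 2 => w + (ch c' (pr y) - y)) y 1 :=
    ⟨ContinuousLinearMap.id ℂ (Cn 2), (hasFDerivAt_id y).add_const _, fun u v => by simp⟩
  exact h1.congr (ch_comp_symm_eventuallyEq hy hy')

/-- Model: `Kummer.sigma_inChart` / `Kummer.hasJac_transition` in `K3Sigma`; here the change of charts is a translation
(`ch_comp_symm_eventuallyEq`), so its derivative is the identity. -/
theorem sigma_inChart (c : Cn 2) {y : Cn 2} (hy : y ∈ DD c) : sigma.inChart (ch c) y = Kummer.detForm := by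
  have : IsManifold 𝓘(ℂ, Cn 2) 1 Tor := IsManifold.of_le (n := ω) le_top
  set x := (ch c).symm y with hx
  set c' := atlas.idx x with hc'
  have hi1 : ch c ∈ IsManifold.maximalAtlas 𝓘(ℂ, Cn 2) 1 Tor :=
    IsManifold.maximalAtlas_subset_of_le le_top (ch_mem_maximalAtlas c)
  have hj1 : ch c' ∈ IsManifold.maximalAtlas 𝓘(ℂ, Cn 2) 1 Tor :=
    IsManifold.maximalAtlas_subset_of_le le_top (ch_mem_maximalAtlas c')
  have hxj : (ch c).symm y ∈ (ch c').source := atlas.mem_pe_idx_source x
  have hid : symmDeriv ℂ (ch c') (ch c' x) = ContinuousLinearMap.id ℂ (Cn 2) :=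
    symmDeriv_chartAt (𝕜 := ℂ) x
  rw [inChart_eq, symmDeriv_eq_comp hi1 hj1 hy hxj, ← hx, hid, ContinuousLinearMap.id_comp]
  show Kummer.detForm.compContinuousLinearMap _ = _
  rw [(hasJac_transition c c' hy hxj).compContinuousLinearMap, one_smul]

theorem sigma_isSmooth : sigma.IsSmooth := by
  intro e he
  obtain ⟨c, rfl⟩ := mem_atlas_iff.1 he
  exact (contDiffOn_const (c := Kummer.detForm)).congr fun y hy => sigma_inChart c hy

/-- Copy of `Kummer.sigma_nondegenerate`. -/
theorem sigma_nondegenerate (x : Tor) (v : Cn 2) (hv : v ≠ 0) : ∃ w : Cn 2, sigma x ![v, w] ≠ 0 := by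
  by_cases h0 : v 0 = 0
  · have h1 : v 1 ≠ 0 := fun h1 => hv (Kummer.ext2 h0 h1)
    refine ⟨Kummer.mk2 1 0, ?_⟩
    show Kummer.detForm ![v, Kummer.mk2 1 0] ≠ 0
    rw [Kummer.detForm_apply]
    simpa using h1
  · refine ⟨Kummer.mk2 0 1, ?_⟩
    show Kummer.detForm ![v, Kummer.mk2 0 1] ≠ 0
    rw [Kummer.detForm_apply]
    simpa using h0

theorem sigma_ne_zero (x : Tor) : sigma x ≠ 0 := Kummer.detForm_ne_zero

end Torus

end Claimed.Open.R041
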