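/-
Result 041, sanity: **simple connectivity cannot be dropped from `IsIHS`** (checked NON-example).

The complex torus `Tor = E × E`, `E = ℂ/ℤ[i]`, with `σ = dz₀ ∧ dz₁`, is a compact, Hausdorff, path connected complex surface which meets every clause of `IsIHS` but
`simplyConnected`: it is Kähler, `σ` is holomorphic and nondegenerate, and `H⁰(Ω²) = ℂσ`.  The line bundle `LT = p₀^* 𝒪_E(point) ⊗ p₁^* P`, `P ∈ Pic⁰ E` the flat unitary bundle
with multipliers `1, exp(2πi√2)` (not a torsion point), has a nonzero, nef, `q`-isotropic first Chern class (`= [dx₀ ∧ dy₀]`), and no positive power of it has a nonzero section.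
So the text of `StrongSYZ` with `SimplyConnectedSpace X` weakened to `PathConnectedSpace X` is FALSE.

The torus is not simply connected (`Torus.not_simplyConnectedSpace_Tor`, proved outright in `TorusPi1`), so it is not `IsIHS` and the non-example does not touch `StrongSYZ` itself.

Files: `TorusDefs` (manifold), `TorusTop` (Hausdorff, compact, path connected), `TorusSigma`, `TorusKahler`, `TorusBundle` (`LT`, its metric), `TorusChern`, `TorusClass`, `TorusSections`, `TorusPi1`.
-/
import Claimed.Open.R041.TorusClass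
import Claimed.Open.R041.TorusSigma
import Claimed.Open.R041.TorusSections
import Claimed.Open.R041.TorusPi1

open scoped Manifold ContDiff Topology
open Set

namespace Claimed.Open.R041

/-- All clauses of `IsIHS` but `simplyConnected`, which is weakened to path connectedness. -/
structure IsIHSButSimplyConnected {d : ℕ} {X : Type} [TopologicalSpace X] [ChartedSpace (Cn d) X] (σ : Form ℂ d X ℂ 2) : Prop where
  pathConnected : PathConnectedSpace X
  kahler : ∃ κ : Form ℝ d X ℝ 2, IsKahlerForm κ
  holomorphic : σ.IsSmooth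
  nondegenerate : ∀ (x : X) (v : Cn d), v ≠ 0 → ∃ w : Cn d, σ x ![v, w] ≠ 0
  spans : ∀ τ : Form ℂ d X ℂ 2, τ.IsSmooth → ∃ c : ℂ, τ = c • σ

/-- `IsIHS` is `IsIHSButSimplyConnected` plus simple connectivity. -/
theorem isIHS_iff {d : ℕ} {X : Type} [TopologicalSpace X] [ChartedSpace (Cn d) X] (σ : Form ℂ d X ℂ 2) :
    IsIHS σ ↔ SimplyConnectedSpace X ∧ IsIHSButSimplyConnected σ :=
  ⟨fun h => ⟨h.simplyConnected, ⟨have := h.simplyConnected; inferInstance, h.kahler, h.holomorphic, h.nondegenerate, h.spans⟩⟩,
    fun h => ⟨h.1, h.2.kahler, h.2.holomorphic, h.2.nondegenerate, h.2.spans⟩⟩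

namespace Torus

/-- The torus meets every clause of `IsIHS` but simple connectivity. -/
theorem isIHSButSimplyConnected_sigma : IsIHSButSimplyConnected (d := 2) (X := Tor) sigma where
  pathConnected := inferInstance
  kahler := exists_isKahlerForm
  holomorphic := sigma_isSmooth
  nondegenerate := sigma_nondegenerate
  spans := fun _ hτ => exists_eq_smul_of_nowhere_vanishing sigma_isSmooth hτ sigma_ne_zero

end Torus

/-- **Simple connectivity cannot be dropped from `StrongSYZ`**: on the torus `E × E` all other hypotheses hold for `LT`, which is not semiample. -/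
theorem strongSYZ_simplyConnected_cannot_be_dropped :
    ∃ (X : Type) (_ : TopologicalSpace X) (_ : T2Space X) (_ : CompactSpace X)
      (_ : ChartedSpace (Cn (2 * 1)) X) (_ : IsManifold 𝓘(ℂ, Cn (2 * 1)) ω X)
      (σ : Form ℂ (2 * 1) X ℂ 2) (L : HolLineBundle (2 * 1) X) (c : H2 (2 * 1) X),
      IsIHSButSimplyConnected σ ∧ L.IsFirstChernClass c ∧ c ≠ 0 ∧ c ∈ nefCone (2 * 1) X ∧ bbf σ c = 0 ∧
        ¬ L.IsSemiample := by
  obtain ⟨c, hL, hc0, hnef, hq⟩ := Torus.exists_nef_isotropic
  exact ⟨Tor, inferInstance, Torus.instT2SpaceTor, Torus.instCompactSpaceTor, inferInstance, inferInstance,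
    Torus.sigma, Torus.LT, c, Torus.isIHSButSimplyConnected_sigma, hL, hc0, hnef, hq Torus.sigma, Torus.not_isSemiample_LT⟩

/-- The text of `StrongSYZ` with `IsIHS σ` weakened to `IsIHSButSimplyConnected σ` ("simply connected" replaced by "path connected") is false. -/
theorem not_strongSYZ_without_simplyConnected : ¬
    ∀ (n : ℕ), 1 ≤ n →
    ∀ (X : Type) [TopologicalSpace X] [T2Space X] [CompactSpace X] [ChartedSpace (Cn (2 * n)) X]
      [IsManifold 𝓘(ℂ, Cn (2 * n)) ω X] (σ : Form ℂ (2 * n) X ℂ 2), IsIHSButSimplyConnected σ →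
    ∀ (L : HolLineBundle (2 * n) X) (c : H2 (2 * n) X), L.IsFirstChernClass c →
      c ≠ 0 → c ∈ nefCone (2 * n) X → bbf σ c = 0 →
      L.IsSemiample ∧
      ∃ (m N : ℕ) (B : ProjVariety N) (f : X → PN N),
        0 < m ∧ B.IsNormal ∧ B.HasDim n ∧
        IsHolomorphicOnToPN (2 * n) f Set.univ ∧ Set.range f = B.points ∧
        (∀ b ∈ B.points, IsConnected (f ⁻¹' {b})) ∧
        L.IsPullbackOfO1 m Set.univ f ∧
        HasLagrangianFibres σ f n := by
  intro h
  obtain ⟨c, hL, hc0, hnef, hq⟩ := Torus.exists_nef_isotropic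
  exact Torus.not_isSemiample_LT
    (h 1 le_rfl Tor Torus.sigma Torus.isIHSButSimplyConnected_sigma Torus.LT c hL hc0 hnef (hq Torus.sigma)).1

/-- The torus carries no `IsIHS` form at all: it is not simply connected.  So the non-example above does not touch `StrongSYZ` itself. -/
theorem Torus.not_isIHS (σ : Form ℂ 2 Tor ℂ 2) : ¬ IsIHS σ :=
  fun h => Torus.not_simplyConnectedSpace_Tor h.simplyConnected

/-- The one clause of `IsIHS` that fails for `(Tor, dz₀ ∧ dz₁)` is `simplyConnected`. -/
theorem Torus.isIHSButSimplyConnected_and_not_isIHS :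
    IsIHSButSimplyConnected (d := 2) (X := Tor) Torus.sigma ∧ ¬ SimplyConnectedSpace Tor ∧ ¬ IsIHS (d := 2) (X := Tor) Torus.sigma :=
  ⟨Torus.isIHSButSimplyConnected_sigma, Torus.not_simplyConnectedSpace_Tor, Torus.not_isIHS _⟩

end Claimed.Open.R041
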