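/-
Result 041, sanity: the Chern form of the metric `hT` on the line bundle `LT` of the torus is `dx₀ ∧ dy₀`.
-/
import Claimed.Open.R041.TorusBundle
import Claimed.Open.R041.K3Levi

open scoped Manifold ContDiff Topology
open Set

namespace Claimed.Open.R041

namespace Torus

/-- flat computation: `i∂∂̄ (Im w₀)² (v, Jv) = |v₀|²`. -/
private theorem t5_flat (y v : Cn 2) :
    ddbar (d := 2) (fun w : Cn 2 => ((w 0).im) ^ 2) y ![v, Complex.I • v] = ‖v 0‖ ^ 2 := by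
  set L : Cn 2 →L[ℝ] ℝ :=
    Complex.imCLM ∘L ((EuclideanSpace.proj (𝕜 := ℂ) (0 : Fin 2)).restrictScalars ℝ) with hL
  have hLa : ∀ w : Cn 2, L w = (w 0).im := fun w => rfl
  have hφ : ContDiff ℝ ∞ (fun w : Cn 2 => ((w 0).im) ^ 2) := (L.contDiff).pow 2
  have h1 : fderiv ℝ (fun w : Cn 2 => ((w 0).im) ^ 2) = ⇑(((2 : ℝ) • L).smulRight L) := by
    funext w
    have h := ((L.hasFDerivAt (x := w)).pow 2).fderiv
    have e : (fun x => L x ^ 2) = fun w : Cn 2 => ((w 0).im) ^ 2 := rfl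
    rw [e] at h
    rw [h]
    ext a
    simp
  have h2 : ∀ a : Cn 2, fderiv ℝ (fderiv ℝ fun w : Cn 2 => ((w 0).im) ^ 2) y a = (2 * L a) • L := by
    intro a
    rw [h1, ContinuousLinearMap.fderiv]
    ext b
    simp
  rw [ddbar_apply_self isOpen_univ hφ.contDiffOn (mem_univ y), h2, h2]
  simp only [FunLike.coe_smul, Pi.smul_apply, hLa, smul_eq_mul, PiLp.smul_apply, Complex.mul_im,
    Complex.I_re, Complex.I_im, zero_mul, one_mul, zero_add]
  rw [Complex.sq_norm, Complex.normSq_apply]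
  ring

/-- `Θ = -(1/2π) i∂∂̄ log wt(ch z ·) = i∂∂̄ (Im z₀)²` near `pr z`; `ddbar_apply_chart` (K3Potential) with the chart `ch z`, `ddbar_congr`, `ch_symm_apply`, `ch_pr`;
flat computation: `(Im w₀)² = ½|w₀|² - ½ Re(w₀²)`, `ddbar_add`, `ddbar_const_smul`, `ddbar_re_eq_zero` (SanityChern), `ddbar_comp_normSq` (K3Levi) as in
`Kummer.ddbar_K_flat` (K3Tube).  (The proof gives `g = 1`.) -/
theorem exists_chern_apply : ∃ g : ℝ, 0 < g ∧ ∀ Θ : Form ℝ 2 Tor ℝ 2, hT.IsChernForm Θ → ∀ z v : Cn 2,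
    Θ (pr z) ![v, Complex.I • v] = g * ‖(diffAt ℂ (d := 2) (ch z) (pr z) v) 0‖ ^ 2 := by
  refine ⟨1, one_pos, fun Θ hΘ z v => ?_⟩
  have hx : pr z ∈ (ch z).source := pr_mem_ch_source (self_mem_DD z)
  have h0 : Θ (pr z) = (-(1 / (2 * Real.pi)) : ℝ) • ddbar (fun y => Real.log (hT.h z y)) (pr z) :=
    hΘ z (pr z) hx
  have hsm : ContMDiffOn 𝓘(ℝ, Cn 2) 𝓘(ℝ, ℝ) ∞ (fun y => Real.log (hT.h z y)) (ch z).source :=
    hT.contMDiffOn_log z
  rw [h0, ContinuousAlternatingMap.smul_apply,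
    ddbar_apply_chart (ch z).open_source hsm hx (ch_mem_maximalAtlas z) hx, map_smul,
    ch_pr (self_mem_DD z)]
  have h1 : ((fun y => Real.log (hT.h z y)) ∘ (ch z).symm) =ᶠ[𝓝 z]
      fun w : Cn 2 => (-(2 * Real.pi)) * ((w 0).im) ^ 2 := by
    filter_upwards [(isOpen_DD z).mem_nhds (self_mem_DD z)] with w hw
    simp only [Function.comp]
    rw [ch_symm_apply hw]
    change Real.log (wt (ch z (pr w))) = _
    rw [ch_pr hw, wt, Real.log_exp]
  rw [ddbar_congr h1, ddbar_const_smul, ContinuousAlternatingMap.smul_apply, t5_flat]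
  simp only [smul_eq_mul]
  have hpi : Real.pi ≠ 0 := Real.pi_ne_zero
  field_simp

/-- `ddbar_invariant_mfd` (K3Potential). -/
theorem chern_invariant {Θ : Form ℝ 2 Tor ℝ 2} (hΘ : hT.IsChernForm Θ) (x : Tor) (u v : Cn 2) :
    Θ x ![Complex.I • u, Complex.I • v] = Θ x ![u, v] := by
  obtain ⟨z, rfl⟩ := exists_pr x
  have hx : pr z ∈ (ch z).source := pr_mem_ch_source (self_mem_DD z)
  have h0 : Θ (pr z) = (-(1 / (2 * Real.pi)) : ℝ) • ddbar (fun y => Real.log (hT.h z y)) (pr z) :=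
    hΘ z (pr z) hx
  have hsm : ContMDiffOn 𝓘(ℝ, Cn 2) 𝓘(ℝ, ℝ) ∞ (fun y => Real.log (hT.h z y)) (ch z).source :=
    hT.contMDiffOn_log z
  rw [h0, ContinuousAlternatingMap.smul_apply, ContinuousAlternatingMap.smul_apply,
    ddbar_invariant_mfd (ch z).open_source hsm hx]

end Torus

end Claimed.Open.R041
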