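/-
Result 041, sanity: the flat Kähler form of the torus `Tor = ℂ²/ℤ[i]²`.
-/
import Claimed.Open.R041.TorusDefs
import Claimed.Open.R041.K3Potential
import Claimed.Open.R041.K3KahlerFlat

open scoped Manifold ContDiff Topology
open Set

namespace Claimed.Open.R041

namespace Torus

/-- The local potential `‖ch c x‖²` is smooth on the domain of the chart `ch c`. -/
theorem t3_contMDiffOn_pot (c : Cn 2) :
    ContMDiffOn 𝓘(ℝ, Cn 2) 𝓘(ℝ, ℝ) ∞ (fun x : Tor => ‖ch c x‖ ^ 2) (ch c).source := by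
  have he' : ch c ∈ IsManifold.maximalAtlas 𝓘(ℝ, Cn 2) ∞ Tor :=
    IsManifold.maximalAtlas_subset_of_le le_top (maximalAtlas_complex_subset_real (ch_mem_maximalAtlas c))
  exact (contDiff_norm_sq ℝ (E := Cn 2) (n := ∞)).contMDiff.comp_contMDiffOn (contMDiffOn_of_mem_maximalAtlas he')

/-- The potential `‖ch c x‖²` read in its own chart is `‖w‖²`. -/
theorem t3_pot_comp_symm (c : Cn 2) {y : Cn 2} (hy : y ∈ (ch c).target) :
    ((fun x : Tor => ‖ch c x‖ ^ 2) ∘ (ch c).symm) =ᶠ[𝓝 y] fun w => ‖w‖ ^ 2 := by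
  filter_upwards [(ch c).open_target.mem_nhds hy] with w hw
  simp only [Function.comp, (ch c).right_inv hw]

/-- The local potentials of two charts have the same `i∂∂̄`: they differ by a translation. -/
theorem t3_compat (c c' : Cn 2) {x : Tor} (hx : x ∈ (ch c).source) (hx' : x ∈ (ch c').source) :
    ddbar (d := 2) (fun x : Tor => ‖ch c x‖ ^ 2) x = ddbar (d := 2) (fun x : Tor => ‖ch c' x‖ ^ 2) x := by
  have hy : ch c x ∈ (ch c).target := (ch c).map_source hx
  have hyD : ch c x ∈ DD c := hy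
  have hpr : pr (ch c x) = x := pr_ch hx
  have hy' : pr (ch c x) ∈ (ch c').source := by rw [hpr]; exact hx'
  have key : ddbar (d := 2) ((fun x : Tor => ‖ch c x‖ ^ 2) ∘ (ch c).symm) (ch c x) =
      ddbar (d := 2) ((fun x : Tor => ‖ch c' x‖ ^ 2) ∘ (ch c).symm) (ch c x) := by
    rw [ddbar_congr (t3_pot_comp_symm c hy)]
    have h2 : ((fun x : Tor => ‖ch c' x‖ ^ 2) ∘ (ch c).symm) =ᶠ[𝓝 (ch c x)]
        fun w => ‖(1 : ℂ) • w + (ch c' (pr (ch c x)) - ch c x)‖ ^ 2 := by
      filter_upwards [ch_comp_symm_eventuallyEq hyD hy'] with w hw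
      simp only [Function.comp] at hw ⊢
      rw [hw, one_smul]
    rw [ddbar_congr h2, Kummer.ddbar_normSq_affine (by simp)]
  ext v
  have hv : v = ![v 0, v 1] := by
    funext j; fin_cases j <;> rfl
  rw [hv, ddbar_apply_chart (ch c).open_source (t3_contMDiffOn_pot c) hx (ch_mem_maximalAtlas c) hx,
    ddbar_apply_chart (ch c').open_source (t3_contMDiffOn_pot c') hx' (ch_mem_maximalAtlas c) hx, key]

/-- Positivity of `i∂∂̄‖ch c x‖²`. -/
theorem t3_pot_pos (c : Cn 2) {x : Tor} (hx : x ∈ (ch c).source) {v : Cn 2} (hv : v ≠ 0) :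
    0 < ddbar (d := 2) (fun x : Tor => ‖ch c x‖ ^ 2) x ![v, Complex.I • v] := by
  have hem := ch_mem_maximalAtlas c
  rw [ddbar_apply_chart (ch c).open_source (t3_contMDiffOn_pot c) hx hem hx, map_smul]
  have hDv : diffAt ℂ (d := 2) (ch c) x v ≠ 0 := by
    intro h0
    apply hv
    apply diffAt_chart_injective hem hx
    rw [h0, map_zero]
  rw [ddbar_congr (t3_pot_comp_symm c ((ch c).map_source hx))]
  exact isKahlerForm_ddbar_normSq.positive _ _ hDv

/-- Local potentials `ψ_c x = ‖ch c x‖²` on `(ch c).source`: `exists_form_of_local_potentials` (K3Potential); compatibility and positivity through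
`ddbar_apply_chart`, `ddbar_congr`, `ch_comp_symm_eventuallyEq`, `Kummer.ddbar_normSq_affine` (K3KahlerFlat; `s = 1`), the flat formula of `SanityBasic`
(`i∂∂̄‖z‖²(u,v) = 2 Im⟪u,v⟫`), `ddbar_invariant_mfd`, `diffAt_chart_injective`.  Model: `Kummer.exists_isKahlerForm` in `K3Kahler` (regular charts only). -/
theorem exists_isKahlerForm : ∃ κ : Form ℝ 2 Tor ℝ 2, IsKahlerForm κ := by
  have hcov : ∀ x : Tor, ∃ c : Cn 2, x ∈ (ch c).source := by
    intro x
    obtain ⟨z, rfl⟩ := exists_pr x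
    exact ⟨z, pr_mem_ch_source (self_mem_DD z)⟩
  obtain ⟨κ, hκc, hκ⟩ := exists_form_of_local_potentials (d := 2) (X := Tor) (fun c : Cn 2 => (ch c).source)
    (fun c => (ch c).open_source) hcov (fun c x => ‖ch c x‖ ^ 2) t3_contMDiffOn_pot
    (fun c c' x hx => t3_compat c c' hx.1 hx.2)
  refine ⟨κ, hκc.1, hκc.2, ?_, ?_⟩
  · intro x u v
    obtain ⟨c, hc⟩ := hcov x
    rw [hκ c x hc]
    exact ddbar_invariant_mfd (ch c).open_source (t3_contMDiffOn_pot c) hc u v
  · intro x v hv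
    obtain ⟨c, hc⟩ := hcov x
    rw [hκ c x hc]
    exact t3_pot_pos c hc hv

end Torus

end Claimed.Open.R041
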