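/-
Result 041, sanity: the first Chern class of the line bundle `LT` of the torus is nonzero, nef and isotropic.
-/
import Claimed.Open.R041.TorusTop
import Claimed.Open.R041.TorusKahler
import Claimed.Open.R041.TorusChern
import Claimed.Open.R041.K3Pairing

open scoped Manifold ContDiff Topology
open Set

namespace Claimed.Open.R041

namespace Torus

/-- **A nonzero, nef, isotropic first Chern class on the torus** (same proof as `Kummer.exists_nef_isotropic`). -/
theorem exists_nef_isotropic : ∃ c : Claimed.Open.R041.H2 2 Tor,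
    LT.IsFirstChernClass c ∧ c ≠ 0 ∧ c ∈ nefCone 2 Tor ∧ ∀ σ : Form ℂ 2 Tor ℂ 2, bbf (n := 1) σ c = 0 := by
  obtain ⟨g, hg, hga⟩ := exists_chern_apply
  have hΘ := hT.isChernForm_chernForm
  set Θ : closedForms 2 Tor 2 := ⟨hT.chernForm, hΘ.mem_closedForms⟩ with hΘdef
  have hinv : ∀ x u v, Θ.1 x ![Complex.I • u, Complex.I • v] = Θ.1 x ![u, v] := chern_invariant hΘ
  have hrank : ∀ x : Tor, ∃ ℓ : Cn 2 →L[ℂ] ℂ, Function.Surjective ℓ ∧ ∀ v, Θ.1 x ![v, Complex.I • v] = g * ‖ℓ v‖ ^ 2 := by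
    intro x
    obtain ⟨z, rfl⟩ := exists_pr x
    have hinj := diffAt_chart_injective (ch_mem_maximalAtlas z) (pr_mem_ch_source (self_mem_DD z))
    have hsurj : Function.Surjective (diffAt ℂ (d := 2) (ch z) (pr z)) :=
      (LinearMap.injective_iff_surjective (f := (diffAt ℂ (d := 2) (ch z) (pr z)).toLinearMap)).1 hinj
    refine ⟨(EuclideanSpace.proj (𝕜 := ℂ) (0 : Fin 2)) ∘L diffAt ℂ (d := 2) (ch z) (pr z), ?_, fun v => hga _ hΘ z v⟩
    intro a
    obtain ⟨v, hv⟩ := hsurj (Kummer.mk2 a 0)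
    exact ⟨v, by simp [hv]⟩
  have hnn : ∀ x v, 0 ≤ Θ.1 x ![v, Complex.I • v] := by
    intro x v
    obtain ⟨ℓ, -, hv⟩ := hrank x
    rw [hv]; positivity
  obtain ⟨κ₀, hκ₀⟩ := exists_isKahlerForm
  set κ : closedForms 2 Tor 2 := ⟨κ₀, hκ₀.smooth, hκ₀.closed⟩ with hκdef
  have hκ : IsKahlerForm κ.1 := hκ₀
  refine ⟨Claimed.Open.R041.H2.mk Θ, ⟨hT, Θ, hΘ, rfl⟩, ?_, ?_, ?_⟩
  · apply H2mk_ne_zero_of_integralReal_ne_zero (β := κ)
    apply ne_of_gt
    apply integralReal_pos (Form.IsSmooth.wedge22 Θ.2.1 κ.2.1)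
    · intro x f₀ f₁
      exact wedge22_nonneg (hinv x) (hκ.invariant x) (hnn x)
        (fun v => by
          by_cases hv : v = 0
          · subst hv
            have : (![0, Complex.I • 0] : Fin 2 → Cn 2) = ![0, 0] := by simp
            rw [this]
            exact le_of_eq ((κ.1 x).map_coord_zero 0 rfl).symm
          · exact (hκ.positive x v hv).le) f₀ f₁
    · refine ⟨pr 0, fun f₀ f₁ hf => wedge22_pos (hinv _) (hκ.invariant _) (hnn _) ?_ (hκ.positive _) hf⟩
      obtain ⟨ℓ, hs, hv⟩ := hrank (pr 0)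
      obtain ⟨v, hv1⟩ := hs 1
      refine ⟨v, ?_⟩
      rw [hv, hv1]
      simpa using hg
  · apply mem_nefCone_of_forall_pos (Claimed.Open.R041.H2.mk Θ) (Claimed.Open.R041.H2.mk κ)
    intro ε hε
    refine ⟨Θ + ε • κ, ⟨(Θ + ε • κ : closedForms 2 Tor 2).2.1, (Θ + ε • κ : closedForms 2 Tor 2).2.2, ?_, ?_⟩, rfl⟩
    · intro x u v
      change Θ.1 x _ + ε • κ.1 x _ = Θ.1 x _ + ε • κ.1 x _
      rw [hinv x u v, hκ.invariant x u v]
    · intro x v hv
      change 0 < Θ.1 x _ + ε • κ.1 x _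
      have h1 := hnn x v
      have h2 := hκ.positive x v hv
      have : 0 < ε • κ.1 x ![v, Complex.I • v] := by rw [smul_eq_mul]; positivity
      linarith
  · intro σ
    apply bbf_mk_eq_zero
    intro x
    obtain ⟨ℓ, -, hv⟩ := hrank x
    exact wedge22_self_eq_zero (hinv x) g ℓ hv

end Torus

end Claimed.Open.R041
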